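import Mathlib

/-! From third derivatives along lines to the Lipschitz bound of the Hessian. -/

open Set

namespace Vale.Agent.P227.M.SC.Pol

variable {E : Type*} [NormedAddCommGroup E] [NormedSpace ℝ E]

/-- polarisation of a symmetric trilinear form -/
theorem polar_id (T : E →L[ℝ] E →L[ℝ] E →L[ℝ] ℝ) (h12 : ∀ u v w, T u v w = T v u w)
    (h23 : ∀ u v w, T u v w = T u w v) (u v w : E) :
    24 * T u v w = T (u + v + w) (u + v + w) (u + v + w) -
      T (u + v - w) (u + v - w) (u + v - w) - T (u - v + w) (u - v + w) (u - v + w) -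
      T (-u + v + w) (-u + v + w) (-u + v + w) := by
  have a1 := h12 v u u
  have a2 := h23 u v u
  have b1 := h12 u v v
  have b2 := h23 v u v
  have c1 := h12 w u u
  have c2 := h23 u w u
  have d1 := h12 u w w
  have d2 := h23 w u w
  have e1 := h12 w v v
  have e2 := h23 v w v
  have f1 := h12 v w w
  have f2 := h23 w v w
  have g1 := h12 v u w
  have g2 := h23 u v w
  have g3 := h12 u w v
  have g4 := h23 w u v
  have g5 := h12 w v u
  have g6 := h23 v w u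
  simp only [map_add, map_sub, map_neg, _root_.add_apply,
    _root_.sub_apply, _root_.neg_apply]
  linarith

theorem polar_bound {T : E →L[ℝ] E →L[ℝ] E →L[ℝ] ℝ} (h12 : ∀ u v w, T u v w = T v u w)
    (h23 : ∀ u v w, T u v w = T u w v) {K : ℝ} (hT : ∀ v, |T v v v| ≤ K * ‖v‖ ^ 3)
    (u v w : E) : |T u v w| ≤ 9 / 2 * K * ‖u‖ * ‖v‖ * ‖w‖ := by
  have key : ∀ u v w : E, ‖u‖ = 1 → ‖v‖ = 1 → ‖w‖ = 1 → |T u v w| ≤ 9 / 2 * K := by
    intro u v w hu hv hw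
    have hK : 0 ≤ K := by
      have := hT u
      rw [hu] at this
      have h0 := abs_nonneg (T u u u)
      linarith
    have hb : ∀ z : E, ‖z‖ ≤ 3 → |T z z z| ≤ K * 27 := by
      intro z hz
      refine (hT z).trans ?_
      have : ‖z‖ ^ 3 ≤ 3 ^ 3 := pow_le_pow_left₀ (norm_nonneg z) hz 3
      nlinarith
    have n1 : ‖u + v + w‖ ≤ 3 := by
      refine (norm_add₃_le).trans ?_
      rw [hu, hv, hw]; norm_num
    have n2 : ‖u + v - w‖ ≤ 3 := by
      have := norm_add₃_le (a := u) (b := v) (c := -w)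
      rw [← sub_eq_add_neg, norm_neg, hu, hv, hw] at this
      linarith
    have n3 : ‖u - v + w‖ ≤ 3 := by
      have := norm_add₃_le (a := u) (b := -v) (c := w)
      rw [← sub_eq_add_neg, norm_neg, hu, hv, hw] at this
      linarith
    have n4 : ‖-u + v + w‖ ≤ 3 := by
      have := norm_add₃_le (a := -u) (b := v) (c := w)
      rw [norm_neg, hu, hv, hw] at this
      linarith
    have e := polar_id T h12 h23 u v w
    have h1 := abs_le.1 (hb _ n1)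
    have h2 := abs_le.1 (hb _ n2)
    have h3 := abs_le.1 (hb _ n3)
    have h4 := abs_le.1 (hb _ n4)
    rw [abs_le]
    constructor <;> linarith [h1.1, h1.2, h2.1, h2.2, h3.1, h3.2, h4.1, h4.2]
  rcases eq_or_ne u 0 with rfl | hu
  · simp
  rcases eq_or_ne v 0 with rfl | hv
  · simp
  rcases eq_or_ne w 0 with rfl | hw
  · simp
  have hu' := norm_pos_iff.2 hu
  have hv' := norm_pos_iff.2 hv
  have hw' := norm_pos_iff.2 hw
  have nrm : ∀ z : E, z ≠ 0 → ‖(‖z‖⁻¹ : ℝ) • z‖ = 1 := by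
    intro z hz
    rw [norm_smul, norm_inv, norm_norm, inv_mul_cancel₀ (norm_ne_zero_iff.2 hz)]
  have h := key _ _ _ (nrm u hu) (nrm v hv) (nrm w hw)
  simp only [map_smul, _root_.smul_apply, smul_eq_mul] at h
  rw [abs_mul, abs_mul, abs_mul, abs_inv, abs_inv, abs_inv, abs_norm, abs_norm, abs_norm] at h
  have h2 : |T u v w| = ‖u‖ * ‖v‖ * ‖w‖ * (‖u‖⁻¹ * (‖v‖⁻¹ * (‖w‖⁻¹ * |T u v w|))) := by
    field_simp
  have h3 : (‖u‖⁻¹ * (‖v‖⁻¹ * (‖w‖⁻¹ * |T u v w|))) ≤ 9 / 2 * K := by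
    linarith [h, mul_comm (‖u‖⁻¹) (‖v‖⁻¹ * (‖w‖⁻¹ * |T u v w|)),
      show ‖w‖⁻¹ * (‖v‖⁻¹ * (‖u‖⁻¹ * |T u v w|)) = ‖u‖⁻¹ * (‖v‖⁻¹ * (‖w‖⁻¹ * |T u v w|)) by ring]
  rw [h2]
  calc ‖u‖ * ‖v‖ * ‖w‖ * (‖u‖⁻¹ * (‖v‖⁻¹ * (‖w‖⁻¹ * |T u v w|)))
      ≤ ‖u‖ * ‖v‖ * ‖w‖ * (9 / 2 * K) := by
        apply mul_le_mul_of_nonneg_left h3; positivity
    _ = 9 / 2 * K * ‖u‖ * ‖v‖ * ‖w‖ := by ring

/-! ### derivatives along lines -/

theorem line_hasDerivAt (x v : E) (t : ℝ) : HasDerivAt (fun t : ℝ => x + t • v) v t := by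
  simpa using ((hasDerivAt_id t).smul_const v).const_add x

theorem line1 {F : Type*} [NormedAddCommGroup F] [NormedSpace ℝ F] {c : E → F}
    (hc : Differentiable ℝ c) (x v : E) (t : ℝ) :
    HasDerivAt (fun t : ℝ => c (x + t • v)) (fderiv ℝ c (x + t • v) v) t :=
  (hc (x + t • v)).hasFDerivAt.comp_hasDerivAt t (line_hasDerivAt x v t)

theorem eval1 {F : Type*} [NormedAddCommGroup F] [NormedSpace ℝ F] {G : ℝ → E →L[ℝ] F}
    {G' : E →L[ℝ] F} {t : ℝ} (h : HasDerivAt G G' t) (v : E) :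
    HasDerivAt (fun s => G s v) (G' v) t := by
  have h1 := h.clm_apply (hasDerivAt_const t v)
  rwa [map_zero, add_zero] at h1

theorem evalF1 {F : Type*} [NormedAddCommGroup F] [NormedSpace ℝ F] {G : E → E →L[ℝ] F}
    {G' : E →L[ℝ] E →L[ℝ] F} {x : E} (h : HasFDerivAt G G' x) (v : E) :
    HasFDerivAt (fun s => G s v) (G'.flip v) x := by
  have h1 := h.clm_apply (hasFDerivAt_const v x)
  refine h1.congr_fderiv ?_
  ext z
  simp

theorem line2 {c : E → ℝ} (hc : Differentiable ℝ (fderiv ℝ c)) (x v : E) (t : ℝ) :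
    HasDerivAt (fun t : ℝ => fderiv ℝ c (x + t • v) v)
      (fderiv ℝ (fderiv ℝ c) (x + t • v) v v) t :=
  eval1 (line1 hc x v t) v

theorem line3 {c : E → ℝ} (hc : Differentiable ℝ (fderiv ℝ (fderiv ℝ c))) (x v : E) (t : ℝ) :
    HasDerivAt (fun t : ℝ => fderiv ℝ (fderiv ℝ c) (x + t • v) v v)
      (fderiv ℝ (fderiv ℝ (fderiv ℝ c)) (x + t • v) v v v) t := by
  have h1 := line1 (c := fderiv ℝ (fderiv ℝ c)) hc x v t
  have h2 := eval1 h1 v
  exact eval1 h2 v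

variable {c : E → ℝ}

theorem cd1 (hc : ContDiff ℝ 3 c) : Differentiable ℝ c := hc.differentiable (by norm_num)

theorem cd2 (hc : ContDiff ℝ 3 c) : ContDiff ℝ 2 (fderiv ℝ c) :=
  hc.fderiv_right (m := 2) (by norm_num)

theorem cd3 (hc : ContDiff ℝ 3 c) : ContDiff ℝ 1 (fderiv ℝ (fderiv ℝ c)) :=
  (cd2 hc).fderiv_right (m := 1) (by norm_num)

theorem iter1 (hc : ContDiff ℝ 3 c) (x v : E) :
    iteratedDeriv 1 (fun t : ℝ => c (x + t • v)) = fun t => fderiv ℝ c (x + t • v) v := by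
  rw [iteratedDeriv_one]
  funext t
  exact (line1 (cd1 hc) x v t).deriv

theorem iter2 (hc : ContDiff ℝ 3 c) (x v : E) :
    iteratedDeriv 2 (fun t : ℝ => c (x + t • v)) =
      fun t => fderiv ℝ (fderiv ℝ c) (x + t • v) v v := by
  rw [iteratedDeriv_succ, iter1 hc]
  funext t
  exact (line2 ((cd2 hc).differentiable (by norm_num)) x v t).deriv

theorem iter3 (hc : ContDiff ℝ 3 c) (x v : E) :
    iteratedDeriv 3 (fun t : ℝ => c (x + t • v)) =
      fun t => fderiv ℝ (fderiv ℝ (fderiv ℝ c)) (x + t • v) v v v := by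
  rw [iteratedDeriv_succ, iter2 hc]
  funext t
  exact (line3 ((cd3 hc).differentiable (by norm_num)) x v t).deriv

/-! ### symmetry -/

theorem hess_symm (hc : ContDiff ℝ 3 c) (x u v : E) :
    fderiv ℝ (fderiv ℝ c) x u v = fderiv ℝ (fderiv ℝ c) x v u :=
  (hc.contDiffAt.isSymmSndFDerivAt (by simp; norm_num)).eq u v

theorem d3_symm12 (hc : ContDiff ℝ 3 c) (x u v w : E) :
    fderiv ℝ (fderiv ℝ (fderiv ℝ c)) x u v w = fderiv ℝ (fderiv ℝ (fderiv ℝ c)) x v u w := by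
  have h := ((cd2 hc).contDiffAt (x := x)).isSymmSndFDerivAt (by simp)
  rw [h.eq u v]

theorem d3_symm23 (hc : ContDiff ℝ 3 c) (x u v w : E) :
    fderiv ℝ (fderiv ℝ (fderiv ℝ c)) x u v w = fderiv ℝ (fderiv ℝ (fderiv ℝ c)) x u w v := by
  have hd : DifferentiableAt ℝ (fderiv ℝ (fderiv ℝ c)) x :=
    (cd3 hc).differentiable (by norm_num) x
  have h1 := evalF1 (evalF1 hd.hasFDerivAt v) w
  have h2 := evalF1 (evalF1 hd.hasFDerivAt w) v
  have h3 : (fun y => fderiv ℝ (fderiv ℝ c) y v w) = fun y => fderiv ℝ (fderiv ℝ c) y w v :=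
    funext fun y => hess_symm hc y v w
  rw [h3] at h1
  exact DFunLike.congr_fun (h1.unique h2) u

/-- Third derivatives along lines bounded by `K` bound the whole third derivative. -/
theorem d3_bound (hc : ContDiff ℝ 3 c) {K : ℝ}
    (h : ∀ x v, |iteratedDeriv 3 (fun t : ℝ => c (x + t • v)) 0| ≤ K * ‖v‖ ^ 3) (x u v w : E) :
    |fderiv ℝ (fderiv ℝ (fderiv ℝ c)) x u v w| ≤ 9 / 2 * K * ‖u‖ * ‖v‖ * ‖w‖ := by
  refine polar_bound (d3_symm12 hc x) (d3_symm23 hc x) (fun v => ?_) u v w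
  have := h x v
  rw [iter3 hc] at this
  simpa using this

theorem lip_of_apply {F : Type*} [NormedAddCommGroup F] [NormedSpace ℝ F] {g : E → F}
    (hg : Differentiable ℝ g) {C : ℝ} (hC : 0 ≤ C) (h : ∀ x u, ‖fderiv ℝ g x u‖ ≤ C * ‖u‖) :
    LipschitzWith (Real.toNNReal C) g := by
  refine lipschitzWith_of_nnnorm_fderiv_le hg fun x => ?_
  rw [← NNReal.coe_le_coe, coe_nnnorm, Real.coe_toNNReal _ hC]
  exact ContinuousLinearMap.opNorm_le_bound _ hC fun u => h x u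

theorem d3_apply_norm (hc : ContDiff ℝ 3 c) {K : ℝ} (hK : 0 ≤ K)
    (h : ∀ x v, |iteratedDeriv 3 (fun t : ℝ => c (x + t • v)) 0| ≤ K * ‖v‖ ^ 3) (x u : E) :
    ‖fderiv ℝ (fderiv ℝ (fderiv ℝ c)) x u‖ ≤ 9 / 2 * K * ‖u‖ := by
  refine ContinuousLinearMap.opNorm_le_bound _ (by positivity) fun v => ?_
  refine ContinuousLinearMap.opNorm_le_bound _ (by positivity) fun w => ?_
  rw [Real.norm_eq_abs]
  exact d3_bound hc h x u v w

/-- The Hessian is Lipschitz. -/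
theorem hess_lipschitz (hc : ContDiff ℝ 3 c) {K : ℝ} (hK : 0 ≤ K)
    (h : ∀ x v, |iteratedDeriv 3 (fun t : ℝ => c (x + t • v)) 0| ≤ K * ‖v‖ ^ 3) :
    LipschitzWith (Real.toNNReal (9 / 2 * K)) (fderiv ℝ (fderiv ℝ c)) := by
  exact lip_of_apply ((cd3 hc).differentiable (by norm_num)) (by positivity)
    (d3_apply_norm hc hK h)

/-- Self-concordance on lines plus an upper bound of the Hessian: the Hessian is Lipschitz. -/
theorem hess_lipschitz_of_sc (hc : ContDiff ℝ 3 c) {m B : ℝ} (hm : 0 ≤ m) (hB : 0 ≤ B)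
    (hub : ∀ x v, iteratedDeriv 2 (fun t : ℝ => c (x + t • v)) 0 ≤ B * ‖v‖ ^ 2)
    (hlb : ∀ x v, 0 ≤ iteratedDeriv 2 (fun t : ℝ => c (x + t • v)) 0)
    (hsc : ∀ x v, (iteratedDeriv 3 (fun t : ℝ => c (x + t • v)) 0) ^ 2 ≤
      4 * m ^ 2 * (iteratedDeriv 2 (fun t : ℝ => c (x + t • v)) 0) ^ 3) :
    LipschitzWith (Real.toNNReal (9 / 2 * (2 * m * (B * Real.sqrt B))))
      (fderiv ℝ (fderiv ℝ c)) := by
  refine hess_lipschitz hc (by positivity) fun x v => ?_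
  have h1 := hsc x v
  have h2 : (iteratedDeriv 2 (fun t : ℝ => c (x + t • v)) 0) ^ 3 ≤ (B * ‖v‖ ^ 2) ^ 3 :=
    pow_le_pow_left₀ (hlb x v) (hub x v) 3
  have h3 : (iteratedDeriv 3 (fun t : ℝ => c (x + t • v)) 0) ^ 2 ≤
      (2 * m * (B * Real.sqrt B) * ‖v‖ ^ 3) ^ 2 := by
    refine h1.trans ?_
    have e : (2 * m * (B * Real.sqrt B) * ‖v‖ ^ 3) ^ 2 = 4 * m ^ 2 * (B * ‖v‖ ^ 2) ^ 3 := by
      have : Real.sqrt B ^ 2 = B := Real.sq_sqrt hB
      calc (2 * m * (B * Real.sqrt B) * ‖v‖ ^ 3) ^ 2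
          = 4 * m ^ 2 * B ^ 2 * Real.sqrt B ^ 2 * ‖v‖ ^ 6 := by ring
        _ = 4 * m ^ 2 * (B * ‖v‖ ^ 2) ^ 3 := by rw [this]; ring
    rw [e]
    exact mul_le_mul_of_nonneg_left h2 (by positivity)
  exact abs_le_of_sq_le_sq h3 (by positivity)

end Vale.Agent.P227.M.SC.Pol
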