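import Mathlib

/-! # P227/M/SC: the discrete (two-point) step for self-concordance of marginals. Definitions.

`dd v f` = directional derivative, `avg δ e w = -log ((e^{-w(x+δe)} + e^{-w(x-δe)})/2)`,
`St a b C3 C4 κ ε w` = the bounds carried along the steps. -/

namespace Vale.Agent.P227.M.SC

/-- directional derivative -/
noncomputable def dd {E : Type*} [NormedAddCommGroup E] [NormedSpace ℝ E]
    (v : E) (f : E → ℝ) (x : E) : ℝ := fderiv ℝ f x v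

/-- two-point average of `e^{-w}` in direction `e`, on the level of `w` -/
noncomputable def avg {E : Type*} [NormedAddCommGroup E] [NormedSpace ℝ E]
    (δ : ℝ) (e : E) (w : E → ℝ) (x : E) : ℝ :=
  -Real.log ((Real.exp (-w (x + δ • e)) + Real.exp (-w (x - δ • e))) / 2)

/-- the bounds carried along the steps -/
structure St {E : Type*} [NormedAddCommGroup E] [NormedSpace ℝ E]
    (a b C3 C4 κ ε : ℝ) (w : E → ℝ) : Prop where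
  smooth : ContDiff ℝ (⊤ : ℕ∞) w
  lower : ∀ x v, a * ‖v‖ ^ 2 ≤ dd v (dd v w) x
  upper : ∀ x v, dd v (dd v w) x ≤ b * ‖v‖ ^ 2
  b3 : ∀ x v₁ v₂ v₃, |dd v₃ (dd v₂ (dd v₁ w)) x| ≤ C3 * (‖v₁‖ * ‖v₂‖ * ‖v₃‖)
  b4 : ∀ x v₁ v₂ v₃ v₄, |dd v₄ (dd v₃ (dd v₂ (dd v₁ w))) x| ≤ C4 * (‖v₁‖ * ‖v₂‖ * ‖v₃‖ * ‖v₄‖)
  sc : ∀ x v, dd v (dd v (dd v w)) x ≤ 2 * κ * (dd v (dd v w) x) ^ ((3 : ℝ) / 2) + ε * ‖v‖ ^ 3

/-- THE STEP (proved in `Step.lean`). -/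
def StepStmt (E : Type*) [NormedAddCommGroup E] [NormedSpace ℝ E] : Prop :=
  ∀ a0 b A3 A4 : ℝ, 0 < a0 → ∃ K : ℝ, 0 ≤ K ∧
    ∀ (κ δ ε a C3 C4 : ℝ) (e : E) (w : E → ℝ), 0 ≤ κ → κ ≤ 1 → 0 < δ → δ ≤ 1 → 0 ≤ ε → ε ≤ 1 →
      a0 ≤ a → C3 ≤ A3 → C4 ≤ A4 → ‖e‖ = 1 → St a b C3 C4 κ ε w →
      St (a * (1 - b * δ ^ 2) - K * δ ^ 3) b
        (C3 * (1 + 3 * b * δ ^ 2) + 2 * b ^ 3 * δ ^ 3)
        (C4 * (1 + 4 * b * δ ^ 2) + δ ^ 2 * (3 * C3 ^ 2 + 12 * C3 * b ^ 2 + 4 * b ^ 4))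
        κ (ε * (1 + K * δ ^ 2) + K * δ ^ 3) (avg δ e w)

end Vale.Agent.P227.M.SC
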