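import Vale.Agent.P227.M.SC.MomLimC
import Vale.Agent.P227.M.SC.StepDefs

/-! # P227/M/SC: the exponential of the iterated steps is the iterated average. -/

open MeasureTheory Filter
open scoped Topology

namespace Vale.Agent.P227.M.SC.ML

set_option linter.unusedSectionVars false

section
variable {E : Type*} [NormedAddCommGroup E] [NormedSpace ℝ E]

/-- steps along a list of directions -/
noncomputable def avgs (d : ℝ) (l : List E) (w : E → ℝ) : E → ℝ := l.foldr (fun e g => avg d e g) w

/-- averages along a list of directions -/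
noncomputable def As (d : ℝ) (l : List E) (f : E → ℝ) : E → ℝ := l.foldr (fun e g => A d e g) f

/-- `N` times each direction -/
def dirs (N : ℕ) {m : ℕ} (e : Fin m → E) : List E := (List.ofFn e).flatMap (List.replicate N)

theorem mem_dirs {N m : ℕ} {e : Fin m → E} {v : E} (h : v ∈ dirs N e) : ∃ j, v = e j := by
  unfold dirs at h
  rw [List.mem_flatMap] at h
  obtain ⟨a, ha, hv⟩ := h
  rw [List.mem_ofFn] at ha
  obtain ⟨j, hj⟩ := ha
  exact ⟨j, by rw [hj]; exact List.eq_of_mem_replicate hv⟩

theorem length_dirs (N : ℕ) {m : ℕ} (e : Fin m → E) : (dirs N e).length = m * N := by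
  unfold dirs
  rw [List.length_flatMap]
  simp [List.map_ofFn, Function.comp_def]

theorem exp_avg (d : ℝ) (e : E) (w : E → ℝ) (x : E) :
    Real.exp (-(avg d e w x)) = A d e (fun y => Real.exp (-w y)) x := by
  have h : 0 < (Real.exp (-w (x + d • e)) + Real.exp (-w (x - d • e))) / 2 := by positivity
  rw [avg, neg_neg, Real.exp_log h, A]

theorem exp_avgs_list (d : ℝ) (l : List E) (w : E → ℝ) (x : E) :
    Real.exp (-(avgs d l w x)) = As d l (fun y => Real.exp (-w y)) x := by
  induction l generalizing x with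
  | nil => rfl
  | cons e l ih =>
    have h1 : avgs d (e :: l) w = avg d e (avgs d l w) := rfl
    have h2 : As d (e :: l) (fun y => Real.exp (-w y)) = A d e (As d l (fun y => Real.exp (-w y))) := rfl
    rw [h1, exp_avg, h2]
    have h3 : (fun y => Real.exp (-(avgs d l w y))) = As d l (fun y => Real.exp (-w y)) := by
      funext y; exact ih y
    rw [h3]

theorem As_append (d : ℝ) (l l' : List E) (f : E → ℝ) : As d (l ++ l') f = As d l (As d l' f) := by
  unfold As; rw [List.foldr_append]

theorem As_replicate (d : ℝ) (N : ℕ) (e : E) (f : E → ℝ) :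
    As d (List.replicate N e) f = (A d e)^[N] f := by
  induction N with
  | zero => rfl
  | succ N ih =>
    rw [Function.iterate_succ_apply', ← ih, List.replicate_succ]
    rfl

theorem As_dirs (d : ℝ) (N : ℕ) : ∀ {m : ℕ} (e : Fin m → E) (f : E → ℝ),
    As d (dirs N e) f = itn N d m e f := by
  intro m
  induction m with
  | zero => intro e f; simp [dirs, As, itn]
  | succ m ih =>
    intro e f
    have h1 : dirs N e = List.replicate N (e 0) ++ dirs N (fun j => e j.succ) := by
      unfold dirs
      rw [List.ofFn_succ, List.flatMap_cons]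
    rw [h1, As_append, As_replicate, ih, itn]

theorem exp_avgs (d : ℝ) (N : ℕ) {m : ℕ} (e : Fin m → E) (w : E → ℝ) (x : E) :
    Real.exp (-(avgs d (dirs N e) w x)) = itn N d m e (fun y => Real.exp (-w y)) x := by
  rw [exp_avgs_list, As_dirs]

end

section
variable {E : Type*} [NormedAddCommGroup E] [InnerProductSpace ℝ E] [FiniteDimensional ℝ E]
  [MeasurableSpace E] [BorelSpace E]

/-- the moment limit for the restrictions of the iterated potentials to the line `ℝ b 0` -/
theorem mom_lim_avgs {m : ℕ} (b : OrthonormalBasis (Fin (m + 1)) ℝ E) {W : E → ℝ} {B a : ℝ}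
    (hW : Continuous W) (hB : ∀ x, a * ‖x‖ ^ 2 - B ≤ W x) (ha : 0 < a)
    {d : ℕ → ℝ} (hd : ∀ i, 0 < d i) (hd0 : Tendsto d atTop (𝓝 0)) {K : ℕ → ℕ}
    (hK : ∀ i, 0 < K i) (hKd : Tendsto (fun i => (K i : ℝ) * d i ^ 2) atTop atTop) (k : ℕ) :
    Tendsto (fun i => nrm (K i) (d i) ^ m * ∫ t : ℝ, t ^ k *
        Real.exp (-(avgs (d i) (dirs (2 * K i) (fun j : Fin m => b j.succ)) W (t • b 0))))
      atTop (𝓝 (∫ y : E, (inner ℝ (b 0) y) ^ k * Real.exp (-W y))) := by
  have h := mom_lim b (f := fun y => Real.exp (-W y)) (A := Real.exp B) (a := a)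
    (Real.continuous_exp.comp hW.neg) (fun x => by
      rw [abs_of_pos (Real.exp_pos _), ← Real.exp_add, Real.exp_le_exp]
      have := hB x
      linarith) ha hd hd0 hK hKd k
  refine h.congr fun i => ?_
  rw [← integral_const_mul]
  refine integral_congr_ae (Eventually.of_forall fun t => ?_)
  simp only
  rw [exp_avgs]; ring

theorem nrm_pos (K : ℕ) {d : ℝ} (hd : 0 < d) : 0 < nrm K d := by
  unfold nrm
  have := cb_pos K
  positivity

end

end Vale.Agent.P227.M.SC.ML
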