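import Vale.Agent.P227.M.Defs
import Vale.Agent.P227.M.SC.StepDefs

/-!
P227/M/SC, leaf L6 (helper84): a regular self-concordant potential satisfies the bounds `St`
carried along the two-point steps.
-/

open Set Filter Topology

namespace Vale.Agent.P227.M.SC.L6

section General

variable {F : Type*} [NormedAddCommGroup F] [NormedSpace ℝ F]

theorem contDiff_dd {w : F → ℝ} (hw : ContDiff ℝ (⊤ : ℕ∞) w) (v : F) :
    ContDiff ℝ (⊤ : ℕ∞) (dd v w) := by
  have h : ContDiff ℝ (⊤ : ℕ∞) (fderiv ℝ w) := hw.fderiv_right (by exact_mod_cast le_top)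
  exact h.clm_apply contDiff_const

/-- peeling off one derivative -/
theorem iteratedFDeriv_succ_eq_dd {w : F → ℝ} (hw : ContDiff ℝ (⊤ : ℕ∞) w) (k : ℕ)
    (m : Fin (k + 1) → F) (x : F) :
    iteratedFDeriv ℝ (k + 1) w x m =
      dd (m 0) (fun y => iteratedFDeriv ℝ k w y (Fin.tail m)) x := by
  have hd : DifferentiableAt ℝ (iteratedFDeriv ℝ k w) x := by
    have : ContDiff ℝ (k + 1) w := hw.of_le (by exact_mod_cast le_top)
    exact (this.differentiable_iteratedFDeriv (by exact_mod_cast Nat.lt_succ_self k)) x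
  rw [iteratedFDeriv_succ_apply_left, dd, fderiv_continuousMultilinear_apply_const hd]
  rfl

theorem iteratedFDeriv_one_eq_dd {w : F → ℝ} (hw : ContDiff ℝ (⊤ : ℕ∞) w) (v : F) (x : F) :
    iteratedFDeriv ℝ 1 w x ![v] = dd v w x := by
  rw [iteratedFDeriv_succ_eq_dd hw 0]
  simp [dd]

theorem iteratedFDeriv_two_eq_dd {w : F → ℝ} (hw : ContDiff ℝ (⊤ : ℕ∞) w) (v₁ v₂ : F) (x : F) :
    iteratedFDeriv ℝ 2 w x ![v₂, v₁] = dd v₂ (dd v₁ w) x := by
  rw [iteratedFDeriv_succ_eq_dd hw 1]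
  congr 1
  funext y
  exact iteratedFDeriv_one_eq_dd hw v₁ y

theorem iteratedFDeriv_three_eq_dd {w : F → ℝ} (hw : ContDiff ℝ (⊤ : ℕ∞) w) (v₁ v₂ v₃ : F)
    (x : F) : iteratedFDeriv ℝ 3 w x ![v₃, v₂, v₁] = dd v₃ (dd v₂ (dd v₁ w)) x := by
  rw [iteratedFDeriv_succ_eq_dd hw 2]
  congr 1
  funext y
  exact iteratedFDeriv_two_eq_dd hw v₁ v₂ y

theorem iteratedFDeriv_four_eq_dd {w : F → ℝ} (hw : ContDiff ℝ (⊤ : ℕ∞) w) (v₁ v₂ v₃ v₄ : F)
    (x : F) : iteratedFDeriv ℝ 4 w x ![v₄, v₃, v₂, v₁] = dd v₄ (dd v₃ (dd v₂ (dd v₁ w))) x := by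
  rw [iteratedFDeriv_succ_eq_dd hw 3]
  congr 1
  funext y
  exact iteratedFDeriv_three_eq_dd hw v₁ v₂ v₃ y

/-- derivative along a line -/
theorem hasDerivAt_line {g : F → ℝ} (hg : Differentiable ℝ g) (x v : F) (t : ℝ) :
    HasDerivAt (fun t : ℝ => g (x + t • v)) (dd v g (x + t • v)) t := by
  have h1 : HasDerivAt (fun t : ℝ => x + t • v) v t := by
    simpa using ((hasDerivAt_id t).smul_const v).const_add x
  exact (hg (x + t • v)).hasFDerivAt.comp_hasDerivAt t h1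

theorem differentiable_of_smooth {g : F → ℝ} (hg : ContDiff ℝ (⊤ : ℕ∞) g) :
    Differentiable ℝ g := hg.differentiable (by simp)

theorem deriv_line {g : F → ℝ} (hg : ContDiff ℝ (⊤ : ℕ∞) g) (x v : F) :
    deriv (fun t : ℝ => g (x + t • v)) = fun t => dd v g (x + t • v) :=
  funext fun t => (hasDerivAt_line (differentiable_of_smooth hg) x v t).deriv

theorem iteratedDeriv_two_line {w : F → ℝ} (hw : ContDiff ℝ (⊤ : ℕ∞) w) (x v : F) (t : ℝ) :
    iteratedDeriv 2 (fun t : ℝ => w (x + t • v)) t = dd v (dd v w) (x + t • v) := by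
  rw [iteratedDeriv_succ, iteratedDeriv_one, deriv_line hw, deriv_line (contDiff_dd hw v)]

theorem iteratedDeriv_three_line {w : F → ℝ} (hw : ContDiff ℝ (⊤ : ℕ∞) w) (x v : F) (t : ℝ) :
    iteratedDeriv 3 (fun t : ℝ => w (x + t • v)) t = dd v (dd v (dd v w)) (x + t • v) := by
  rw [iteratedDeriv_succ, iteratedDeriv_succ, iteratedDeriv_one, deriv_line hw,
    deriv_line (contDiff_dd hw v), deriv_line (contDiff_dd (contDiff_dd hw v) v)]

/-- the second directional derivative is the bilinear second derivative -/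
theorem dd_dd {w : F → ℝ} (hw : ContDiff ℝ (⊤ : ℕ∞) w) (u v x : F) :
    dd u (dd v w) x = fderiv ℝ (fderiv ℝ w) x u v := by
  have hd : DifferentiableAt ℝ (fderiv ℝ w) x := by
    have h : ContDiff ℝ (⊤ : ℕ∞) (fderiv ℝ w) := hw.fderiv_right (by exact_mod_cast le_top)
    exact (h.differentiable (by simp)) x
  have h1 : HasFDerivAt (fun y => fderiv ℝ w y v)
      ((ContinuousLinearMap.apply ℝ ℝ v).comp (fderiv ℝ (fderiv ℝ w) x)) x :=
    (ContinuousLinearMap.apply ℝ ℝ v).hasFDerivAt.comp x hd.hasFDerivAt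
  show fderiv ℝ (fun y => fderiv ℝ w y v) x u = _
  rw [h1.fderiv]
  rfl

end General

/-- the quadratic form of the Hessian matrix -/
theorem qf_hess_eq_dd {n : ℕ} {w : E n → ℝ} (hw : ContDiff ℝ (⊤ : ℕ∞) w) (x v : E n) :
    qf (hess w x) v = dd v (dd v w) x := by
  have hv : v = ∑ i, v i • ei i := by
    ext j
    simp [ei, Pi.single_apply]
  have hh : ∀ i j, hess w x i j = fderiv ℝ (fderiv ℝ w) x (ei i) (ei j) := by
    intro i j
    exact dd_dd hw (ei i) (ei j) x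
  rw [dd_dd hw v v x]
  conv_rhs => rw [hv]
  simp only [qf, hh, map_sum, map_smul, _root_.sum_apply,
    _root_.smul_apply, smul_eq_mul, Finset.mul_sum]
  rw [Finset.sum_comm]
  refine Finset.sum_congr rfl fun i _ => Finset.sum_congr rfl fun j _ => ?_
  ring

/-- **L6** -/
theorem _root_.Vale.Agent.P227.M.SC.st_of_reg {n : ℕ} {W : E n → ℝ} {c C κ : ℝ} (hR : Reg W c C) (hS : SelfConc κ W) :
    ∃ C3 C4, 0 ≤ C3 ∧ 0 ≤ C4 ∧ St c C C3 C4 κ 0 W := by
  obtain ⟨B3, hB3⟩ := hR.bdd 3 (by norm_num)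
  obtain ⟨B4, hB4⟩ := hR.bdd 4 (by norm_num)
  have hB3' : 0 ≤ B3 := (norm_nonneg _).trans (hB3 0)
  have hB4' : 0 ≤ B4 := (norm_nonneg _).trans (hB4 0)
  have hw := hR.smooth
  refine ⟨B3, B4, hB3', hB4', hw, ?_, ?_, ?_, ?_, ?_⟩
  · intro x v
    rw [← qf_hess_eq_dd hw]
    exact hR.lower x v
  · intro x v
    rw [← qf_hess_eq_dd hw]
    exact hR.upper x v
  · intro x v₁ v₂ v₃
    rw [← iteratedFDeriv_three_eq_dd hw, ← Real.norm_eq_abs]
    refine ((iteratedFDeriv ℝ 3 W x).le_opNorm _).trans ?_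
    rw [Fin.prod_univ_three]
    simp only [Matrix.cons_val_zero, Matrix.cons_val_one, Matrix.cons_val_two]
    calc ‖iteratedFDeriv ℝ 3 W x‖ * (‖v₃‖ * ‖v₂‖ * ‖v₁‖)
        ≤ B3 * (‖v₃‖ * ‖v₂‖ * ‖v₁‖) := mul_le_mul_of_nonneg_right (hB3 x) (by positivity)
      _ = B3 * (‖v₁‖ * ‖v₂‖ * ‖v₃‖) := by ring
  · intro x v₁ v₂ v₃ v₄
    rw [← iteratedFDeriv_four_eq_dd hw, ← Real.norm_eq_abs]
    refine ((iteratedFDeriv ℝ 4 W x).le_opNorm _).trans ?_
    rw [Fin.prod_univ_four]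
    simp only [Matrix.cons_val_zero, Matrix.cons_val_one, Matrix.cons_val_two, Matrix.cons_val]
    calc ‖iteratedFDeriv ℝ 4 W x‖ * (‖v₄‖ * ‖v₃‖ * ‖v₂‖ * ‖v₁‖)
        ≤ B4 * (‖v₄‖ * ‖v₃‖ * ‖v₂‖ * ‖v₁‖) := mul_le_mul_of_nonneg_right (hB4 x) (by positivity)
      _ = B4 * (‖v₁‖ * ‖v₂‖ * ‖v₃‖ * ‖v₄‖) := by ring
  · intro x v
    have h := hS x v
    rw [iteratedDeriv_two_line hw, iteratedDeriv_three_line hw, zero_smul, add_zero] at h
    linarith [le_abs_self (dd v (dd v (dd v W)) x)]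

end Vale.Agent.P227.M.SC.L6
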