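import Vale.Agent.P227.M.SC.Step866
import Vale.Agent.P227.M.SC.F192.Concl

/-! # P227/M/SC: `StmtSC` (no hypothesis left). -/

namespace Vale.Agent.P227.M.SC.Sc866

/-- block SC: log-Laplace transforms do not increase the self-concordance constant -/
theorem stmtSC : StmtSC := stmtSC_of_step192 fun _ => step866

end Vale.Agent.P227.M.SC.Sc866
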