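import Vale.Agent.P227.M.SC.HStep2
import Vale.Agent.P227.M.SC.StOfReg
import Vale.Agent.P227.M.SC2.HeatLine

/-! # P227/M/SC: the discrete step gives the heat flow statement. -/

open MeasureTheory Filter Topology

namespace Vale.Agent.P227.M.SC.F79

section
variable {E : Type*} [NormedAddCommGroup E] [NormedSpace ℝ E]

theorem AA_line (δ : ℝ) (v : E) : ∀ (l : List E) (f f' : E → ℝ),
    (∀ x s, HasDerivAt (fun t : ℝ => f (x + t • v)) (f' (x + s • v)) s) →
    ∀ x s, HasDerivAt (fun t : ℝ => AA δ l f (x + t • v)) (AA δ l f' (x + s • v)) s := by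
  intro l
  induction l with
  | nil => intro f f' h x s; exact h x s
  | cons e l ih =>
    intro f f' h x s
    rw [AA, AA]
    refine ih (fun x => (f (x + δ • e) + f (x - δ • e)) / 2)
      (fun x => (f' (x + δ • e) + f' (x - δ • e)) / 2) (fun y s => ?_) x s
    have h1 := h (y + δ • e) s
    have h2 := h (y - δ • e) s
    have h3 := (h1.add h2).div_const 2
    have e1 : ∀ t : ℝ, y + δ • e + t • v = y + t • v + δ • e := fun t => by abel
    have e2 : ∀ t : ℝ, y - δ • e + t • v = y + t • v - δ • e := fun t => by abel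
    simp only [e1, e2] at h3
    exact h3

theorem line_log {F0 F1 F2 F3 : ℝ → ℝ} (h0 : ∀ t, HasDerivAt F0 (F1 t) t)
    (h1 : ∀ t, HasDerivAt F1 (F2 t) t) (h2 : ∀ t, HasDerivAt F2 (F3 t) t) (hp : ∀ t, 0 < F0 t) :
    iteratedDeriv 2 (fun t => -Real.log (F0 t)) 0 = -(F2 0 / F0 0) + (F1 0 / F0 0) ^ 2 ∧
    iteratedDeriv 3 (fun t => -Real.log (F0 t)) 0 =
      -(F3 0 / F0 0) + 3 * (F1 0 / F0 0 * (F2 0 / F0 0)) - 2 * (F1 0 / F0 0) ^ 3 := by
  have d0 : ∀ t, HasDerivAt (fun t => -Real.log (F0 t)) (-(F1 t / F0 t)) t := fun t =>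
    ((h0 t).log (hp t).ne').neg
  have d1 : ∀ t, HasDerivAt (fun t => -(F1 t / F0 t))
      (-(F2 t / F0 t) + (F1 t / F0 t) ^ 2) t := fun t => by
    have := ((h1 t).div (h0 t) (hp t).ne').neg
    refine this.congr_deriv ?_
    have := (hp t).ne'
    field_simp
    ring
  have d2 : ∀ t, HasDerivAt (fun t => -(F2 t / F0 t) + (F1 t / F0 t) ^ 2)
      (-(F3 t / F0 t) + 3 * (F1 t / F0 t * (F2 t / F0 t)) - 2 * (F1 t / F0 t) ^ 3) t := fun t => by
    have := ((h2 t).div (h0 t) (hp t).ne').neg.add (((h1 t).div (h0 t) (hp t).ne').pow 2)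
    refine this.congr_deriv ?_
    have := (hp t).ne'
    simp only [Pi.div_apply, Nat.add_one_sub_one, Nat.cast_ofNat, pow_one]
    field_simp
    ring
  constructor
  · rw [iteratedDeriv_succ', show deriv (fun t => -Real.log (F0 t)) = fun t => -(F1 t / F0 t) from
      funext fun t => (d0 t).deriv, iteratedDeriv_one, (d1 0).deriv]
  · rw [iteratedDeriv_succ', show deriv (fun t => -Real.log (F0 t)) = fun t => -(F1 t / F0 t) from
      funext fun t => (d0 t).deriv, iteratedDeriv_succ', show deriv (fun t => -(F1 t / F0 t)) =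
      fun t => -(F2 t / F0 t) + (F1 t / F0 t) ^ 2 from
      funext fun t => (d1 t).deriv, iteratedDeriv_one, (d2 0).deriv]

end

variable {n : ℕ}

theorem heat_one_sided (hstep : StepStmt (E n)) {U : E n → ℝ} {c C κ : ℝ} (h : Reg U c C)
    (hκ0 : 0 ≤ κ) (hκ1 : κ ≤ 1) (hS : SelfConc κ U) (P : E n →L[ℝ] E n) (x v : E n) :
    iteratedDeriv 3 (fun t : ℝ => heat U P (x + t • v)) 0 ≤
      2 * κ * (iteratedDeriv 2 (fun t : ℝ => heat U P (x + t • v)) 0) ^ ((3 : ℝ) / 2) := by
  obtain ⟨C3, C4, hC3, hC4, hst⟩ := st_of_reg h hS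
  -- `b` must be nonnegative
  have hst' : St c (max C 0) C3 C4 κ 0 U :=
    { smooth := hst.smooth
      lower := hst.lower
      upper := fun x v => (hst.upper x v).trans
        (mul_le_mul_of_nonneg_right (le_max_left _ _) (by positivity))
      b3 := hst.b3
      b4 := hst.b4
      sc := hst.sc }
  obtain ⟨a', K, δ0, ha', hK, hδ0, hit⟩ := iterate hstep h.c_pos (le_max_right C 0) hC3 hC4 hκ0 hκ1
    (S := ∑ i, ‖P (ei i)‖ ^ 2) (by positivity)
  set δ : ℕ → ℝ := fun k => (√(k : ℝ))⁻¹ with hδ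
  have hδlim : Tendsto δ atTop (𝓝 0) :=
    tendsto_inv_atTop_zero.comp <| Real.tendsto_sqrt_atTop.comp <| tendsto_natCast_atTop_atTop
  -- the approximations
  set A : ℕ → ℕ → E n → ℝ := fun i k => AA (δ k) (steps P k) (HL.f U v i) with hA
  have hexp : (fun y => Real.exp (-U y)) = HL.f U v 0 := by
    funext y; simp [HL.f, HL.q_zero]
  have hf0 : ∀ y, 0 < HL.f U v 0 y := fun y => by rw [← hexp]; positivity
  have hA0 : ∀ k y, 0 < A 0 k y := fun k y => AA_pos _ _ _ hf0 y
  have hAd : ∀ i, i < 3 → ∀ k y s, HasDerivAt (fun t : ℝ => A i k (y + t • v))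
      (A (i + 1) k (y + s • v)) s := by
    intro i hi k y s
    exact AA_line (δ k) v (steps P k) _ _ (fun y s => HL.hasDerivAt_f h.smooth v i hi y s) y s
  have hlim : ∀ i, Tendsto (fun k => A i k x) atTop
      (𝓝 ((∫ z : E n, gw z)⁻¹ * HL.H U v P i x)) := by
    intro i
    obtain ⟨B, -, hB⟩ := HL.bdd_mul_exp h (HL.gr_q h v i)
    have h1 := AA_lim P (HL.cont_f h v i) hB x
    have e1 : (∫ z : E n, gw z * HL.f U v i (x + P z)) = HL.H U v P i x := by
      unfold HL.H gw
      refine integral_congr_ae (Eventually.of_forall fun z => ?_)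
      simp only
      ring
    rw [e1] at h1
    exact h1
  have hZ : (∫ z : E n, gw z)⁻¹ ≠ 0 := inv_ne_zero gwZ_pos.ne'
  have hH0 : HL.H U v P 0 x ≠ 0 := (HL.H_zero_pos h v P x).ne'
  have hr : ∀ i, Tendsto (fun k => A i k x / A 0 k x) atTop (𝓝 (HL.r U v P i x)) := by
    intro i
    have h1 := (hlim i).div (hlim 0) (mul_ne_zero hZ hH0)
    have e1 : (∫ z : E n, gw z)⁻¹ * HL.H U v P i x / ((∫ z : E n, gw z)⁻¹ * HL.H U v P 0 x) =
        HL.r U v P i x := by
      rw [HL.r]
      exact mul_div_mul_left _ _ hZ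
    rw [e1] at h1
    exact h1
  -- second and third derivatives of the approximations
  have hD : ∀ k, iteratedDeriv 2 (fun t : ℝ => avgs (δ k) (steps P k) U (x + t • v)) 0 =
        -(A 2 k x / A 0 k x) + (A 1 k x / A 0 k x) ^ 2 ∧
      iteratedDeriv 3 (fun t : ℝ => avgs (δ k) (steps P k) U (x + t • v)) 0 =
        -(A 3 k x / A 0 k x) + 3 * (A 1 k x / A 0 k x * (A 2 k x / A 0 k x)) -
          2 * (A 1 k x / A 0 k x) ^ 3 := by
    intro k
    have e1 : (fun t : ℝ => avgs (δ k) (steps P k) U (x + t • v)) =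
        fun t : ℝ => -Real.log (A 0 k (x + t • v)) := by
      funext t
      rw [avgs_eq, hexp]
    have h1 := line_log (F0 := fun t => A 0 k (x + t • v)) (F1 := fun t => A 1 k (x + t • v))
      (F2 := fun t => A 2 k (x + t • v)) (F3 := fun t => A 3 k (x + t • v))
      (fun t => hAd 0 (by norm_num) k x t) (fun t => hAd 1 (by norm_num) k x t)
      (fun t => hAd 2 (by norm_num) k x t) (fun t => hA0 k _)
    simp only [zero_smul, add_zero] at h1
    rw [e1]
    exact h1
  have hineq : ∀ᶠ k : ℕ in atTop,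
      -(A 3 k x / A 0 k x) + 3 * (A 1 k x / A 0 k x * (A 2 k x / A 0 k x)) -
          2 * (A 1 k x / A 0 k x) ^ 3 ≤
        2 * κ * (-(A 2 k x / A 0 k x) + (A 1 k x / A 0 k x) ^ 2) ^ ((3 : ℝ) / 2) +
          K * δ k * ‖v‖ ^ 3 := by
    filter_upwards [hδlim.eventually (eventually_le_nhds hδ0), eventually_gt_atTop 0] with k hk hk0
    have hkr : (0 : ℝ) < k := by exact_mod_cast hk0
    have hδk : 0 < δ k := by rw [hδ]; positivity
    obtain ⟨C3', C4', hw⟩ := hit (δ k) hδk hk (steps P k) U (steps_norm P k) (steps_length P k) hst'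
    have h1 := hw.sc x v
    have h2 := L6.iteratedDeriv_two_line hw.smooth x v 0
    have h3 := L6.iteratedDeriv_three_line hw.smooth x v 0
    rw [zero_smul, add_zero] at h2 h3
    rw [← h2, ← h3, (hD k).1, (hD k).2] at h1
    exact h1
  have hL : Tendsto (fun k => -(A 3 k x / A 0 k x) + 3 * (A 1 k x / A 0 k x * (A 2 k x / A 0 k x)) -
          2 * (A 1 k x / A 0 k x) ^ 3) atTop (𝓝 (HL.w3 U v P x)) := by
    rw [HL.w3]
    exact ((hr 3).neg.add (((hr 1).mul (hr 2)).const_mul 3)).sub (((hr 1).pow 3).const_mul 2)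
  have hR : Tendsto (fun k => 2 * κ * (-(A 2 k x / A 0 k x) + (A 1 k x / A 0 k x) ^ 2) ^
      ((3 : ℝ) / 2) + K * δ k * ‖v‖ ^ 3) atTop
      (𝓝 (2 * κ * (HL.w2 U v P x) ^ ((3 : ℝ) / 2) + K * 0 * ‖v‖ ^ 3)) := by
    rw [HL.w2]
    refine ((((hr 2).neg.add ((hr 1).pow 2)).rpow_const (Or.inr (by norm_num))).const_mul
      (2 * κ)).add ((hδlim.const_mul K).mul_const _)
  have hfin := le_of_tendsto_of_tendsto hL hR hineq
  rw [mul_zero, zero_mul, add_zero] at hfin
  rw [HL.iteratedDeriv_three_heat h, HL.iteratedDeriv_two_heat h]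
  exact hfin

/-- **The discrete step gives the heat flow statement.** -/
theorem _root_.Vale.Agent.P227.M.SC.stmtHeat_of_step (hstep : ∀ n, StepStmt (E n)) : StmtHeat := by
  intro n U c C κ h hκ0 hκ1 hS P x v
  rw [abs_le]
  constructor
  · have h1 := heat_one_sided (hstep n) h hκ0 hκ1 hS P x (-v)
    have e : (fun t : ℝ => heat U P (x + t • -v)) = fun t : ℝ => (fun s : ℝ => heat U P (x + s • v)) (-t) := by
      funext t; simp
    rw [e, iteratedDeriv_comp_neg 3 (fun s : ℝ => heat U P (x + s • v)) 0,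
      iteratedDeriv_comp_neg 2 (fun s : ℝ => heat U P (x + s • v)) 0] at h1
    simp only [neg_zero] at h1
    norm_num at h1
    linarith
  · exact heat_one_sided (hstep n) h hκ0 hκ1 hS P x v

end Vale.Agent.P227.M.SC.F79
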