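import Vale.Agent.P227.M.SC.StepAsm695
import Vale.Agent.P227.M.SC.HeatOfStep

/-! # P227/M/SC: `StmtHeat` is proved (F3 route: two-point steps, iteration, limit). -/

namespace Vale.Agent.P227.M.SC

theorem stmtHeat : StmtHeat := stmtHeat_of_step fun _ => stepStmt

end Vale.Agent.P227.M.SC
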