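import Mathlib

/-! One-dimensional tools for the marginal lemma (energy method), helper66. -/

open MeasureTheory Filter Topology Set

namespace Vale.Agent.P227.M.Marg

/-- polynomial growth -/
def PG (f : ℝ → ℝ) : Prop :=
  Continuous f ∧ ∃ (C : ℝ) (N : ℕ), 0 ≤ C ∧ ∀ z, |f z| ≤ C * (1 + |z|) ^ N

theorem PG.cont {f : ℝ → ℝ} (hf : PG f) : Continuous f := hf.1

theorem PG.bdd {f : ℝ → ℝ} (hc : Continuous f) {C : ℝ} (h : ∀ z, |f z| ≤ C) : PG f := by
  refine ⟨hc, C, 0, le_trans (abs_nonneg _) (h 0), fun z => by simpa using h z⟩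

theorem PG.const (c : ℝ) : PG (fun _ => c) := PG.bdd continuous_const (C := |c|) (fun _ => le_rfl)

theorem PG.id : PG (fun z => z) := by
  refine ⟨continuous_id, 1, 1, zero_le_one, fun z => ?_⟩
  have := abs_nonneg z
  simp only [pow_one, one_mul]; linarith

theorem one_le_one_add_abs (z : ℝ) : 1 ≤ 1 + |z| := by linarith [abs_nonneg z]

theorem PG.add {f g : ℝ → ℝ} (hf : PG f) (hg : PG g) : PG (fun z => f z + g z) := by
  obtain ⟨cf, C, N, hC, h1⟩ := hf
  obtain ⟨cg, D, M, hD, h2⟩ := hg
  refine ⟨cf.add cg, C + D, max N M, by positivity, fun z => ?_⟩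
  have hz := one_le_one_add_abs z
  have e1 : (1 + |z|) ^ N ≤ (1 + |z|) ^ (max N M) := pow_le_pow_right₀ hz (le_max_left _ _)
  have e2 : (1 + |z|) ^ M ≤ (1 + |z|) ^ (max N M) := pow_le_pow_right₀ hz (le_max_right _ _)
  calc |f z + g z| ≤ |f z| + |g z| := abs_add_le _ _
    _ ≤ C * (1 + |z|) ^ N + D * (1 + |z|) ^ M := add_le_add (h1 z) (h2 z)
    _ ≤ C * (1 + |z|) ^ (max N M) + D * (1 + |z|) ^ (max N M) := by gcongr
    _ = _ := by ring

theorem PG.mul {f g : ℝ → ℝ} (hf : PG f) (hg : PG g) : PG (fun z => f z * g z) := by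
  obtain ⟨cf, C, N, hC, h1⟩ := hf
  obtain ⟨cg, D, M, hD, h2⟩ := hg
  refine ⟨cf.mul cg, C * D, N + M, by positivity, fun z => ?_⟩
  rw [abs_mul]
  calc |f z| * |g z| ≤ (C * (1 + |z|) ^ N) * (D * (1 + |z|) ^ M) :=
        mul_le_mul (h1 z) (h2 z) (abs_nonneg _) (by positivity)
    _ = _ := by rw [pow_add]; ring

theorem PG.neg {f : ℝ → ℝ} (hf : PG f) : PG (fun z => - f z) := by
  have := (PG.const (-1)).mul hf
  simpa using this

theorem PG.sub {f g : ℝ → ℝ} (hf : PG f) (hg : PG g) : PG (fun z => f z - g z) := by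
  have := hf.add hg.neg
  simpa [sub_eq_add_neg] using this

theorem PG.pow {f : ℝ → ℝ} (hf : PG f) (n : ℕ) : PG (fun z => f z ^ n) := by
  induction n with
  | zero => simpa using PG.const 1
  | succ k ih => simpa [pow_succ] using ih.mul hf

theorem PG.abs {f : ℝ → ℝ} (hf : PG f) : PG (fun z => |f z|) := by
  obtain ⟨cf, C, N, hC, h1⟩ := hf
  exact ⟨cf.abs, C, N, hC, fun z => by rw [abs_abs]; exact h1 z⟩

theorem PG.max0 {f : ℝ → ℝ} (hf : PG f) : PG (fun z => max (f z) 0) := by
  obtain ⟨cf, C, N, hC, h1⟩ := hf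
  refine ⟨cf.max continuous_const, C, N, hC, fun z => ?_⟩
  refine le_trans ?_ (h1 z)
  show |max (f z) 0| ≤ |f z|
  rcases le_total (f z) 0 with h | h
  · rw [max_eq_right h]; simp
  · rw [max_eq_left h]

/-- potential in one variable -/
structure Pot (W h om om1 : ℝ → ℝ) (R : ℝ) : Prop where
  dW : ∀ z, HasDerivAt W (h z) z
  dh : ∀ z, HasDerivAt h (om z) z
  dom : ∀ z, HasDerivAt om (om1 z) z
  com1 : Continuous om1
  lo : ∀ z, 1 ≤ om z
  hi : ∀ z, om z ≤ R

variable {W h om om1 : ℝ → ℝ} {R : ℝ}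

theorem lip_bound {f f1 : ℝ → ℝ} (hf : ∀ z, HasDerivAt f (f1 z) z) {L : ℝ} (hL : ∀ z, |f1 z| ≤ L)
    (x y : ℝ) : |f y - f x| ≤ L * |y - x| := by
  have := (convex_univ : Convex ℝ (univ : Set ℝ)).norm_image_sub_le_of_norm_hasDerivWithin_le
    (f := f) (f' := f1) (C := L) (fun z _ => (hf z).hasDerivWithinAt)
    (fun z _ => by simpa using hL z) (mem_univ x) (mem_univ y)
  simpa using this

theorem PG.of_deriv {f f1 : ℝ → ℝ} (hf : ∀ z, HasDerivAt f (f1 z) z) {L : ℝ} (hL : ∀ z, |f1 z| ≤ L) :
    PG f := by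
  have hL0 : 0 ≤ L := le_trans (abs_nonneg _) (hL 0)
  refine ⟨continuous_iff_continuousAt.2 fun z => (hf z).continuousAt, |f 0| + L, 1, by positivity,
    fun z => ?_⟩
  have h1 := lip_bound hf hL 0 z
  rw [sub_zero] at h1
  have h2 : |f z| ≤ |f z - f 0| + |f 0| := by
    have := abs_add_le (f z - f 0) (f 0); simpa using this
  have h3 := abs_nonneg z
  have h4 := abs_nonneg (f 0)
  rw [pow_one]
  nlinarith

namespace Pot

theorem R_ge (P : Pot W h om om1 R) : 1 ≤ R := le_trans (P.lo 0) (P.hi 0)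

theorem om_abs (P : Pot W h om om1 R) (z : ℝ) : |om z| ≤ R := by
  rw [abs_of_nonneg (by linarith [P.lo z])]; exact P.hi z

theorem contW (P : Pot W h om om1 R) : Continuous W :=
  continuous_iff_continuousAt.2 fun z => (P.dW z).continuousAt

theorem contom (P : Pot W h om om1 R) : Continuous om :=
  continuous_iff_continuousAt.2 fun z => (P.dom z).continuousAt

theorem pgh (P : Pot W h om om1 R) : PG h := PG.of_deriv P.dh P.om_abs

theorem pgom (P : Pot W h om om1 R) : PG om := PG.bdd P.contom P.om_abs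

/-- quadratic lower bound of the potential -/
theorem quad (P : Pot W h om om1 R) (z : ℝ) : W 0 + h 0 * z + z ^ 2 / 2 ≤ W z := by
  -- f z = W z - z^2/2 has nondecreasing derivative h z - z
  have hf : ∀ z, HasDerivAt (fun z => W z - z ^ 2 / 2 - h 0 * z) (h z - z - h 0) z := by
    intro z
    have h1 : HasDerivAt (fun z => W z - z ^ 2 / 2 - h 0 * z)
        (h z - ((2:ℕ) * z ^ (2 - 1)) / 2 - h 0 * 1) z :=
      ((P.dW z).sub ((hasDerivAt_pow 2 z).div_const 2)).sub ((hasDerivAt_id z).const_mul (h 0))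
    refine h1.congr_deriv ?_
    push_cast; simp
  have hg : ∀ z, HasDerivAt (fun z => h z - z - h 0) (om z - 1) z := by
    intro z
    have h1 : HasDerivAt (fun z => h z - z - h 0) (om z - 1 - 0) z :=
      ((P.dh z).sub (hasDerivAt_id z)).sub (hasDerivAt_const z (h 0))
    exact h1.congr_deriv (by ring)
  have mono : Monotone (fun z => h z - z - h 0) := by
    apply monotone_of_deriv_nonneg (fun z => (hg z).differentiableAt)
    intro z; rw [(hg z).deriv]; linarith [P.lo z]
  have key : (W 0 - 0 ^ 2 / 2 - h 0 * 0) ≤ W z - z ^ 2 / 2 - h 0 * z := by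
    rcases le_total 0 z with hz | hz
    · have hm : MonotoneOn (fun z => W z - z ^ 2 / 2 - h 0 * z) (Ici 0) := by
        apply monotoneOn_of_deriv_nonneg (convex_Ici 0)
          (fun z _ => (hf z).continuousAt.continuousWithinAt)
          (fun z _ => (hf z).differentiableAt.differentiableWithinAt)
        intro x hx
        rw [interior_Ici] at hx
        rw [(hf x).deriv]
        have := mono (le_of_lt (mem_Ioi.1 hx))
        simp only [sub_zero, sub_self] at this
        linarith
      exact hm (mem_Ici.2 le_rfl) (mem_Ici.2 hz) hz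
    · have hm : AntitoneOn (fun z => W z - z ^ 2 / 2 - h 0 * z) (Iic 0) := by
        apply antitoneOn_of_deriv_nonpos (convex_Iic 0)
          (fun z _ => (hf z).continuousAt.continuousWithinAt)
          (fun z _ => (hf z).differentiableAt.differentiableWithinAt)
        intro x hx
        rw [interior_Iic] at hx
        rw [(hf x).deriv]
        have := mono (le_of_lt (mem_Iio.1 hx))
        simp only [sub_zero, sub_self] at this
        linarith
      exact hm (mem_Iic.2 hz) (mem_Iic.2 le_rfl) hz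
  simp only [ne_eq, OfNat.ofNat_ne_zero, not_false_eq_true, zero_pow, zero_div, sub_zero, mul_zero] at key
  linarith

theorem int (P : Pot W h om om1 R) {f : ℝ → ℝ} (hf : PG f) :
    Integrable (fun z => f z * Real.exp (-W z)) := by
  obtain ⟨cf, C, N, hC, hb⟩ := hf
  have hc : Continuous (fun z => f z * Real.exp (-W z)) :=
    cf.mul (Real.continuous_exp.comp P.contW.neg)
  set a : ℝ := 1 + |h 0| with ha
  have hint : Integrable (fun z : ℝ => (C * (N.factorial : ℝ) * Real.exp (1 + a ^ 2 - W 0)) *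
      Real.exp (-(1/4) * z ^ 2)) := (integrable_exp_neg_mul_sq (by norm_num)).const_mul _
  refine hint.mono' hc.aestronglyMeasurable (Eventually.of_forall fun z => ?_)
  rw [Real.norm_eq_abs, abs_mul, abs_of_pos (Real.exp_pos _)]
  have h1 : |f z| ≤ C * ((N.factorial : ℝ) * Real.exp (1 + |z|)) := by
    refine le_trans (hb z) ?_
    gcongr
    have h2 := Real.pow_div_factorial_le_exp (1 + |z|) (by positivity) N
    rw [div_le_iff₀ (by positivity)] at h2
    linarith
  have h3 : -W z ≤ -W 0 + |h 0| * |z| - z ^ 2 / 2 := by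
    have h4 := P.quad z
    have h5 : -(h 0 * z) ≤ |h 0| * |z| := by rw [← abs_mul]; exact neg_le_abs _
    linarith
  have h6 : (1 + |z|) + (-W 0 + |h 0| * |z| - z ^ 2 / 2) ≤ (1 + a ^ 2 - W 0) + (-(1/4) * z ^ 2) := by
    have h7 : a * |z| ≤ a ^ 2 + z ^ 2 / 4 := by
      have h8 := sq_nonneg (a - |z| / 2)
      have h9 : |z| ^ 2 = z ^ 2 := sq_abs z
      nlinarith
    have h10 : a * |z| = |z| + |h 0| * |z| := by rw [ha]; ring
    linarith
  calc |f z| * Real.exp (-W z)
      ≤ (C * ((N.factorial : ℝ) * Real.exp (1 + |z|))) * Real.exp (-W 0 + |h 0| * |z| - z ^ 2 / 2) := by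
        gcongr
    _ = C * (N.factorial : ℝ) * Real.exp ((1 + |z|) + (-W 0 + |h 0| * |z| - z ^ 2 / 2)) := by
        rw [Real.exp_add (1 + |z|) (-W 0 + |h 0| * |z| - z ^ 2 / 2)]; ring
    _ ≤ C * (N.factorial : ℝ) * Real.exp ((1 + a ^ 2 - W 0) + (-(1/4) * z ^ 2)) := by
        gcongr
    _ = _ := by rw [Real.exp_add (1 + a ^ 2 - W 0) (-(1/4) * z ^ 2)]; ring

end Pot

/-- expectation -/
noncomputable def EE (W : ℝ → ℝ) (f : ℝ → ℝ) : ℝ :=
  (∫ z, f z * Real.exp (-W z)) / ∫ z, Real.exp (-W z)

namespace Pot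

theorem intp (P : Pot W h om om1 R) : Integrable (fun z => Real.exp (-W z)) := by
  simpa using P.int (PG.const 1)

theorem Zpos (P : Pot W h om om1 R) : 0 < ∫ z, Real.exp (-W z) := by
  rw [integral_pos_iff_support_of_nonneg (fun z => (Real.exp_pos _).le) P.intp]
  have : Function.support (fun z => Real.exp (-W z)) = univ := by
    ext z; simp [(Real.exp_pos _).ne']
  rw [this]; simp

theorem E_const (P : Pot W h om om1 R) (c : ℝ) : EE W (fun _ => c) = c := by
  unfold EE
  rw [integral_const_mul, mul_div_assoc, div_self P.Zpos.ne', mul_one]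

theorem E_add (P : Pot W h om om1 R) {f g : ℝ → ℝ} (hf : PG f) (hg : PG g) :
    EE W (fun z => f z + g z) = EE W f + EE W g := by
  unfold EE
  rw [← add_div, ← integral_add (P.int hf) (P.int hg)]
  congr 1; apply integral_congr_ae; exact Eventually.of_forall fun z => by simp only; ring

theorem E_mul (c : ℝ) (f : ℝ → ℝ) : EE W (fun z => c * f z) = c * EE W f := by
  unfold EE
  rw [mul_div_assoc', ← integral_const_mul]
  congr 1; apply integral_congr_ae; exact Eventually.of_forall fun z => by simp only; ring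

theorem E_sub (P : Pot W h om om1 R) {f g : ℝ → ℝ} (hf : PG f) (hg : PG g) :
    EE W (fun z => f z - g z) = EE W f - EE W g := by
  unfold EE
  rw [← sub_div, ← integral_sub (P.int hf) (P.int hg)]
  congr 1; apply integral_congr_ae; exact Eventually.of_forall fun z => by simp only; ring

theorem E_mono (P : Pot W h om om1 R) {f g : ℝ → ℝ} (hf : PG f) (hg : PG g) (hfg : ∀ z, f z ≤ g z) :
    EE W f ≤ EE W g := by
  unfold EE
  have := P.Zpos
  apply div_le_div_of_nonneg_right _ this.le
  refine integral_mono (P.int hf) (P.int hg) (fun z => ?_)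
  exact mul_le_mul_of_nonneg_right (hfg z) (Real.exp_pos _).le

theorem E_nonneg (P : Pot W h om om1 R) {f : ℝ → ℝ} (hf : PG f) (h0 : ∀ z, 0 ≤ f z) : 0 ≤ EE W f := by
  have := P.E_mono (PG.const 0) hf h0
  rwa [P.E_const] at this

theorem E_le_const (P : Pot W h om om1 R) {f : ℝ → ℝ} (hf : PG f) {c : ℝ} (h0 : ∀ z, f z ≤ c) :
    EE W f ≤ c := by
  have := P.E_mono hf (PG.const c) h0
  rwa [P.E_const] at this

theorem E_ge_const (P : Pot W h om om1 R) {f : ℝ → ℝ} (hf : PG f) {c : ℝ} (h0 : ∀ z, c ≤ f z) :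
    c ≤ EE W f := by
  have := P.E_mono (PG.const c) hf h0
  rwa [P.E_const] at this

theorem E_congr {f g : ℝ → ℝ} (hfg : ∀ z, f z = g z) : EE W f = EE W g := by
  rw [funext hfg]

/-- a nonnegative continuous function with zero expectation vanishes -/
theorem E_eq_zero (P : Pot W h om om1 R) {f : ℝ → ℝ} (hf : PG f) (h0 : ∀ z, 0 ≤ f z)
    (hE : EE W f ≤ 0) : ∀ z, f z = 0 := by
  have h1 : ∫ z, f z * Real.exp (-W z) = 0 := by
    have h2 : 0 ≤ ∫ z, f z * Real.exp (-W z) :=
      integral_nonneg fun z => mul_nonneg (h0 z) (Real.exp_pos _).le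
    unfold EE at hE
    have h3 := P.Zpos
    rw [div_le_iff₀ h3, zero_mul] at hE
    linarith
  rw [integral_eq_zero_iff_of_nonneg (fun z => mul_nonneg (h0 z) (Real.exp_pos _).le) (P.int hf)] at h1
  have h5 : (fun z => f z * Real.exp (-W z)) = 0 :=
    (Continuous.ae_eq_iff_eq volume (hf.1.mul (Real.continuous_exp.comp P.contW.neg))
      continuous_zero).1 h1
  intro z
  have := congrFun h5 z
  simpa [(Real.exp_pos _).ne'] using this

/-- integration by parts -/
theorem ibp (P : Pot W h om om1 R) {F F1 : ℝ → ℝ} (hF : ∀ z, HasDerivAt F (F1 z) z) (pF : PG F)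
    (pF1 : PG F1) : EE W (fun z => F1 z - F z * h z) = 0 := by
  unfold EE
  have h1 : ∫ z, (F1 z - F z * h z) * Real.exp (-W z) = 0 := by
    apply integral_eq_zero_of_hasDerivAt_of_integrable (f := fun z => F z * Real.exp (-W z))
    · intro z
      have h2 : HasDerivAt (fun z => F z * Real.exp (-W z))
          (F1 z * Real.exp (-W z) + F z * (Real.exp (-W z) * (-h z))) z :=
        (hF z).mul ((P.dW z).neg.exp)
      exact h2.congr_deriv (by ring)
    · exact P.int (pF1.sub (pF.mul P.pgh))
    · exact P.int pF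
  rw [h1, zero_div]

end Pot

namespace Pot

theorem tend_bot (P : Pot W h om om1 R) : Tendsto (fun z => Real.exp (-W z)) atBot (𝓝 0) := by
  apply tendsto_zero_of_hasDerivAt_of_integrableOn_Iic (a := 0) (f' := fun z => - (h z * Real.exp (-W z)))
  · intro z _
    exact ((P.dW z).neg.exp).congr_deriv (by simp only [Pi.neg_apply]; ring)
  · exact (P.int P.pgh).neg.integrableOn
  · exact P.intp.integrableOn

theorem int_Iic_h (P : Pot W h om om1 R) (z : ℝ) :
    ∫ x in Iic z, h x * Real.exp (-W x) = - Real.exp (-W z) := by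
  have h1 := integral_Iic_of_hasDerivAt_of_tendsto' (a := z) (f := fun z => - Real.exp (-W z))
    (f' := fun z => h z * Real.exp (-W z)) (m := 0)
    (fun x _ => ((P.dW x).neg.exp.neg).congr_deriv (by simp only [Pi.neg_apply]; ring))
    (P.int P.pgh).integrableOn
    (by simpa using P.tend_bot.neg)
  rw [h1]; ring

/-- the transport field of a function with bounded derivative -/
theorem exists_b (P : Pot W h om om1 R) {g m : ℝ → ℝ} (hg : ∀ z, HasDerivAt g (m z) z) {L : ℝ}
    (hL : ∀ z, |m z| ≤ L) :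
    ∃ b : ℝ → ℝ, (∀ z, HasDerivAt b (b z * h z + (g z - EE W g)) z) ∧ ∀ z, |b z| ≤ L := by
  have hL0 : 0 ≤ L := le_trans (abs_nonneg _) (hL 0)
  have pgg : PG g := PG.of_deriv hg hL
  set gb : ℝ := EE W g with hgb
  have pgt : PG (fun z => g z - gb) := pgg.sub (PG.const gb)
  have hJint : Integrable (fun z => (g z - gb) * Real.exp (-W z)) := P.int pgt
  have hJc : Continuous (fun z => (g z - gb) * Real.exp (-W z)) :=
    pgt.cont.mul (Real.continuous_exp.comp P.contW.neg)
  have htot : ∫ z, (g z - gb) * Real.exp (-W z) = 0 := by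
    have h1 := P.E_sub pgg (PG.const gb)
    rw [P.E_const, ← hgb, sub_self] at h1
    unfold EE at h1
    rcases div_eq_zero_iff.1 h1 with h2 | h2
    · exact h2
    · exact absurd h2 P.Zpos.ne'
  have htoth : ∫ z, h z * Real.exp (-W z) = 0 := by
    have h1 := P.ibp (F := fun _ => 1) (F1 := fun _ => 0) (fun z => hasDerivAt_const z 1)
      (PG.const 1) (PG.const 0)
    unfold EE at h1
    rcases div_eq_zero_iff.1 h1 with h2 | h2
    · have : ∫ z, h z * Real.exp (-W z) = - ∫ z, (0 - 1 * h z) * Real.exp (-W z) := by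
        rw [← integral_neg]; congr 1; ext z; ring
      rw [this, h2, neg_zero]
    · exact absurd h2 P.Zpos.ne'
  set J : ℝ → ℝ := fun z => ∫ x in Iic z, (g x - gb) * Real.exp (-W x) with hJ
  have dJ : ∀ z, HasDerivAt J ((g z - gb) * Real.exp (-W z)) z := by
    intro z
    have h1 : J = fun z => J 0 + ∫ x in (0:ℝ)..z, (g x - gb) * Real.exp (-W x) := by
      ext y
      have := intervalIntegral.integral_Iic_sub_Iic (μ := volume) (a := 0) (b := y)
        (f := fun x => (g x - gb) * Real.exp (-W x)) hJint.integrableOn hJint.integrableOn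
      simp only [hJ]
      linarith
    rw [h1]
    exact (intervalIntegral.integral_hasDerivAt_right (hJc.intervalIntegrable _ _)
      (hJc.stronglyMeasurableAtFilter _ _) hJc.continuousAt).const_add _
  have bound : ∀ σ : ℝ, |σ| = 1 → ∀ z, σ * J z ≤ L * Real.exp (-W z) := by
    intro σ hσ z
    have hq : ∀ z, HasDerivAt (fun z => L * h z + σ * (g z - gb)) (L * om z + σ * (m z - 0)) z :=
      fun z => ((P.dh z).const_mul L).add (((hg z).sub (hasDerivAt_const z gb)).const_mul σ)
    have mono : Monotone (fun z => L * h z + σ * (g z - gb)) := by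
      apply monotone_of_deriv_nonneg (fun z => (hq z).differentiableAt)
      intro y; rw [(hq y).deriv]
      have h1 : |σ * (m y - 0)| ≤ L := by rw [abs_mul, hσ, one_mul, sub_zero]; exact hL y
      have h2 := neg_abs_le (σ * (m y - 0))
      have h3 := P.lo y
      nlinarith
    have hqi : Integrable (fun z => (L * h z + σ * (g z - gb)) * Real.exp (-W z)) :=
      P.int (((PG.const L).mul P.pgh).add ((PG.const σ).mul pgt))
    have split1 : ∫ x in Iic z, (L * h x + σ * (g x - gb)) * Real.exp (-W x)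
        = - L * Real.exp (-W z) + σ * J z := by
      have h1 : ∀ x, (L * h x + σ * (g x - gb)) * Real.exp (-W x)
          = L * (h x * Real.exp (-W x)) + σ * ((g x - gb) * Real.exp (-W x)) := fun x => by ring
      simp_rw [h1]
      rw [integral_add ((P.int P.pgh).integrableOn.const_mul L) (hJint.integrableOn.const_mul σ),
        integral_const_mul, integral_const_mul, P.int_Iic_h]
      ring
    have tot : ∫ x, (L * h x + σ * (g x - gb)) * Real.exp (-W x) = 0 := by
      have h1 : ∀ x, (L * h x + σ * (g x - gb)) * Real.exp (-W x)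
          = L * (h x * Real.exp (-W x)) + σ * ((g x - gb) * Real.exp (-W x)) := fun x => by ring
      simp_rw [h1]
      rw [integral_add ((P.int P.pgh).const_mul L) (hJint.const_mul σ),
        integral_const_mul, integral_const_mul, htot, htoth]
      ring
    have le0 : ∫ x in Iic z, (L * h x + σ * (g x - gb)) * Real.exp (-W x) ≤ 0 := by
      rcases le_total (L * h z + σ * (g z - gb)) 0 with hz | hz
      · apply setIntegral_nonpos measurableSet_Iic
        intro x hx
        have h1 : L * h x + σ * (g x - gb) ≤ 0 := le_trans (mono hx) hz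
        exact mul_nonpos_of_nonpos_of_nonneg h1 (Real.exp_pos _).le
      · have h2 : 0 ≤ ∫ x in Ioi z, (L * h x + σ * (g x - gb)) * Real.exp (-W x) := by
          apply setIntegral_nonneg measurableSet_Ioi
          intro x hx
          have h1 : 0 ≤ L * h x + σ * (g x - gb) := le_trans hz (mono (le_of_lt hx))
          exact mul_nonneg h1 (Real.exp_pos _).le
        have h3 := intervalIntegral.integral_Iic_add_Ioi (b := z) (μ := volume)
          (f := fun x => (L * h x + σ * (g x - gb)) * Real.exp (-W x)) hqi.integrableOn hqi.integrableOn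
        rw [tot] at h3
        linarith
    rw [split1] at le0
    linarith
  refine ⟨fun z => Real.exp (W z) * J z, fun z => ?_, fun z => ?_⟩
  · have h1 : HasDerivAt (fun z => Real.exp (W z) * J z)
        (Real.exp (W z) * h z * J z + Real.exp (W z) * ((g z - gb) * Real.exp (-W z))) z :=
      ((P.dW z).exp).mul (dJ z)
    refine h1.congr_deriv ?_
    have h2 : Real.exp (W z) * Real.exp (-W z) = 1 := by rw [← Real.exp_add]; simp
    linear_combination (g z - gb) * h2
  · have h1 := bound 1 (by simp) z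
    have h2 := bound (-1) (by simp) z
    have h3 : |J z| ≤ L * Real.exp (-W z) := abs_le.2 ⟨by linarith, by linarith⟩
    rw [abs_mul, abs_of_pos (Real.exp_pos _)]
    calc Real.exp (W z) * |J z| ≤ Real.exp (W z) * (L * Real.exp (-W z)) := by gcongr
      _ = L * (Real.exp (W z) * Real.exp (-W z)) := by ring
      _ = L := by rw [← Real.exp_add]; simp

/-- transport identities -/
theorem transport (P : Pot W h om om1 R) {g m b : ℝ → ℝ} (hg : ∀ z, HasDerivAt g (m z) z)
    (cm : Continuous m) {L : ℝ} (hL : ∀ z, |m z| ≤ L)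
    (hb : ∀ z, HasDerivAt b (b z * h z + (g z - EE W g)) z) (hbL : ∀ z, |b z| ≤ L) :
    EE W (fun z => (g z - EE W g) ^ 2) = - EE W (fun z => b z * m z) ∧
    EE W (fun z => (b z * h z + (g z - EE W g)) ^ 2) + EE W (fun z => b z ^ 2 * om z)
      = - EE W (fun z => b z * m z) := by
  have cb : Continuous b := continuous_iff_continuousAt.2 fun z => (hb z).continuousAt
  have pb : PG b := PG.bdd cb hbL
  have pm : PG m := PG.bdd cm hL
  have pg : PG g := PG.of_deriv hg hL
  have pgt : PG (fun z => g z - EE W g) := pg.sub (PG.const _)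
  have dgt : ∀ z, HasDerivAt (fun z => g z - EE W g) (m z) z := fun z => by
    have := (hg z).sub (hasDerivAt_const z (EE W g)); exact this.congr_deriv (by ring)
  set gb := EE W g with hgb
  have pt : PG (fun z => b z * h z + (g z - gb)) := (pb.mul P.pgh).add pgt
  have dt : ∀ z, HasDerivAt (fun z => b z * h z + (g z - gb))
      ((b z * h z + (g z - gb)) * h z + (m z + b z * om z)) z := fun z => by
    have := ((hb z).mul (P.dh z)).add (dgt z)
    exact this.congr_deriv (by ring)
  constructor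
  · have h1 := P.ibp (F := fun z => b z * (g z - gb))
      (F1 := fun z => (b z * h z + (g z - gb)) * (g z - gb) + b z * m z)
      (fun z => (hb z).mul (dgt z)) (pb.mul pgt) ((pt.mul pgt).add (pb.mul pm))
    have h2 : EE W (fun z => (g z - gb) ^ 2 + b z * m z) = 0 := by
      rw [← h1]; exact E_congr fun z => by ring
    rw [P.E_add (pgt.pow 2) (pb.mul pm)] at h2
    linarith
  · have h1 := P.ibp (F := fun z => b z * (b z * h z + (g z - gb)))
      (F1 := fun z => (b z * h z + (g z - gb)) * (b z * h z + (g z - gb)) +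
        b z * ((b z * h z + (g z - gb)) * h z + (m z + b z * om z)))
      (fun z => (hb z).mul (dt z)) (pb.mul pt)
      ((pt.mul pt).add (pb.mul ((pt.mul P.pgh).add (pm.add (pb.mul P.pgom)))))
    have h2 : EE W (fun z => (b z * h z + (g z - gb)) ^ 2 + b z ^ 2 * om z + b z * m z) = 0 := by
      rw [← h1]; exact E_congr fun z => by ring
    rw [P.E_add ((pt.pow 2).add ((pb.pow 2).mul P.pgom)) (pb.mul pm),
      P.E_add (pt.pow 2) ((pb.pow 2).mul P.pgom)] at h2
    linarith

/-- Cauchy-Schwarz in the form 2 E(fg) <= s E f^2 + E g^2 / s, s = 1 version -/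
theorem two_mul_le (P : Pot W h om om1 R) {f g : ℝ → ℝ} (hf : PG f) (hg : PG g) :
    2 * EE W (fun z => f z * g z) ≤ EE W (fun z => f z ^ 2) + EE W (fun z => g z ^ 2) := by
  rw [← E_mul, ← P.E_add (hf.pow 2) (hg.pow 2)]
  apply P.E_mono ((PG.const 2).mul (hf.mul hg)) ((hf.pow 2).add (hg.pow 2))
  intro z
  nlinarith [sq_nonneg (f z - g z)]

/-- Poincare inequality -/
theorem poincare (P : Pot W h om om1 R) {f f1 : ℝ → ℝ} (hf : ∀ z, HasDerivAt f (f1 z) z)
    (cf1 : Continuous f1) {L : ℝ} (hL : ∀ z, |f1 z| ≤ L) :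
    EE W (fun z => (f z - EE W f) ^ 2) ≤ EE W (fun z => f1 z ^ 2) := by
  obtain ⟨b, hb, hbL⟩ := P.exists_b hf hL
  obtain ⟨e1, e2⟩ := P.transport hf cf1 hL hb hbL
  have cb : Continuous b := continuous_iff_continuousAt.2 fun z => (hb z).continuousAt
  have pb : PG b := PG.bdd cb hbL
  have pf1 : PG f1 := PG.bdd cf1 hL
  have pf : PG f := PG.of_deriv hf hL
  -- E b^2 <= E b^2 om <= Var
  have h1 : EE W (fun z => b z ^ 2) ≤ EE W (fun z => b z ^ 2 * om z) := by
    apply P.E_mono (pb.pow 2) ((pb.pow 2).mul P.pgom)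
    intro z; nlinarith [P.lo z, sq_nonneg (b z)]
  have h2 : 0 ≤ EE W (fun z => (b z * h z + (f z - EE W f)) ^ 2) :=
    P.E_nonneg (((pb.mul P.pgh).add (pf.sub (PG.const _))).pow 2) (fun z => sq_nonneg _)
  have h3 : - (2 * EE W (fun z => b z * f1 z)) ≤ EE W (fun z => b z ^ 2) + EE W (fun z => f1 z ^ 2) := by
    have := P.two_mul_le pb.neg pf1
    have e3 : EE W (fun z => -b z * f1 z) = - EE W (fun z => b z * f1 z) := by
      rw [← neg_one_mul, ← E_mul]; exact E_congr fun z => by ring
    have e4 : EE W (fun z => (-b z) ^ 2) = EE W (fun z => b z ^ 2) := E_congr fun z => by ring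
    rw [e3, e4] at this
    linarith
  linarith

end Pot

end Vale.Agent.P227.M.Marg
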