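import Vale.Agent.P227.M.Defs
import Vale.Agent.P227.M.SC2.Heat1Def
import Vale.Agent.P227.M.SC.Marg1

/-! # P227/M/SC: interface between the static marginal lemma (helper66, helper389) and `heat1`
(helper546, helper119). Definitions only. -/

open MeasureTheory

namespace Vale.Agent.P227.M.SC.Adapt

/-- normalised data of the static marginal lemma at a fixed `x`, all functions of `z`:
`W`, `h = W_z`, `om = W_zz`, `om1 = W_zzz`, `g = W_x`, `m = W_xz`, `m1 = W_xzz`, `a = W_xx`, `a1 = W_xxz`,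
`C3 = W_xxx` -/
structure Dat (R c : ℝ) (W h om om1 g m m1 a a1 C3 : ℝ → ℝ) : Prop where
  dW : ∀ z, HasDerivAt W (h z) z
  dh : ∀ z, HasDerivAt h (om z) z
  dom : ∀ z, HasDerivAt om (om1 z) z
  dg : ∀ z, HasDerivAt g (m z) z
  dm : ∀ z, HasDerivAt m (m1 z) z
  da : ∀ z, HasDerivAt a (a1 z) z
  com1 : Continuous om1
  cm1 : Continuous m1
  ca1 : Continuous a1
  cC3 : Continuous C3
  lo : ∀ z s t : ℝ, s ^ 2 + t ^ 2 ≤ a z * s ^ 2 + 2 * m z * s * t + om z * t ^ 2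
  hi : ∀ z s t : ℝ, a z * s ^ 2 + 2 * m z * s * t + om z * t ^ 2 ≤ R * (s ^ 2 + t ^ 2)
  sc : ∀ z s t : ℝ, |C3 z * s ^ 3 + 3 * a1 z * s ^ 2 * t + 3 * m1 z * s * t ^ 2 + om1 z * t ^ 3| ≤
    2 * c * (a z * s ^ 2 + 2 * m z * s * t + om z * t ^ 2) ^ ((3 : ℝ) / 2)

/-- second derivative of the marginal potential -/
noncomputable def V2 (W g a : ℝ → ℝ) : ℝ :=
  Marg.EE W a - Marg.EE W (fun z => (g z - Marg.EE W g) ^ 2)

/-- third derivative of the marginal potential -/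
noncomputable def V3 (W g a C3 : ℝ → ℝ) : ℝ :=
  Marg.EE W C3 - 3 * Marg.EE W (fun z => (a z - Marg.EE W a) * (g z - Marg.EE W g))
    + Marg.EE W (fun z => (g z - Marg.EE W g) ^ 3)

/-- the static marginal lemma for the pinching ratio `R`, all constants `c ≤ c1` -/
def MargN (R c1 : ℝ) : Prop := ∀ c : ℝ, 0 ≤ c → c ≤ c1 → ∀ W h om om1 g m m1 a a1 C3 : ℝ → ℝ,
  Dat R c W h om om1 g m m1 a a1 C3 →
    1 ≤ V2 W g a ∧ V2 W g a ≤ R ∧ |V3 W g a C3| ≤ 2 * c * (V2 W g a) ^ ((3 : ℝ) / 2)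

/-- the static marginal lemma -/
def StmtMargN : Prop := ∀ R : ℝ, 1 ≤ R → ∃ c1 : ℝ, 0 < c1 ∧ MargN R c1

/-- pinching of the Hessian by a positive definite form `B` -/
structure Pin {n : ℕ} (B : E n →ₗ[ℝ] E n →ₗ[ℝ] ℝ) (R : ℝ) (W : E n → ℝ) : Prop where
  symm : ∀ u v, B u v = B v u
  pos : ∀ v, v ≠ 0 → 0 < B v v
  lo : ∀ x v, B v v ≤ qf (hess W x) v
  hi : ∀ x v, qf (hess W x) v ≤ R * B v v

/-- the one-direction step -/
def H1S (R c1 : ℝ) : Prop := ∀ (n : ℕ) (W : E n → ℝ) (c C κ : ℝ), Reg W c C → 0 ≤ κ → κ ≤ c1 →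
  SelfConc κ W → ∀ B : E n →ₗ[ℝ] E n →ₗ[ℝ] ℝ, Pin B R W →
    ∀ p : E n, SelfConc κ (heat1 W p) ∧ ∃ B1 : E n →ₗ[ℝ] E n →ₗ[ℝ] ℝ, Pin B1 R (heat1 W p)

end Vale.Agent.P227.M.SC.Adapt
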