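import Mathlib

/-! # P227/M, block SC, line B: three derivatives of `U x = -log ∫ exp (-W x z) dz`. -/

open MeasureTheory Set Metric

namespace Vale.Agent.P227.M.SC

section General

variable {α : Type*} [MeasurableSpace α] {ν : Measure α}

/-- the unnormalised integral -/
noncomputable def mdI (ν : Measure α) (W f : ℝ → α → ℝ) (x : ℝ) : ℝ :=
  ∫ z, f x z * Real.exp (-W x z) ∂ν

/-- expectation with respect to the normalised density `exp (-W x ·)` -/
noncomputable def mdE (ν : Measure α) (W f : ℝ → α → ℝ) (x : ℝ) : ℝ :=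
  (∫ z, f x z * Real.exp (-W x z) ∂ν) / (∫ z, Real.exp (-W x z) ∂ν)

/-- the standing hypotheses -/
structure MdH (ν : Measure α) (W W1 W2 W3 : ℝ → α → ℝ) : Prop where
  d1 : ∀ x z, HasDerivAt (fun s => W s z) (W1 x z) x
  d2 : ∀ x z, HasDerivAt (fun s => W1 s z) (W2 x z) x
  d3 : ∀ x z, HasDerivAt (fun s => W2 s z) (W3 x z) x
  m0 : ∀ x, AEStronglyMeasurable (W x) ν
  m1 : ∀ x, AEStronglyMeasurable (W1 x) ν
  m2 : ∀ x, AEStronglyMeasurable (W2 x) ν
  m3 : ∀ x, AEStronglyMeasurable (W3 x) ν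
  pos : ν ≠ 0
  dom : ∀ x₀, ∃ δ > 0, ∃ b : α → ℝ, Integrable b ν ∧ ∀ x ∈ ball x₀ δ, ∀ z,
    (1 + |W1 x z| + |W2 x z| + |W3 x z|) ^ 3 * Real.exp (-W x z) ≤ b z

variable {W W1 W2 W3 : ℝ → α → ℝ}

theorem MdH.int (h : MdH ν W W1 W2 W3) {f : ℝ → α → ℝ} (x : ℝ)
    (hm : AEStronglyMeasurable (f x) ν)
    (hf : ∀ z, |f x z| ≤ (1 + |W1 x z| + |W2 x z| + |W3 x z|) ^ 3) :
    Integrable (fun z => f x z * Real.exp (-W x z)) ν := by
  obtain ⟨δ, hδ, b, hb, hle⟩ := h.dom x
  refine hb.mono' (hm.mul (Real.continuous_exp.comp_aestronglyMeasurable (h.m0 x).neg)) ?_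
  refine Filter.Eventually.of_forall fun z => ?_
  rw [Real.norm_eq_abs, abs_mul, Real.abs_exp]
  exact (mul_le_mul_of_nonneg_right (hf z) (Real.exp_pos _).le).trans
    (hle x (mem_ball_self hδ) z)

theorem md_one_le (h1 h2 h3 : ℝ) : (1 : ℝ) ≤ (1 + |h1| + |h2| + |h3|) ^ 3 := by
  have : (1 : ℝ) ≤ 1 + |h1| + |h2| + |h3| := by
    linarith [abs_nonneg h1, abs_nonneg h2, abs_nonneg h3]
  exact one_le_pow₀ this

theorem MdH.int_exp (h : MdH ν W W1 W2 W3) (x : ℝ) :
    Integrable (fun z => Real.exp (-W x z)) ν := by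
  have := h.int (f := fun _ _ => (1 : ℝ)) x aestronglyMeasurable_const
    (fun z => by simpa using md_one_le (W1 x z) (W2 x z) (W3 x z))
  simpa using this

theorem MdH.Z_pos (h : MdH ν W W1 W2 W3) (x : ℝ) : 0 < ∫ z, Real.exp (-W x z) ∂ν := by
  have : NeZero ν := ⟨h.pos⟩
  exact integral_exp_pos (h.int_exp x)

/-- derivative of an unnormalised integral -/
theorem MdH.hasDerivAt_I (h : MdH ν W W1 W2 W3) {f g : ℝ → α → ℝ}
    (hd : ∀ x z, HasDerivAt (fun s => f s z) (g x z) x)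
    (hmf : ∀ x, AEStronglyMeasurable (f x) ν) (hmg : ∀ x, AEStronglyMeasurable (g x) ν)
    (hf : ∀ x z, |f x z| ≤ (1 + |W1 x z| + |W2 x z| + |W3 x z|) ^ 3)
    (hg : ∀ x z, |g x z - f x z * W1 x z| ≤ (1 + |W1 x z| + |W2 x z| + |W3 x z|) ^ 3) (x₀ : ℝ) :
    HasDerivAt (fun x => ∫ z, f x z * Real.exp (-W x z) ∂ν)
      (∫ z, (g x₀ z - f x₀ z * W1 x₀ z) * Real.exp (-W x₀ z) ∂ν) x₀ := by
  obtain ⟨δ, hδ, b, hb, hle⟩ := h.dom x₀
  refine (hasDerivAt_integral_of_dominated_loc_of_deriv_le (bound := b)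
    (F := fun x z => f x z * Real.exp (-W x z))
    (F' := fun x z => (g x z - f x z * W1 x z) * Real.exp (-W x z)) (x₀ := x₀)
    (s := ball x₀ δ) (ball_mem_nhds x₀ hδ) ?_ ?_ ?_ ?_ hb ?_).2
  · refine Filter.Eventually.of_forall fun x => ?_
    exact (hmf x).mul (Real.continuous_exp.comp_aestronglyMeasurable (h.m0 x).neg)
  · exact h.int x₀ (hmf x₀) (hf x₀)
  · exact ((hmg x₀).sub ((hmf x₀).mul (h.m1 x₀))).mul
      (Real.continuous_exp.comp_aestronglyMeasurable (h.m0 x₀).neg)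
  · refine Filter.Eventually.of_forall fun z x hx => ?_
    rw [Real.norm_eq_abs, abs_mul, Real.abs_exp]
    exact (mul_le_mul_of_nonneg_right (hg x z) (Real.exp_pos _).le).trans (hle x hx z)
  · refine Filter.Eventually.of_forall fun z x _ => ?_
    have h1 := (hd x z).mul ((h.d1 x z).neg.exp)
    refine h1.congr_deriv ?_
    simp only [Pi.neg_apply]
    ring

theorem MdH.hasDerivAt_Z (h : MdH ν W W1 W2 W3) (x₀ : ℝ) :
    HasDerivAt (fun x => ∫ z, Real.exp (-W x z) ∂ν)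
      (-∫ z, W1 x₀ z * Real.exp (-W x₀ z) ∂ν) x₀ := by
  have h1 := h.hasDerivAt_I (f := fun _ _ => (1 : ℝ)) (g := fun _ _ => (0 : ℝ))
    (fun x z => hasDerivAt_const x (1 : ℝ)) (fun _ => aestronglyMeasurable_const)
    (fun _ => aestronglyMeasurable_const)
    (fun x z => by simpa using md_one_le (W1 x z) (W2 x z) (W3 x z))
    (fun x z => by
      simp only [zero_sub, one_mul, abs_neg]
      have h1 : |W1 x z| ≤ 1 + |W1 x z| + |W2 x z| + |W3 x z| := by
        linarith [abs_nonneg (W1 x z), abs_nonneg (W2 x z), abs_nonneg (W3 x z)]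
      have h2 : (1 : ℝ) ≤ 1 + |W1 x z| + |W2 x z| + |W3 x z| := by
        linarith [abs_nonneg (W1 x z), abs_nonneg (W2 x z), abs_nonneg (W3 x z)]
      exact h1.trans (le_self_pow₀ h2 (by norm_num))) x₀
  simp only [one_mul, zero_sub, neg_mul] at h1
  rw [integral_neg] at h1
  exact h1

/-- derivative of an expectation -/
theorem MdH.hasDerivAt_E (h : MdH ν W W1 W2 W3) {f g : ℝ → α → ℝ}
    (hd : ∀ x z, HasDerivAt (fun s => f s z) (g x z) x)
    (hmf : ∀ x, AEStronglyMeasurable (f x) ν) (hmg : ∀ x, AEStronglyMeasurable (g x) ν)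
    (hf : ∀ x z, |f x z| ≤ (1 + |W1 x z| + |W2 x z| + |W3 x z|) ^ 3)
    (hg' : ∀ x z, |g x z| ≤ (1 + |W1 x z| + |W2 x z| + |W3 x z|) ^ 3)
    (hfW : ∀ x z, |f x z * W1 x z| ≤ (1 + |W1 x z| + |W2 x z| + |W3 x z|) ^ 3)
    (hg : ∀ x z, |g x z - f x z * W1 x z| ≤ (1 + |W1 x z| + |W2 x z| + |W3 x z|) ^ 3) (x₀ : ℝ) :
    HasDerivAt (mdE ν W f)
      (mdE ν W g x₀ - mdE ν W (fun x z => f x z * W1 x z) x₀ + mdE ν W f x₀ * mdE ν W W1 x₀) x₀ := by
  have hZ := h.Z_pos x₀
  have h1 := (h.hasDerivAt_I hd hmf hmg hf hg x₀).div (h.hasDerivAt_Z x₀) hZ.ne'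
  refine h1.congr_deriv ?_
  have e1 : ∫ z, (g x₀ z - f x₀ z * W1 x₀ z) * Real.exp (-W x₀ z) ∂ν =
      (∫ z, g x₀ z * Real.exp (-W x₀ z) ∂ν) -
        ∫ z, f x₀ z * W1 x₀ z * Real.exp (-W x₀ z) ∂ν := by
    rw [← integral_sub (h.int x₀ (hmg x₀) (hg' x₀))
      (h.int (f := fun x z => f x z * W1 x z) x₀ ((hmf x₀).mul (h.m1 x₀)) (hfW x₀))]
    congr 1
    funext z
    ring
  rw [e1]
  simp only [mdE]
  field_simp
  ring

theorem md_le_cube {s t : ℝ} (ht : 1 ≤ t) (h : s ≤ t ∨ s ≤ t ^ 2 ∨ s ≤ t ^ 3) : s ≤ t ^ 3 := by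
  rcases h with h | h | h
  · exact h.trans (le_self_pow₀ ht (by norm_num))
  · exact h.trans (pow_le_pow_right₀ ht (by norm_num))
  · exact h

/-- first derivative of `U` -/
theorem MdH.hasDerivAt_U (h : MdH ν W W1 W2 W3) (x₀ : ℝ) :
    HasDerivAt (fun x => -Real.log (∫ z, Real.exp (-W x z) ∂ν)) (mdE ν W W1 x₀) x₀ := by
  have hZ := h.Z_pos x₀
  have h1 := ((h.hasDerivAt_Z x₀).log hZ.ne').neg
  refine h1.congr_deriv ?_
  simp only [mdE]
  ring

/-- second derivative of `U` -/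
theorem MdH.hasDerivAt_U' (h : MdH ν W W1 W2 W3) (x₀ : ℝ) :
    HasDerivAt (mdE ν W W1)
      (mdE ν W W2 x₀ - mdE ν W (fun x z => W1 x z ^ 2) x₀ + mdE ν W W1 x₀ ^ 2) x₀ := by
  have hT : ∀ x z, (1 : ℝ) ≤ 1 + |W1 x z| + |W2 x z| + |W3 x z| := fun x z => by
    linarith [abs_nonneg (W1 x z), abs_nonneg (W2 x z), abs_nonneg (W3 x z)]
  have h1T : ∀ x z, |W1 x z| ≤ 1 + |W1 x z| + |W2 x z| + |W3 x z| := fun x z => by
    linarith [abs_nonneg (W1 x z), abs_nonneg (W2 x z), abs_nonneg (W3 x z)]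
  have h2T : ∀ x z, |W2 x z| ≤ 1 + |W1 x z| + |W2 x z| + |W3 x z| := fun x z => by
    linarith [abs_nonneg (W1 x z), abs_nonneg (W2 x z), abs_nonneg (W3 x z)]
  have h1 := h.hasDerivAt_E h.d2 h.m1 h.m2
    (fun x z => md_le_cube (hT x z) (Or.inl (h1T x z)))
    (fun x z => md_le_cube (hT x z) (Or.inl (h2T x z)))
    (fun x z => md_le_cube (hT x z) (Or.inr (Or.inl (by
      rw [abs_mul, pow_two]
      exact mul_le_mul (h1T x z) (h1T x z) (abs_nonneg _) (by linarith [hT x z])))))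
    (fun x z => md_le_cube (hT x z) (Or.inr (Or.inl (by
      have a1 := abs_nonneg (W1 x z)
      have a2 := abs_nonneg (W2 x z)
      have a3 := abs_nonneg (W3 x z)
      have : |W2 x z - W1 x z * W1 x z| ≤ |W2 x z| + |W1 x z| * |W1 x z| := by
        rw [← abs_mul]
        exact abs_sub _ _
      refine this.trans ?_
      nlinarith [mul_nonneg a1 a2, mul_nonneg a1 a3, mul_nonneg a2 a3, sq_nonneg (|W2 x z|),
        sq_nonneg (|W3 x z|)])))) x₀
  refine h1.congr_deriv ?_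
  have e : (fun (x : ℝ) (z : α) => W1 x z * W1 x z) = fun x z => W1 x z ^ 2 := by
    funext x z
    ring
  rw [e]
  ring

/-- third derivative of `U` -/
theorem MdH.hasDerivAt_U'' (h : MdH ν W W1 W2 W3) (x₀ : ℝ) :
    HasDerivAt (fun x => mdE ν W W2 x - mdE ν W (fun x z => W1 x z ^ 2) x + mdE ν W W1 x ^ 2)
      (mdE ν W W3 x₀ - 3 * (mdE ν W (fun x z => W1 x z * W2 x z) x₀ - mdE ν W W1 x₀ * mdE ν W W2 x₀)
        + (mdE ν W (fun x z => W1 x z ^ 3) x₀ - 3 * mdE ν W W1 x₀ * mdE ν W (fun x z => W1 x z ^ 2) x₀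
          + 2 * mdE ν W W1 x₀ ^ 3)) x₀ := by
  have hT : ∀ x z, (1 : ℝ) ≤ 1 + |W1 x z| + |W2 x z| + |W3 x z| := fun x z => by
    linarith [abs_nonneg (W1 x z), abs_nonneg (W2 x z), abs_nonneg (W3 x z)]
  have hT0 : ∀ x z, (0 : ℝ) ≤ 1 + |W1 x z| + |W2 x z| + |W3 x z| := fun x z => by
    linarith [hT x z]
  have h1T : ∀ x z, |W1 x z| ≤ 1 + |W1 x z| + |W2 x z| + |W3 x z| := fun x z => by
    linarith [abs_nonneg (W1 x z), abs_nonneg (W2 x z), abs_nonneg (W3 x z)]
  have h2T : ∀ x z, |W2 x z| ≤ 1 + |W1 x z| + |W2 x z| + |W3 x z| := fun x z => by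
    linarith [abs_nonneg (W1 x z), abs_nonneg (W2 x z), abs_nonneg (W3 x z)]
  have h3T : ∀ x z, |W3 x z| ≤ 1 + |W1 x z| + |W2 x z| + |W3 x z| := fun x z => by
    linarith [abs_nonneg (W1 x z), abs_nonneg (W2 x z), abs_nonneg (W3 x z)]
  -- derivative of E W2
  have hA := h.hasDerivAt_E h.d3 h.m2 h.m3
    (fun x z => md_le_cube (hT x z) (Or.inl (h2T x z)))
    (fun x z => md_le_cube (hT x z) (Or.inl (h3T x z)))
    (fun x z => md_le_cube (hT x z) (Or.inr (Or.inl (by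
      rw [abs_mul, pow_two]
      exact mul_le_mul (h2T x z) (h1T x z) (abs_nonneg _) (hT0 x z)))))
    (fun x z => md_le_cube (hT x z) (Or.inr (Or.inl (by
      have a1 := abs_nonneg (W1 x z)
      have a2 := abs_nonneg (W2 x z)
      have a3 := abs_nonneg (W3 x z)
      have : |W3 x z - W2 x z * W1 x z| ≤ |W3 x z| + |W2 x z| * |W1 x z| := by
        rw [← abs_mul]
        exact abs_sub _ _
      refine this.trans ?_
      nlinarith [mul_nonneg a1 a2, mul_nonneg a1 a3, mul_nonneg a2 a3, sq_nonneg (|W2 x z|),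
        sq_nonneg (|W3 x z|), sq_nonneg (|W1 x z|)])))) x₀
  -- derivative of E W1^2
  have hB := h.hasDerivAt_E (f := fun x z => W1 x z ^ 2) (g := fun x z => 2 * (W1 x z * W2 x z))
    (fun x z => by
      have := (h.d2 x z).pow 2
      refine this.congr_deriv ?_
      push_cast
      ring)
    (fun x => (h.m1 x).pow 2)
    (fun x => ((h.m1 x).mul (h.m2 x)).const_mul 2)
    (fun x z => md_le_cube (hT x z) (Or.inr (Or.inl (by
      rw [abs_pow]
      exact pow_le_pow_left₀ (abs_nonneg _) (h1T x z) 2))))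
    (fun x z => md_le_cube (hT x z) (Or.inr (Or.inl (by
      have a1 := abs_nonneg (W1 x z)
      have a2 := abs_nonneg (W2 x z)
      have a3 := abs_nonneg (W3 x z)
      rw [abs_mul, abs_mul, abs_two]
      nlinarith [mul_nonneg a1 a2, mul_nonneg a1 a3, mul_nonneg a2 a3, sq_nonneg (|W2 x z|),
        sq_nonneg (|W3 x z|), sq_nonneg (|W1 x z|)]))))
    (fun x z => md_le_cube (hT x z) (Or.inr (Or.inr (by
      rw [abs_mul, abs_pow, ← pow_succ]
      exact pow_le_pow_left₀ (abs_nonneg _) (h1T x z) 3))))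
    (fun x z => md_le_cube (hT x z) (Or.inr (Or.inr (by
      have a1 := abs_nonneg (W1 x z)
      have a2 := abs_nonneg (W2 x z)
      have a3 := abs_nonneg (W3 x z)
      have h4 : |2 * (W1 x z * W2 x z) - W1 x z ^ 2 * W1 x z| ≤
          2 * (|W1 x z| * |W2 x z|) + |W1 x z| ^ 3 := by
        refine (abs_sub _ _).trans ?_
        rw [abs_mul, abs_mul, abs_two, abs_mul, abs_pow, ← pow_succ]
      refine h4.trans ?_
      have a12 := mul_nonneg a1 a2
      have a13 := mul_nonneg a1 a3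
      have a23 := mul_nonneg a2 a3
      set p := |W1 x z|
      set q := |W2 x z|
      set r := |W3 x z|
      have e : (1 + p + q + r) ^ 3 - (2 * (p * q) + p ^ 3) =
          1 + 3 * p + 3 * q + 3 * r + 3 * p ^ 2 + 3 * q ^ 2 + 3 * r ^ 2 + 4 * (p * q) +
          6 * (p * r) + 6 * (q * r) + q ^ 3 + r ^ 3 + 3 * (p ^ 2 * q) + 3 * (p ^ 2 * r) +
          3 * (p * q ^ 2) + 3 * (p * r ^ 2) + 3 * (q ^ 2 * r) + 3 * (q * r ^ 2) +
          6 * (p * q * r) := by ring
      have : 0 ≤ (1 + p + q + r) ^ 3 - (2 * (p * q) + p ^ 3) := by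
        rw [e]
        positivity
      linarith)))) x₀
  have hC := (h.hasDerivAt_U' x₀).pow 2
  refine ((hA.sub hB).add hC).congr_deriv ?_
  have e1 : mdE ν W (fun x z => W2 x z * W1 x z) x₀ = mdE ν W (fun x z => W1 x z * W2 x z) x₀ := by
    simp only [mdE]
    congr 2
    funext z
    ring
  have e2 : mdE ν W (fun x z => 2 * (W1 x z * W2 x z)) x₀ =
      2 * mdE ν W (fun x z => W1 x z * W2 x z) x₀ := by
    simp only [mdE, mul_assoc]
    rw [integral_const_mul, mul_div_assoc]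
  have e3 : mdE ν W (fun x z => W1 x z ^ 2 * W1 x z) x₀ = mdE ν W (fun x z => W1 x z ^ 3) x₀ := by
    simp only [mdE]
    congr 2
  rw [e1, e2, e3]
  push_cast
  ring

/-- linearity of the expectation -/
theorem mdE_add {W f g : ℝ → α → ℝ} {x : ℝ}
    (hf : Integrable (fun z => f x z * Real.exp (-W x z)) ν)
    (hg : Integrable (fun z => g x z * Real.exp (-W x z)) ν) :
    mdE ν W (fun x z => f x z + g x z) x = mdE ν W f x + mdE ν W g x := by
  simp only [mdE]
  rw [← add_div, ← integral_add hf hg]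
  congr 2
  funext z
  ring

theorem mdE_const_mul {W f : ℝ → α → ℝ} {x : ℝ} (c : ℝ) :
    mdE ν W (fun x z => c * f x z) x = c * mdE ν W f x := by
  simp only [mdE, mul_assoc]
  rw [integral_const_mul, mul_div_assoc]

theorem MdH.mdE_const (h : MdH ν W W1 W2 W3) (c x : ℝ) : mdE ν W (fun _ _ => c) x = c := by
  simp only [mdE]
  rw [integral_const_mul, mul_div_assoc, div_self (h.Z_pos x).ne', mul_one]

/-- integrability of the monomials in `W1, W2, W3` that occur -/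
theorem MdH.int_W1 (h : MdH ν W W1 W2 W3) (x : ℝ) :
    Integrable (fun z => W1 x z * Real.exp (-W x z)) ν :=
  h.int (f := W1) x (h.m1 x) (fun z => md_le_cube
    (by linarith [abs_nonneg (W1 x z), abs_nonneg (W2 x z), abs_nonneg (W3 x z)])
    (Or.inl (by linarith [abs_nonneg (W1 x z), abs_nonneg (W2 x z), abs_nonneg (W3 x z)])))

theorem MdH.int_W2 (h : MdH ν W W1 W2 W3) (x : ℝ) :
    Integrable (fun z => W2 x z * Real.exp (-W x z)) ν :=
  h.int (f := W2) x (h.m2 x) (fun z => md_le_cube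
    (by linarith [abs_nonneg (W1 x z), abs_nonneg (W2 x z), abs_nonneg (W3 x z)])
    (Or.inl (by linarith [abs_nonneg (W1 x z), abs_nonneg (W2 x z), abs_nonneg (W3 x z)])))

theorem MdH.int_W3 (h : MdH ν W W1 W2 W3) (x : ℝ) :
    Integrable (fun z => W3 x z * Real.exp (-W x z)) ν :=
  h.int (f := W3) x (h.m3 x) (fun z => md_le_cube
    (by linarith [abs_nonneg (W1 x z), abs_nonneg (W2 x z), abs_nonneg (W3 x z)])
    (Or.inl (by linarith [abs_nonneg (W1 x z), abs_nonneg (W2 x z), abs_nonneg (W3 x z)])))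

theorem MdH.int_W1sq (h : MdH ν W W1 W2 W3) (x : ℝ) :
    Integrable (fun z => W1 x z ^ 2 * Real.exp (-W x z)) ν :=
  h.int (f := fun x z => W1 x z ^ 2) x ((h.m1 x).pow 2) (fun z => md_le_cube
    (by linarith [abs_nonneg (W1 x z), abs_nonneg (W2 x z), abs_nonneg (W3 x z)])
    (Or.inr (Or.inl (by
      rw [abs_pow]
      exact pow_le_pow_left₀ (abs_nonneg _)
        (by linarith [abs_nonneg (W1 x z), abs_nonneg (W2 x z), abs_nonneg (W3 x z)]) 2))))

theorem MdH.int_W1cube (h : MdH ν W W1 W2 W3) (x : ℝ) :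
    Integrable (fun z => W1 x z ^ 3 * Real.exp (-W x z)) ν :=
  h.int (f := fun x z => W1 x z ^ 3) x ((h.m1 x).pow 3) (fun z => md_le_cube
    (by linarith [abs_nonneg (W1 x z), abs_nonneg (W2 x z), abs_nonneg (W3 x z)])
    (Or.inr (Or.inr (by
      rw [abs_pow]
      exact pow_le_pow_left₀ (abs_nonneg _)
        (by linarith [abs_nonneg (W1 x z), abs_nonneg (W2 x z), abs_nonneg (W3 x z)]) 3))))

theorem MdH.int_W1W2 (h : MdH ν W W1 W2 W3) (x : ℝ) :
    Integrable (fun z => W1 x z * W2 x z * Real.exp (-W x z)) ν :=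
  h.int (f := fun x z => W1 x z * W2 x z) x ((h.m1 x).mul (h.m2 x)) (fun z => md_le_cube
    (by linarith [abs_nonneg (W1 x z), abs_nonneg (W2 x z), abs_nonneg (W3 x z)])
    (Or.inr (Or.inl (by
      rw [abs_mul, pow_two]
      exact mul_le_mul
        (by linarith [abs_nonneg (W1 x z), abs_nonneg (W2 x z), abs_nonneg (W3 x z)])
        (by linarith [abs_nonneg (W1 x z), abs_nonneg (W2 x z), abs_nonneg (W3 x z)])
        (abs_nonneg _)
        (by linarith [abs_nonneg (W1 x z), abs_nonneg (W2 x z), abs_nonneg (W3 x z)])))))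

/-- variance form -/
theorem MdH.mdE_var (h : MdH ν W W1 W2 W3) (x : ℝ) :
    mdE ν W (fun x z => W1 x z ^ 2) x - mdE ν W W1 x ^ 2 =
      mdE ν W (fun _ z => (W1 x z - mdE ν W W1 x) ^ 2) x := by
  have hZ := h.Z_pos x
  have i1 := h.int_W1 x
  have i2 := h.int_W1sq x
  have i0 := h.int_exp x
  set m := mdE ν W W1 x with hm
  have i3 : Integrable (fun z => W1 x z ^ 2 * Real.exp (-W x z) -
      2 * m * (W1 x z * Real.exp (-W x z))) ν := i2.sub (i1.const_mul _)
  have e : (∫ z, (W1 x z - m) ^ 2 * Real.exp (-W x z) ∂ν) =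
      (∫ z, W1 x z ^ 2 * Real.exp (-W x z) ∂ν) - 2 * m * (∫ z, W1 x z * Real.exp (-W x z) ∂ν)
        + m ^ 2 * ∫ z, Real.exp (-W x z) ∂ν := by
    rw [← integral_const_mul, ← integral_const_mul, ← integral_sub i2 (i1.const_mul _),
      ← integral_add i3 (i0.const_mul _)]
    congr 1
    funext z
    ring
  have e2 : (∫ z, W1 x z * Real.exp (-W x z) ∂ν) = m * ∫ z, Real.exp (-W x z) ∂ν := by
    rw [hm, mdE]
    field_simp
  show (∫ z, W1 x z ^ 2 * Real.exp (-W x z) ∂ν) / _ - m ^ 2 =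
    (∫ z, (W1 x z - m) ^ 2 * Real.exp (-W x z) ∂ν) / _
  rw [e, e2]
  field_simp
  ring

/-- third central moment form -/
theorem MdH.mdE_third (h : MdH ν W W1 W2 W3) (x : ℝ) :
    mdE ν W (fun x z => W1 x z ^ 3) x - 3 * mdE ν W W1 x * mdE ν W (fun x z => W1 x z ^ 2) x
      + 2 * mdE ν W W1 x ^ 3 =
      mdE ν W (fun _ z => (W1 x z - mdE ν W W1 x) ^ 3) x := by
  have hZ := h.Z_pos x
  have i1 := h.int_W1 x
  have i2 := h.int_W1sq x
  have i4 := h.int_W1cube x
  have i0 := h.int_exp x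
  set m := mdE ν W W1 x with hm
  have i3 : Integrable (fun z => W1 x z ^ 3 * Real.exp (-W x z) -
      3 * m * (W1 x z ^ 2 * Real.exp (-W x z))) ν := i4.sub (i2.const_mul _)
  have i5 : Integrable (fun z => W1 x z ^ 3 * Real.exp (-W x z) -
      3 * m * (W1 x z ^ 2 * Real.exp (-W x z)) + 3 * m ^ 2 * (W1 x z * Real.exp (-W x z))) ν :=
    i3.add (i1.const_mul _)
  have e : (∫ z, (W1 x z - m) ^ 3 * Real.exp (-W x z) ∂ν) =
      (∫ z, W1 x z ^ 3 * Real.exp (-W x z) ∂ν) - 3 * m * (∫ z, W1 x z ^ 2 * Real.exp (-W x z) ∂ν)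
        + 3 * m ^ 2 * (∫ z, W1 x z * Real.exp (-W x z) ∂ν) - m ^ 3 * ∫ z, Real.exp (-W x z) ∂ν := by
    rw [← integral_const_mul, ← integral_const_mul, ← integral_const_mul,
      ← integral_sub i4 (i2.const_mul _), ← integral_add i3 (i1.const_mul _),
      ← integral_sub i5 (i0.const_mul _)]
    congr 1
    funext z
    ring
  have e2 : (∫ z, W1 x z * Real.exp (-W x z) ∂ν) = m * ∫ z, Real.exp (-W x z) ∂ν := by
    rw [hm, mdE]
    field_simp
  show (∫ z, W1 x z ^ 3 * Real.exp (-W x z) ∂ν) / _ - 3 * m *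
      ((∫ z, W1 x z ^ 2 * Real.exp (-W x z) ∂ν) / _) + 2 * m ^ 3 =
    (∫ z, (W1 x z - m) ^ 3 * Real.exp (-W x z) ∂ν) / _
  rw [e, e2]
  field_simp
  ring

end General

section Growth

variable {F : Type*} [NormedAddCommGroup F] [InnerProductSpace ℝ F] [FiniteDimensional ℝ F]
  [MeasurableSpace F] [BorelSpace F]

theorem md_integrable_gauss {b : ℝ} (hb : 0 < b) :
    Integrable (fun z : F => Real.exp (-b * ‖z‖ ^ 2)) volume := by
  have h := (GaussianFourier.integrable_cexp_neg_mul_sq_norm_add (V := F) (b := (b : ℂ))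
    (by simpa using hb) 0 0).norm
  refine h.congr (Filter.Eventually.of_forall fun z => ?_)
  simp only [Complex.norm_exp]
  congr 1
  simp [← Complex.ofReal_pow]

/-- growth conditions give the standing hypotheses -/
theorem mdH_of_growth {W W1 W2 W3 : ℝ → F → ℝ}
    (d1 : ∀ x z, HasDerivAt (fun s => W s z) (W1 x z) x)
    (d2 : ∀ x z, HasDerivAt (fun s => W1 s z) (W2 x z) x)
    (d3 : ∀ x z, HasDerivAt (fun s => W2 s z) (W3 x z) x)
    (c0 : ∀ x, Continuous (W x)) (c1 : ∀ x, Continuous (W1 x)) (c2 : ∀ x, Continuous (W2 x))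
    (c3 : ∀ x, Continuous (W3 x)) {al A B : ℝ} (hal : 0 < al) (hA : 0 ≤ A) (hB : 0 ≤ B)
    (hW : ∀ x z, al * ‖z‖ ^ 2 - B * (1 + |x|) * ‖z‖ - B * (1 + |x|) ^ 2 ≤ W x z)
    (h1 : ∀ x z, |W1 x z| ≤ A * (1 + |x| + ‖z‖))
    (h2 : ∀ x z, |W2 x z| ≤ A * (1 + |x| + ‖z‖))
    (h3 : ∀ x z, |W3 x z| ≤ A * (1 + |x| + ‖z‖)) : MdH (volume : Measure F) W W1 W2 W3 where
  d1 := d1
  d2 := d2
  d3 := d3
  m0 := fun x => (c0 x).aestronglyMeasurable
  m1 := fun x => (c1 x).aestronglyMeasurable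
  m2 := fun x => (c2 x).aestronglyMeasurable
  m3 := fun x => (c3 x).aestronglyMeasurable
  pos := by
    intro h
    have := (isOpen_univ (X := F)).measure_pos volume univ_nonempty
    rw [h] at this
    simp at this
  dom := by
    intro x₀
    set R := |x₀| + 1 with hR
    have hR0 : 0 ≤ R := by positivity
    set K := B * (1 + R) + 1 with hK
    have hK0 : 0 < K := by positivity
    set C := (1 + 3 * A * (1 + R)) ^ 3 * 6 * Real.exp (1 + B * (1 + R) ^ 2 + K ^ 2 / (2 * al))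
      with hC
    refine ⟨1, one_pos, fun z => C * Real.exp (-(al / 2) * ‖z‖ ^ 2),
      (md_integrable_gauss (half_pos hal)).const_mul C, ?_⟩
    intro x hx z
    have hxR : |x| ≤ R := by
      rw [mem_ball, Real.dist_eq] at hx
      have : |x| ≤ |x - x₀| + |x₀| := by
        have := abs_add_le (x - x₀) x₀
        simpa using this
      linarith
    have hz0 := norm_nonneg z
    set t := ‖z‖
    have e1 : 1 + |W1 x z| + |W2 x z| + |W3 x z| ≤ (1 + 3 * A * (1 + R)) * (1 + t) := by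
      have g1 : A * (1 + |x| + t) ≤ A * (1 + R) * (1 + t) := by
        have : 1 + |x| + t ≤ (1 + R) * (1 + t) := by nlinarith
        calc A * (1 + |x| + t) ≤ A * ((1 + R) * (1 + t)) := mul_le_mul_of_nonneg_left this hA
          _ = _ := by ring
      have := h1 x z
      have := h2 x z
      have := h3 x z
      nlinarith
    have e0 : 0 ≤ 1 + |W1 x z| + |W2 x z| + |W3 x z| := by positivity
    have e2 : (1 + |W1 x z| + |W2 x z| + |W3 x z|) ^ 3 ≤
        (1 + 3 * A * (1 + R)) ^ 3 * (1 + t) ^ 3 := by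
      rw [← mul_pow]
      exact pow_le_pow_left₀ e0 e1 3
    have e3 : (1 + t) ^ 3 ≤ 6 * Real.exp (1 + t) := by
      have := Real.pow_div_factorial_le_exp (1 + t) (by positivity) 3
      rw [div_le_iff₀ (by positivity)] at this
      have h6 : ((3 : ℕ).factorial : ℝ) = 6 := by norm_num [Nat.factorial]
      rw [h6] at this
      linarith
    have e4 : -W x z ≤ -(al * t ^ 2) + B * (1 + R) * t + B * (1 + R) ^ 2 := by
      have g := hW x z
      have g1 : B * (1 + |x|) * t ≤ B * (1 + R) * t := by gcongr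
      have g2 : B * (1 + |x|) ^ 2 ≤ B * (1 + R) ^ 2 := by gcongr
      linarith
    have e5 : K * t ≤ al / 2 * t ^ 2 + K ^ 2 / (2 * al) := by
      have : 0 ≤ (al * t - K) ^ 2 / (2 * al) := by positivity
      have e : (al * t - K) ^ 2 / (2 * al) = al / 2 * t ^ 2 + K ^ 2 / (2 * al) - K * t := by
        field_simp
        ring
      linarith
    calc (1 + |W1 x z| + |W2 x z| + |W3 x z|) ^ 3 * Real.exp (-W x z)
        ≤ ((1 + 3 * A * (1 + R)) ^ 3 * (6 * Real.exp (1 + t))) *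
          Real.exp (-(al * t ^ 2) + B * (1 + R) * t + B * (1 + R) ^ 2) := by
          refine mul_le_mul (e2.trans ?_) (Real.exp_le_exp.2 e4) (Real.exp_pos _).le (by positivity)
          exact mul_le_mul_of_nonneg_left e3 (by positivity)
      _ = (1 + 3 * A * (1 + R)) ^ 3 * 6 *
          Real.exp (1 + t + (-(al * t ^ 2) + B * (1 + R) * t + B * (1 + R) ^ 2)) := by
          rw [Real.exp_add (1 + t)]
          ring
      _ ≤ (1 + 3 * A * (1 + R)) ^ 3 * 6 *
          Real.exp ((1 + B * (1 + R) ^ 2 + K ^ 2 / (2 * al)) + -(al / 2) * t ^ 2) := by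
          refine mul_le_mul_of_nonneg_left (Real.exp_le_exp.2 ?_) (by positivity)
          rw [hK] at e5 ⊢
          nlinarith
      _ = C * Real.exp (-(al / 2) * t ^ 2) := by
          rw [Real.exp_add, hC]
          ring

end Growth

end Vale.Agent.P227.M.SC
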