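import Vale.Agent.P227.M.SC.Marg1

/-! # P227/M/SC: interface of the static marginal lemma (helper66 / helper389 / helper119). -/

open MeasureTheory

namespace Vale.Agent.P227.M.SC

/-- one-dimensional marginal inequality, normalised, pinching constant `R`,
for all self-concordance constants `≤ c1` -/
def MargR (R c1 : ℝ) : Prop := ∀ (W h om om1 g m m1 a a1 C3 : ℝ → ℝ) (c : ℝ), 0 ≤ c → c ≤ c1 →
  (∀ z, HasDerivAt W (h z) z) → (∀ z, HasDerivAt h (om z) z) → (∀ z, HasDerivAt om (om1 z) z) →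
  (∀ z, HasDerivAt g (m z) z) → (∀ z, HasDerivAt m (m1 z) z) → (∀ z, HasDerivAt a (a1 z) z) →
  Continuous om1 → Continuous m1 → Continuous a1 → Continuous C3 →
  (∀ z x y, x ^ 2 + y ^ 2 ≤ a z * x ^ 2 + 2 * m z * x * y + om z * y ^ 2) →
  (∀ z x y, a z * x ^ 2 + 2 * m z * x * y + om z * y ^ 2 ≤ R * (x ^ 2 + y ^ 2)) →
  (∀ z x y, |C3 z * x ^ 3 + 3 * a1 z * x ^ 2 * y + 3 * m1 z * x * y ^ 2 + om1 z * y ^ 3| ≤
    2 * c * ((a z * x ^ 2 + 2 * m z * x * y + om z * y ^ 2) *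
      √(a z * x ^ 2 + 2 * m z * x * y + om z * y ^ 2))) →
  1 ≤ Marg.EE W a - (Marg.EE W (fun z => g z ^ 2) - Marg.EE W g ^ 2) ∧
  Marg.EE W a - (Marg.EE W (fun z => g z ^ 2) - Marg.EE W g ^ 2) ≤ R ∧
  |Marg.EE W C3 - 3 * (Marg.EE W (fun z => a z * g z) - Marg.EE W a * Marg.EE W g)
    + (Marg.EE W (fun z => g z ^ 3) - 3 * Marg.EE W g * Marg.EE W (fun z => g z ^ 2)
      + 2 * Marg.EE W g ^ 3)| ≤
    2 * c * ((Marg.EE W a - (Marg.EE W (fun z => g z ^ 2) - Marg.EE W g ^ 2)) *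
      √(Marg.EE W a - (Marg.EE W (fun z => g z ^ 2) - Marg.EE W g ^ 2)))

/-- the static marginal lemma -/
def Marg1D : Prop := ∀ R : ℝ, 1 ≤ R → ∃ c1 : ℝ, 0 < c1 ∧ MargR R c1

end Vale.Agent.P227.M.SC
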