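import Vale.Agent.P227.M.Bas
import Vale.Agent.P227.M.LK.Line
import Vale.Agent.P227.M.SC.MargD
import Vale.Agent.P227.M.SC.MargIfc
import Vale.Agent.P227.M.SC2.Fub

/-! # P227/M/SC: adapter of the static marginal lemma (helper66 / helper389) to the `heat` step (helper119).

`Marg1D` (one-dimensional marginal inequality, normalised) and `StmtRG` give `StmtHeatS`:
`SelfConc κ W → SelfConc κ (heat W P)` for `κ ≤ κ0(R)`, `C ≤ R c`. -/

open MeasureTheory Filter Set
open scoped Topology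

namespace Vale.Agent.P227.M.SC.Adp

variable {n : ℕ}

/-! ## directional derivatives -/

/-- directional derivative -/
noncomputable def dd (v : E n) (f : E n → ℝ) (x : E n) : ℝ := fderiv ℝ f x v

theorem dd_smooth {f : E n → ℝ} (hf : ContDiff ℝ (⊤ : ℕ∞) f) (v : E n) :
    ContDiff ℝ (⊤ : ℕ∞) (dd v f) :=
  (hf.fderiv_right (m := (⊤ : ℕ∞)) (by norm_cast)).clm_apply contDiff_const

theorem dd_add_left (f : E n → ℝ) (u v x : E n) : dd (u + v) f x = dd u f x + dd v f x := by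
  simp [dd]

theorem dd_smul_left (f : E n → ℝ) (a : ℝ) (v x : E n) : dd (a • v) f x = a * dd v f x := by
  simp [dd]

theorem dd_zero (f : E n → ℝ) (x : E n) : dd 0 f x = 0 := by
  simp [dd]

theorem dd_comm {f : E n → ℝ} (hf : ContDiff ℝ (⊤ : ℕ∞) f) (u v x : E n) :
    dd u (dd v f) x = dd v (dd u f) x := by
  have h2 : ContDiff ℝ 2 f := hf.of_le (by norm_cast)
  have hd : Differentiable ℝ (fderiv ℝ f) :=
    (h2.fderiv_right (m := 1) (by norm_num)).differentiable (by norm_num)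
  have key : ∀ a b : E n, dd a (dd b f) x = fderiv ℝ (fderiv ℝ f) x a b := by
    intro a b
    unfold dd
    have h := ((hd x).hasFDerivAt.clm_apply (hasFDerivAt_const b x)).fderiv
    have h' : fderiv ℝ (fun y => fderiv ℝ f y b) x =
        (fderiv ℝ f x).comp (0 : E n →L[ℝ] E n) + (fderiv ℝ (fderiv ℝ f) x).flip b := h
    rw [h']
    simp
  rw [key, key]
  have hs : IsSymmSndFDerivAt ℝ f x := by
    refine h2.contDiffAt.isSymmSndFDerivAt ?_
    simp
  exact hs u v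

/-- linear combinations -/
theorem dd_lin (f : E n → ℝ) (a b : ℝ) (u v : E n) :
    dd (a • u + b • v) f = fun x => a * dd u f x + b * dd v f x := by
  funext x
  rw [dd_add_left, dd_smul_left, dd_smul_left]

theorem dd_fun_lin {f g : E n → ℝ} (hf : ContDiff ℝ (⊤ : ℕ∞) f) (hg : ContDiff ℝ (⊤ : ℕ∞) g)
    (a b : ℝ) (w x : E n) :
    dd w (fun x => a * f x + b * g x) x = a * dd w f x + b * dd w g x := by
  have h1 : DifferentiableAt ℝ f x := (hf.differentiable (by simp)).differentiableAt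
  have h2 : DifferentiableAt ℝ g x := (hg.differentiable (by simp)).differentiableAt
  unfold dd
  have h := ((h1.hasFDerivAt.const_mul a).add (h2.hasFDerivAt.const_mul b)).fderiv
  have h' : fderiv ℝ (fun x => a * f x + b * g x) x = a • fderiv ℝ f x + b • fderiv ℝ g x := h
  rw [h']
  simp

theorem hasDerivAt_s {f : E n → ℝ} (hf : ContDiff ℝ (⊤ : ℕ∞) f) (x e q : E n) (s z : ℝ) :
    HasDerivAt (fun s => f (x + s • e + z • q)) (dd e f (x + s • e + z • q)) s := by
  have h1 : HasDerivAt (fun s : ℝ => x + s • e + z • q) e s := by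
    have := ((hasDerivAt_id s).smul_const e).const_add x |>.add_const (z • q)
    simpa using this
  have hd : Differentiable ℝ f := hf.differentiable (by simp)
  exact (hd _).hasFDerivAt.comp_hasDerivAt s h1

theorem hasDerivAt_z {f : E n → ℝ} (hf : ContDiff ℝ (⊤ : ℕ∞) f) (x e q : E n) (s z : ℝ) :
    HasDerivAt (fun z => f (x + s • e + z • q)) (dd q f (x + s • e + z • q)) z := by
  have h1 : HasDerivAt (fun z : ℝ => x + s • e + z • q) q z := by
    have := ((hasDerivAt_id z).smul_const q).const_add (x + s • e)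
    simpa using this
  have hd : Differentiable ℝ f := hf.differentiable (by simp)
  exact (hd _).hasFDerivAt.comp_hasDerivAt z h1

theorem hasDerivAt_l {f : E n → ℝ} (hf : ContDiff ℝ (⊤ : ℕ∞) f) (x e : E n) (s : ℝ) :
    HasDerivAt (fun s => f (x + s • e)) (dd e f (x + s • e)) s := by
  have := hasDerivAt_s hf x e 0 s 0
  simpa using this

/-- iterated derivatives from a chain of derivatives -/
theorem it_of {f f1 f2 f3 : ℝ → ℝ} (h1 : ∀ t, HasDerivAt f (f1 t) t)
    (h2 : ∀ t, HasDerivAt f1 (f2 t) t) (h3 : ∀ t, HasDerivAt f2 (f3 t) t) :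
    iteratedDeriv 2 f = f2 ∧ iteratedDeriv 3 f = f3 := by
  have e1 : deriv f = f1 := funext fun t => (h1 t).deriv
  have e2 : deriv f1 = f2 := funext fun t => (h2 t).deriv
  have e3 : deriv f2 = f3 := funext fun t => (h3 t).deriv
  constructor
  · rw [iteratedDeriv_succ', iteratedDeriv_succ', iteratedDeriv_zero, e1, e2]
  · rw [iteratedDeriv_succ', iteratedDeriv_succ', iteratedDeriv_succ', iteratedDeriv_zero, e1, e2, e3]

theorem it_line {f : E n → ℝ} (hf : ContDiff ℝ (⊤ : ℕ∞) f) (x v : E n) :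
    iteratedDeriv 2 (fun t : ℝ => f (x + t • v)) 0 = dd v (dd v f) x ∧
      iteratedDeriv 3 (fun t : ℝ => f (x + t • v)) 0 = dd v (dd v (dd v f)) x := by
  have h := it_of (f := fun t : ℝ => f (x + t • v)) (f1 := fun t => dd v f (x + t • v))
    (f2 := fun t => dd v (dd v f) (x + t • v)) (f3 := fun t => dd v (dd v (dd v f)) (x + t • v))
    (hasDerivAt_l hf x v) (hasDerivAt_l (dd_smooth hf v) x v)
    (hasDerivAt_l (dd_smooth (dd_smooth hf v) v) x v)
  rw [h.1, h.2]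
  simp

theorem qf_eq_dd {f : E n → ℝ} (hf : ContDiff ℝ (⊤ : ℕ∞) f) (x v : E n) :
    qf (hess f x) v = dd v (dd v f) x := by
  have h1 := LK.iteratedDeriv_two_line hf x v
  rw [(it_line hf x v).1] at h1
  exact h1.symm

/-- second derivative in a combination -/
theorem dd2_lin {f : E n → ℝ} (hf : ContDiff ℝ (⊤ : ℕ∞) f) (a b : ℝ) (u v x : E n) :
    dd (a • u + b • v) (dd (a • u + b • v) f) x =
      dd u (dd u f) x * a ^ 2 + 2 * dd v (dd u f) x * a * b + dd v (dd v f) x * b ^ 2 := by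
  rw [dd_lin f a b u v]
  rw [dd_fun_lin (dd_smooth hf u) (dd_smooth hf v)]
  rw [dd_lin, dd_lin]
  simp only
  rw [dd_comm hf u v x]
  ring

/-- third derivative in a combination -/
theorem dd3_lin {f : E n → ℝ} (hf : ContDiff ℝ (⊤ : ℕ∞) f) (a b : ℝ) (u v x : E n) :
    dd (a • u + b • v) (dd (a • u + b • v) (dd (a • u + b • v) f)) x =
      dd u (dd u (dd u f)) x * a ^ 3 + 3 * dd v (dd u (dd u f)) x * a ^ 2 * b
        + 3 * dd v (dd v (dd u f)) x * a * b ^ 2 + dd v (dd v (dd v f)) x * b ^ 3 := by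
  have e0 : dd (a • u + b • v) (dd (a • u + b • v) f) = fun x =>
      a * (a * dd u (dd u f) x + b * dd v (dd u f) x) + b * (a * dd v (dd u f) x + b * dd v (dd v f) x) := by
    funext y
    rw [dd2_lin hf]
    ring
  have s1 := dd_smooth (dd_smooth hf u) u
  have s2 := dd_smooth (dd_smooth hf u) v
  have s3 := dd_smooth (dd_smooth hf v) v
  rw [e0]
  have sA : ContDiff ℝ (⊤ : ℕ∞) (fun x => a * dd u (dd u f) x + b * dd v (dd u f) x) :=
    (contDiff_const.mul s1).add (contDiff_const.mul s2)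
  have sB : ContDiff ℝ (⊤ : ℕ∞) (fun x => a * dd v (dd u f) x + b * dd v (dd v f) x) :=
    (contDiff_const.mul s2).add (contDiff_const.mul s3)
  rw [dd_fun_lin sA sB, dd_fun_lin s1 s2, dd_fun_lin s2 s3]
  rw [dd_lin, dd_lin, dd_lin]
  simp only
  rw [dd_comm (dd_smooth hf u) u v x]
  have e1 : dd u (dd v (dd v f)) x = dd v (dd v (dd u f)) x := by
    rw [dd_comm (dd_smooth hf v) u v x]
    have : dd u (dd v f) = dd v (dd u f) := funext fun y => dd_comm hf u v y
    rw [this]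
  rw [e1]
  ring

/-! ## the bilinear forms -/

/-- positive definite symmetric bilinear form -/
structure QB (B : E n → E n → ℝ) : Prop where
  add : ∀ u v w, B (u + v) w = B u w + B v w
  smul : ∀ (a : ℝ) v w, B (a • v) w = a * B v w
  symm : ∀ v w, B v w = B w v
  pos : ∀ v, v ≠ 0 → 0 < B v v

theorem QB.lin {B : E n → E n → ℝ} (h : QB B) (a b : ℝ) (u v : E n) :
    B (a • u + b • v) (a • u + b • v) = B u u * a ^ 2 + 2 * B u v * a * b + B v v * b ^ 2 := by
  have h1 : ∀ w, B (a • u + b • v) w = a * B u w + b * B v w := fun w => by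
    rw [h.add, h.smul, h.smul]
  rw [h1, h.symm u, h.symm v (a • u + b • v), h1, h1, h.symm v u]
  ring

theorem QB.zero_left {B : E n → E n → ℝ} (h : QB B) (w : E n) : B 0 w = 0 := by
  have := h.smul 0 0 w
  simpa using this

theorem QB.nonneg {B : E n → E n → ℝ} (h : QB B) (v : E n) : 0 ≤ B v v := by
  by_cases hv : v = 0
  · rw [hv, h.zero_left]
  · exact (h.pos v hv).le

theorem QB.cs {B : E n → E n → ℝ} (h : QB B) (u v : E n) : B u v ^ 2 ≤ B u u * B v v := by
  by_cases hv : v = 0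
  · rw [hv, h.symm u 0, h.zero_left, h.zero_left]
    simp
  · have hp := h.pos v hv
    have h1 := h.nonneg ((1 : ℝ) • u + (-(B u v / B v v)) • v)
    rw [h.lin] at h1
    have h2 : B u u * 1 ^ 2 + 2 * B u v * 1 * (-(B u v / B v v)) + B v v * (-(B u v / B v v)) ^ 2 =
        (B u u * B v v - B u v ^ 2) / B v v := by
      field_simp
      ring
    rw [h2] at h1
    have h3 : 0 ≤ B u u * B v v - B u v ^ 2 := by
      by_contra hc
      push Not at hc
      have := div_neg_of_neg_of_pos hc hp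
      linarith
    linarith

/-- the form after one Gaussian average in the direction `p` -/
noncomputable def nb (p : E n) (B : E n → E n → ℝ) (v w : E n) : ℝ :=
  B v w - B v p * B w p / (1 + B p p)

theorem QB.nb_pos {B : E n → E n → ℝ} (h : QB B) (p : E n) {v : E n} (hv : v ≠ 0) :
    0 < nb p B v v := by
  have hp := h.nonneg p
  have h1 := h.cs v p
  have h2 := h.pos v hv
  have h3 : nb p B v v = (B v v + (B v v * B p p - B v p ^ 2)) / (1 + B p p) := by
    unfold nb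
    field_simp
    ring
  rw [h3]
  have : 0 < 1 + B p p := by linarith
  apply div_pos _ this
  linarith

theorem QB.nb {B : E n → E n → ℝ} (h : QB B) (p : E n) : QB (nb p B) where
  add := fun u v w => by
    unfold Adp.nb
    rw [h.add, h.add]
    ring
  smul := fun a v w => by
    unfold Adp.nb
    rw [h.smul, h.smul]
    ring
  symm := fun v w => by
    unfold Adp.nb
    rw [h.symm v w]
    ring
  pos := fun v hv => h.nb_pos p hv

/-- completion of the square -/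
theorem QB.square {B : E n → E n → ℝ} (h : QB B) (p v : E n) (al be : ℝ) :
    B (al • v + be • p) (al • v + be • p) + be ^ 2 =
      (1 + B p p) * (be + B v p / (1 + B p p) * al) ^ 2 + Adp.nb p B v v * al ^ 2 := by
  have hp := h.nonneg p
  have : (1 + B p p) ≠ 0 := by linarith
  rw [h.lin]
  unfold Adp.nb
  field_simp
  ring

/-! ## the two-variable function -/

theorem mul_sqrt_mono {a b : ℝ} (ha : 0 ≤ a) (hab : a ≤ b) : a * √a ≤ b * √b :=
  mul_le_mul hab (Real.sqrt_le_sqrt hab) (Real.sqrt_nonneg _) (ha.trans hab)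

theorem rpow_three_half' {x : ℝ} (hx : 0 ≤ x) : x ^ ((3 : ℝ) / 2) = x * √x := by
  rw [LK.rpow_three_half hx]
  nth_rewrite 2 [← Real.sq_sqrt hx]
  ring

/-- the substitution `g = lam z + mu s` -/
theorem subst_int (G : ℝ → ℝ) {lam : ℝ} (hl : 0 < lam) (b : ℝ) :
    ∫ g, G g = lam * ∫ z, G (lam * z + b) := by
  have h1 := MeasureTheory.Measure.integral_comp_mul_left (fun y => G (y + b)) lam
  rw [integral_add_right_eq_self] at h1
  rw [h1, abs_of_pos (inv_pos.2 hl), smul_eq_mul, ← mul_assoc, mul_inv_cancel₀ hl.ne', one_mul]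

section core

variable {W : E n → ℝ} {c C κ : ℝ}

/-- the two-variable function -/
noncomputable def F0 (W : E n → ℝ) (x e q : E n) (lam mu s z : ℝ) : ℝ :=
  W (x + s • e + z • q) + (lam * z + mu * s) ^ 2 / 2
noncomputable def F1 (W : E n → ℝ) (x e q : E n) (lam mu s z : ℝ) : ℝ :=
  dd e W (x + s • e + z • q) + mu * (lam * z + mu * s)
noncomputable def F2 (W : E n → ℝ) (x e q : E n) (mu s z : ℝ) : ℝ :=
  dd e (dd e W) (x + s • e + z • q) + mu ^ 2
noncomputable def F3 (W : E n → ℝ) (x e q : E n) (s z : ℝ) : ℝ :=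
  dd e (dd e (dd e W)) (x + s • e + z • q)

theorem sc_dd (hW : Reg W c C) (hs : SelfConc κ W) (y w : E n) :
    |dd w (dd w (dd w W)) y| ≤ 2 * κ * (dd w (dd w W) y * √(dd w (dd w W) y)) := by
  have h := hs y w
  rw [(it_line hW.smooth y w).1, (it_line hW.smooth y w).2] at h
  have h0 : 0 ≤ dd w (dd w W) y := by
    rw [← qf_eq_dd hW.smooth]
    exact LK.qf_nonneg_of_reg hW y w
  rw [rpow_three_half' h0] at h
  exact h

theorem cont_line {f : E n → ℝ} (hf : Continuous f) (x e q : E n) (s : ℝ) :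
    Continuous fun z : ℝ => f (x + s • e + z • q) :=
  hf.comp (by fun_prop)

theorem le_lin {a K s z : ℝ} (h : |a| ≤ K) : |a| ≤ K * (1 + |s| + |z|) := by
  have hK : 0 ≤ K := (abs_nonneg _).trans h
  have h1 : K * 1 ≤ K * (1 + |s| + |z|) :=
    mul_le_mul_of_nonneg_left (by linarith [abs_nonneg s, abs_nonneg z]) hK
  linarith

theorem lin_mono {a K K' s z : ℝ} (h : a ≤ K * (1 + |s| + |z|)) (hK : K ≤ K') :
    a ≤ K' * (1 + |s| + |z|) :=
  h.trans (mul_le_mul_of_nonneg_right hK (by positivity))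

theorem hny (x e q : E n) (s z : ℝ) :
    ‖x + s • e + z • q‖ ≤ (‖x‖ + ‖e‖ + ‖q‖) * (1 + |s| + |z|) := by
  have h1 : ‖x + s • e + z • q‖ ≤ ‖x‖ + |s| * ‖e‖ + |z| * ‖q‖ := by
    refine (norm_add_le _ _).trans (add_le_add ((norm_add_le _ _).trans (add_le_add le_rfl ?_)) ?_)
    · rw [norm_smul, Real.norm_eq_abs]
    · rw [norm_smul, Real.norm_eq_abs]
  have hx := norm_nonneg x
  have he := norm_nonneg e
  have hq := norm_nonneg q
  have h3 := abs_nonneg s
  have h4 := abs_nonneg z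
  have e1 : (‖x‖ + ‖e‖ + ‖q‖) * (1 + |s| + |z|) - (‖x‖ + |s| * ‖e‖ + |z| * ‖q‖) =
      ‖x‖ * |s| + ‖x‖ * |z| + ‖e‖ + ‖e‖ * |z| + ‖q‖ + ‖q‖ * |s| := by ring
  have e2 : 0 ≤ ‖x‖ * |s| + ‖x‖ * |z| + ‖e‖ + ‖e‖ * |z| + ‖q‖ + ‖q‖ * |s| := by positivity
  linarith

theorem F0_low (hW : Reg W c C) : ∃ A0 : ℝ, 0 ≤ A0 ∧ ∀ (x e q : E n) (lam mu s z : ℝ),
    lam ^ 2 / 4 * ‖z‖ ^ 2 - (A0 + mu ^ 2 / 2) * (1 + |s|) * ‖z‖ - (A0 + mu ^ 2 / 2) * (1 + |s|) ^ 2 ≤
      F0 W x e q lam mu s z := by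
  obtain ⟨A, hA⟩ := hW.quad_lower
  refine ⟨|A|, abs_nonneg A, fun x e q lam mu s z => ?_⟩
  have h1 := hA (x + s • e + z • q)
  have hc := hW.c_pos
  have h2 : 0 ≤ c / 4 * ‖x + s • e + z • q‖ ^ 2 := by positivity
  have h3 : -|A| ≤ W (x + s • e + z • q) := by
    have := le_abs_self A
    linarith
  have h4 : lam ^ 2 / 4 * z ^ 2 - mu ^ 2 / 2 * s ^ 2 ≤ (lam * z + mu * s) ^ 2 / 2 := by
    have h := sq_nonneg (lam * z + 2 * (mu * s))
    have e : (lam * z + mu * s) ^ 2 / 2 - (lam ^ 2 / 4 * z ^ 2 - mu ^ 2 / 2 * s ^ 2) =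
        (lam * z + 2 * (mu * s)) ^ 2 / 4 := by ring
    linarith
  simp only [F0, Real.norm_eq_abs, sq_abs]
  have hs0 := abs_nonneg s
  have hz0 := abs_nonneg z
  have hs2 : |s| ^ 2 = s ^ 2 := sq_abs s
  have h5 : 0 ≤ (|A| + mu ^ 2 / 2) * (1 + |s|) * |z| := by positivity
  have h6 : |A| + mu ^ 2 / 2 * s ^ 2 ≤ (|A| + mu ^ 2 / 2) * (1 + |s|) ^ 2 := by
    rw [← hs2]
    have e : (|A| + mu ^ 2 / 2) * (1 + |s|) ^ 2 - (|A| + mu ^ 2 / 2 * |s| ^ 2) =
        |A| * (2 * |s| + |s| ^ 2) + mu ^ 2 / 2 * (1 + 2 * |s|) := by ring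
    have e2 : 0 ≤ |A| * (2 * |s| + |s| ^ 2) + mu ^ 2 / 2 * (1 + 2 * |s|) := by positivity
    linarith
  linarith

theorem F1_bd (hW : Reg W c C) (x e q : E n) (lam mu : ℝ) : ∃ K : ℝ, 0 ≤ K ∧ ∀ s z : ℝ,
    |F1 W x e q lam mu s z| ≤ K * (1 + |s| + |z|) := by
  obtain ⟨B2, hB2⟩ := hW.bdd 2 le_rfl
  have hB20 : 0 ≤ B2 := (norm_nonneg _).trans (hB2 0)
  refine ⟨(‖fderiv ℝ W 0‖ + B2 * (‖x‖ + ‖e‖ + ‖q‖)) * ‖e‖ + |mu| * (|lam| + |mu|), by positivity,
    fun s z => ?_⟩
  have hs0 := abs_nonneg s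
  have hz0 := abs_nonneg z
  have h1 : |dd e W (x + s • e + z • q)| ≤ (‖fderiv ℝ W 0‖ + B2 * ‖x + s • e + z • q‖) * ‖e‖ := by
    have := (fderiv ℝ W (x + s • e + z • q)).le_opNorm e
    rw [Real.norm_eq_abs] at this
    refine this.trans ?_
    gcongr
    exact norm_fderiv_le hW.C2 hB2 _
  have h2 := hny x e q s z
  have h3 : |mu * (lam * z + mu * s)| ≤ |mu| * (|lam| + |mu|) * (1 + |s| + |z|) := by
    rw [abs_mul, mul_assoc]
    refine mul_le_mul_of_nonneg_left ?_ (abs_nonneg _)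
    refine (abs_add_le _ _).trans ?_
    rw [abs_mul, abs_mul]
    have e : (|lam| + |mu|) * (1 + |s| + |z|) - (|lam| * |z| + |mu| * |s|) =
        |lam| * (1 + |s|) + |mu| * (1 + |z|) := by ring
    have e2 : 0 ≤ |lam| * (1 + |s|) + |mu| * (1 + |z|) := by positivity
    linarith
  have h5 : ‖fderiv ℝ W 0‖ + B2 * ‖x + s • e + z • q‖ ≤
      (‖fderiv ℝ W 0‖ + B2 * (‖x‖ + ‖e‖ + ‖q‖)) * (1 + |s| + |z|) := by
    have h6 : B2 * ‖x + s • e + z • q‖ ≤ B2 * ((‖x‖ + ‖e‖ + ‖q‖) * (1 + |s| + |z|)) :=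
      mul_le_mul_of_nonneg_left h2 hB20
    have e : (‖fderiv ℝ W 0‖ + B2 * (‖x‖ + ‖e‖ + ‖q‖)) * (1 + |s| + |z|) =
      ‖fderiv ℝ W 0‖ + B2 * ((‖x‖ + ‖e‖ + ‖q‖) * (1 + |s| + |z|)) + ‖fderiv ℝ W 0‖ * (|s| + |z|) := by
      ring
    have e2 : 0 ≤ ‖fderiv ℝ W 0‖ * (|s| + |z|) := by positivity
    linarith
  have h4 : (‖fderiv ℝ W 0‖ + B2 * ‖x + s • e + z • q‖) * ‖e‖ ≤
      (‖fderiv ℝ W 0‖ + B2 * (‖x‖ + ‖e‖ + ‖q‖)) * ‖e‖ * (1 + |s| + |z|) := by
    calc (‖fderiv ℝ W 0‖ + B2 * ‖x + s • e + z • q‖) * ‖e‖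
        ≤ ((‖fderiv ℝ W 0‖ + B2 * (‖x‖ + ‖e‖ + ‖q‖)) * (1 + |s| + |z|)) * ‖e‖ :=
          mul_le_mul_of_nonneg_right h5 (norm_nonneg _)
      _ = _ := by ring
  unfold F1
  refine (abs_add_le _ _).trans ?_
  rw [add_mul]
  exact add_le_add (h1.trans h4) h3

theorem F2_bd (hW : Reg W c C) (x e q : E n) (mu : ℝ) : ∃ K : ℝ, 0 ≤ K ∧ ∀ s z : ℝ,
    |F2 W x e q mu s z| ≤ K := by
  refine ⟨|C| * ‖e‖ ^ 2 + mu ^ 2, by positivity, fun s z => ?_⟩
  have h0 : 0 ≤ dd e (dd e W) (x + s • e + z • q) := by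
    rw [← qf_eq_dd hW.smooth]
    exact LK.qf_nonneg_of_reg hW _ e
  have h1 : dd e (dd e W) (x + s • e + z • q) ≤ |C| * ‖e‖ ^ 2 := by
    rw [← qf_eq_dd hW.smooth]
    refine (hW.upper _ e).trans ?_
    gcongr
    exact le_abs_self C
  unfold F2
  rw [abs_of_nonneg (add_nonneg h0 (sq_nonneg _))]
  linarith

theorem F3_bd (hW : Reg W c C) (hκ : 0 ≤ κ) (hs : SelfConc κ W) (x e q : E n) :
    ∃ K : ℝ, 0 ≤ K ∧ ∀ s z : ℝ, |F3 W x e q s z| ≤ K := by
  refine ⟨2 * κ * (|C| * ‖e‖ ^ 2 * √(|C| * ‖e‖ ^ 2)), by positivity, fun s z => ?_⟩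
  have h0 : 0 ≤ dd e (dd e W) (x + s • e + z • q) := by
    rw [← qf_eq_dd hW.smooth]
    exact LK.qf_nonneg_of_reg hW _ e
  have h1 : dd e (dd e W) (x + s • e + z • q) ≤ |C| * ‖e‖ ^ 2 := by
    rw [← qf_eq_dd hW.smooth]
    refine (hW.upper _ e).trans ?_
    gcongr
    exact le_abs_self C
  unfold F3
  refine (sc_dd hW hs _ _).trans ?_
  exact mul_le_mul_of_nonneg_left (mul_sqrt_mono h0 h1) (by positivity)

/-- the standing hypotheses of helper546 -/
theorem mdh (hW : Reg W c C) (hκ : 0 ≤ κ) (hs : SelfConc κ W) (x e q : E n) {lam mu : ℝ} (hl : 0 < lam) :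
    MdH (volume : Measure ℝ) (F0 W x e q lam mu) (F1 W x e q lam mu) (F2 W x e q mu)
      (F3 W x e q) := by
  have hsm := hW.smooth
  obtain ⟨A0, hA0, hF0⟩ := F0_low hW
  obtain ⟨K1, hK1, hF1⟩ := F1_bd hW x e q lam mu
  obtain ⟨K2, hK2, hF2⟩ := F2_bd hW x e q mu
  obtain ⟨K3, hK3, hF3⟩ := F3_bd hW hκ hs x e q
  refine mdH_of_growth (F := ℝ) (al := lam ^ 2 / 4) (A := K1 + K2 + K3) (B := A0 + mu ^ 2 / 2)
    ?_ ?_ ?_ ?_ ?_ ?_ ?_ (by positivity) (by positivity) (by positivity) ?_ ?_ ?_ ?_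
  · intro s z
    have h1 := (hasDerivAt_s hsm x e q s z).add
      (((((hasDerivAt_id s).const_mul mu).const_add (lam * z)).pow 2).div_const 2)
    refine h1.congr_deriv ?_
    simp only [F1, id_eq]
    push_cast
    ring
  · intro s z
    have h1 := (hasDerivAt_s (dd_smooth hsm e) x e q s z).add
      ((((hasDerivAt_id s).const_mul mu).const_add (lam * z)).const_mul mu)
    refine h1.congr_deriv ?_
    simp only [F2]
    ring
  · intro s z
    exact (hasDerivAt_s (dd_smooth (dd_smooth hsm e) e) x e q s z).add_const (mu ^ 2)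
  · intro s
    exact (cont_line hsm.continuous x e q s).add (by fun_prop)
  · intro s
    exact (cont_line (dd_smooth hsm e).continuous x e q s).add (by fun_prop)
  · intro s
    exact (cont_line (dd_smooth (dd_smooth hsm e) e).continuous x e q s).add (by fun_prop)
  · intro s
    exact cont_line (dd_smooth (dd_smooth (dd_smooth hsm e) e) e).continuous x e q s
  · intro s z
    exact hF0 x e q lam mu s z
  · intro s z
    rw [Real.norm_eq_abs]
    exact lin_mono (hF1 s z) (by linarith)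
  · intro s z
    rw [Real.norm_eq_abs]
    exact lin_mono (le_lin (hF2 s z)) (by linarith)
  · intro s z
    rw [Real.norm_eq_abs]
    exact lin_mono (le_lin (hF3 s z)) (by linarith)

/-- the marginal function of the sheared, scaled plane -/
noncomputable def UU (W : E n → ℝ) (x e q : E n) (lam mu s : ℝ) : ℝ :=
  -Real.log (∫ z : ℝ, Real.exp (-F0 W x e q lam mu s z))

theorem heat1_eq (hW : Reg W c C) (hκ : 0 ≤ κ) (hs : SelfConc κ W) (x v p : E n) {lam mu al rb : ℝ}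
    (hl : 0 < lam) (hr : al * rb = 1) (t : ℝ) :
    Fub.heat1 W p (x + t • v) =
      -Real.log lam + UU W x (al • v + mu • p) (lam • p) lam mu (rb * t) := by
  have hM := mdh hW hκ hs x (al • v + mu • p) (lam • p) (mu := mu) hl
  have hZ := hM.Z_pos (rb * t)
  have h1 := subst_int (fun g => Real.exp (-W (x + t • v + g • p) - g ^ 2 / 2)) hl (mu * (rb * t))
  have h2 : (fun z : ℝ => Real.exp (-W (x + t • v + (lam * z + mu * (rb * t)) • p)
      - (lam * z + mu * (rb * t)) ^ 2 / 2)) =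
      fun z => Real.exp (-F0 W x (al • v + mu • p) (lam • p) lam mu (rb * t) z) := by
    funext z
    have e1 : x + t • v + (lam * z + mu * (rb * t)) • p =
        x + (rb * t) • (al • v + mu • p) + z • (lam • p) := by
      have : (rb * t) • (al • v + mu • p) = t • v + (mu * (rb * t)) • p := by
        rw [smul_add, smul_smul, smul_smul]
        congr 1
        · congr 1
          calc rb * t * al = (al * rb) * t := by ring
            _ = t := by rw [hr, one_mul]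
        · congr 1
          ring
      rw [this, smul_smul, add_smul, mul_comm lam z]
      abel
    rw [F0, e1]
    congr 1
    ring
  unfold Fub.heat1 UU
  rw [h1, h2, Real.log_mul hl.ne' hZ.ne']
  ring

end core

theorem final_alg {R κ nbv rb : ℝ} (hrb : 0 < rb) (hrb2 : rb ^ 2 = nbv)
    (e2 e11 e1 e3 e12 e111 : ℝ) (k1 : 1 ≤ e2 - (e11 - e1 ^ 2)) (k2 : e2 - (e11 - e1 ^ 2) ≤ R)
    (k3 : |e3 - 3 * (e12 - e2 * e1) + (e111 - 3 * e1 * e11 + 2 * e1 ^ 3)| ≤
      2 * κ * ((e2 - (e11 - e1 ^ 2)) * √(e2 - (e11 - e1 ^ 2)))) :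
    nbv ≤ (e2 - e11 + e1 ^ 2) * rb * rb ∧ (e2 - e11 + e1 ^ 2) * rb * rb ≤ R * nbv ∧
    |(e3 - 3 * (e12 - e1 * e2) + (e111 - 3 * e1 * e11 + 2 * e1 ^ 3)) * rb * rb * rb| ≤
      2 * κ * ((e2 - e11 + e1 ^ 2) * rb * rb) ^ ((3 : ℝ) / 2) := by
  have hD : e2 - e11 + e1 ^ 2 = e2 - (e11 - e1 ^ 2) := by ring
  rw [hD]
  set D := e2 - (e11 - e1 ^ 2) with hDd
  have hD0 : 0 ≤ D := by linarith
  have hX : e3 - 3 * (e12 - e1 * e2) + (e111 - 3 * e1 * e11 + 2 * e1 ^ 3) =
      e3 - 3 * (e12 - e2 * e1) + (e111 - 3 * e1 * e11 + 2 * e1 ^ 3) := by ring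
  rw [hX]
  set X := e3 - 3 * (e12 - e2 * e1) + (e111 - 3 * e1 * e11 + 2 * e1 ^ 3) with hXd
  have hr2 : 0 < rb ^ 2 := by positivity
  have hDr : D * rb * rb = D * rb ^ 2 := by ring
  refine ⟨?_, ?_, ?_⟩
  · rw [hDr, ← hrb2]
    nlinarith
  · rw [hDr, ← hrb2]
    nlinarith
  · have h0 : 0 ≤ D * rb * rb := by positivity
    rw [rpow_three_half' h0, hDr, Real.sqrt_mul hD0, Real.sqrt_sq hrb.le]
    have e1' : X * rb * rb * rb = X * rb ^ 3 := by ring
    rw [e1', abs_mul, abs_of_pos (show 0 < rb ^ 3 by positivity)]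
    calc |X| * rb ^ 3 ≤ (2 * κ * (D * √D)) * rb ^ 3 :=
          mul_le_mul_of_nonneg_right k3 (by positivity)
      _ = 2 * κ * (D * rb ^ 2 * (√D * rb)) := by ring

/-- one direction: bounds for the second and third line derivative of `heat1 W p` -/
theorem core {R c1 κ : ℝ} (hR : 1 ≤ R) (hM : MargR R c1) (hκ : 0 ≤ κ) (hκ1 : κ ≤ c1)
    {W : E n → ℝ} {c C : ℝ} (hW : Reg W c C) (hs : SelfConc κ W) {B : E n → E n → ℝ} (hB : QB B)
    (lo : ∀ x v, B v v ≤ dd v (dd v W) x) (hi : ∀ x v, dd v (dd v W) x ≤ R * B v v)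
    (p x v : E n) (hv : v ≠ 0) :
    nb p B v v ≤ iteratedDeriv 2 (fun t : ℝ => Fub.heat1 W p (x + t • v)) 0 ∧
    iteratedDeriv 2 (fun t : ℝ => Fub.heat1 W p (x + t • v)) 0 ≤ R * nb p B v v ∧
    |iteratedDeriv 3 (fun t : ℝ => Fub.heat1 W p (x + t • v)) 0| ≤
      2 * κ * (iteratedDeriv 2 (fun t : ℝ => Fub.heat1 W p (x + t • v)) 0) ^ ((3 : ℝ) / 2) := by
  have hsm := hW.smooth
  have hp := hB.nonneg p
  have hA : 0 < 1 + B p p := by linarith
  have hb := hB.nb_pos p hv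
  -- constants
  obtain ⟨lam, hl, hlA⟩ : ∃ lam : ℝ, 0 < lam ∧ lam ^ 2 * (1 + B p p) = 1 := by
    refine ⟨(√(1 + B p p))⁻¹, inv_pos.2 (Real.sqrt_pos.2 hA), ?_⟩
    rw [inv_pow, Real.sq_sqrt hA.le, inv_mul_cancel₀ hA.ne']
  obtain ⟨rb, hrb, hrb2⟩ : ∃ rb : ℝ, 0 < rb ∧ rb ^ 2 = nb p B v v :=
    ⟨√(nb p B v v), Real.sqrt_pos.2 hb, Real.sq_sqrt hb.le⟩
  obtain ⟨al, hal⟩ : ∃ al : ℝ, al * rb = 1 := ⟨rb⁻¹, inv_mul_cancel₀ hrb.ne'⟩
  obtain ⟨mu, hmu⟩ : ∃ mu : ℝ, mu + B v p / (1 + B p p) * al = 0 :=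
    ⟨-(B v p / (1 + B p p) * al), by ring⟩
  set e : E n := al • v + mu • p with he
  set q : E n := lam • p with hq
  have hMd := mdh hW hκ hs x e q (mu := mu) hl
  -- the normalisation
  have hsq : ∀ X Y : ℝ, B (X • e + Y • q) (X • e + Y • q) + (mu * X + lam * Y) ^ 2 = X ^ 2 + Y ^ 2 := by
    intro X Y
    have e1 : X • e + Y • q = (X * al) • v + (mu * X + lam * Y) • p := by
      rw [he, hq, smul_add, smul_smul, smul_smul, smul_smul, add_smul, mul_comm X mu, mul_comm Y lam]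
      abel
    rw [e1, hB.square p v (X * al) (mu * X + lam * Y)]
    have e2 : mu * X + lam * Y + B v p / (1 + B p p) * (X * al) = lam * Y := by
      have : mu * X + lam * Y + B v p / (1 + B p p) * (X * al) =
        (mu + B v p / (1 + B p p) * al) * X + lam * Y := by ring
      rw [this, hmu]
      ring
    rw [e2, ← hrb2]
    have e3 : (1 + B p p) * (lam * Y) ^ 2 + rb ^ 2 * (X * al) ^ 2 =
      (lam ^ 2 * (1 + B p p)) * Y ^ 2 + (al * rb) ^ 2 * X ^ 2 := by ring
    rw [e3, hlA, hal]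
    ring
  -- the one-dimensional inequality
  have hform : ∀ z X Y : ℝ, F2 W x e q mu 0 z * X ^ 2
      + 2 * (dd q (dd e W) (x + (0 : ℝ) • e + z • q) + mu * lam) * X * Y
      + (dd q (dd q W) (x + (0 : ℝ) • e + z • q) + lam ^ 2) * Y ^ 2 =
      dd (X • e + Y • q) (dd (X • e + Y • q) W) (x + (0 : ℝ) • e + z • q)
        + (mu * X + lam * Y) ^ 2 := by
    intro z X Y
    rw [dd2_lin hsm]
    unfold F2
    ring
  have hnn : ∀ y w : E n, 0 ≤ dd w (dd w W) y := fun y w => (hB.nonneg w).trans (lo y w)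
  have h1 := hM (F0 W x e q lam mu 0)
    (fun z => dd q W (x + (0 : ℝ) • e + z • q) + lam * (lam * z + mu * 0))
    (fun z => dd q (dd q W) (x + (0 : ℝ) • e + z • q) + lam ^ 2)
    (fun z => dd q (dd q (dd q W)) (x + (0 : ℝ) • e + z • q))
    (F1 W x e q lam mu 0)
    (fun z => dd q (dd e W) (x + (0 : ℝ) • e + z • q) + mu * lam)
    (fun z => dd q (dd q (dd e W)) (x + (0 : ℝ) • e + z • q))
    (F2 W x e q mu 0)
    (fun z => dd q (dd e (dd e W)) (x + (0 : ℝ) • e + z • q))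
    (F3 W x e q 0) κ hκ hκ1
    (fun z => by
      have h1 := (hasDerivAt_z hsm x e q 0 z).add
        (((((hasDerivAt_id z).const_mul lam).add_const (mu * 0)).pow 2).div_const 2)
      refine h1.congr_deriv ?_
      simp only [id_eq]
      push_cast
      ring)
    (fun z => by
      have h1 := (hasDerivAt_z (dd_smooth hsm q) x e q 0 z).add
        ((((hasDerivAt_id z).const_mul lam).add_const (mu * 0)).const_mul lam)
      refine h1.congr_deriv ?_
      ring)
    (fun z => (hasDerivAt_z (dd_smooth (dd_smooth hsm q) q) x e q 0 z).add_const (lam ^ 2))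
    (fun z => by
      have h1 := (hasDerivAt_z (dd_smooth hsm e) x e q 0 z).add
        ((((hasDerivAt_id z).const_mul lam).add_const (mu * 0)).const_mul mu)
      refine h1.congr_deriv ?_
      ring)
    (fun z => (hasDerivAt_z (dd_smooth (dd_smooth hsm e) q) x e q 0 z).add_const (mu * lam))
    (fun z => (hasDerivAt_z (dd_smooth (dd_smooth hsm e) e) x e q 0 z).add_const (mu ^ 2))
    (cont_line (dd_smooth (dd_smooth (dd_smooth hsm q) q) q).continuous x e q 0)
    (cont_line (dd_smooth (dd_smooth (dd_smooth hsm e) q) q).continuous x e q 0)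
    (cont_line (dd_smooth (dd_smooth (dd_smooth hsm e) e) q).continuous x e q 0)
    (cont_line (dd_smooth (dd_smooth (dd_smooth hsm e) e) e).continuous x e q 0)
    (fun z X Y => by
      rw [hform z X Y, ← hsq X Y]
      have := lo (x + (0 : ℝ) • e + z • q) (X • e + Y • q)
      linarith)
    (fun z X Y => by
      rw [hform z X Y, ← hsq X Y]
      have := hi (x + (0 : ℝ) • e + z • q) (X • e + Y • q)
      have h3 : 0 ≤ (R - 1) * (mu * X + lam * Y) ^ 2 :=
        mul_nonneg (by linarith) (sq_nonneg _)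
      linarith)
    (fun z X Y => by
      rw [hform z X Y]
      have h3 := sc_dd hW hs (x + (0 : ℝ) • e + z • q) (X • e + Y • q)
      rw [dd3_lin hsm] at h3
      refine (le_of_eq ?_).trans (h3.trans ?_)
      · unfold F3
        rfl
      · refine mul_le_mul_of_nonneg_left ?_ (by positivity)
        exact mul_sqrt_mono (hnn _ _) (by linarith [sq_nonneg (mu * X + lam * Y)]))
  -- derivatives
  set U := UU W x e q lam mu with hU
  have d1 : ∀ s, HasDerivAt U (mdE volume (F0 W x e q lam mu) (F1 W x e q lam mu) s) s :=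
    fun s => hMd.hasDerivAt_U s
  have hline : (fun t : ℝ => Fub.heat1 W p (x + t • v)) = fun t => -Real.log lam + U (rb * t) := by
    funext t
    rw [heat1_eq hW hκ hs x v p hl hal t]
  rw [hline]
  have hmul : ∀ t : ℝ, HasDerivAt (fun t : ℝ => rb * t) rb t := fun t => by
    simpa using (hasDerivAt_id t).const_mul rb
  have g1 : ∀ t, HasDerivAt (fun t => -Real.log lam + U (rb * t))
      (mdE volume (F0 W x e q lam mu) (F1 W x e q lam mu) (rb * t) * rb) t := fun t =>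
    ((d1 (rb * t)).comp t (hmul t)).const_add _
  have g2 : ∀ t, HasDerivAt (fun t => mdE volume (F0 W x e q lam mu) (F1 W x e q lam mu) (rb * t) * rb)
      (_ * rb * rb) t := fun t =>
    ((hMd.hasDerivAt_U' (rb * t)).comp t (hmul t)).mul_const rb
  have g3 : ∀ t, HasDerivAt (fun t => (mdE volume (F0 W x e q lam mu) (F2 W x e q mu) (rb * t)
        - mdE volume (F0 W x e q lam mu) (fun x_1 z => F1 W x e q lam mu x_1 z ^ 2) (rb * t)
        + mdE volume (F0 W x e q lam mu) (F1 W x e q lam mu) (rb * t) ^ 2) * rb * rb)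
      (_ * rb * rb * rb) t := fun t =>
    (((hMd.hasDerivAt_U'' (rb * t)).comp t (hmul t)).mul_const rb).mul_const rb
  obtain ⟨i2, i3⟩ := it_of g1 g2 g3
  rw [i2, i3]
  simp only [mul_zero]
  obtain ⟨k1, k2, k3⟩ := h1
  have E12 : mdE volume (F0 W x e q lam mu)
      (fun s z => F1 W x e q lam mu s z * F2 W x e q mu s z) 0 =
      Marg.EE (F0 W x e q lam mu 0) (fun z => F2 W x e q mu 0 z * F1 W x e q lam mu 0 z) := by
    unfold mdE Marg.EE
    congr 2
    funext z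
    ring
  rw [E12]
  exact final_alg hrb hrb2 _ _ _ _ _ _ k1 k2 k3

/-! ## the class and its closure under one direction -/

/-- the class: regular, self-concordant, pinched between `B` and `R * B` -/
structure Cl (R κ : ℝ) (W : E n → ℝ) (B : E n → E n → ℝ) : Prop where
  reg : ∃ c C : ℝ, Reg W c C
  sc : SelfConc κ W
  qb : QB B
  lo : ∀ x v, B v v ≤ dd v (dd v W) x
  hi : ∀ x v, dd v (dd v W) x ≤ R * B v v

theorem Cl.step (hRG : Fub.StmtRG) {R c1 κ : ℝ} (hR : 1 ≤ R) (hM : MargR R c1) (hκ : 0 ≤ κ)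
    (hκ1 : κ ≤ c1) {W : E n → ℝ} {B : E n → E n → ℝ} (h : Cl R κ W B) (p : E n) :
    Cl R κ (Fub.heat1 W p) (nb p B) := by
  obtain ⟨c, C, hW⟩ := h.reg
  obtain ⟨c', C', hW'⟩ := hRG n W c C hW p
  have key := fun x v hv => core hR hM hκ hκ1 hW h.sc h.qb h.lo h.hi p x v hv
  have hz : ∀ x : E n, dd 0 (dd 0 (Fub.heat1 W p)) x = 0 := fun x => dd_zero _ _
  have hnz : nb p B 0 0 = 0 := (h.qb.nb p).zero_left 0
  refine ⟨⟨c', C', hW'⟩, ?_, h.qb.nb p, ?_, ?_⟩
  · intro x v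
    by_cases hv : v = 0
    · have h2 := it_line hW'.smooth x v
      rw [h2.1, h2.2, hv, dd_zero, dd_zero, abs_zero]
      have : (0 : ℝ) ≤ (0 : ℝ) ^ ((3 : ℝ) / 2) := Real.rpow_nonneg le_rfl _
      positivity
    · exact (key x v hv).2.2
  · intro x v
    by_cases hv : v = 0
    · rw [hv, hz, hnz]
    · rw [← (it_line hW'.smooth x v).1]
      exact (key x v hv).1
  · intro x v
    by_cases hv : v = 0
    · rw [hv, hz, hnz, mul_zero]
    · rw [← (it_line hW'.smooth x v).1]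
      exact (key x v hv).2.1

/-- iteration over finitely many directions -/
theorem Cl.iter (hRG : Fub.StmtRG) {R c1 κ : ℝ} (hR : 1 ≤ R) (hM : MargR R c1) (hκ : 0 ≤ κ)
    (hκ1 : κ ≤ c1) {W : E n → ℝ} {B : E n → E n → ℝ} (h : Cl R κ W B) :
    ∀ (m : ℕ) (p : Fin m → E n), ∃ B', Cl R κ (Fub.heatm W m p) B'
  | 0, p => by
      have : Fub.heatm W 0 p = W := funext (Fub.heatm_zero W p)
      rw [this]
      exact ⟨B, h⟩
  | m + 1, p => by
      obtain ⟨c, C, hW⟩ := h.reg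
      obtain ⟨B', hB'⟩ := Cl.iter hRG hR hM hκ hκ1 h m (fun i => p i.succ)
      have : Fub.heatm W (m + 1) p = Fub.heat1 (Fub.heatm W m (fun i => p i.succ)) (p 0) :=
        funext (Fub.heatm_succ hW m p)
      rw [this]
      exact ⟨_, hB'.step hRG hR hM hκ hκ1 (p 0)⟩

/-- the start form -/
theorem qb_start {c : ℝ} (hc : 0 < c) : QB (fun v w : E n => c * inner ℝ v w) where
  add := fun u v w => by rw [inner_add_left]; ring
  smul := fun a v w => by rw [real_inner_smul_left]; ring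
  symm := fun v w => by rw [real_inner_comm]
  pos := fun v hv => by
    rw [real_inner_self_eq_norm_sq]
    have := norm_pos_iff.2 hv
    positivity

/-- the heat step for small self-concordance constants (static line) -/
def StmtHeatS : Prop := ∀ R : ℝ, 1 ≤ R → ∃ κ0 : ℝ, 0 < κ0 ∧ ∀ (n : ℕ) (W : E n → ℝ) (c C κ : ℝ),
  Reg W c C → C ≤ R * c → 0 ≤ κ → κ ≤ κ0 → SelfConc κ W →
  ∀ P : E n →L[ℝ] E n, SelfConc κ (heat W P)

theorem stmtHeatS_of (hM : Marg1D) (hRG : Fub.StmtRG) : StmtHeatS := by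
  intro R hR
  obtain ⟨c1, hc1, hM1⟩ := hM R hR
  refine ⟨c1, hc1, fun n W c C κ hW hC hκ hκ1 hs P => ?_⟩
  have h0 : Cl R κ W (fun v w : E n => c * inner ℝ v w) := by
    refine ⟨⟨c, C, hW⟩, hs, qb_start hW.c_pos, ?_, ?_⟩
    · intro x v
      rw [← qf_eq_dd hW.smooth, real_inner_self_eq_norm_sq]
      exact hW.lower x v
    · intro x v
      rw [← qf_eq_dd hW.smooth, real_inner_self_eq_norm_sq, ← mul_assoc]
      exact (hW.upper x v).trans (mul_le_mul_of_nonneg_right hC (by positivity))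
  have h1 : heat W P = Fub.heatm W n (fun i => P (ei i)) := funext (Fub.heat_eq W P)
  rw [h1]
  obtain ⟨B', hB'⟩ := Cl.iter hRG hR hM1 hκ hκ1 h0 n (fun i => P (ei i))
  exact hB'.sc

end Vale.Agent.P227.M.SC.Adp
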