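import Mathlib

/-! # P227/M/SC: real algebra of the two-point step. -/

namespace Vale.Agent.P227.M.SC

theorem rpow32_eq {s : ℝ} (hs : 0 ≤ s) : (s ^ 2) ^ ((3 : ℝ) / 2) = s ^ 3 := by
  rw [← Real.rpow_natCast s 2, ← Real.rpow_mul hs, ← Real.rpow_natCast s 3]
  norm_num

/-- tangent line below `x^{3/2}` (all real `x`) -/
theorem rpow32_lower {s x : ℝ} (hs : 0 ≤ s) :
    s ^ 3 + 3 / 2 * s * (x - s ^ 2) ≤ x ^ ((3 : ℝ) / 2) := by
  rcases le_or_gt 0 x with hx | hx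
  · obtain ⟨y, hy, rfl⟩ : ∃ y : ℝ, 0 ≤ y ∧ x = y ^ 2 :=
      ⟨Real.sqrt x, Real.sqrt_nonneg x, (Real.sq_sqrt hx).symm⟩
    rw [rpow32_eq hy]
    have h : 0 ≤ (y - s) ^ 2 * (y + s / 2) := by positivity
    nlinarith [h]
  · have h1 : x ^ ((3 : ℝ) / 2) = 0 := by
      rw [Real.rpow_def_of_neg hx]
      have : Real.cos (3 / 2 * Real.pi) = 0 := by
        have h2 : (3 / 2 * Real.pi : ℝ) = Real.pi + Real.pi / 2 := by ring
        rw [h2, Real.cos_add]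
        simp
      rw [this, mul_zero]
    rw [h1]
    have h3 : s * x ≤ 0 := mul_nonpos_of_nonneg_of_nonpos hs hx.le
    have h4 : 0 ≤ s ^ 3 := by positivity
    nlinarith

/-- second order upper Taylor bound for `x^{3/2}` -/
theorem rpow32_upper {s x : ℝ} (hs : 0 < s) (hx : 0 ≤ x) :
    x ^ ((3 : ℝ) / 2) ≤ s ^ 3 + 3 / 2 * s * (x - s ^ 2) + 3 / (8 * s) * (x - s ^ 2) ^ 2
      + 1 / (2 * s ^ 3) * |x - s ^ 2| ^ 3 := by
  obtain ⟨y, hy, rfl⟩ : ∃ y : ℝ, 0 ≤ y ∧ x = y ^ 2 :=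
    ⟨Real.sqrt x, Real.sqrt_nonneg x, (Real.sq_sqrt hx).symm⟩
  rw [rpow32_eq hy]
  have hfac : y ^ 2 - s ^ 2 = (y - s) * (y + s) := by ring
  have hid : s ^ 3 + 3 / 2 * s * (y ^ 2 - s ^ 2) + 3 / (8 * s) * (y ^ 2 - s ^ 2) ^ 2 - y ^ 3
      = 1 / 2 * (y - s) ^ 3 + 3 / (8 * s) * (y - s) ^ 4 := by
    field_simp
    ring
  have h4 : 0 ≤ 3 / (8 * s) * (y - s) ^ 4 := by positivity
  rcases le_or_gt s y with h | h
  · have h3 : 0 ≤ (y - s) ^ 3 := by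
      have : 0 ≤ y - s := by linarith
      positivity
    have h5 : 0 ≤ 1 / (2 * s ^ 3) * |y ^ 2 - s ^ 2| ^ 3 := by positivity
    linarith
  · have habs : |y ^ 2 - s ^ 2| = (s - y) * (y + s) := by
      rw [hfac, abs_mul, abs_of_neg (by linarith), abs_of_nonneg (by linarith)]; ring
    have h5 : 1 / 2 * (s - y) ^ 3 ≤ 1 / (2 * s ^ 3) * |y ^ 2 - s ^ 2| ^ 3 := by
      rw [habs, mul_pow]
      have h6 : s ^ 3 ≤ (y + s) ^ 3 := pow_le_pow_left₀ hs.le (by linarith) 3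
      have h7 : 0 ≤ (s - y) ^ 3 := by
        have : 0 ≤ s - y := by linarith
        positivity
      have h9 : 1 / 2 * (s - y) ^ 3 = 1 / (2 * s ^ 3) * ((s - y) ^ 3 * s ^ 3) := by
        field_simp
      rw [h9]
      have h10 : 0 ≤ 1 / (2 * s ^ 3) := by positivity
      exact mul_le_mul_of_nonneg_left (mul_le_mul_of_nonneg_left h6 h7) h10
    have h8 : (y - s) ^ 3 = - (s - y) ^ 3 := by ring
    rw [h8] at hid
    linarith

/-- the exact cancellation (981's identity) -/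
theorem key_id (κ s m q : ℝ) (hs : s ≠ 0) :
    -(3 * κ * s * m ^ 2) - 6 * κ * s * ((-1 + κ ^ 2 / 2) * m + κ / (4 * s) * q) * m
      - 3 * κ / (4 * s) * q ^ 2 + 3 * ((-1 + κ ^ 2 / 2) * m + κ / (4 * s) * q) * q + 3 * m * q
      = 3 * κ * s * (1 - κ ^ 2) * m ^ 2 := by
  field_simp
  ring

end Vale.Agent.P227.M.SC
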