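import Vale.Agent.P227.M.Stmts

/-! # P227/M, block SC: `StmtSC` from the marginal lemma (one variable) and the one-dimensional lemma -/

open MeasureTheory
open scoped Topology

namespace Vale.Agent.P227.M.Asm864

/-- append a last coordinate -/
noncomputable def sn {n : ℕ} (x : E n) (z : ℝ) : E (n + 1) :=
  WithLp.toLp 2 (Fin.snoc (α := fun _ => ℝ) x.ofLp z)

/-- potential of the marginal: the last variable is integrated -/
noncomputable def marg {n : ℕ} (W : E (n + 1) → ℝ) (x : E n) : ℝ :=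
  -Real.log (∫ z : ℝ, Real.exp (-W (sn x z)))

@[simp] theorem sn_last {n : ℕ} (x : E n) (z : ℝ) : sn x z (Fin.last n) = z := by
  simp [sn]

@[simp] theorem sn_castSucc {n : ℕ} (x : E n) (z : ℝ) (i : Fin n) : sn x z i.castSucc = x i := by
  simp [sn]

theorem sn_eta {n : ℕ} (v : E (n + 1)) : sn (WithLp.toLp 2 fun i : Fin n => v i.castSucc) (v (Fin.last n)) = v := by
  ext i
  refine Fin.lastCases ?_ (fun i => ?_) i <;> simp

theorem inner_sn {n : ℕ} (x y : E n) (z w : ℝ) : inner ℝ (sn x z) (sn y w) = inner ℝ x y + z * w := by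
  rw [PiLp.inner_apply, PiLp.inner_apply, Fin.sum_univ_castSucc]
  simp [mul_comm]

theorem sn_add {n : ℕ} (x y : E n) (z w : ℝ) : sn (x + y) (z + w) = sn x z + sn y w := by
  ext i
  refine Fin.lastCases ?_ (fun i => ?_) i <;> simp

theorem sn_smul {n : ℕ} (t : ℝ) (x : E n) (z : ℝ) : sn (t • x) (t * z) = t • sn x z := by
  ext i
  refine Fin.lastCases ?_ (fun i => ?_) i <;> simp

theorem norm_sn_sq {n : ℕ} (x : E n) (z : ℝ) : ‖sn x z‖ ^ 2 = ‖x‖ ^ 2 + z ^ 2 := by
  rw [← real_inner_self_eq_norm_sq, ← real_inner_self_eq_norm_sq, inner_sn]; ring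

/-- Fubini on `E (n+1)` -/
theorem integral_sn {n : ℕ} (f : E (n + 1) → ℝ) (hf : Integrable f) :
    ∫ x, f x = ∫ x : E n, ∫ z : ℝ, f (sn x z) := by
  have h1 : ∫ x, f x = ∫ g : Fin (n + 1) → ℝ, f (WithLp.toLp 2 g) := by
    rw [← (PiLp.volume_preserving_toLp (Fin (n + 1))).integral_comp
      (MeasurableEquiv.toLp 2 (Fin (n + 1) → ℝ)).measurableEmbedding]
  have hf1 : Integrable (fun g : Fin (n + 1) → ℝ => f (WithLp.toLp 2 g)) :=
    ((PiLp.volume_preserving_toLp (Fin (n + 1))).integrable_comp_emb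
      (MeasurableEquiv.toLp 2 (Fin (n + 1) → ℝ)).measurableEmbedding).2 hf
  have mp := (volume_preserving_piFinSuccAbove (fun _ : Fin (n + 1) => ℝ) (Fin.last n)).symm
  have h2 : ∫ g : Fin (n + 1) → ℝ, f (WithLp.toLp 2 g) =
      ∫ p : ℝ × (Fin n → ℝ), f (WithLp.toLp 2 (Fin.snoc (α := fun _ => ℝ) p.2 p.1)) := by
    rw [← mp.integral_comp (MeasurableEquiv.measurableEmbedding _)]
    refine integral_congr_ae (Filter.Eventually.of_forall fun p => ?_)
    simp only [MeasurableEquiv.piFinSuccAbove_symm_apply]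
    congr 2
    exact Fin.insertNth_last' p.1 p.2
  have hf2 : Integrable (fun p : ℝ × (Fin n → ℝ) => f (WithLp.toLp 2 (Fin.snoc (α := fun _ => ℝ) p.2 p.1))) := by
    have := (mp.integrable_comp_emb (MeasurableEquiv.measurableEmbedding _)).2 hf1
    refine this.congr (Filter.Eventually.of_forall fun p => ?_)
    simp only [Function.comp, MeasurableEquiv.piFinSuccAbove_symm_apply]
    congr 2
    exact Fin.insertNth_last' p.1 p.2
  rw [h1, h2]
  rw [show (volume : Measure (ℝ × (Fin n → ℝ))) = (volume : Measure ℝ).prod (volume : Measure (Fin n → ℝ)) from rfl] at *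
  rw [integral_prod_symm _ hf2]
  rw [← (PiLp.volume_preserving_toLp (Fin n)).integral_comp
      (MeasurableEquiv.toLp 2 (Fin n → ℝ)).measurableEmbedding]
  rfl

theorem sum_ei {n : ℕ} (v : E n) : ∑ i, v i • (ei i : E n) = v := by
  ext j
  simp [ei, Pi.single_apply]

theorem hess_apply {n : ℕ} {W : E n → ℝ} (hW : ContDiff ℝ 2 W) (x : E n) (i j : Fin n) :
    hess W x i j = fderiv ℝ (fderiv ℝ W) x (ei i) (ei j) := by
  have h1 : DifferentiableAt ℝ (fderiv ℝ W) x :=
    ((hW.fderiv_right (m := 1) (by norm_num)).differentiable (by norm_num)) x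
  unfold hess pd
  rw [fderiv_clm_apply h1 (differentiableAt_const _)]
  simp

theorem qf_hess {n : ℕ} {W : E n → ℝ} (hW : ContDiff ℝ 2 W) (x v : E n) :
    qf (hess W x) v = fderiv ℝ (fderiv ℝ W) x v v := by
  unfold qf
  conv_rhs => rw [← sum_ei v]
  simp only [map_sum, map_smul, _root_.sum_apply, _root_.smul_apply, smul_eq_mul]
  rw [Finset.sum_comm]
  refine Finset.sum_congr rfl fun i _ => ?_
  rw [Finset.mul_sum]
  refine Finset.sum_congr rfl fun j _ => ?_
  rw [hess_apply hW]; ring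

theorem hasDerivAt_line {n : ℕ} {W : E n → ℝ} (hW : ContDiff ℝ 1 W) (x v : E n) (t : ℝ) :
    HasDerivAt (fun t : ℝ => W (x + t • v)) (fderiv ℝ W (x + t • v) v) t := by
  have h1 : HasDerivAt (fun t : ℝ => x + t • v) v t := by
    simpa using ((hasDerivAt_id t).smul_const v).const_add x
  exact ((hW.differentiable (by norm_num) _).hasFDerivAt.comp_hasDerivAt t h1)

theorem hasDerivAt_line2 {n : ℕ} {W : E n → ℝ} (hW : ContDiff ℝ 2 W) (x v : E n) (t : ℝ) :
    HasDerivAt (fun t : ℝ => fderiv ℝ W (x + t • v) v) (qf (hess W (x + t • v)) v) t := by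
  have h1 : HasDerivAt (fun t : ℝ => x + t • v) v t := by
    simpa using ((hasDerivAt_id t).smul_const v).const_add x
  have h2 := ((hW.fderiv_right (m := 1) (by norm_num)).differentiable (by norm_num) (x + t • v)).hasFDerivAt.comp_hasDerivAt t h1
  have h3 := h2.clm_apply (hasDerivAt_const t v)
  rw [qf_hess hW]
  simpa using h3

/-- second order lower bound on `[0,1]` -/
theorem taylor_lower {g g1 g2 : ℝ → ℝ} (h1 : ∀ t, HasDerivAt g (g1 t) t) (h2 : ∀ t, HasDerivAt g1 (g2 t) t)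
    {m : ℝ} (hm : ∀ t, m ≤ g2 t) : g 0 + g1 0 + m / 2 ≤ g 1 := by
  have hmono : ∀ t, 0 ≤ t → g1 0 + m * t ≤ g1 t := by
    have : Monotone fun t => g1 t - m * t := by
      refine monotone_of_deriv_nonneg (fun t => ((h2 t).sub ((hasDerivAt_id t).const_mul m)).differentiableAt) fun t => ?_
      have := ((h2 t).sub ((hasDerivAt_id t).const_mul m)).deriv
      have h5 : deriv (fun t => g1 t - m * t) t = g2 t - m * 1 := this
      rw [h5]; linarith [hm t]
    intro t ht
    have := this ht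
    simp at this; linarith
  have hmono2 : MonotoneOn (fun t => g t - g1 0 * t - m / 2 * t ^ 2) (Set.Ici 0) := by
    have hd : ∀ t, HasDerivAt (fun t => g t - g1 0 * t - m / 2 * t ^ 2) (g1 t - g1 0 - m * t) t := by
      intro t
      have h : HasDerivAt (fun t => g t - g1 0 * t - m / 2 * t ^ 2)
          (g1 t - g1 0 * 1 - m / 2 * ((2 : ℕ) * t ^ (2 - 1) * 1)) t :=
        ((h1 t).sub ((hasDerivAt_id' t).const_mul (g1 0))).sub (((hasDerivAt_id' t).pow 2).const_mul (m / 2))
      refine h.congr_deriv ?_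
      norm_num; ring
    refine monotoneOn_of_deriv_nonneg (convex_Ici 0) (fun t _ => (hd t).continuousAt.continuousWithinAt)
      (fun t _ => (hd t).differentiableAt.differentiableWithinAt) fun t ht => ?_
    rw [interior_Ici] at ht
    rw [(hd t).deriv]
    have := hmono t (le_of_lt ht)
    linarith
  have := hmono2 (Set.mem_Ici.2 le_rfl) (Set.mem_Ici.2 zero_le_one) zero_le_one
  simp at this; linarith

theorem reg_lower {n : ℕ} {W : E n → ℝ} {c C : ℝ} (hW : Reg W c C) (x v : E n) :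
    W x + fderiv ℝ W x v + c / 2 * ‖v‖ ^ 2 ≤ W (x + v) := by
  have hC : ContDiff ℝ 2 W := by exact_mod_cast contDiff_infty.1 hW.smooth 2
  have hC1 : ContDiff ℝ 1 W := by exact_mod_cast contDiff_infty.1 hW.smooth 1
  have := taylor_lower (g := fun t : ℝ => W (x + t • v)) (hasDerivAt_line hC1 x v) (hasDerivAt_line2 hC x v)
    (m := c * ‖v‖ ^ 2) (fun t => hW.lower _ _)
  simp at this
  linarith

theorem integrable_gauss {X : Type*} [NormedAddCommGroup X] [InnerProductSpace ℝ X] [FiniteDimensional ℝ X]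
    [MeasurableSpace X] [BorelSpace X] {c : ℝ} (hc : 0 < c) (w : X) :
    Integrable (fun x : X => Real.exp (-c * ‖x‖ ^ 2 + inner ℝ w x)) := by
  have h := (GaussianFourier.integrable_cexp_neg_mul_sq_norm_add (V := X) (b := (c : ℂ)) (by simpa using hc) 1 w).norm
  refine h.congr (Filter.Eventually.of_forall fun x => ?_)
  simp only [Complex.norm_exp]
  congr 1
  simp [← Complex.ofReal_pow]

theorem integrable_reg {n : ℕ} {W : E n → ℝ} {c C : ℝ} (hW : Reg W c C) (y : E n) :
    Integrable (fun x => Real.exp (inner ℝ x y - W x)) := by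
  have hcont : Continuous fun x => Real.exp (inner ℝ x y - W x) := by
    have := hW.smooth.continuous
    fun_prop
  set w : E n := y - (InnerProductSpace.toDual ℝ (E n)).symm (fderiv ℝ W 0) with hw
  have h1 := (integrable_gauss (half_pos hW.c_pos) w).const_mul (Real.exp (-W 0))
  refine h1.mono' hcont.aestronglyMeasurable (Filter.Eventually.of_forall fun x => ?_)
  rw [Real.norm_of_nonneg (Real.exp_nonneg _), ← Real.exp_add]
  apply Real.exp_le_exp.2
  have h2 := reg_lower hW 0 x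
  rw [zero_add] at h2
  have h3 : inner ℝ w x = inner ℝ x y - fderiv ℝ W 0 x := by
    rw [hw, inner_sub_left, InnerProductSpace.toDual_symm_apply, real_inner_comm]
  rw [h3]; linarith

theorem continuous_sn {n : ℕ} : Continuous fun p : E n × ℝ => sn p.1 p.2 := by
  unfold sn
  refine (PiLp.continuous_toLp 2 _).comp ?_
  refine continuous_pi fun i => ?_
  refine Fin.lastCases ?_ (fun i => ?_) i
  · simpa using continuous_snd
  · simp only [Fin.snoc_castSucc]
    fun_prop

theorem integrable_fib {n : ℕ} {W : E (n + 1) → ℝ} {c C : ℝ} (hW : Reg W c C) (x : E n) :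
    Integrable (fun z : ℝ => Real.exp (-W (sn x z))) := by
  have hcont : Continuous fun z : ℝ => Real.exp (-W (sn x z)) := by
    have h1 := hW.smooth.continuous
    have h2 : Continuous fun z : ℝ => sn x z := continuous_sn.comp (by fun_prop : Continuous fun z : ℝ => (x, z))
    exact Real.continuous_exp.comp (h1.comp h2).neg
  set b : ℝ := fderiv ℝ W (sn x 0) (sn 0 1) with hb
  have h1 := (integrable_gauss (half_pos hW.c_pos) (-b : ℝ)).const_mul (Real.exp (-W (sn x 0)))
  refine h1.mono' hcont.aestronglyMeasurable (Filter.Eventually.of_forall fun z => ?_)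
  rw [Real.norm_of_nonneg (Real.exp_nonneg _), ← Real.exp_add]
  apply Real.exp_le_exp.2
  have h2 := reg_lower hW (sn x 0) (sn 0 z)
  have h3 : sn x 0 + sn (0 : E n) z = sn x z := by rw [← sn_add]; simp
  have h4 : sn (0 : E n) z = z • sn (0 : E n) 1 := by rw [← sn_smul]; simp
  have h5 : ‖sn (0 : E n) z‖ ^ 2 = z ^ 2 := by rw [norm_sn_sq]; simp
  have h6 : fderiv ℝ W (sn x 0) (sn 0 z) = z * b := by rw [h4, map_smul, smul_eq_mul]
  rw [h3, h5, h6] at h2
  have h7 : inner ℝ (-b) z = - (z * b) := by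
    simp
  rw [h7, Real.norm_eq_abs, sq_abs]
  linarith

theorem int_fib_pos {n : ℕ} {W : E (n + 1) → ℝ} {c C : ℝ} (hW : Reg W c C) (x : E n) :
    0 < ∫ z : ℝ, Real.exp (-W (sn x z)) := integral_exp_pos (integrable_fib hW x)

theorem exp_neg_marg {n : ℕ} {W : E (n + 1) → ℝ} {c C : ℝ} (hW : Reg W c C) (x : E n) :
    Real.exp (-marg W x) = ∫ z : ℝ, Real.exp (-W (sn x z)) := by
  unfold marg
  rw [neg_neg, Real.exp_log (int_fib_pos hW x)]

theorem logLap_marg {n : ℕ} {W : E (n + 1) → ℝ} {c C : ℝ} (hW : Reg W c C) (y : E n) :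
    logLap (marg W) y = logLap W (sn y 0) := by
  unfold logLap
  congr 1
  rw [integral_sn _ (integrable_reg hW (sn y 0))]
  refine integral_congr_ae (Filter.Eventually.of_forall fun x => ?_)
  show Real.exp (inner ℝ x y - marg W x) = _
  rw [sub_eq_add_neg, Real.exp_add, exp_neg_marg hW, ← integral_const_mul]
  refine integral_congr_ae (Filter.Eventually.of_forall fun z => ?_)
  show _ = Real.exp (inner ℝ (sn x z) (sn y 0) - W (sn x z))
  rw [inner_sn, sub_eq_add_neg, Real.exp_add]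
  simp

theorem logLap_tilt {n : ℕ} (W : E n → ℝ) (y v : E n) :
    logLap (fun x => W x - inner ℝ x y) v = logLap W (y + v) := by
  unfold logLap
  congr 2
  ext x
  rw [inner_add_right]
  congr 1
  ring

theorem logLap_rot {n : ℕ} (W : E n → ℝ) (R : E n ≃ₗᵢ[ℝ] E n) (y : E n) :
    logLap (fun x => W (R x)) y = logLap W (R y) := by
  unfold logLap
  congr 1
  rw [← R.measurePreserving.integral_comp R.toHomeomorph.measurableEmbedding
    (fun x => Real.exp (inner ℝ x (R y) - W x))]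
  refine integral_congr_ae (Filter.Eventually.of_forall fun x => ?_)
  simp [LinearIsometryEquiv.inner_map_map]

theorem selfConc_rot {n : ℕ} {W : E n → ℝ} {κ : ℝ} (h : SelfConc κ W) (R : E n ≃ₗᵢ[ℝ] E n) :
    SelfConc κ (fun x => W (R x)) := by
  intro x v
  have := h (R x) (R v)
  simpa [map_add, map_smul] using this

theorem reg_rot {n : ℕ} {W : E n → ℝ} {c C : ℝ} (h : Reg W c C) (R : E n ≃ₗᵢ[ℝ] E n) :
    Reg (fun x => W (R x)) c C := by
  have hs : ContDiff ℝ (⊤ : ℕ∞) (fun x => W (R x)) := h.smooth.comp R.contDiff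
  have hC : ContDiff ℝ 2 W := by exact_mod_cast contDiff_infty.1 h.smooth 2
  have hC' : ContDiff ℝ 2 (fun x => W (R x)) := by exact_mod_cast contDiff_infty.1 hs 2
  have hq : ∀ x v, qf (hess (fun x => W (R x)) x) v = qf (hess W (R x)) (R v) := by
    intro x v
    have h1 := hasDerivAt_line2 hC' x v 0
    have h2 := hasDerivAt_line2 hC (R x) (R v) 0
    have h3 : (fun t : ℝ => fderiv ℝ (fun x => W (R x)) (x + t • v) v) =
        fun t : ℝ => fderiv ℝ W (R x + t • R v) (R v) := by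
      ext t
      have h4 : fderiv ℝ (fun x => W (R x)) (x + t • v) = (fderiv ℝ W (R (x + t • v))).comp
          (R : E n →L[ℝ] E n) := by
        have := (hC.differentiable (by norm_num) (R (x + t • v))).hasFDerivAt.comp (x + t • v)
          (R : E n →L[ℝ] E n).hasFDerivAt
        exact this.fderiv
      rw [h4]
      simp [map_add, map_smul]
    rw [h3] at h1
    have := h1.unique h2
    simpa using this
  refine ⟨h.c_pos, hs, fun x v => ?_, fun x v => ?_, fun k hk => ?_⟩
  · rw [hq, ← R.norm_map v]; exact h.lower _ _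
  · rw [hq, ← R.norm_map v]; exact h.upper _ _
  · obtain ⟨B, hB⟩ := h.bdd k hk
    refine ⟨B, fun x => ?_⟩
    have := R.norm_iteratedFDeriv_comp_right (𝕜 := ℝ) W x k
    rw [show (fun x => W (R x)) = W ∘ R from rfl, this]
    exact hB _

theorem iteratedDeriv_sub_affine {g : ℝ → ℝ} (hg : ContDiff ℝ (⊤ : ℕ∞) g) (a b : ℝ) (k : ℕ) :
    iteratedDeriv (k + 2) (fun t => g t - (a + t * b)) = iteratedDeriv (k + 2) g := by
  have h1 : deriv (fun t => g t - (a + t * b)) = fun t => deriv g t - b := by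
    ext t
    have hd := ((hg.differentiable (by simp)) t).hasDerivAt.sub
      (((hasDerivAt_id' t).mul_const b).const_add a)
    have : HasDerivAt (fun t => g t - (a + t * b)) (deriv g t - 1 * b) t := hd
    rw [this.deriv]; ring
  have h2 : deriv (fun t => deriv g t - b) = deriv (deriv g) := by
    ext t
    rw [deriv_sub_const]
  rw [iteratedDeriv_succ', iteratedDeriv_succ', iteratedDeriv_succ', iteratedDeriv_succ', h1, h2]

theorem line_smooth {n : ℕ} {W : E n → ℝ} (hW : ContDiff ℝ (⊤ : ℕ∞) W) (x v : E n) :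
    ContDiff ℝ (⊤ : ℕ∞) (fun t : ℝ => W (x + t • v)) :=
  hW.comp (contDiff_const.add (contDiff_id.smul contDiff_const))

theorem selfConc_tilt {n : ℕ} {W : E n → ℝ} {κ : ℝ} (hW : ContDiff ℝ (⊤ : ℕ∞) W) (h : SelfConc κ W) (y : E n) :
    SelfConc κ (fun x => W x - inner ℝ x y) := by
  intro x v
  have e : (fun t : ℝ => W (x + t • v) - inner ℝ (x + t • v) y) =
      fun t : ℝ => (fun t : ℝ => W (x + t • v)) t - (inner ℝ x y + t * inner ℝ v y) := by
    ext t; rw [inner_add_left, inner_smul_left]; simp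
  have h3 := iteratedDeriv_sub_affine (line_smooth hW x v) (inner ℝ x y) (inner ℝ v y) 1
  have h2 := iteratedDeriv_sub_affine (line_smooth hW x v) (inner ℝ x y) (inner ℝ v y) 0
  have := h x v
  simp only [e]
  simp only [Nat.reduceAdd] at h3 h2
  rw [h3, h2]
  exact this

theorem reg_tilt {n : ℕ} {W : E n → ℝ} {c C : ℝ} (h : Reg W c C) (y : E n) :
    Reg (fun x => W x - inner ℝ x y) c C := by
  have hs : ContDiff ℝ (⊤ : ℕ∞) (fun x => W x - inner ℝ x y) :=
    h.smooth.sub (contDiff_id.inner ℝ contDiff_const)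
  have hC : ContDiff ℝ 2 W := by exact_mod_cast contDiff_infty.1 h.smooth 2
  have hC' : ContDiff ℝ 2 (fun x => W x - inner ℝ x y) := by exact_mod_cast contDiff_infty.1 hs 2
  have h1 : fderiv ℝ (fun x => W x - inner ℝ x y) = fun x => fderiv ℝ W x - (innerSL ℝ y) := by
    ext1 x
    have h2 : HasFDerivAt (fun x : E n => inner ℝ x y) (innerSL ℝ y) x := by
      have := (innerSL ℝ y : E n →L[ℝ] ℝ).hasFDerivAt (x := x)
      refine this.congr_of_eventuallyEq (Filter.Eventually.of_forall fun z => ?_)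
      simp [real_inner_comm]
    exact ((hC.differentiable (by norm_num) x).hasFDerivAt.sub h2).fderiv
  have h2 : fderiv ℝ (fderiv ℝ (fun x => W x - inner ℝ x y)) = fderiv ℝ (fderiv ℝ W) := by
    rw [h1]
    ext1 x
    rw [fderiv_sub_const]
  have hq : ∀ x v, qf (hess (fun x => W x - inner ℝ x y) x) v = qf (hess W x) v := by
    intro x v
    rw [qf_hess hC', qf_hess hC, h2]
  refine ⟨h.c_pos, hs, fun x v => ?_, fun x v => ?_, fun k hk => ?_⟩
  · rw [hq]; exact h.lower _ _
  · rw [hq]; exact h.upper _ _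
  · obtain ⟨B, hB⟩ := h.bdd k hk
    refine ⟨B, fun x => ?_⟩
    obtain ⟨j, rfl⟩ := Nat.exists_eq_add_of_le' hk
    rw [← norm_iteratedFDeriv_fderiv, ← norm_iteratedFDeriv_fderiv, h2, norm_iteratedFDeriv_fderiv,
      norm_iteratedFDeriv_fderiv]
    exact hB x

/-- one-dimensional lemma (block SC-1) -/
def Stmt1D : Prop := ∀ (w w1 w2 w3 : ℝ → ℝ) (c C κ : ℝ), 0 < c → 0 ≤ κ → κ ≤ 1 →
  (∀ t, HasDerivAt w (w1 t) t) → (∀ t, HasDerivAt w1 (w2 t) t) → (∀ t, HasDerivAt w2 (w3 t) t) →
  (∀ t, c ≤ w2 t) → (∀ t, w2 t ≤ C) → (∀ t, |w3 t| ≤ 2 * κ * w2 t ^ ((3 : ℝ) / 2)) →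
  ∀ Z m : ℝ, Z = ∫ t, Real.exp (-w t) → m = (∫ t, t * Real.exp (-w t)) / Z →
    |(∫ t, (t - m) ^ 3 * Real.exp (-w t)) / Z| ≤
      2 * κ * ((∫ t, (t - m) ^ 2 * Real.exp (-w t)) / Z) ^ ((3 : ℝ) / 2)

/-- derivatives of the logarithm of a Laplace transform on the line -/
theorem cum_deriv {ν : Measure ℝ} (hint : ∀ t : ℝ, Integrable (fun s => Real.exp (t * s)) ν)
    (hpos : 0 < ∫ _, (1 : ℝ) ∂ν) :
    iteratedDeriv 2 (fun t : ℝ => Real.log (∫ s, Real.exp (t * s) ∂ν)) 0 =
      (∫ s, (s - (∫ s, s ∂ν) / (∫ _, (1 : ℝ) ∂ν)) ^ 2 ∂ν) / (∫ _, (1 : ℝ) ∂ν) ∧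
    iteratedDeriv 3 (fun t : ℝ => Real.log (∫ s, Real.exp (t * s) ∂ν)) 0 =
      (∫ s, (s - (∫ s, s ∂ν) / (∫ _, (1 : ℝ) ∂ν)) ^ 3 ∂ν) / (∫ _, (1 : ℝ) ∂ν) ∧
    ContDiff ℝ 3 (fun t : ℝ => Real.log (∫ s, Real.exp (t * s) ∂ν)) := by
  have hset : ProbabilityTheory.integrableExpSet (fun s : ℝ => s) ν = Set.univ := by
    ext t; simp [ProbabilityTheory.integrableExpSet, hint t]
  have hmem : ∀ t : ℝ, t ∈ interior (ProbabilityTheory.integrableExpSet (fun s : ℝ => s) ν) := by
    intro t; rw [hset, interior_univ]; trivial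
  set I : ℕ → ℝ → ℝ := fun n t => ∫ s, s ^ n * Real.exp (t * s) ∂ν with hI
  have hd : ∀ n t, HasDerivAt (I n) (I (n + 1) t) t := fun n t =>
    ProbabilityTheory.hasDerivAt_integral_pow_mul_exp_real (hmem t) n
  have hν : ν ≠ 0 := by
    rintro rfl; simp at hpos
  have h0 : ∀ t, 0 < I 0 t := by
    intro t
    simp only [hI, pow_zero, one_mul]
    have : NeZero ν := ⟨hν⟩
    exact integral_exp_pos (hint t)
  have hI0 : ∀ t, I 0 t = ∫ s, Real.exp (t * s) ∂ν := by intro t; simp [hI]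
  set A : ℕ → ℝ → ℝ := fun n t => I n t / I 0 t with hA
  have hdA : ∀ n t, HasDerivAt (A n) (A (n + 1) t - A n t * A 1 t) t := by
    intro n t
    have := (hd n t).div (hd 0 t) (h0 t).ne'
    refine this.congr_deriv ?_
    simp only [hA]
    have := (h0 t).ne'
    field_simp
  have hK : (fun t : ℝ => Real.log (∫ s, Real.exp (t * s) ∂ν)) = fun t => Real.log (I 0 t) := by
    ext t; rw [hI0]
  have hd1 : ∀ t, HasDerivAt (fun t => Real.log (I 0 t)) (A 1 t) t := fun t =>
    (hd 0 t).log (h0 t).ne'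
  have hd2 : ∀ t, HasDerivAt (A 1) (A 2 t - A 1 t ^ 2) t := by
    intro t
    refine (hdA 1 t).congr_deriv ?_
    ring
  have hd3 : ∀ t, HasDerivAt (fun t => A 2 t - A 1 t ^ 2) (A 3 t - 3 * A 1 t * A 2 t + 2 * A 1 t ^ 3) t := by
    intro t
    refine ((hdA 2 t).sub ((hd2 t).pow 2)).congr_deriv ?_
    push_cast
    ring
  have e1 : deriv (fun t => Real.log (I 0 t)) = A 1 := by ext t; exact (hd1 t).deriv
  have e2 : deriv (A 1) = fun t => A 2 t - A 1 t ^ 2 := by ext t; exact (hd2 t).deriv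
  have e3 : deriv (fun t => A 2 t - A 1 t ^ 2) = fun t => A 3 t - 3 * A 1 t * A 2 t + 2 * A 1 t ^ 3 := by
    ext t; exact (hd3 t).deriv
  have hpow : ∀ n : ℕ, Integrable (fun s : ℝ => s ^ n) ν := by
    intro n
    have := ProbabilityTheory.integrable_pow_of_mem_interior_integrableExpSet (hmem 0) n
    simpa using this
  have hA0 : A 0 0 = 1 := by simp only [hA]; exact div_self (h0 0).ne'
  have hIn : ∀ n, I n 0 = ∫ s, s ^ n ∂ν := by intro n; simp [hI]
  have hZ : (∫ _, (1 : ℝ) ∂ν) = I 0 0 := by rw [hIn]; simp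
  have hm : (∫ s, s ∂ν) / (∫ _, (1 : ℝ) ∂ν) = A 1 0 := by
    rw [hZ]; simp only [hA]; rw [hIn 1]; simp
  rw [hm, hZ]
  have hZ0 := (h0 0).ne'
  have v2 : (∫ s, (s - A 1 0) ^ 2 ∂ν) / I 0 0 = A 2 0 - A 1 0 ^ 2 := by
    have : ∫ s, (s - A 1 0) ^ 2 ∂ν = I 2 0 - 2 * A 1 0 * I 1 0 + A 1 0 ^ 2 * I 0 0 := by
      have e : ∫ s, (s - A 1 0) ^ 2 ∂ν =
          ∫ s, (s ^ 2 - (2 * A 1 0) * s ^ 1 + (A 1 0 ^ 2) * s ^ 0) ∂ν :=
        integral_congr_ae (Filter.Eventually.of_forall fun s => by ring)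
      have i2 := hpow 2
      have i1 := (hpow 1).const_mul (2 * A 1 0)
      have i0 := (hpow 0).const_mul (A 1 0 ^ 2)
      have i21 : Integrable (fun s : ℝ => s ^ 2 - (2 * A 1 0) * s ^ 1) ν := i2.sub i1
      rw [e, integral_add i21 i0, integral_sub i2 i1, integral_const_mul, integral_const_mul,
        hIn, hIn, hIn]
    rw [this]
    simp only [hA]
    field_simp
    ring
  have v3 : (∫ s, (s - A 1 0) ^ 3 ∂ν) / I 0 0 = A 3 0 - 3 * A 1 0 * A 2 0 + 2 * A 1 0 ^ 3 := by
    have : ∫ s, (s - A 1 0) ^ 3 ∂ν =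
        I 3 0 - 3 * A 1 0 * I 2 0 + 3 * A 1 0 ^ 2 * I 1 0 - A 1 0 ^ 3 * I 0 0 := by
      have e : ∫ s, (s - A 1 0) ^ 3 ∂ν =
          ∫ s, (s ^ 3 - (3 * A 1 0) * s ^ 2 + (3 * A 1 0 ^ 2) * s ^ 1 - (A 1 0 ^ 3) * s ^ 0) ∂ν :=
        integral_congr_ae (Filter.Eventually.of_forall fun s => by ring)
      have i3 := hpow 3
      have i2 := (hpow 2).const_mul (3 * A 1 0)
      have i1 := (hpow 1).const_mul (3 * A 1 0 ^ 2)
      have i0 := (hpow 0).const_mul (A 1 0 ^ 3)
      have i32 : Integrable (fun s : ℝ => s ^ 3 - (3 * A 1 0) * s ^ 2) ν := i3.sub i2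
      have i321 : Integrable (fun s : ℝ => s ^ 3 - (3 * A 1 0) * s ^ 2 + (3 * A 1 0 ^ 2) * s ^ 1) ν :=
        i32.add i1
      rw [e, integral_sub i321 i0, integral_add i32 i1, integral_sub i3 i2,
        integral_const_mul, integral_const_mul, integral_const_mul, hIn, hIn, hIn, hIn]
    rw [this]
    simp only [hA]
    field_simp
    ring
  refine ⟨?_, ?_, ?_⟩
  · rw [hK, iteratedDeriv_succ', iteratedDeriv_one, e1, e2, v2]
  · rw [hK, iteratedDeriv_succ', iteratedDeriv_succ', iteratedDeriv_one, e1, e2, e3, v3]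
  · rw [hK]
    have hc : ∀ (k : ℕ) (n : ℕ), ContDiff ℝ k (I n) := by
      intro k
      induction k with
      | zero =>
        intro n
        rw [Nat.cast_zero, contDiff_zero]
        exact continuous_iff_continuousAt.2 fun t => (hd n t).continuousAt
      | succ k ih =>
        intro n
        rw [Nat.cast_succ, contDiff_succ_iff_deriv]
        refine ⟨fun t => (hd n t).differentiableAt, by simp, ?_⟩
        have : deriv (I n) = I (n + 1) := by ext t; exact (hd n t).deriv
        rw [this]; exact ih (n + 1)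
    exact (hc 3 0).log fun t => (h0 t).ne'

theorem integral_E1 (f : E 1 → ℝ) (hf : Integrable f) : ∫ x, f x = ∫ z : ℝ, f (sn (0 : E 0) z) := by
  rw [integral_sn f hf, volume_euclideanSpace_eq_dirac, integral_dirac]

theorem logLap_base {W : E 1 → ℝ} {c C : ℝ} (hW : Reg W c C) (t a : ℝ) :
    logLap W (t • sn (0 : E 0) a) = Real.log (∫ s : ℝ, Real.exp ((a * t) * s) * Real.exp (-W (sn 0 s))) := by
  unfold logLap
  congr 1
  rw [integral_E1 _ (integrable_reg hW _)]
  refine integral_congr_ae (Filter.Eventually.of_forall fun s => ?_)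
  show Real.exp (inner ℝ (sn (0 : E 0) s) (t • sn (0 : E 0) a) - W (sn 0 s)) = _
  rw [inner_smul_right, inner_sn, sub_eq_add_neg, Real.exp_add]
  congr 2
  simp; ring

theorem base {W : E 1 → ℝ} {c C κ : ℝ} (h1D : Stmt1D) (hW : Reg W c C) (hκ0 : 0 ≤ κ) (hκ1 : κ ≤ 1)
    (hs : SelfConc κ W) : SelfConc κ (logLap W) := by
  intro y v
  set W' : E 1 → ℝ := fun x => W x - inner ℝ x y with hW'
  have hR : Reg W' c C := reg_tilt hW y
  have hS : SelfConc κ W' := selfConc_tilt hW.smooth hs y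
  set a : ℝ := v (Fin.last 0) with ha
  have hv : v = sn (0 : E 0) a := by
    conv_lhs => rw [← sn_eta v]
    congr 1
    exact Subsingleton.elim _ _
  set w : ℝ → ℝ := fun s => W' (sn (0 : E 0) s) with hw
  have hsn : ∀ s : ℝ, sn (0 : E 0) s = s • sn (0 : E 0) 1 := fun s => by rw [← sn_smul]; simp
  have hwl : w = fun s : ℝ => W' (0 + s • sn (0 : E 0) 1) := by
    ext s; simp only [hw]; rw [zero_add, ← hsn]
  have hws : ContDiff ℝ (⊤ : ℕ∞) w := by rw [hwl]; exact line_smooth hR.smooth 0 _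
  -- derivatives of w
  have d1 : ∀ t, HasDerivAt w (deriv w t) t := fun t => (hws.differentiable (by simp) t).hasDerivAt
  have hws1 : ContDiff ℝ (⊤ : ℕ∞) (deriv w) := hws.iterate_deriv 1
  have hws2 : ContDiff ℝ (⊤ : ℕ∞) (deriv (deriv w)) := hws.iterate_deriv 2
  have d2 : ∀ t, HasDerivAt (deriv w) (deriv (deriv w) t) t := fun t =>
    (hws1.differentiable (by simp) t).hasDerivAt
  have d3 : ∀ t, HasDerivAt (deriv (deriv w)) (deriv (deriv (deriv w)) t) t := fun t =>
    (hws2.differentiable (by simp) t).hasDerivAt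
  have hC2 : ContDiff ℝ 2 W' := by exact_mod_cast contDiff_infty.1 hR.smooth 2
  have hC1 : ContDiff ℝ 1 W' := by exact_mod_cast contDiff_infty.1 hR.smooth 1
  have hw1 : deriv w = fun s : ℝ => fderiv ℝ W' (0 + s • sn (0 : E 0) 1) (sn (0 : E 0) 1) := by
    ext s; rw [hwl]; exact (hasDerivAt_line hC1 0 _ s).deriv
  have hw2 : ∀ s, deriv (deriv w) s = qf (hess W' (0 + s • sn (0 : E 0) 1)) (sn (0 : E 0) 1) := by
    intro s; rw [hw1]; exact (hasDerivAt_line2 hC2 0 _ s).deriv
  have hn1 : ‖sn (0 : E 0) 1‖ ^ 2 = 1 := by rw [norm_sn_sq]; simp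
  have b1 : ∀ s, c ≤ deriv (deriv w) s := fun s => by
    rw [hw2]; have := hR.lower (0 + s • sn (0 : E 0) 1) (sn (0 : E 0) 1); rwa [hn1, mul_one] at this
  have b2 : ∀ s, deriv (deriv w) s ≤ C := fun s => by
    rw [hw2]; have := hR.upper (0 + s • sn (0 : E 0) 1) (sn (0 : E 0) 1); rwa [hn1, mul_one] at this
  have b3 : ∀ s, |deriv (deriv (deriv w)) s| ≤ 2 * κ * deriv (deriv w) s ^ ((3 : ℝ) / 2) := by
    intro s
    have := hS (sn (0 : E 0) s) (sn (0 : E 0) 1)
    have e : (fun t : ℝ => W' (sn (0 : E 0) s + t • sn (0 : E 0) 1)) = fun t => w (s + t) := by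
      ext t
      simp only [hw]
      rw [hsn s, hsn (s + t), add_smul]
    rw [e, iteratedDeriv_comp_const_add, iteratedDeriv_comp_const_add] at this
    simp only [add_zero] at this
    rw [iteratedDeriv_eq_iterate, iteratedDeriv_eq_iterate] at this
    simpa [Function.iterate_succ] using this
  -- the measure
  set ν : Measure ℝ := volume.withDensity fun s => ENNReal.ofReal (Real.exp (-w s)) with hν
  have hm : Measurable fun s => Real.exp (-w s) := by
    have := hws.continuous; fun_prop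
  have hI : ∀ f : ℝ → ℝ, ∫ s, f s ∂ν = ∫ s, f s * Real.exp (-w s) := by
    intro f
    rw [hν, integral_withDensity_eq_integral_toReal_smul (by fun_prop) (by simp)]
    refine integral_congr_ae (Filter.Eventually.of_forall fun s => ?_)
    simp only [smul_eq_mul]
    rw [ENNReal.toReal_ofReal (Real.exp_nonneg _), mul_comm]
  have hint : ∀ t : ℝ, Integrable (fun s => Real.exp (t * s)) ν := by
    intro t
    rw [hν, integrable_withDensity_iff_integrable_smul' (by fun_prop) (by simp)]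
    have h5 := integrable_fib (reg_tilt hR (t • sn (0 : E 0) 1)) (0 : E 0)
    refine h5.congr (Filter.Eventually.of_forall fun s => ?_)
    simp only [smul_eq_mul]
    rw [ENNReal.toReal_ofReal (Real.exp_nonneg _), inner_smul_right, inner_sn, ← Real.exp_add]
    congr 1
    simp [hw]; ring
  have hZpos : 0 < ∫ s, Real.exp (-w s) := int_fib_pos hR (0 : E 0)
  have h1 : (∫ _, (1 : ℝ) ∂ν) = ∫ s, Real.exp (-w s) := by rw [hI]; simp
  obtain ⟨k2, k3, kC⟩ := cum_deriv hint (by rw [h1]; exact hZpos)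
  have hlog : (fun t : ℝ => logLap W (y + t • v)) =
      fun t : ℝ => (fun t : ℝ => Real.log (∫ s, Real.exp (t * s) ∂ν)) (a * t) := by
    ext t
    rw [← logLap_tilt W y (t • v), hv, logLap_base hR]
    simp only [hI]
    rfl
  have kC2 : ContDiff ℝ 2 (fun t : ℝ => Real.log (∫ s, Real.exp (t * s) ∂ν)) := kC.of_le (by norm_num)
  rw [hlog]
  set K : ℝ → ℝ := fun t : ℝ => Real.log (∫ s, Real.exp (t * s) ∂ν) with hK
  have e3 : iteratedDeriv 3 (fun t => K (a * t)) 0 = a ^ 3 * iteratedDeriv 3 K 0 := by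
    have := congrFun (iteratedDeriv_comp_const_mul (n := 3) (f := K) (by exact_mod_cast kC) a) 0
    simpa using this
  have e2 : iteratedDeriv 2 (fun t => K (a * t)) 0 = a ^ 2 * iteratedDeriv 2 K 0 := by
    have := congrFun (iteratedDeriv_comp_const_mul (n := 2) (f := K) (by exact_mod_cast kC2) a) 0
    simpa using this
  rw [e3, e2, k2, k3]
  have key := h1D w _ _ _ c C κ hW.c_pos hκ0 hκ1 d1 d2 d3 b1 b2 b3 _ _ rfl rfl
  rw [h1]
  simp only [hI]
  set q3 := (∫ t, (t - (∫ t, t * Real.exp (-w t)) / ∫ t, Real.exp (-w t)) ^ 3 * Real.exp (-w t)) /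
    ∫ t, Real.exp (-w t)
  set q2 := (∫ t, (t - (∫ t, t * Real.exp (-w t)) / ∫ t, Real.exp (-w t)) ^ 2 * Real.exp (-w t)) /
    ∫ t, Real.exp (-w t) with hq2
  have hq2n : 0 ≤ q2 := by
    apply div_nonneg _ hZpos.le
    exact integral_nonneg fun s => by positivity
  rw [abs_mul, abs_pow, Real.mul_rpow (sq_nonneg a) hq2n]
  have h5 : (a ^ 2) ^ ((3 : ℝ) / 2) = |a| ^ 3 := by
    rw [← sq_abs, ← Real.rpow_natCast |a| 2, ← Real.rpow_mul (abs_nonneg a), ← Real.rpow_natCast |a| 3]
    norm_num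
  rw [h5]
  have h6 : 0 ≤ |a| ^ 3 := by positivity
  calc |a| ^ 3 * |q3| ≤ |a| ^ 3 * (2 * κ * q2 ^ ((3 : ℝ) / 2)) := mul_le_mul_of_nonneg_left key h6
    _ = _ := by ring

theorem exists_unit_orth {n : ℕ} (v : E (n + 2)) : ∃ e : E (n + 2), ‖e‖ = 1 ∧ inner ℝ v e = 0 := by
  have hne : (Submodule.span ℝ {v})ᗮ ≠ ⊥ := by
    intro h
    have h1 := Submodule.finrank_add_finrank_orthogonal (Submodule.span ℝ {v})
    rw [h, finrank_bot, finrank_euclideanSpace_fin] at h1
    have h2 : Module.finrank ℝ (Submodule.span ℝ {v}) ≤ 1 := by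
      have := finrank_span_le_card (R := ℝ) ({v} : Set (E (n + 2)))
      simpa using this
    omega
  obtain ⟨e0, he0, hne0⟩ := Submodule.exists_mem_ne_zero_of_ne_bot hne
  refine ⟨‖e0‖⁻¹ • e0, ?_, ?_⟩
  · rw [norm_smul, norm_inv, norm_norm, inv_mul_cancel₀ (norm_ne_zero_iff.2 hne0)]
  · rw [inner_smul_right, Submodule.mem_orthogonal_singleton_iff_inner_right.1 he0, mul_zero]

theorem selfConc_zero {W : E 0 → ℝ} {κ : ℝ} : SelfConc κ W := by
  intro x v
  have hv : v = 0 := Subsingleton.elim _ _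
  subst hv
  have : (fun t : ℝ => W (x + t • (0 : E 0))) = fun _ => W x := by ext t; simp
  rw [this, iteratedDeriv_const, iteratedDeriv_const]
  simp

/-- assembly of block SC -/
theorem stmtSC_of
    (hA : ∀ (n : ℕ) (W : E (n + 2) → ℝ) (c C : ℝ), Reg W c C → Reg (marg W) c C)
    (hM : ∀ (n : ℕ) (W : E (n + 2) → ℝ) (c C κ : ℝ), Reg W c C → 0 ≤ κ → κ ≤ 1 →
      SelfConc κ W → SelfConc κ (marg W))
    (h1D : Stmt1D) : StmtSC := by
  intro n
  induction n with
  | zero => intro W c C κ _ _ _ _; exact selfConc_zero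
  | succ n ih =>
    rcases n with _ | n
    · intro W c C κ hW h0 h1 hs
      exact base h1D hW h0 h1 hs
    · intro W c C κ hW h0 h1 hs y v
      obtain ⟨e, he, hve⟩ := exists_unit_orth v
      have hlast : ‖(ei (Fin.last (n + 1)) : E (n + 2))‖ = ‖e‖ := by rw [he]; simp [ei]
      set R : E (n + 2) ≃ₗᵢ[ℝ] E (n + 2) :=
        (Submodule.span ℝ {(ei (Fin.last (n + 1)) : E (n + 2)) - e})ᗮ.reflection with hR
      have hRe : R (ei (Fin.last (n + 1))) = e := Submodule.reflection_sub hlast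
      set v' : E (n + 2) := R.symm v with hv'
      have hv'l : v' (Fin.last (n + 1)) = 0 := by
        have h5 : inner ℝ v' (ei (Fin.last (n + 1))) = v' (Fin.last (n + 1)) := by
          rw [ei, EuclideanSpace.inner_single_right]; simp
        rw [← h5, ← R.inner_map_map, hRe, hv', R.apply_symm_apply, hve]
      set v0 : E (n + 1) := WithLp.toLp 2 fun i : Fin (n + 1) => v' i.castSucc with hv0
      have hv'0 : v' = sn v0 0 := by
        conv_lhs => rw [← sn_eta v', hv'l]
      have hW1 : Reg (fun x => W x - inner ℝ x y) c C := reg_tilt hW y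
      have hS1 : SelfConc κ (fun x => W x - inner ℝ x y) := selfConc_tilt hW.smooth hs y
      have hW2 := reg_rot hW1 R
      have hS2 := selfConc_rot hS1 R
      have hW3 := hA n _ c C hW2
      have hS3 := hM n _ c C κ hW2 h0 h1 hS2
      have key := ih _ c C κ hW3 h0 h1 hS3 0 v0
      have e5 : (fun t : ℝ => logLap (marg fun x => (fun x => W x - inner ℝ x y) (R x)) (0 + t • v0)) =
          fun t : ℝ => logLap W (y + t • v) := by
        ext t
        rw [zero_add, logLap_marg hW2]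
        have h6 : sn (t • v0) 0 = t • v' := by
          rw [hv'0, ← sn_smul, mul_zero]
        rw [h6, logLap_rot (fun x => W x - inner ℝ x y) R, logLap_tilt, map_smul, hv', R.apply_symm_apply]
      rw [e5] at key
      exact key

end Vale.Agent.P227.M.Asm864
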