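import Vale.Agent.P227.M.Stmts
import Vale.Agent.P227.M.LL.Smooth

/-! # P227/M/SC : the Gaussian smoothing trick (SC assembly without rotations and induction) -/

open MeasureTheory Filter Topology Real
open scoped RealInnerProductSpace ContDiff

namespace Vale.Agent.P227.M.AsmN

/-- Gaussian weight -/
noncomputable def ga (N s : ℝ) : ℝ := Real.exp (-(N / 2) * s ^ 2)

theorem ga_pos (N s : ℝ) : 0 < ga N s := Real.exp_pos _

theorem ga_int {N : ℝ} (hN : 0 < N) (j : ℕ) : Integrable (fun s : ℝ => s ^ j * ga N s) := by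
  have h := integrable_rpow_mul_exp_neg_mul_sq (b := N / 2) (by positivity) (s := (j : ℝ))
    (by have : (0 : ℝ) ≤ j := Nat.cast_nonneg j
        linarith)
  simpa only [Real.rpow_natCast, ga] using h

theorem ga_int_abs {N : ℝ} (hN : 0 < N) (j : ℕ) : Integrable (fun s : ℝ => |s| ^ j * ga N s) := by
  have h := (ga_int hN j).abs
  refine h.congr (Eventually.of_forall fun s => ?_)
  simp only [abs_mul, abs_pow]
  rw [abs_of_pos (ga_pos N s)]

theorem ga_int0 {N : ℝ} (hN : 0 < N) : Integrable (fun s : ℝ => ga N s) := by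
  simpa using ga_int hN 0

theorem ga_G0_pos {N : ℝ} (hN : 0 < N) : 0 < ∫ s, ga N s := by
  unfold ga
  rw [integral_gaussian]
  positivity

theorem ga_odd {N : ℝ} (j : ℕ) (hj : Odd j) : ∫ s, s ^ j * ga N s = 0 := by
  have h := integral_neg_eq_self (fun s : ℝ => s ^ j * ga N s) volume
  have h2 : (fun s : ℝ => (-s) ^ j * ga N (-s)) = fun s => -(s ^ j * ga N s) := by
    funext s
    unfold ga
    rw [hj.neg_pow, neg_sq]
    ring
  rw [h2, integral_neg] at h
  linarith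

theorem ga_G2 {N : ℝ} (hN : 0 < N) : ∫ s, s ^ 2 * ga N s = (∫ s, ga N s) / N := by
  have hu : ∀ x : ℝ, HasDerivAt (fun s : ℝ => s) 1 x := fun x => hasDerivAt_id x
  have hv : ∀ x : ℝ, HasDerivAt (fun s : ℝ => -(1 / N) * ga N s) (x * ga N x) x := by
    intro x
    unfold ga
    have h1 : HasDerivAt (fun s : ℝ => -(N / 2) * s ^ 2) (-(N / 2) * (2 * x)) x := by
      have := (hasDerivAt_pow 2 x).const_mul (-(N / 2))
      simpa using this
    have h2 := (h1.exp).const_mul (-(1 / N))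
    refine h2.congr_deriv ?_
    field_simp
  have h := integral_mul_deriv_eq_deriv_mul_of_integrable (u := fun s : ℝ => s)
    (v := fun s : ℝ => -(1 / N) * ga N s) (u' := fun _ => 1) (v' := fun x => x * ga N x) (fun x _ => hu x) (fun x _ => hv x)
    ?_ ?_ ?_
  · have e1 : ∫ s, s ^ 2 * ga N s = ∫ x : ℝ, x * (x * ga N x) := by
      congr 1; funext x; ring
    rw [e1, h]
    simp only [one_mul]
    rw [integral_const_mul]
    ring
  · refine (ga_int hN 2).congr (Eventually.of_forall fun s => ?_)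
    simp only [Pi.mul_apply]; ring
  · refine ((ga_int0 hN).const_mul (-(1 / N))).congr (Eventually.of_forall fun s => ?_)
    simp only [Pi.mul_apply, one_mul]
  · refine ((ga_int hN 1).const_mul (-(1 / N))).congr (Eventually.of_forall fun s => ?_)
    simp only [Pi.mul_apply]; ring

/-- shifted moments of the Gaussian weight -/
theorem ga_shift {N : ℝ} (hN : 0 < N) (m ξ : ℝ) :
    (∫ t, ga N (t - ξ)) = ∫ s, ga N s ∧
    (∫ t, t * ga N (t - ξ)) = ξ * ∫ s, ga N s ∧
    (∫ t, (t - m) ^ 2 * ga N (t - ξ)) = ((ξ - m) ^ 2 + 1 / N) * ∫ s, ga N s ∧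
    (∫ t, (t - m) ^ 3 * ga N (t - ξ)) = ((ξ - m) ^ 3 + 3 * (ξ - m) * (1 / N)) * ∫ s, ga N s := by
  have key : ∀ g : ℝ → ℝ, (∫ t, g t * ga N (t - ξ)) = ∫ s, g (s + ξ) * ga N s := by
    intro g
    have h := integral_sub_right_eq_self (μ := (volume : Measure ℝ))
      (fun s : ℝ => g (s + ξ) * ga N s) ξ
    rw [← h]
    simp only [sub_add_cancel]
  have i0 := ga_int0 hN
  have i1 := ga_int hN 1
  have i2 := ga_int hN 2
  have i3 := ga_int hN 3
  have o1 := ga_odd (N := N) 1 odd_one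
  have o3 := ga_odd (N := N) 3 (by decide)
  have g2 := ga_G2 hN
  set G := ∫ s, ga N s with hG
  refine ⟨?_, ?_, ?_, ?_⟩
  · have h := key (fun _ => 1)
    simpa using h
  · rw [key (fun t => t)]
    have e : (fun s : ℝ => (s + ξ) * ga N s) = fun s => s ^ 1 * ga N s + ξ * ga N s := by
      funext s; ring
    rw [e, integral_add i1 (i0.const_mul ξ), o1, integral_const_mul]
    ring
  · rw [key (fun t => (t - m) ^ 2)]
    have e : (fun s : ℝ => (s + ξ - m) ^ 2 * ga N s)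
        = fun s => s ^ 2 * ga N s + (2 * (ξ - m) * (s ^ 1 * ga N s) + (ξ - m) ^ 2 * ga N s) := by
      funext s; ring
    have j1 : Integrable (fun s : ℝ => 2 * (ξ - m) * (s ^ 1 * ga N s)) := i1.const_mul _
    have j0 : Integrable (fun s : ℝ => (ξ - m) ^ 2 * ga N s) := i0.const_mul _
    have j01 : Integrable (fun s : ℝ => 2 * (ξ - m) * (s ^ 1 * ga N s) + (ξ - m) ^ 2 * ga N s) :=
      j1.add j0
    rw [e, integral_add i2 j01, integral_add j1 j0, integral_const_mul, integral_const_mul, o1, g2]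
    ring
  · rw [key (fun t => (t - m) ^ 3)]
    have e : (fun s : ℝ => (s + ξ - m) ^ 3 * ga N s)
        = fun s => s ^ 3 * ga N s + (3 * (ξ - m) * (s ^ 2 * ga N s)
          + (3 * (ξ - m) ^ 2 * (s ^ 1 * ga N s) + (ξ - m) ^ 3 * ga N s)) := by
      funext s; ring
    have j2 : Integrable (fun s : ℝ => 3 * (ξ - m) * (s ^ 2 * ga N s)) := i2.const_mul _
    have j1 : Integrable (fun s : ℝ => 3 * (ξ - m) ^ 2 * (s ^ 1 * ga N s)) := i1.const_mul _
    have j0 : Integrable (fun s : ℝ => (ξ - m) ^ 3 * ga N s) := i0.const_mul _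
    have j01 : Integrable (fun s : ℝ => 3 * (ξ - m) ^ 2 * (s ^ 1 * ga N s)
        + (ξ - m) ^ 3 * ga N s) := j1.add j0
    have j012 : Integrable (fun s : ℝ => 3 * (ξ - m) * (s ^ 2 * ga N s)
        + (3 * (ξ - m) ^ 2 * (s ^ 1 * ga N s) + (ξ - m) ^ 3 * ga N s)) := j2.add j01
    rw [e, integral_add i3 j012, integral_add j2 j01, integral_add j1 j0, integral_const_mul,
      integral_const_mul, integral_const_mul, o1, o3, g2]
    ring

set_option linter.unusedSectionVars false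

section Fub

variable {E : Type} [NormedAddCommGroup E] [InnerProductSpace ℝ E] [FiniteDimensional ℝ E]
  [MeasurableSpace E] [BorelSpace E]

/-- the smoothed (one-dimensional) density -/
noncomputable def pN (W : E → ℝ) (y v : E) (N t : ℝ) : ℝ :=
  ∫ x, Real.exp (-(W x - ⟪x, y⟫ + N / 2 * (t - ⟪x, v⟫) ^ 2))

theorem exp_split (W : E → ℝ) (y v : E) (N t : ℝ) (x : E) :
    Real.exp (-(W x - ⟪x, y⟫ + N / 2 * (t - ⟪x, v⟫) ^ 2))
      = Real.exp (⟪x, y⟫ - W x) * ga N (t - ⟪x, v⟫) := by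
  unfold ga
  rw [← Real.exp_add]
  congr 1
  ring

theorem fub_int {W : E → ℝ} {a C : ℝ} (hW : LL.Gr W a C) (y v : E) {N : ℝ} (hN : 0 < N) (m : ℝ)
    (j : ℕ) :
    Integrable (fun p : ℝ × E => (p.1 - m) ^ j *
      (Real.exp (⟪p.2, y⟫ - W p.2) * ga N (p.1 - ⟪p.2, v⟫))) (volume.prod volume) := by
  have hWc := hW.cont
  have hmeas : AEStronglyMeasurable (fun p : ℝ × E => (p.1 - m) ^ j *
      (Real.exp (⟪p.2, y⟫ - W p.2) * ga N (p.1 - ⟪p.2, v⟫))) (volume.prod volume) := by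
    refine Continuous.aestronglyMeasurable ?_
    unfold ga
    fun_prop
  have habs : ∀ x : E, ∀ t : ℝ, ‖(t - m) ^ j * (Real.exp (⟪x, y⟫ - W x) * ga N (t - ⟪x, v⟫))‖
      = Real.exp (⟪x, y⟫ - W x) * (|t - m| ^ j * ga N (t - ⟪x, v⟫)) := by
    intro x t
    rw [norm_mul, norm_pow, Real.norm_eq_abs, Real.norm_eq_abs,
      abs_of_pos (mul_pos (Real.exp_pos _) (ga_pos _ _))]
    ring
  have hb : ∀ x : E, Integrable (fun t : ℝ => |t - m| ^ j * ga N (t - ⟪x, v⟫)) := by
    intro x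
    have h0 : Integrable (fun s : ℝ => (2 : ℝ) ^ (j - 1) * (|s| ^ j * ga N s
        + |⟪x, v⟫ - m| ^ j * ga N s)) :=
      ((ga_int_abs hN j).add ((ga_int0 hN).const_mul _)).const_mul _
    have h1 : Integrable (fun s : ℝ => |s + ⟪x, v⟫ - m| ^ j * ga N s) := by
      refine h0.mono' ?_ (Eventually.of_forall fun s => ?_)
      · refine Continuous.aestronglyMeasurable ?_
        unfold ga
        fun_prop
      · rw [Real.norm_eq_abs, abs_mul, abs_pow, abs_abs, abs_of_pos (ga_pos _ _)]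
        have h2 : |s + ⟪x, v⟫ - m| ≤ |s| + |⟪x, v⟫ - m| := by
          have := abs_add_le s (⟪x, v⟫ - m)
          rwa [show s + (⟪x, v⟫ - m) = s + ⟪x, v⟫ - m by ring] at this
        have h3 : |s + ⟪x, v⟫ - m| ^ j ≤ (2 : ℝ) ^ (j - 1) * (|s| ^ j + |⟪x, v⟫ - m| ^ j) :=
          le_trans (pow_le_pow_left₀ (abs_nonneg _) h2 j)
            (add_pow_le (abs_nonneg _) (abs_nonneg _) j)
        calc |s + ⟪x, v⟫ - m| ^ j * ga N s
            ≤ ((2 : ℝ) ^ (j - 1) * (|s| ^ j + |⟪x, v⟫ - m| ^ j)) * ga N s :=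
              mul_le_mul_of_nonneg_right h3 (ga_pos _ _).le
          _ = _ := by ring
    have h4 := h1.comp_sub_right ⟪x, v⟫
    refine h4.congr (Eventually.of_forall fun t => ?_)
    simp only [sub_add_cancel]
  rw [integrable_prod_iff' hmeas]
  refine ⟨Eventually.of_forall fun x => ?_, ?_⟩
  · have h := (hb x).const_mul (Real.exp (⟪x, y⟫ - W x))
    refine h.mono' ?_ (Eventually.of_forall fun t => le_of_eq (habs x t))
    refine Continuous.aestronglyMeasurable ?_
    unfold ga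
    fun_prop
  · have e1 : (fun x : E => ∫ t : ℝ, ‖(t - m) ^ j * (Real.exp (⟪x, y⟫ - W x)
        * ga N (t - ⟪x, v⟫))‖) = fun x => Real.exp (⟪x, y⟫ - W x)
          * ∫ t : ℝ, |t - m| ^ j * ga N (t - ⟪x, v⟫) := by
      funext x
      rw [← integral_const_mul]
      exact integral_congr_ae (Eventually.of_forall fun t => habs x t)
    have hm2 : AEStronglyMeasurable (fun x : E => ∫ t : ℝ, ‖(t - m) ^ j
        * (Real.exp (⟪x, y⟫ - W x) * ga N (t - ⟪x, v⟫))‖) volume := by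
      exact hmeas.norm.prod_swap.integral_prod_right'
    set K1 := ∫ s : ℝ, |s| ^ j * ga N s with hK1
    set K0 := ∫ s : ℝ, ga N s with hK0
    have hbd : ∀ x : E, ∫ t : ℝ, |t - m| ^ j * ga N (t - ⟪x, v⟫)
        ≤ (2 : ℝ) ^ (j - 1) * (K1 + |⟪x, v⟫ - m| ^ j * K0) := by
      intro x
      have h := integral_sub_right_eq_self (μ := (volume : Measure ℝ))
        (fun s : ℝ => |s + ⟪x, v⟫ - m| ^ j * ga N s) ⟪x, v⟫
      simp only [sub_add_cancel] at h
      rw [h]
      have h0 : Integrable (fun s : ℝ => (2 : ℝ) ^ (j - 1) * (|s| ^ j * ga N s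
          + |⟪x, v⟫ - m| ^ j * ga N s)) :=
        ((ga_int_abs hN j).add ((ga_int0 hN).const_mul _)).const_mul _
      have h5 : ∫ s : ℝ, (2 : ℝ) ^ (j - 1) * (|s| ^ j * ga N s + |⟪x, v⟫ - m| ^ j * ga N s)
          = (2 : ℝ) ^ (j - 1) * (K1 + |⟪x, v⟫ - m| ^ j * K0) := by
        have hj : Integrable (fun s : ℝ => |⟪x, v⟫ - m| ^ j * ga N s) := (ga_int0 hN).const_mul _
        rw [integral_const_mul, integral_add (ga_int_abs hN j) hj, integral_const_mul]
      rw [← h5]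
      refine integral_mono_of_nonneg (Eventually.of_forall fun s => ?_) h0
        (Eventually.of_forall fun s => ?_)
      · exact mul_nonneg (pow_nonneg (abs_nonneg _) _) (ga_pos _ _).le
      · have h2 : |s + ⟪x, v⟫ - m| ≤ |s| + |⟪x, v⟫ - m| := by
          have := abs_add_le s (⟪x, v⟫ - m)
          rwa [show s + (⟪x, v⟫ - m) = s + ⟪x, v⟫ - m by ring] at this
        have h3 : |s + ⟪x, v⟫ - m| ^ j ≤ (2 : ℝ) ^ (j - 1) * (|s| ^ j + |⟪x, v⟫ - m| ^ j) :=
          le_trans (pow_le_pow_left₀ (abs_nonneg _) h2 j)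
            (add_pow_le (abs_nonneg _) (abs_nonneg _) j)
        calc |s + ⟪x, v⟫ - m| ^ j * ga N s
            ≤ ((2 : ℝ) ^ (j - 1) * (|s| ^ j + |⟪x, v⟫ - m| ^ j)) * ga N s :=
              mul_le_mul_of_nonneg_right h3 (ga_pos _ _).le
          _ = _ := by ring
    have hdom : Integrable (fun x : E => Real.exp (⟪x, y⟫ - W x)
        * ((2 : ℝ) ^ (j - 1) * (K1 + |⟪x, v⟫ - m| ^ j * K0))) := by
      have hp : LL.Pg (fun x : E => (2 : ℝ) ^ (j - 1) * (K1 + (‖v‖ * ‖x‖ + |m|) ^ j * K0)) := by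
        refine ⟨by fun_prop, (2 : ℝ) ^ (j - 1) * (|K1| + (‖v‖ + |m|) ^ j * |K0|), j, fun x => ?_⟩
        have hx : (1 : ℝ) ≤ 1 + ‖x‖ := by have := norm_nonneg x; linarith
        have h6 : (‖v‖ * ‖x‖ + |m|) ≤ (‖v‖ + |m|) * (1 + ‖x‖) := by
          have := norm_nonneg x; have := norm_nonneg v; have := abs_nonneg m
          nlinarith
        have h7 : (‖v‖ * ‖x‖ + |m|) ^ j ≤ (‖v‖ + |m|) ^ j * (1 + ‖x‖) ^ j := by
          rw [← mul_pow]
          exact pow_le_pow_left₀ (by positivity) h6 j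
        have h8 : (1 : ℝ) ≤ (1 + ‖x‖) ^ j := one_le_pow₀ hx
        rw [Real.norm_eq_abs, abs_mul, abs_of_nonneg (by positivity : (0 : ℝ) ≤ 2 ^ (j - 1)),
          mul_assoc]
        refine mul_le_mul_of_nonneg_left ?_ (by positivity)
        refine le_trans (abs_add_le _ _) ?_
        rw [abs_mul, abs_of_nonneg (by positivity : (0 : ℝ) ≤ (‖v‖ * ‖x‖ + |m|) ^ j), add_mul]
        refine add_le_add ?_ ?_
        · exact le_mul_of_one_le_right (abs_nonneg _) h8
        · calc (‖v‖ * ‖x‖ + |m|) ^ j * |K0| ≤ ((‖v‖ + |m|) ^ j * (1 + ‖x‖) ^ j) * |K0| :=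
                mul_le_mul_of_nonneg_right h7 (abs_nonneg _)
            _ = _ := by ring
      have hi := LL.integrable hW hp y
      refine hi.mono' ?_ (Eventually.of_forall fun x => ?_)
      · refine Continuous.aestronglyMeasurable ?_
        fun_prop
      · have hK1n : 0 ≤ K1 := integral_nonneg fun s => mul_nonneg (pow_nonneg (abs_nonneg _) _)
          (ga_pos _ _).le
        have hK0n : 0 ≤ K0 := (ga_G0_pos hN).le
        have h9 : |⟪x, v⟫ - m| ≤ ‖v‖ * ‖x‖ + |m| := by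
          refine le_trans (abs_sub _ _) ?_
          have := abs_real_inner_le_norm x v
          nlinarith [mul_comm ‖x‖ ‖v‖]
        rw [Real.norm_eq_abs, abs_mul, abs_of_pos (Real.exp_pos _), smul_eq_mul,
          abs_of_nonneg (by positivity)]
        refine mul_le_mul_of_nonneg_left ?_ (Real.exp_pos _).le
        refine mul_le_mul_of_nonneg_left ?_ (by positivity)
        have := mul_le_mul_of_nonneg_right (pow_le_pow_left₀ (abs_nonneg _) h9 j) hK0n
        linarith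
    refine hdom.mono' hm2 (Eventually.of_forall fun x => ?_)
    have e2 := congrFun e1 x
    simp only at e2 ⊢
    rw [e2, Real.norm_eq_abs, abs_mul, abs_of_pos (Real.exp_pos _), abs_of_nonneg
      (integral_nonneg fun t => mul_nonneg (pow_nonneg (abs_nonneg _) _) (ga_pos _ _).le)]
    exact mul_le_mul_of_nonneg_left (hbd x) (Real.exp_pos _).le

theorem fub {W : E → ℝ} {a C : ℝ} (hW : LL.Gr W a C) (y v : E) {N : ℝ} (hN : 0 < N) (m : ℝ)
    (j : ℕ) :
    ∫ t, (t - m) ^ j * pN W y v N t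
      = ∫ x, Real.exp (⟪x, y⟫ - W x) * ∫ t, (t - m) ^ j * ga N (t - ⟪x, v⟫) := by
  have h := integral_integral_swap (μ := (volume : Measure ℝ)) (ν := (volume : Measure E))
    (f := fun t x => (t - m) ^ j * (Real.exp (⟪x, y⟫ - W x) * ga N (t - ⟪x, v⟫)))
    (fub_int hW y v hN m j)
  have e1 : ∀ t, (t - m) ^ j * pN W y v N t
      = ∫ x, (t - m) ^ j * (Real.exp (⟪x, y⟫ - W x) * ga N (t - ⟪x, v⟫)) := by
    intro t
    unfold pN
    rw [← integral_const_mul]
    simp only [exp_split]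
  simp only [e1]
  rw [h]
  congr 1
  funext x
  rw [← integral_const_mul]
  congr 1
  funext t
  ring

/-- total mass, mean, variance and third central moment of the smoothed density -/
theorem pN_moments {W : E → ℝ} {a C : ℝ} (hW : LL.Gr W a C) (y v : E) {N : ℝ} (hN : 0 < N) :
    let G := ∫ s, ga N s
    let Z := LL.Z W y
    let μ := LL.av W y (fun x => ⟪x, v⟫)
    (∫ t, pN W y v N t) = Z * G ∧
    (∫ t, t * pN W y v N t) = μ * (Z * G) ∧
    (∫ t, (t - μ) ^ 2 * pN W y v N t) = (LL.c2 W y v + 1 / N) * (Z * G) ∧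
    (∫ t, (t - μ) ^ 3 * pN W y v N t) = LL.c3 W y v * (Z * G) := by
  intro G Z μ
  have hZ : 0 < Z := LL.Z_pos hW y
  have hv := LL.Pg.inner (E := E) v
  -- from averages to integrals
  have hav : ∀ g : E → ℝ, ∫ x, Real.exp (⟪x, y⟫ - W x) * g x = Z * LL.av W y g := by
    intro g
    unfold LL.av LL.I
    simp only [smul_eq_mul]
    rw [← mul_assoc, mul_inv_cancel₀ hZ.ne', one_mul]
  have hμ : LL.av W y (fun x => ⟪x, v⟫) = μ := rfl
  have s := fun x : E => ga_shift hN μ (⟪x, v⟫ : ℝ)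
  refine ⟨?_, ?_, ?_, ?_⟩
  · have h := fub hW y v hN 0 0
    simp only [pow_zero, one_mul] at h
    rw [h]
    have : (fun x : E => Real.exp (⟪x, y⟫ - W x) * ∫ t, ga N (t - ⟪x, v⟫))
        = fun x => Real.exp (⟪x, y⟫ - W x) * G := by
      funext x; rw [(s x).1]
    rw [this, integral_mul_const]
    rfl
  · have h := fub hW y v hN 0 1
    simp only [sub_zero, pow_one] at h
    rw [h]
    have : (fun x : E => Real.exp (⟪x, y⟫ - W x) * ∫ t, t * ga N (t - ⟪x, v⟫))
        = fun x => (Real.exp (⟪x, y⟫ - W x) * ⟪x, v⟫) * G := by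
      funext x; rw [(s x).2.1]; ring
    rw [this, integral_mul_const, hav, hμ]
    ring
  · have h := fub hW y v hN μ 2
    rw [h]
    have : (fun x : E => Real.exp (⟪x, y⟫ - W x) * ∫ t, (t - μ) ^ 2 * ga N (t - ⟪x, v⟫))
        = fun x => (Real.exp (⟪x, y⟫ - W x) * ((⟪x, v⟫ - μ) ^ 2 + 1 / N)) * G := by
      funext x; rw [(s x).2.2.1]; ring
    rw [this, integral_mul_const, hav, LL.av_add hW ((hv.sub (LL.Pg.const _)).pow 2)
      (LL.Pg.const _), LL.av_const hW]
    unfold LL.c2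
    rw [hμ]
    ring
  · have h := fub hW y v hN μ 3
    rw [h]
    have : (fun x : E => Real.exp (⟪x, y⟫ - W x) * ∫ t, (t - μ) ^ 3 * ga N (t - ⟪x, v⟫))
        = fun x => (Real.exp (⟪x, y⟫ - W x) * ((⟪x, v⟫ - μ) ^ 3
          + (3 * (1 / N)) * (⟪x, v⟫ - μ))) * G := by
      funext x; rw [(s x).2.2.2]; ring
    rw [this, integral_mul_const, hav, LL.av_add hW ((hv.sub (LL.Pg.const _)).pow 3)
      ((LL.Pg.const _).mul (hv.sub (LL.Pg.const _))), LL.av_const_mul,
      LL.av_sub hW hv (LL.Pg.const _), LL.av_const hW, hμ]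
    unfold LL.c3
    rw [hμ]
    ring

theorem pN_pos {W : E → ℝ} {a C : ℝ} (hW : LL.Gr W a C) (y v : E) {N : ℝ} (hN : 0 < N) (t : ℝ) :
    0 < pN W y v N t := by
  unfold pN
  simp only [exp_split]
  have hi := LL.integrable_exp hW y
  have hc : Continuous fun x : E => Real.exp (⟪x, y⟫ - W x) * ga N (t - ⟪x, v⟫) := by
    have := hW.cont
    unfold ga
    fun_prop
  have hi2 : Integrable fun x : E => Real.exp (⟪x, y⟫ - W x) * ga N (t - ⟪x, v⟫) := by
    refine hi.mono' hc.aestronglyMeasurable (Eventually.of_forall fun x => ?_)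
    rw [Real.norm_eq_abs, abs_of_pos (mul_pos (Real.exp_pos _) (ga_pos _ _))]
    refine mul_le_of_le_one_right (Real.exp_pos _).le ?_
    unfold ga
    rw [Real.exp_le_one_iff]
    nlinarith [sq_nonneg (t - ⟪x, v⟫)]
  exact integral_pos_of_integrable_nonneg_nonzero (x := 0) hc hi2
    (fun x => (mul_pos (Real.exp_pos _) (ga_pos _ _)).le)
    (mul_pos (Real.exp_pos _) (ga_pos _ _)).ne'

/-- third moment bound for the smoothed densities gives the bound for `⟪x, v⟫` -/
theorem c3_le {W : E → ℝ} {a C : ℝ} (hW : LL.Gr W a C) (y v : E) {κ : ℝ}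
    (hsk : ∀ N M : ℝ, 0 < N → κ < M →
      |(∫ t, (t - (∫ t, t * pN W y v N t) / (∫ t, pN W y v N t)) ^ 3 * pN W y v N t)
          / (∫ t, pN W y v N t)|
        ≤ 2 * M * √((∫ t, (t - (∫ t, t * pN W y v N t) / (∫ t, pN W y v N t)) ^ 2
            * pN W y v N t) / (∫ t, pN W y v N t)) ^ 3) :
    |LL.c3 W y v| ≤ 2 * κ * √(LL.c2 W y v) ^ 3 := by
  have hZ := LL.Z_pos hW y
  have h1 : ∀ N M : ℝ, 0 < N → κ < M → |LL.c3 W y v| ≤ 2 * M * √(LL.c2 W y v + 1 / N) ^ 3 := by
    intro N M hN hM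
    have h := hsk N M hN hM
    obtain ⟨e0, e1, e2, e3⟩ := pN_moments hW y v hN
    have hG := ga_G0_pos hN
    have hZG : 0 < LL.Z W y * ∫ s, ga N s := mul_pos hZ hG
    rw [e0, e1, mul_div_cancel_right₀ _ hZG.ne', e2, e3, mul_div_cancel_right₀ _ hZG.ne',
      mul_div_cancel_right₀ _ hZG.ne'] at h
    exact h
  have h2 : ∀ k : ℕ, |LL.c3 W y v|
      ≤ 2 * (κ + 1 / ((k : ℝ) + 1)) * √(LL.c2 W y v + 1 / ((k : ℝ) + 1)) ^ 3 := by
    intro k
    have hk : (0 : ℝ) < (k : ℝ) + 1 := by positivity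
    refine h1 _ _ hk ?_
    have : (0 : ℝ) < 1 / ((k : ℝ) + 1) := by positivity
    linarith
  have h3 : Tendsto (fun k : ℕ => (1 : ℝ) / ((k : ℝ) + 1)) atTop (𝓝 0) :=
    tendsto_one_div_add_atTop_nhds_zero_nat
  have h4 : Tendsto (fun k : ℕ => 2 * (κ + 1 / ((k : ℝ) + 1))
      * √(LL.c2 W y v + 1 / ((k : ℝ) + 1)) ^ 3) atTop
      (𝓝 (2 * (κ + 0) * √(LL.c2 W y v + 0) ^ 3)) := by
    refine ((h3.const_add κ).const_mul 2).mul ?_
    exact ((Real.continuous_sqrt.tendsto _).comp (h3.const_add _)).pow 3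
  have h5 := ge_of_tendsto' h4 h2
  simpa using h5

end Fub

end Vale.Agent.P227.M.AsmN
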