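import Vale.Agent.P227.M.SC.AsmN

/-! # P227/M/SC : removing the confinement `δ ‖x‖²` in second and third central moments -/

open MeasureTheory Filter Topology Real
open scoped RealInnerProductSpace ContDiff

namespace Vale.Agent.P227.M.AsmN

set_option linter.unusedSectionVars false

variable {E : Type} [NormedAddCommGroup E] [InnerProductSpace ℝ E] [FiniteDimensional ℝ E]
  [MeasurableSpace E] [BorelSpace E]

theorem gr_add {W : E → ℝ} {a C : ℝ} (hW : LL.Gr W a C) {δ : ℝ} (hδ : 0 ≤ δ) :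
    LL.Gr (fun x => W x + δ * ‖x‖ ^ 2) a C where
  cont := by
    have := hW.cont
    fun_prop
  pos := hW.pos
  low x := by
    have := hW.low x
    have h2 : 0 ≤ δ * ‖x‖ ^ 2 := by positivity
    linarith

theorem tendsto_I {W : E → ℝ} {a C : ℝ} (hW : LL.Gr W a C) {g : E → ℝ} (hg : LL.Pg g) (y : E) :
    Tendsto (fun δ : ℝ => LL.I (fun x => W x + δ * ‖x‖ ^ 2) g y) (𝓝[>] 0) (𝓝 (LL.I W g y)) := by
  unfold LL.I
  have hi := (LL.integrable hW hg y).norm
  refine tendsto_integral_filter_of_dominated_convergence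
    (fun x => ‖Real.exp (⟪x, y⟫ - W x) • g x‖) ?_ ?_ hi ?_
  · refine Eventually.of_forall fun δ => ?_
    have h1 := hW.cont
    have h2 := hg.1
    refine Continuous.aestronglyMeasurable ?_
    fun_prop
  · filter_upwards [self_mem_nhdsWithin] with δ hδ
    refine Eventually.of_forall fun x => ?_
    rw [norm_smul, norm_smul]
    refine mul_le_mul_of_nonneg_right ?_ (norm_nonneg _)
    rw [Real.norm_eq_abs, Real.norm_eq_abs, abs_of_pos (Real.exp_pos _),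
      abs_of_pos (Real.exp_pos _)]
    refine Real.exp_le_exp.2 ?_
    have : 0 ≤ δ * ‖x‖ ^ 2 := mul_nonneg (le_of_lt hδ) (sq_nonneg _)
    linarith
  · refine Eventually.of_forall fun x => ?_
    have hc : Continuous fun δ : ℝ => Real.exp (⟪x, y⟫ - (W x + δ * ‖x‖ ^ 2)) • g x := by
      fun_prop
    have h := (hc.tendsto 0).mono_left (nhdsWithin_le_nhds (s := Set.Ioi (0 : ℝ)))
    simpa using h

theorem tendsto_Z {W : E → ℝ} {a C : ℝ} (hW : LL.Gr W a C) (y : E) :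
    Tendsto (fun δ : ℝ => LL.Z (fun x => W x + δ * ‖x‖ ^ 2) y) (𝓝[>] 0) (𝓝 (LL.Z W y)) := by
  have h := tendsto_I hW (LL.Pg.const (E := E) (1 : ℝ)) y
  simpa only [LL.Z_eq_I] using h

theorem tendsto_av {W : E → ℝ} {a C : ℝ} (hW : LL.Gr W a C) {g : E → ℝ} (hg : LL.Pg g) (y : E) :
    Tendsto (fun δ : ℝ => LL.av (fun x => W x + δ * ‖x‖ ^ 2) y g) (𝓝[>] 0)
      (𝓝 (LL.av W y g)) := by
  unfold LL.av
  exact ((tendsto_Z hW y).inv₀ (LL.Z_pos hW y).ne').smul (tendsto_I hW hg y)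

theorem tendsto_c2 {W : E → ℝ} {a C : ℝ} (hW : LL.Gr W a C) (y v : E) :
    Tendsto (fun δ : ℝ => LL.c2 (fun x => W x + δ * ‖x‖ ^ 2) y v) (𝓝[>] 0)
      (𝓝 (LL.c2 W y v)) := by
  have hv := LL.Pg.inner (E := E) v
  have h := (tendsto_av hW (hv.pow 2) y).sub ((tendsto_av hW hv y).pow 2)
  rw [← LL.c2_eq hW] at h
  refine h.congr' ?_
  filter_upwards [self_mem_nhdsWithin] with δ hδ
  exact (LL.c2_eq (gr_add hW (le_of_lt hδ)) y v).symm

theorem tendsto_c3 {W : E → ℝ} {a C : ℝ} (hW : LL.Gr W a C) (y v : E) :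
    Tendsto (fun δ : ℝ => LL.c3 (fun x => W x + δ * ‖x‖ ^ 2) y v) (𝓝[>] 0)
      (𝓝 (LL.c3 W y v)) := by
  have hv := LL.Pg.inner (E := E) v
  have h := ((tendsto_av hW (hv.pow 3) y).sub
    (((tendsto_av hW hv y).const_mul 3).mul (tendsto_av hW (hv.pow 2) y))).add
    (((tendsto_av hW hv y).pow 3).const_mul 2)
  rw [← LL.c3_eq hW] at h
  refine h.congr' ?_
  filter_upwards [self_mem_nhdsWithin] with δ hδ
  exact (LL.c3_eq (gr_add hW (le_of_lt hδ)) y v).symm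

/-- the third moment bound passes to the limit `δ → 0` -/
theorem c3_le_of_delta {W : E → ℝ} {a C : ℝ} (hW : LL.Gr W a C) (y v : E) {κ : ℝ}
    (h : ∀ δ : ℝ, 0 < δ → |LL.c3 (fun x => W x + δ * ‖x‖ ^ 2) y v|
      ≤ 2 * κ * √(LL.c2 (fun x => W x + δ * ‖x‖ ^ 2) y v) ^ 3) :
    |LL.c3 W y v| ≤ 2 * κ * √(LL.c2 W y v) ^ 3 := by
  have h1 := (tendsto_c3 hW y v).abs
  have h2 : Tendsto (fun δ : ℝ => 2 * κ * √(LL.c2 (fun x => W x + δ * ‖x‖ ^ 2) y v) ^ 3)
      (𝓝[>] 0) (𝓝 (2 * κ * √(LL.c2 W y v) ^ 3)) := by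
    refine (((Real.continuous_sqrt.tendsto _).comp (tendsto_c2 hW y v)).pow 3).const_mul _
  refine le_of_tendsto_of_tendsto h1 h2 ?_
  filter_upwards [self_mem_nhdsWithin] with δ hδ
  exact h δ hδ

end Vale.Agent.P227.M.AsmN
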