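import Vale.Agent.P227.M.SC.AsmN2
import Vale.Agent.P227.M.SC1
import Vale.Agent.P227.M.SC2.HeatLine
import Vale.Agent.P227.M.Lap.LD

/-! # P227/M/SC : `StmtHeat → StmtSC` (helper344)

Gaussian smoothing of the law of `⟪x, v⟫` (variance `1/N`) and confinement `δ‖x‖²`: the smoothed
density is `exp (-heat W P)` along a line times a Gaussian, with `P = A^{-1/2}`,
`A = 2δ + N v vᵀ`. -/

open MeasureTheory Filter Topology Real
open scoped RealInnerProductSpace ContDiff

namespace Vale.Agent.P227.M.AsmN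

variable {n : ℕ}

/-- the quadratic form `2δ‖w‖² + N⟪v,w⟫²` -/
noncomputable def QA (v : E n) (N δ : ℝ) (w : E n) : ℝ := 2 * δ * ‖w‖ ^ 2 + N * ⟪v, w⟫ ^ 2

theorem exists_P (v : E n) {N δ : ℝ} (hN : 0 < N) (hδ : 0 < δ) :
    ∃ P : E n →L[ℝ] E n, ∀ z, QA v N δ (P z) = ‖z‖ ^ 2 := by
  set r := ‖v‖ ^ 2 with hr
  have hr0 : 0 ≤ r := by positivity
  set S := 2 * δ + N * r with hS
  have hS0 : 0 < S := by positivity
  set q := √(2 * δ / S) with hq
  have hq2 : q ^ 2 * S = 2 * δ := by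
    rw [hq, Real.sq_sqrt (by positivity)]
    field_simp
  set a := (√(2 * δ))⁻¹ with ha
  have ha2 : 2 * δ * a ^ 2 = 1 := by
    rw [ha, inv_pow, Real.sq_sqrt (by positivity)]
    field_simp
  set θ := (1 - q) / r with hθ
  refine ⟨a • (ContinuousLinearMap.id ℝ (E n) - θ • (innerSL ℝ v).smulRight v), fun z => ?_⟩
  have hz : (a • (ContinuousLinearMap.id ℝ (E n) - θ • (innerSL ℝ v).smulRight v)) z
      = a • (z - (θ * ⟪v, z⟫) • v) := by
    simp [smul_smul]
  rw [hz]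
  have h1 : ‖z - (θ * ⟪v, z⟫) • v‖ ^ 2
      = ‖z‖ ^ 2 - 2 * θ * ⟪v, z⟫ ^ 2 + θ ^ 2 * ⟪v, z⟫ ^ 2 * r := by
    rw [norm_sub_sq_real, inner_smul_right, norm_smul, real_inner_comm, mul_pow, Real.norm_eq_abs,
      sq_abs, hr]
    ring
  have h2 : ⟪v, z - (θ * ⟪v, z⟫) • v⟫ = ⟪v, z⟫ * (1 - θ * r) := by
    rw [inner_sub_right, inner_smul_right, real_inner_self_eq_norm_sq, hr]
    ring
  unfold QA
  rw [norm_smul, mul_pow, Real.norm_eq_abs, sq_abs, inner_smul_right, h2, h1]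
  have key : ⟪v, z⟫ ^ 2 * (2 * δ * (-2 * θ + θ ^ 2 * r) + N * (1 - θ * r) ^ 2) = 0 := by
    rcases eq_or_ne v 0 with hv | hv
    · rw [hv]; simp
    · have hr1 : 0 < r := by rw [hr]; positivity
      have hθr : θ * r = 1 - q := by rw [hθ]; field_simp
      have : r * (2 * δ * (-2 * θ + θ ^ 2 * r) + N * (1 - θ * r) ^ 2) = 0 := by
        have e1 : r * (2 * δ * (-2 * θ + θ ^ 2 * r) + N * (1 - θ * r) ^ 2)
            = 2 * δ * (-2 * (θ * r) + (θ * r) ^ 2) + N * r * (1 - θ * r) ^ 2 := by ring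
        rw [e1, hθr]
        have e2 : q ^ 2 * (2 * δ + N * r) = 2 * δ := hq2
        linear_combination e2
      rcases mul_eq_zero.1 this with h | h
      · exact absurd h hr1.ne'
      · rw [h, mul_zero]
  have e3 : 2 * δ * (a ^ 2 * (‖z‖ ^ 2 - 2 * θ * ⟪v, z⟫ ^ 2 + θ ^ 2 * ⟪v, z⟫ ^ 2 * r))
      + N * (a * (⟪v, z⟫ * (1 - θ * r))) ^ 2
      = 2 * δ * a ^ 2 * ‖z‖ ^ 2
        + a ^ 2 * (⟪v, z⟫ ^ 2 * (2 * δ * (-2 * θ + θ ^ 2 * r) + N * (1 - θ * r) ^ 2)) := by ring
  rw [e3, key, ha2]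
  ring

/-- change of variables with an unknown constant -/
theorem exists_K (v : E n) {N δ : ℝ} {P : E n →L[ℝ] E n}
    (hP : ∀ z, QA v N δ (P z) = ‖z‖ ^ 2) :
    ∃ K : ℝ, 0 < K ∧ ∀ F : E n → ℝ, Continuous F → ∫ z, F (P z) = K * ∫ u, F u := by
  have hinj : Function.Injective (P : E n →ₗ[ℝ] E n) := by
    rw [injective_iff_map_eq_zero]
    intro z hz
    have h := hP z
    have hz' : P z = 0 := hz
    rw [hz'] at h
    have : ‖z‖ ^ 2 = 0 := by rw [← h]; simp [QA]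
    exact norm_eq_zero.1 (pow_eq_zero_iff (two_ne_zero) |>.1 this)
  have hdet : LinearMap.det (P : E n →ₗ[ℝ] E n) ≠ 0 := by
    intro h0
    have := LinearMap.bot_lt_ker_of_det_eq_zero h0
    rw [LinearMap.ker_eq_bot.2 hinj] at this
    exact lt_irrefl _ this
  have hmap := Measure.map_linearMap_addHaar_eq_smul_addHaar (volume : Measure (E n)) hdet
  refine ⟨|(LinearMap.det (P : E n →ₗ[ℝ] E n))⁻¹|, abs_pos.2 (inv_ne_zero hdet), fun F hF => ?_⟩
  have h1 : ∫ z, F (P z) = ∫ u, F u ∂(Measure.map (P : E n →ₗ[ℝ] E n) volume) := by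
    rw [integral_map]
    · rfl
    · exact (P.continuous.measurable).aemeasurable
    · exact hF.aestronglyMeasurable
  rw [h1, hmap, integral_smul_measure, ENNReal.toReal_ofReal (abs_nonneg _), smul_eq_mul]

/-- the basic identity -/
theorem pN_eq {W : E n → ℝ} (hWc : Continuous W) (y v : E n) {N δ : ℝ} (hN : 0 < N) (hδ : 0 < δ)
    {P : E n →L[ℝ] E n} (hP : ∀ z, QA v N δ (P z) = ‖z‖ ^ 2) :
    ∃ (x0 e : E n) (α β γ K : ℝ), 0 < γ ∧ 0 < K ∧ ∀ t : ℝ,
      (∫ z : E n, Real.exp (-W (x0 + t • e + P z) - ‖z‖ ^ 2 / 2))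
        = K * (Real.exp (γ * t ^ 2 - β * t - α) * pN (fun x => W x + δ * ‖x‖ ^ 2) y v N t) := by
  obtain ⟨K, hK, hKF⟩ := exists_K v hP
  set r := ‖v‖ ^ 2 with hr
  have hr0 : 0 ≤ r := by positivity
  set S := 2 * δ + N * r with hS
  have hS0 : 0 < S := by positivity
  set x0 : E n := (1 / (2 * δ)) • (y - (N * ⟪v, y⟫ / S) • v) with hx0
  set e : E n := (N / S) • v with he
  refine ⟨x0, e, ⟪x0, y⟫ / 2, N * ⟪v, y⟫ / S, δ * N / S, K, by positivity, hK, fun t => ?_⟩
  -- inner products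
  have hvx0 : ⟪v, x0⟫ = ⟪v, y⟫ / S := by
    rw [hx0, inner_smul_right, inner_sub_right, inner_smul_right, real_inner_self_eq_norm_sq, ← hr]
    field_simp
    rw [hS]
    ring
  have hve : ⟪v, e⟫ = N * r / S := by
    rw [he, inner_smul_right, real_inner_self_eq_norm_sq, ← hr]
    ring
  have hxx0 : ∀ x : E n, 2 * δ * ⟪x, x0⟫ + N * ⟪v, x⟫ * ⟪v, x0⟫ = ⟪x, y⟫ := by
    intro x
    rw [hvx0, hx0, inner_smul_right, inner_sub_right, inner_smul_right, real_inner_comm v x]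
    field_simp
    ring
  have hxe : ∀ x : E n, 2 * δ * ⟪x, e⟫ + N * ⟪v, x⟫ * ⟪v, e⟫ = N * ⟪v, x⟫ := by
    intro x
    rw [hve, he, inner_smul_right, real_inner_comm v x]
    field_simp
    rw [hS]
    ring
  have hey : ⟪e, y⟫ = N * ⟪v, y⟫ / S := by
    rw [he, real_inner_smul_left]; ring
  clear_value x0 e
  have hB : ∀ x : E n, 2 * δ * ⟪x, x0 + t • e⟫ + N * ⟪v, x⟫ * ⟪v, x0 + t • e⟫
      = ⟪x, y⟫ + t * (N * ⟪v, x⟫) := by
    intro x
    rw [inner_add_right, inner_add_right, inner_smul_right, inner_smul_right]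
    linear_combination hxx0 x + t * hxe x
  have hQ : ∀ x : E n, QA v N δ (x - (x0 + t • e))
      = QA v N δ x - 2 * (⟪x, y⟫ + t * (N * ⟪v, x⟫))
        + (⟪x0 + t • e, y⟫ + t * (N * ⟪v, x0 + t • e⟫)) := by
    intro x
    rw [← hB x, ← hB (x0 + t • e)]
    unfold QA
    rw [norm_sub_sq_real, inner_sub_right, real_inner_self_eq_norm_sq]
    ring
  have hpy : ⟪x0 + t • e, y⟫ + t * (N * ⟪v, x0 + t • e⟫)
      = ⟪x0, y⟫ + 2 * (t * (N * ⟪v, y⟫ / S)) + t ^ 2 * (N ^ 2 * r / S) := by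
    rw [inner_add_left, real_inner_smul_left, inner_add_right, inner_smul_right, hvx0, hve, hey]
    ring
  have h1 : (∫ z : E n, Real.exp (-W (x0 + t • e + P z) - ‖z‖ ^ 2 / 2))
      = ∫ z : E n, (fun u => Real.exp (-W (x0 + t • e + u) - QA v N δ u / 2)) (P z) := by
    refine integral_congr_ae (Eventually.of_forall fun z => ?_)
    simp only [hP z]
  have hc : Continuous (fun u : E n => Real.exp (-W (x0 + t • e + u) - QA v N δ u / 2)) := by
    unfold QA
    fun_prop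
  rw [h1, hKF _ hc]
  congr 1
  have h2 : (∫ u : E n, Real.exp (-W (x0 + t • e + u) - QA v N δ u / 2))
      = ∫ x : E n, Real.exp (-W x - QA v N δ (x - (x0 + t • e)) / 2) := by
    rw [← integral_add_left_eq_self (fun x : E n =>
      Real.exp (-W x - QA v N δ (x - (x0 + t • e)) / 2)) (x0 + t • e)]
    refine integral_congr_ae (Eventually.of_forall fun u => ?_)
    simp only [add_sub_cancel_left]
  rw [h2]
  unfold pN
  rw [← integral_const_mul]
  refine integral_congr_ae (Eventually.of_forall fun x => ?_)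
  simp only
  rw [← Real.exp_add]
  congr 1
  rw [hQ x, hpy]
  unfold QA
  rw [real_inner_comm x v]
  have e1 : N * t ^ 2 / 2 = δ * N / S * t ^ 2 + t ^ 2 * (N ^ 2 * r / S) / 2 := by
    have hS' : N = δ * N / S * 2 + N ^ 2 * r / S := by
      field_simp
      rw [hS]
      ring
    linear_combination t ^ 2 / 2 * hS'
  linear_combination e1


/-- a continuous function whose derivative vanishes where it is negative is nonnegative or a
negative constant -/
theorem nonneg_or_const {h h' : ℝ → ℝ} (hd : ∀ t, HasDerivAt h (h' t) t)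
    (h0 : ∀ t, h t < 0 → h' t = 0) : (∀ t, 0 ≤ h t) ∨ ∃ b : ℝ, b < 0 ∧ ∀ t, h t = b := by
  by_contra hcon
  push Not at hcon
  obtain ⟨⟨t1, ht1⟩, hcon⟩ := hcon
  obtain ⟨t2, ht2⟩ := hcon (h t1) ht1
  apply ht2
  have hc : Continuous h := continuous_iff_continuousAt.2 fun t => (hd t).continuousAt
  have hcl : IsClosed {t | h t = h t1} := isClosed_eq hc continuous_const
  have hop : IsOpen {t | h t = h t1} := by
    rw [Metric.isOpen_iff]
    intro t ht
    have htn : h t < 0 := by rw [show h t = h t1 from ht]; exact ht1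
    obtain ⟨ρ, hρ, hball⟩ := Metric.isOpen_iff.1 (isOpen_lt hc continuous_const) t
      (show t ∈ {t | h t < 0} from htn)
    refine ⟨ρ, hρ, fun s hs => ?_⟩
    have hconv : Convex ℝ (Metric.ball t ρ) := convex_ball t ρ
    have := hconv.is_const_of_fderivWithin_eq_zero (𝕜 := ℝ) (f := h)
      (fun z _ => (hd z).differentiableAt.differentiableWithinAt)
      (fun z hz => by
        rw [fderivWithin_of_isOpen Metric.isOpen_ball hz]
        have h3 := (hd z).hasFDerivAt.fderiv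
        rw [h3, h0 z (hball hz)]
        ext; simp)
      hs (Metric.mem_ball_self hρ)
    show h s = h t1
    rw [this]
    exact ht
  have huniv := IsClopen.eq_univ ⟨hcl, hop⟩ ⟨t1, rfl⟩
  have : t2 ∈ {t | h t = h t1} := by rw [huniv]; trivial
  exact this

theorem rpow_three_half_of_neg {x : ℝ} (hx : x < 0) : x ^ ((3 : ℝ) / 2) = 0 := by
  rw [Real.rpow_def_of_neg hx]
  have : Real.cos ((3 : ℝ) / 2 * π) = 0 := by
    rw [Real.cos_eq_zero_iff]
    exact ⟨1, by push_cast; ring⟩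
  rw [this, mul_zero]

theorem rpow_three_half {x : ℝ} (hx : 0 ≤ x) : x ^ ((3 : ℝ) / 2) = √x ^ 3 := by
  rw [Real.sqrt_eq_rpow, ← Real.rpow_natCast, ← Real.rpow_mul hx]
  norm_num

theorem heat_bddBelow {W : E n → ℝ} {c C : ℝ} (hW : Reg W c C) (P : E n →L[ℝ] E n) :
    ∃ B : ℝ, ∀ x, B ≤ heat W P x := by
  obtain ⟨K, hK, hb⟩ := HL.bdd_mul_exp hW (HL.gr_q hW 0 0)
  refine ⟨-Real.log (K * ∫ z : E n, Real.exp (-‖z‖ ^ 2 / 2)), fun x => ?_⟩
  rw [HL.heat_eq W 0 P x]
  refine neg_le_neg (Real.log_le_log (HL.H_zero_pos hW 0 P x) ?_)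
  unfold HL.H
  rw [← integral_const_mul]
  refine integral_mono (HL.integrable_H hW 0 P 0 x) (HL.integrable_gw.const_mul K) fun z => ?_
  refine mul_le_mul_of_nonneg_right ((le_abs_self _).trans (hb _)) (Real.exp_pos _).le

theorem w2_nonneg {W : E n → ℝ} {c C κ : ℝ} (hW : Reg W c C) {P : E n →L[ℝ] E n}
    (hsc : SelfConc κ (heat W P)) (x0 e : E n) (t : ℝ) : 0 ≤ HL.w2 W e P (x0 + t • e) := by
  have hd := fun t => HL.hasDerivAt_w2 hW e P x0 t
  have h0 : ∀ t : ℝ, HL.w2 W e P (x0 + t • e) < 0 → HL.w3 W e P (x0 + t • e) = 0 := by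
    intro t ht
    have h := hsc (x0 + t • e) e
    rw [HL.iteratedDeriv_two_heat hW, HL.iteratedDeriv_three_heat hW,
      rpow_three_half_of_neg ht, mul_zero] at h
    exact abs_nonpos_iff.1 h
  rcases nonneg_or_const hd h0 with h | ⟨b, hb, hconst⟩
  · exact h t
  · exfalso
    have h1 : ∀ s : ℝ, HL.w1 W e P (x0 + s • e) = HL.w1 W e P (x0 + (0 : ℝ) • e) + b * s := by
      have hd1 : ∀ s : ℝ, HasDerivAt (fun s : ℝ => HL.w1 W e P (x0 + s • e) - b * s) 0 s := by
        intro s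
        have := (HL.hasDerivAt_w1 hW e P x0 s).sub ((hasDerivAt_id s).const_mul b)
        refine HasDerivAt.congr_deriv (f := fun s : ℝ => HL.w1 W e P (x0 + s • e) - b * s) this ?_
        rw [hconst s]; ring
      intro s
      have := is_const_of_deriv_eq_zero (fun s => (hd1 s).differentiableAt)
        (fun s => (hd1 s).deriv) s 0
      linarith
    have h2 : ∀ s : ℝ, heat W P (x0 + s • e) = heat W P (x0 + (0 : ℝ) • e)
        + HL.w1 W e P (x0 + (0 : ℝ) • e) * s + b * s ^ 2 / 2 := by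
      have hd1 : ∀ s : ℝ, HasDerivAt (fun s : ℝ => heat W P (x0 + s • e)
          - (HL.w1 W e P (x0 + (0 : ℝ) • e) * s + b * s ^ 2 / 2)) 0 s := by
        intro s
        have := (HL.hasDerivAt_heat hW e P x0 s).sub
          (((hasDerivAt_id s).const_mul (HL.w1 W e P (x0 + (0 : ℝ) • e))).add
            (((hasDerivAt_pow 2 s).const_mul b).div_const 2))
        refine HasDerivAt.congr_deriv (f := fun s : ℝ => heat W P (x0 + s • e)
          - (HL.w1 W e P (x0 + (0 : ℝ) • e) * s + b * s ^ 2 / 2)) this ?_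
        rw [h1 s]
        simp only [Nat.cast_ofNat, Nat.add_one_sub_one, pow_one]
        ring
      intro s
      have := is_const_of_deriv_eq_zero (fun s => (hd1 s).differentiableAt)
        (fun s => (hd1 s).deriv) s 0
      linarith
    obtain ⟨B, hB⟩ := heat_bddBelow hW P
    set g0 := heat W P (x0 + (0 : ℝ) • e)
    have h3 : ∀ s : ℝ, 2 * B ≤ 2 * g0 + b * s ^ 2 := by
      intro s
      have h4 := hB (x0 + s • e)
      have h5 := hB (x0 + (-s) • e)
      rw [h2] at h4 h5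
      have : (-s) ^ 2 = s ^ 2 := by ring
      rw [this] at h5
      linarith
    have h4 := h3 (√((2 * g0 - 2 * B + 1) / (-b)))
    have h5 : 0 ≤ (2 * g0 - 2 * B + 1) / (-b) := by
      have := h3 0
      apply div_nonneg
      · nlinarith
      · linarith
    rw [Real.sq_sqrt h5] at h4
    have h6 : b * ((2 * g0 - 2 * B + 1) / (-b)) = -(2 * g0 - 2 * B + 1) := by
      have hb0 : b ≠ 0 := hb.ne
      rw [div_neg, mul_neg, mul_div_cancel₀ _ hb0]
    rw [h6] at h4
    linarith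

theorem third_pN {W : E n → ℝ} {c C κ : ℝ} (hH : StmtHeat) (hW : Reg W c C) (hκ0 : 0 ≤ κ)
    (hκ1 : κ ≤ 1) (hsc : SelfConc κ W) (y v : E n) {δ N M : ℝ} (hδ : 0 < δ) (hN : 0 < N)
    (hM : κ < M) :
    |(∫ t, (t - (∫ t, t * pN (fun x => W x + δ * ‖x‖ ^ 2) y v N t)
        / (∫ t, pN (fun x => W x + δ * ‖x‖ ^ 2) y v N t)) ^ 3
          * pN (fun x => W x + δ * ‖x‖ ^ 2) y v N t)
          / (∫ t, pN (fun x => W x + δ * ‖x‖ ^ 2) y v N t)|
        ≤ 2 * M * √((∫ t, (t - (∫ t, t * pN (fun x => W x + δ * ‖x‖ ^ 2) y v N t)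
          / (∫ t, pN (fun x => W x + δ * ‖x‖ ^ 2) y v N t)) ^ 2
            * pN (fun x => W x + δ * ‖x‖ ^ 2) y v N t)
            / (∫ t, pN (fun x => W x + δ * ‖x‖ ^ 2) y v N t)) ^ 3 := by
  obtain ⟨P, hP⟩ := exists_P v hN hδ
  obtain ⟨x0, e, α, β, γ, K, hγ, hK, hpN⟩ := pN_eq hW.smooth.continuous y v hN hδ hP
  have hs := hH n W c C κ hW hκ0 hκ1 hsc P
  set U : ℝ → ℝ := fun t => heat W P (x0 + t • e) + (γ * t ^ 2 - β * t) + (Real.log K - α)
    with hU
  have hUp : ∀ t, pN (fun x => W x + δ * ‖x‖ ^ 2) y v N t = Real.exp (-U t) := by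
    intro t
    have h1 := hpN t
    rw [HL.exp_neg_heat W e P] at h1
    have h2 : Real.exp (-heat W P (x0 + t • e)) = HL.H W e P 0 (x0 + t • e) := by
      rw [HL.heat_eq W e P, neg_neg, Real.exp_log (HL.H_zero_pos hW e P _)]
    rw [← h2] at h1
    have h3 : -U t = -heat W P (x0 + t • e) - Real.log K - (γ * t ^ 2 - β * t - α) := by
      simp only [hU]; ring
    rw [h3, Real.exp_sub, Real.exp_sub, Real.exp_log hK, h1]
    field_simp
  have hU1 : ∀ t : ℝ, HasDerivAt U (HL.w1 W e P (x0 + t • e) + (2 * γ * t - β)) t := by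
    intro t
    have := ((HL.hasDerivAt_heat hW e P x0 t).add
      (((hasDerivAt_pow 2 t).const_mul γ).sub ((hasDerivAt_id t).const_mul β))).add_const
        (Real.log K - α)
    refine HasDerivAt.congr_deriv (f := U) this ?_
    simp only [Nat.cast_ofNat, Nat.add_one_sub_one, pow_one]
    ring
  have hU2 : ∀ t : ℝ, HasDerivAt (fun t : ℝ => HL.w1 W e P (x0 + t • e) + (2 * γ * t - β))
      (HL.w2 W e P (x0 + t • e) + 2 * γ) t := by
    intro t
    have := (HL.hasDerivAt_w1 hW e P x0 t).add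
      (((hasDerivAt_id t).const_mul (2 * γ)).sub_const β)
    refine HasDerivAt.congr_deriv
      (f := fun t : ℝ => HL.w1 W e P (x0 + t • e) + (2 * γ * t - β)) this ?_
    ring
  have hU3 : ∀ t : ℝ, HasDerivAt (fun t : ℝ => HL.w2 W e P (x0 + t • e) + 2 * γ)
      (HL.w3 W e P (x0 + t • e)) t := by
    intro t
    exact (HL.hasDerivAt_w2 hW e P x0 t).add_const (2 * γ)
  have hw2 := fun t : ℝ => w2_nonneg hW hs x0 e t
  have hMpos : 0 < M := lt_of_le_of_lt hκ0 hM
  simp only [hUp]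
  refine SC1.third_le_sc (c0 := 2 * γ) hU1 hU2 hU3 (by positivity) (fun t => ?_) hMpos
    (fun t => ?_) rfl rfl rfl
  · have := hw2 t
    linarith
  · have h := hs (x0 + t • e) e
    rw [HL.iteratedDeriv_two_heat hW, HL.iteratedDeriv_three_heat hW,
      rpow_three_half (hw2 t)] at h
    refine h.trans ?_
    have h5 : √(HL.w2 W e P (x0 + t • e)) ≤ √(HL.w2 W e P (x0 + t • e) + 2 * γ) :=
      Real.sqrt_le_sqrt (by linarith)
    gcongr

theorem gr_of_reg {W : E n → ℝ} {c C : ℝ} (hW : Reg W c C) : ∃ A : ℝ, LL.Gr W (c / 4) A := by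
  have hc := hW.c_pos
  set D := ‖fderiv ℝ W 0‖ with hD
  refine ⟨D ^ 2 / c - W 0, hW.smooth.continuous, by positivity, fun x => ?_⟩
  have h1 := (Lap.taylor_bounds hW 0 x).1
  rw [zero_add] at h1
  have h2 : |fderiv ℝ W 0 x| ≤ D * ‖x‖ := by
    simpa using (fderiv ℝ W 0).le_opNorm x
  have h3 := neg_abs_le (fderiv ℝ W 0 x)
  have h4 : D * ‖x‖ ≤ c / 4 * ‖x‖ ^ 2 + D ^ 2 / c := by
    have : c / 4 * ‖x‖ ^ 2 + D ^ 2 / c - D * ‖x‖ = (c * ‖x‖ / 2 - D) ^ 2 / c := by
      field_simp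
      ring
    have h5 : 0 ≤ (c * ‖x‖ / 2 - D) ^ 2 / c := by positivity
    linarith
  linarith

/-- **block SC from the flow statement** -/
theorem stmtSC_of_heat (hH : StmtHeat) : StmtSC := by
  intro n W c C κ hW hκ0 hκ1 hsc y v
  obtain ⟨A, hG⟩ := gr_of_reg hW
  have e2 : iteratedDeriv 2 (fun t : ℝ => logLap W (y + t • v)) 0 = LL.c2 W y v := by
    rw [iteratedDeriv_succ', show deriv (fun t : ℝ => logLap W (y + t • v))
      = fun t : ℝ => LL.av W (y + t • v) (fun x => ⟪x, v⟫)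
      from funext fun t => (LL.hasDerivAt_Lam hG y v t).deriv, iteratedDeriv_one,
      (LL.hasDerivAt_m1 hG y v 0).deriv]
    simp
  have e3 : iteratedDeriv 3 (fun t : ℝ => logLap W (y + t • v)) 0 = LL.c3 W y v := by
    rw [iteratedDeriv_succ', show deriv (fun t : ℝ => logLap W (y + t • v))
      = fun t : ℝ => LL.av W (y + t • v) (fun x => ⟪x, v⟫)
      from funext fun t => (LL.hasDerivAt_Lam hG y v t).deriv, iteratedDeriv_succ',
      show deriv (fun t : ℝ => LL.av W (y + t • v) (fun x => ⟪x, v⟫))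
        = fun t : ℝ => LL.c2 W (y + t • v) v
        from funext fun t => (LL.hasDerivAt_m1 hG y v t).deriv, iteratedDeriv_one,
      (LL.hasDerivAt_c2 hG y v 0).deriv]
    simp
  rw [e2, e3, rpow_three_half (LL.c2_nonneg hG y v)]
  refine c3_le_of_delta hG y v fun δ hδ => ?_
  exact c3_le (gr_add hG hδ.le) y v fun N M hN hM =>
    third_pN hH hW hκ0 hκ1 hsc y v hδ hN hM

end Vale.Agent.P227.M.AsmN
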