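import Vale.Agent.P227.M.SC.Dir

/-! # P227/M/SC: derivatives of `avg` up to order four. -/

namespace Vale.Agent.P227.M.SC

variable {E : Type*} [NormedAddCommGroup E] [NormedSpace ℝ E]

theorem line0 {F : E → ℝ} (hF : Sm F) (x v : E) :
    HasDerivAt (fun t : ℝ => F (x + t • v)) (dd v F x) 0 := by
  have := hasDerivAt_line hF x v 0
  simpa using this

theorem dd_of_line {F : E → ℝ} (hF : Sm F) {x v : E} {c : ℝ}
    (h : HasDerivAt (fun t : ℝ => F (x + t • v)) c 0) : dd v F x = c :=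
  (line0 hF x v).unique h

/-- the weight `e^{-f}/(e^{-f}+e^{-g})` -/
noncomputable def wt (f g : E → ℝ) (x : E) : ℝ := (1 + Real.exp (f x - g x))⁻¹

/-- `-log((e^{-f}+e^{-g})/2)` -/
noncomputable def lg (f g : E → ℝ) (x : E) : ℝ :=
  -Real.log ((Real.exp (-f x) + Real.exp (-g x)) / 2)

theorem sm_wt {f g : E → ℝ} (hf : Sm f) (hg : Sm g) : Sm (wt f g) := by
  unfold wt
  apply ContDiff.inv
  · exact contDiff_const.add (hf.sub hg).exp
  · intro x; positivity

theorem sm_lg {f g : E → ℝ} (hf : Sm f) (hg : Sm g) : Sm (lg f g) := by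
  unfold lg
  apply ContDiff.neg
  apply ContDiff.log
  · exact (hf.neg.exp.add hg.neg.exp).div_const 2
  · intro x; positivity

omit [NormedAddCommGroup E] [NormedSpace ℝ E] in
theorem wt_nonneg (f g : E → ℝ) (x : E) : 0 ≤ wt f g x := by unfold wt; positivity

omit [NormedAddCommGroup E] [NormedSpace ℝ E] in
theorem wt_le_one (f g : E → ℝ) (x : E) : wt f g x ≤ 1 := by
  unfold wt
  apply inv_le_one_of_one_le₀
  linarith [Real.exp_pos (f x - g x)]

theorem dd_wt {f g : E → ℝ} (hf : Sm f) (hg : Sm g) (v x : E) :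
    dd v (wt f g) x = -(wt f g x * (1 - wt f g x)) * (dd v f x - dd v g x) := by
  apply dd_of_line (sm_wt hf hg)
  have hf' := line0 hf x v
  have hg' := line0 hg x v
  have hpos : 1 + Real.exp (f (x + (0:ℝ) • v) - g (x + (0:ℝ) • v)) ≠ 0 := by positivity
  have h := ((hf'.sub hg').exp.const_add 1).inv hpos
  have h2 : HasDerivAt (fun t : ℝ => wt f g (x + t • v)) _ 0 := h
  convert h2 using 1
  simp only [wt]
  have hpos' : 1 + Real.exp (f x - g x) ≠ 0 := by positivity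
  simp only [Pi.sub_apply, zero_smul, add_zero]
  field_simp
  ring

theorem dd_lg {f g : E → ℝ} (hf : Sm f) (hg : Sm g) (v x : E) :
    dd v (lg f g) x = dd v g x + wt f g x * (dd v f x - dd v g x) := by
  apply dd_of_line (sm_lg hf hg)
  have hf' := line0 hf x v
  have hg' := line0 hg x v
  have hpos : (Real.exp (-f (x + (0:ℝ) • v)) + Real.exp (-g (x + (0:ℝ) • v))) / 2 ≠ 0 := by positivity
  have h := (((hf'.neg.exp.add hg'.neg.exp).div_const 2).log hpos).neg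
  have h2 : HasDerivAt (fun t : ℝ => lg f g (x + t • v)) _ 0 := h
  convert h2 using 1
  simp only [wt]
  simp only [Pi.add_apply, Pi.neg_apply, zero_smul, add_zero]
  have e1 : Real.exp (f x - g x) = Real.exp (-g x) / Real.exp (-f x) := by
    rw [← Real.exp_sub]; congr 1; ring
  rw [e1]
  have p1 : Real.exp (-g x) ≠ 0 := (Real.exp_pos _).ne'
  have p2 : Real.exp (-f x) ≠ 0 := (Real.exp_pos _).ne'
  have p3 : Real.exp (-f x) + Real.exp (-g x) ≠ 0 := by positivity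
  field_simp
  ring

theorem gen2 {A B P : E → ℝ} (hA : Sm A) (hB : Sm B) (hP : Sm P) (v x : E) :
    dd v (fun y => A y + P y * B y) x = dd v A x + P x * dd v B x + dd v P x * B x := by
  apply dd_of_line (hA.add (hP.mul hB))
  have h := (line0 hA x v).add ((line0 hP x v).mul (line0 hB x v))
  have h2 : HasDerivAt (fun t : ℝ => A (x + t • v) + P (x + t • v) * B (x + t • v)) _ 0 := h
  convert h2 using 1
  simp only [zero_smul, add_zero]
  ring

theorem gen3 {A B P C D : E → ℝ} (hA : Sm A) (hB : Sm B) (hP : Sm P) (hC : Sm C) (hD : Sm D)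
    (v x : E) :
    dd v (fun y => A y + P y * B y - P y * (1 - P y) * (C y * D y)) x
      = dd v A x + P x * dd v B x + dd v P x * B x
        - (1 - 2 * P x) * dd v P x * (C x * D x)
        - P x * (1 - P x) * (dd v C x * D x + C x * dd v D x) := by
  apply dd_of_line ((hA.add (hP.mul hB)).sub ((hP.mul (contDiff_const.sub hP)).mul (hC.mul hD)))
  have h := ((line0 hA x v).add ((line0 hP x v).mul (line0 hB x v))).sub
    (((line0 hP x v).mul ((line0 hP x v).const_sub 1)).mul ((line0 hC x v).mul (line0 hD x v)))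
  have h2 : HasDerivAt (fun t : ℝ => A (x + t • v) + P (x + t • v) * B (x + t • v)
      - P (x + t • v) * (1 - P (x + t • v)) * (C (x + t • v) * D (x + t • v))) _ 0 := h
  convert h2 using 1
  simp only [zero_smul, add_zero, Pi.mul_apply]
  ring

theorem gen4 {A B P C D C' D' C'' D'' X Y Z : E → ℝ} (hA : Sm A) (hB : Sm B) (hP : Sm P)
    (hC : Sm C) (hD : Sm D) (hC' : Sm C') (hD' : Sm D') (hC'' : Sm C'') (hD'' : Sm D'')
    (hX : Sm X) (hY : Sm Y) (hZ : Sm Z) (v x : E) :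
    dd v (fun y => A y + P y * B y - P y * (1 - P y) * (C y * D y + C' y * D' y + C'' y * D'' y)
      + P y * (1 - P y) * (1 - 2 * P y) * (X y * Y y * Z y)) x
      = dd v A x + P x * dd v B x + dd v P x * B x
        - (1 - 2 * P x) * dd v P x * (C x * D x + C' x * D' x + C'' x * D'' x)
        - P x * (1 - P x) * (dd v C x * D x + C x * dd v D x + dd v C' x * D' x + C' x * dd v D' x
            + dd v C'' x * D'' x + C'' x * dd v D'' x)
        + (1 - 6 * P x + 6 * P x ^ 2) * dd v P x * (X x * Y x * Z x)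
        + P x * (1 - P x) * (1 - 2 * P x) * (dd v X x * Y x * Z x + X x * dd v Y x * Z x
            + X x * Y x * dd v Z x) := by
  apply dd_of_line (((hA.add (hP.mul hB)).sub ((hP.mul (contDiff_const.sub hP)).mul
    (((hC.mul hD).add (hC'.mul hD')).add (hC''.mul hD'')))).add
    (((hP.mul (contDiff_const.sub hP)).mul (contDiff_const.sub (contDiff_const.mul hP))).mul
      ((hX.mul hY).mul hZ)))
  have lP := line0 hP x v
  have h := (((line0 hA x v).add (lP.mul (line0 hB x v))).sub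
    ((lP.mul (lP.const_sub 1)).mul ((((line0 hC x v).mul (line0 hD x v)).add
      ((line0 hC' x v).mul (line0 hD' x v))).add ((line0 hC'' x v).mul (line0 hD'' x v))))).add
    (((lP.mul (lP.const_sub 1)).mul ((lP.const_mul 2).const_sub 1)).mul
      (((line0 hX x v).mul (line0 hY x v)).mul (line0 hZ x v)))
  have h2 : HasDerivAt (fun t : ℝ => A (x + t • v) + P (x + t • v) * B (x + t • v)
      - P (x + t • v) * (1 - P (x + t • v)) * (C (x + t • v) * D (x + t • v)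
        + C' (x + t • v) * D' (x + t • v) + C'' (x + t • v) * D'' (x + t • v))
      + P (x + t • v) * (1 - P (x + t • v)) * (1 - 2 * P (x + t • v)) *
        (X (x + t • v) * Y (x + t • v) * Z (x + t • v))) _ 0 := h
  convert h2 using 1
  simp only [zero_smul, add_zero, Pi.mul_apply, Pi.add_apply]
  ring

/-- difference of first derivatives -/
noncomputable def df (f g : E → ℝ) (v x : E) : ℝ := dd v f x - dd v g x

theorem sm_df {f g : E → ℝ} (hf : Sm f) (hg : Sm g) (v : E) : Sm (df f g v) :=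
  (sm_dd hf v).sub (sm_dd hg v)

theorem dd_df {f g : E → ℝ} (hf : Sm f) (hg : Sm g) (u v x : E) :
    dd v (df f g u) x = df (dd u f) (dd u g) v x :=
  dd_sub (sm_dd hf u) (sm_dd hg u) v x

theorem lg1 {f g : E → ℝ} (hf : Sm f) (hg : Sm g) (v₁ : E) :
    dd v₁ (lg f g) = fun x => dd v₁ g x + wt f g x * df f g v₁ x :=
  funext fun x => dd_lg hf hg v₁ x

theorem lg2 {f g : E → ℝ} (hf : Sm f) (hg : Sm g) (v₁ v₂ : E) :
    dd v₂ (dd v₁ (lg f g)) = fun x => dd v₂ (dd v₁ g) x + wt f g x * df (dd v₁ f) (dd v₁ g) v₂ x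
      - wt f g x * (1 - wt f g x) * (df f g v₂ x * df f g v₁ x) := by
  funext x
  rw [lg1 hf hg, gen2 (sm_dd hg v₁) (sm_df hf hg v₁) (sm_wt hf hg), dd_wt hf hg, dd_df hf hg]
  unfold df
  ring

theorem lg3 {f g : E → ℝ} (hf : Sm f) (hg : Sm g) (v₁ v₂ v₃ : E) :
    dd v₃ (dd v₂ (dd v₁ (lg f g))) = fun x =>
      dd v₃ (dd v₂ (dd v₁ g)) x
      + wt f g x * df (dd v₂ (dd v₁ f)) (dd v₂ (dd v₁ g)) v₃ x
      - wt f g x * (1 - wt f g x) * (df f g v₃ x * df (dd v₁ f) (dd v₁ g) v₂ x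
        + df (dd v₂ f) (dd v₂ g) v₃ x * df f g v₁ x
        + df f g v₂ x * df (dd v₁ f) (dd v₁ g) v₃ x)
      + wt f g x * (1 - wt f g x) * (1 - 2 * wt f g x) * (df f g v₃ x * df f g v₂ x * df f g v₁ x) := by
  funext x
  rw [lg2 hf hg, gen3 (sm_dd (sm_dd hg v₁) v₂) (sm_df (sm_dd hf v₁) (sm_dd hg v₁) v₂) (sm_wt hf hg)
    (sm_df hf hg v₂) (sm_df hf hg v₁), dd_wt hf hg, dd_df (sm_dd hf v₁) (sm_dd hg v₁),
    dd_df hf hg, dd_df hf hg]
  unfold df
  ring

theorem lg4 {f g : E → ℝ} (hf : Sm f) (hg : Sm g) (v₁ v₂ v₃ v₄ x : E) :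
    dd v₄ (dd v₃ (dd v₂ (dd v₁ (lg f g)))) x =
      dd v₄ (dd v₃ (dd v₂ (dd v₁ g))) x
      + wt f g x * df (dd v₃ (dd v₂ (dd v₁ f))) (dd v₃ (dd v₂ (dd v₁ g))) v₄ x
      - wt f g x * (1 - wt f g x) * (df f g v₄ x * df (dd v₂ (dd v₁ f)) (dd v₂ (dd v₁ g)) v₃ x
        + df f g v₃ x * df (dd v₂ (dd v₁ f)) (dd v₂ (dd v₁ g)) v₄ x
        + df f g v₁ x * df (dd v₃ (dd v₂ f)) (dd v₃ (dd v₂ g)) v₄ x
        + df f g v₂ x * df (dd v₃ (dd v₁ f)) (dd v₃ (dd v₁ g)) v₄ x)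
      - wt f g x * (1 - wt f g x) * (df (dd v₃ f) (dd v₃ g) v₄ x * df (dd v₁ f) (dd v₁ g) v₂ x
        + df (dd v₂ f) (dd v₂ g) v₃ x * df (dd v₁ f) (dd v₁ g) v₄ x
        + df (dd v₂ f) (dd v₂ g) v₄ x * df (dd v₁ f) (dd v₁ g) v₃ x)
      + wt f g x * (1 - wt f g x) * (1 - 2 * wt f g x) *
        (df f g v₄ x * df f g v₃ x * df (dd v₁ f) (dd v₁ g) v₂ x
          + df f g v₄ x * df (dd v₂ f) (dd v₂ g) v₃ x * df f g v₁ x
          + df f g v₄ x * df f g v₂ x * df (dd v₁ f) (dd v₁ g) v₃ x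
          + df (dd v₃ f) (dd v₃ g) v₄ x * df f g v₂ x * df f g v₁ x
          + df f g v₃ x * df (dd v₂ f) (dd v₂ g) v₄ x * df f g v₁ x
          + df f g v₃ x * df f g v₂ x * df (dd v₁ f) (dd v₁ g) v₄ x)
      + wt f g x * (1 - wt f g x) * (6 * (wt f g x * (1 - wt f g x)) - 1) *
        (df f g v₄ x * df f g v₃ x * df f g v₂ x * df f g v₁ x) := by
  rw [lg3 hf hg, gen4 (sm_dd (sm_dd (sm_dd hg v₁) v₂) v₃)
    (sm_df (sm_dd (sm_dd hf v₁) v₂) (sm_dd (sm_dd hg v₁) v₂) v₃) (sm_wt hf hg)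
    (sm_df hf hg v₃) (sm_df (sm_dd hf v₁) (sm_dd hg v₁) v₂)
    (sm_df (sm_dd hf v₂) (sm_dd hg v₂) v₃) (sm_df hf hg v₁)
    (sm_df hf hg v₂) (sm_df (sm_dd hf v₁) (sm_dd hg v₁) v₃)
    (sm_df hf hg v₃) (sm_df hf hg v₂) (sm_df hf hg v₁), dd_wt hf hg,
    dd_df (sm_dd (sm_dd hf v₁) v₂) (sm_dd (sm_dd hg v₁) v₂),
    dd_df (sm_dd hf v₁) (sm_dd hg v₁), dd_df (sm_dd hf v₁) (sm_dd hg v₁),
    dd_df (sm_dd hf v₂) (sm_dd hg v₂),
    dd_df hf hg, dd_df hf hg, dd_df hf hg]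
  unfold df
  ring

end Vale.Agent.P227.M.SC
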