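import Mathlib

/-! # P227/M/SC: uniform cumulant bounds for pinched weights

`Y` a finite-dimensional inner product space, `U y₀ + |y-y₀|²/2 ≤ U y ≤ U y₀ + K |y-y₀|²/2`.
All moments of `e^{-U}` centred at `y₀` are bounded by a constant which depends only on `K`, `Y`. -/

open MeasureTheory Real
open scoped Topology

namespace Vale.P227SC.Bd

variable {Y : Type*} [NormedAddCommGroup Y] [InnerProductSpace ℝ Y] [FiniteDimensional ℝ Y]
  [MeasurableSpace Y] [BorelSpace Y]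

lemma integrable_gauss {b : ℝ} (hb : 0 < b) : Integrable (fun y : Y => exp (-(b * ‖y‖ ^ 2))) := by
  have h := (GaussianFourier.integrable_cexp_neg_mul_sq_norm_add (V := Y) (b := (b : ℂ))
    (by simpa using hb) 0 0).norm
  refine h.congr (Filter.Eventually.of_forall fun y => ?_)
  simp only [zero_mul, add_zero, Complex.norm_exp]
  congr 1
  rw [neg_mul, Complex.neg_re, ← Complex.ofReal_pow, ← Complex.ofReal_mul, Complex.ofReal_re]

lemma poly_gauss_le (k : ℕ) {b : ℝ} (hb : 0 < b) (t : ℝ) (ht : 0 ≤ t) :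
    (1 + t) ^ k * exp (-(b * t ^ 2)) ≤ exp (k ^ 2 / (2 * b)) * exp (-((b / 2) * t ^ 2)) := by
  have h1 : (1 + t) ^ k ≤ exp (k * t) := by
    calc (1 + t) ^ k ≤ (exp t) ^ k := by
          apply pow_le_pow_left₀ (by linarith)
          linarith [add_one_le_exp t]
      _ = exp (k * t) := by rw [← exp_nat_mul]
  calc (1 + t) ^ k * exp (-(b * t ^ 2)) ≤ exp (k * t) * exp (-(b * t ^ 2)) :=
        mul_le_mul_of_nonneg_right h1 (exp_pos _).le
    _ = exp (k * t + -(b * t ^ 2)) := by rw [exp_add]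
    _ ≤ exp (k ^ 2 / (2 * b) + -((b / 2) * t ^ 2)) := by
        apply exp_le_exp.mpr
        have h2 : (k : ℝ) ^ 2 / (2 * b) + -((b / 2) * t ^ 2) - (k * t + -(b * t ^ 2))
            = (k - b * t) ^ 2 / (2 * b) := by
          field_simp
          ring
        have h3 : 0 ≤ ((k : ℝ) - b * t) ^ 2 / (2 * b) := by positivity
        linarith
    _ = _ := by rw [exp_add]

lemma integrable_poly_gauss (k : ℕ) {b : ℝ} (hb : 0 < b) :
    Integrable (fun y : Y => (1 + ‖y‖) ^ k * exp (-(b * ‖y‖ ^ 2))) := by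
  refine Integrable.mono' ((integrable_gauss (Y := Y) (half_pos hb)).const_mul
    (exp (k ^ 2 / (2 * b)))) (by fun_prop) (Filter.Eventually.of_forall fun y => ?_)
  rw [Real.norm_of_nonneg (by positivity)]
  exact poly_gauss_le k hb _ (norm_nonneg _)

/-- the constant -/
noncomputable def JJ (Y : Type*) [NormedAddCommGroup Y] [InnerProductSpace ℝ Y]
    [FiniteDimensional ℝ Y] [MeasurableSpace Y] [BorelSpace Y] (K : ℝ) : ℝ :=
  (∫ y : Y, (1 + ‖y‖) ^ 3 * exp (-((1 / 2) * ‖y‖ ^ 2))) / ∫ y : Y, exp (-((K / 2) * ‖y‖ ^ 2))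

/-- pinched potential -/
structure Pin (U : Y → ℝ) (y0 : Y) (K : ℝ) : Prop where
  cont : Continuous U
  lo : ∀ y, U y0 + (1 / 2) * ‖y - y0‖ ^ 2 ≤ U y
  hi : ∀ y, U y ≤ U y0 + (K / 2) * ‖y - y0‖ ^ 2

section
variable {U : Y → ℝ} {y0 : Y} {K : ℝ}

omit [InnerProductSpace ℝ Y] [FiniteDimensional ℝ Y] [MeasurableSpace Y] [BorelSpace Y] in
lemma Pin.bound (h : Pin U y0 K) {φ : Y → ℝ} {B : ℝ}
    (hφB : ∀ y, |φ y| ≤ B * (1 + ‖y - y0‖) ^ 3) (y : Y) :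
    |φ y * exp (-U y)| ≤
      B * exp (-U y0) * ((1 + ‖y - y0‖) ^ 3 * exp (-((1 / 2) * ‖y - y0‖ ^ 2))) := by
  rw [abs_mul, abs_of_pos (exp_pos _)]
  calc |φ y| * exp (-U y) ≤ (B * (1 + ‖y - y0‖) ^ 3) * exp (-U y0 + -((1 / 2) * ‖y - y0‖ ^ 2)) := by
        apply mul_le_mul (hφB y) _ (exp_pos _).le ((abs_nonneg _).trans (hφB y))
        apply exp_le_exp.mpr
        linarith [h.lo y]
    _ = _ := by rw [exp_add]; ring

lemma Pin.integrable (h : Pin U y0 K) {φ : Y → ℝ} (hφ : Continuous φ) {B : ℝ}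
    (hφB : ∀ y, |φ y| ≤ B * (1 + ‖y - y0‖) ^ 3) : Integrable (fun y => φ y * exp (-U y)) := by
  have h1 := (((integrable_poly_gauss (Y := Y) 3 (b := 1 / 2) (by norm_num)).comp_sub_right
    y0).const_mul (B * exp (-U y0)))
  refine Integrable.mono' h1 ?_ (Filter.Eventually.of_forall fun y => ?_)
  · have := h.cont
    exact (by fun_prop : Continuous fun y => φ y * exp (-U y)).aestronglyMeasurable
  · rw [Real.norm_eq_abs]
    exact h.bound hφB y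

lemma Pin.integrable_exp (h : Pin U y0 K) : Integrable (fun y => exp (-U y)) := by
  have := h.integrable (φ := fun _ => 1) continuous_const (B := 1) (fun y => by
    rw [abs_one, one_mul]
    exact one_le_pow₀ (by linarith [norm_nonneg (y - y0)]))
  simpa using this

lemma Pin.mass_ge (h : Pin U y0 K) (hK : 0 < K) :
    exp (-U y0) * (∫ y : Y, exp (-((K / 2) * ‖y‖ ^ 2))) ≤ ∫ y, exp (-U y) := by
  have h1 : (∫ y : Y, exp (-((K / 2) * ‖y‖ ^ 2))) = ∫ y : Y, exp (-((K / 2) * ‖y - y0‖ ^ 2)) :=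
    (integral_sub_right_eq_self (fun y : Y => exp (-((K / 2) * ‖y‖ ^ 2))) y0).symm
  rw [h1, ← integral_const_mul]
  apply integral_mono _ h.integrable_exp
  · intro y
    show exp (-U y0) * exp (-((K / 2) * ‖y - y0‖ ^ 2)) ≤ exp (-U y)
    rw [← exp_add]
    apply exp_le_exp.mpr
    linarith [h.hi y]
  · exact ((integrable_gauss (Y := Y) (b := K / 2) (by positivity)).comp_sub_right y0).const_mul _

lemma gauss_pos (Y : Type*) [NormedAddCommGroup Y] [InnerProductSpace ℝ Y] [FiniteDimensional ℝ Y]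
    [MeasurableSpace Y] [BorelSpace Y] {b : ℝ} (hb : 0 < b) :
    0 < ∫ y : Y, exp (-(b * ‖y‖ ^ 2)) := by
  apply integral_exp_pos
  exact integrable_gauss hb

lemma Pin.mass_pos (h : Pin U y0 K) : 0 < ∫ y, exp (-U y) :=
  integral_exp_pos h.integrable_exp

lemma JJ_nonneg (K : ℝ) : 0 ≤ JJ Y K := by
  apply div_nonneg
  · exact integral_nonneg fun y => by positivity
  · exact integral_nonneg fun y => by positivity

/-- centred moment bound -/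
lemma Pin.abs_le (h : Pin U y0 K) (hK : 0 < K) {φ : Y → ℝ} {B : ℝ} (hB : 0 ≤ B)
    (hφB : ∀ y, |φ y| ≤ B * (1 + ‖y - y0‖) ^ 3) :
    |∫ y, φ y * exp (-U y)| ≤ JJ Y K * B * ∫ y, exp (-U y) := by
  have hg := gauss_pos Y (b := K / 2) (by positivity)
  have h2 : |∫ y, φ y * exp (-U y)| ≤
      ∫ y, B * exp (-U y0) * ((1 + ‖y - y0‖) ^ 3 * exp (-((1 / 2) * ‖y - y0‖ ^ 2))) := by
    rw [← Real.norm_eq_abs]
    apply norm_integral_le_of_norm_le
    · exact (((integrable_poly_gauss (Y := Y) 3 (b := 1 / 2) (by norm_num)).comp_sub_right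
        y0).const_mul (B * exp (-U y0)))
    · exact Filter.Eventually.of_forall fun y => by
        rw [Real.norm_eq_abs]; exact h.bound hφB y
  rw [integral_const_mul, integral_sub_right_eq_self
    (fun y : Y => (1 + ‖y‖) ^ 3 * exp (-((1 / 2) * ‖y‖ ^ 2))) y0] at h2
  refine h2.trans ?_
  have h3 := h.mass_ge hK
  have h4 : (∫ y : Y, (1 + ‖y‖) ^ 3 * exp (-((1 / 2) * ‖y‖ ^ 2))) =
      JJ Y K * ∫ y : Y, exp (-((K / 2) * ‖y‖ ^ 2)) := by
    rw [JJ, div_mul_cancel₀ _ hg.ne']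
  rw [h4]
  calc B * exp (-U y0) * (JJ Y K * ∫ y : Y, exp (-((K / 2) * ‖y‖ ^ 2)))
      = JJ Y K * B * (exp (-U y0) * ∫ y : Y, exp (-((K / 2) * ‖y‖ ^ 2))) := by ring
    _ ≤ _ := mul_le_mul_of_nonneg_left h3 (mul_nonneg (JJ_nonneg K) hB)

/-- data of the first three derivatives along a line -/
structure Three (f1 f2 f3 : Y → ℝ) (y0 : Y) (L B2 B3 : ℝ) : Prop where
  c1 : Continuous f1
  c2 : Continuous f2
  c3 : Continuous f3
  hL : 0 ≤ L
  hB2 : 0 ≤ B2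
  hB3 : 0 ≤ B3
  lip : ∀ y, |f1 y - f1 y0| ≤ L * ‖y - y0‖
  b2 : ∀ y, |f2 y| ≤ B2
  b3 : ∀ y, |f3 y| ≤ B3

section
variable {f1 f2 f3 : Y → ℝ} {L B2 B3 : ℝ}

omit [InnerProductSpace ℝ Y] [FiniteDimensional ℝ Y] [MeasurableSpace Y] [BorelSpace Y] in
lemma one_le_cube (y0 y : Y) : 1 ≤ (1 + ‖y - y0‖) ^ 3 :=
  one_le_pow₀ (by linarith [norm_nonneg (y - y0)])

omit [InnerProductSpace ℝ Y] [FiniteDimensional ℝ Y] [MeasurableSpace Y] [BorelSpace Y] in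
lemma bd_aux (y0 y : Y) (j : ℕ) (hj : j ≤ 3) {u L : ℝ} (hL : 0 ≤ L) (hu : |u| ≤ L * ‖y - y0‖) :
    |u ^ j| ≤ L ^ j * (1 + ‖y - y0‖) ^ 3 := by
  rw [abs_pow]
  have h0 := norm_nonneg (y - y0)
  calc |u| ^ j ≤ (L * (1 + ‖y - y0‖)) ^ j :=
        pow_le_pow_left₀ (abs_nonneg _) (hu.trans (mul_le_mul_of_nonneg_left (by linarith) hL)) j
    _ = L ^ j * (1 + ‖y - y0‖) ^ j := by rw [mul_pow]
    _ ≤ L ^ j * (1 + ‖y - y0‖) ^ 3 :=
        mul_le_mul_of_nonneg_left (pow_le_pow_right₀ (by linarith) hj) (pow_nonneg hL j)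

/-- the six centred moments -/
lemma Pin.moments (h : Pin U y0 K) (hK : 0 < K) (T : Three f1 f2 f3 y0 L B2 B3) :
    ∃ M0 I1 I2 I3 J0 J1 K0 κ : ℝ, κ = f1 y0 ∧ M0 = (∫ y, exp (-U y)) ∧ 0 < M0 ∧
      (∫ y, (-f1 y) * exp (-U y)) = -(κ * M0) - I1 ∧
      (∫ y, (f1 y ^ 2 - f2 y) * exp (-U y)) = κ ^ 2 * M0 + 2 * κ * I1 + I2 - J0 ∧
      (∫ y, (-f1 y ^ 3 + 3 * f1 y * f2 y - f3 y) * exp (-U y)) =
        -(κ ^ 3 * M0 + 3 * κ ^ 2 * I1 + 3 * κ * I2 + I3) + 3 * (κ * J0 + J1) - K0 ∧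
      |I1| ≤ JJ Y K * L * M0 ∧ |I2| ≤ JJ Y K * L ^ 2 * M0 ∧ |I3| ≤ JJ Y K * L ^ 3 * M0 ∧
      |J0| ≤ JJ Y K * B2 * M0 ∧ |J1| ≤ JJ Y K * (L * B2) * M0 ∧ |K0| ≤ JJ Y K * B3 * M0 := by
  have c1 := T.c1
  have c2 := T.c2
  have c3 := T.c3
  set κ := f1 y0 with hκ
  have e1 : ∀ y, |(f1 y - κ) ^ 1| ≤ L ^ 1 * (1 + ‖y - y0‖) ^ 3 :=
    fun y => bd_aux y0 y 1 (by norm_num) T.hL (T.lip y)
  have e2 : ∀ y, |(f1 y - κ) ^ 2| ≤ L ^ 2 * (1 + ‖y - y0‖) ^ 3 :=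
    fun y => bd_aux y0 y 2 (by norm_num) T.hL (T.lip y)
  have e3 : ∀ y, |(f1 y - κ) ^ 3| ≤ L ^ 3 * (1 + ‖y - y0‖) ^ 3 :=
    fun y => bd_aux y0 y 3 (by norm_num) T.hL (T.lip y)
  have e4 : ∀ y, |f2 y| ≤ B2 * (1 + ‖y - y0‖) ^ 3 :=
    fun y => (T.b2 y).trans (le_mul_of_one_le_right T.hB2 (one_le_cube y0 y))
  have e5 : ∀ y, |(f1 y - κ) * f2 y| ≤ (L * B2) * (1 + ‖y - y0‖) ^ 3 := by
    intro y
    rw [abs_mul]
    calc |f1 y - κ| * |f2 y| ≤ (L * (1 + ‖y - y0‖) ^ 3) * B2 := by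
          apply mul_le_mul _ (T.b2 y) (abs_nonneg _) (by have := T.hL; positivity)
          simpa using e1 y
      _ = _ := by ring
  have e6 : ∀ y, |f3 y| ≤ B3 * (1 + ‖y - y0‖) ^ 3 :=
    fun y => (T.b3 y).trans (le_mul_of_one_le_right T.hB3 (one_le_cube y0 y))
  have i0 := h.integrable_exp
  have i1 := h.integrable (φ := fun y => (f1 y - κ) ^ 1) (by fun_prop) e1
  have i2 := h.integrable (φ := fun y => (f1 y - κ) ^ 2) (by fun_prop) e2
  have i3 := h.integrable (φ := fun y => (f1 y - κ) ^ 3) (by fun_prop) e3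
  have i4 := h.integrable (φ := fun y => f2 y) (by fun_prop) e4
  have i5 := h.integrable (φ := fun y => (f1 y - κ) * f2 y) (by fun_prop) e5
  have i6 := h.integrable (φ := fun y => f3 y) (by fun_prop) e6
  have L0 := T.hL
  have L2 := T.hB2
  have L3 := T.hB3
  refine ⟨∫ y, exp (-U y), ∫ y, (f1 y - κ) ^ 1 * exp (-U y), ∫ y, (f1 y - κ) ^ 2 * exp (-U y),
    ∫ y, (f1 y - κ) ^ 3 * exp (-U y), ∫ y, f2 y * exp (-U y), ∫ y, (f1 y - κ) * f2 y * exp (-U y),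
    ∫ y, f3 y * exp (-U y), κ, rfl, rfl, h.mass_pos, ?_, ?_, ?_, ?_, ?_, ?_, ?_, ?_, ?_⟩
  · have A1 : (∫ y, (-f1 y) * exp (-U y)) =
        ∫ y, (-κ * exp (-U y) - (f1 y - κ) ^ 1 * exp (-U y)) :=
      integral_congr_ae (Filter.Eventually.of_forall fun y => by ring)
    rw [A1, integral_sub (i0.const_mul (-κ)) i1, integral_const_mul]
    ring
  · have A1 : (∫ y, (f1 y ^ 2 - f2 y) * exp (-U y)) =
        ∫ y, (κ ^ 2 * exp (-U y) + 2 * κ * ((f1 y - κ) ^ 1 * exp (-U y)) +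
          (f1 y - κ) ^ 2 * exp (-U y) - f2 y * exp (-U y)) :=
      integral_congr_ae (Filter.Eventually.of_forall fun y => by ring)
    rw [A1]
    have s1 := i0.const_mul (κ ^ 2)
    have s2 := i1.const_mul (2 * κ)
    have s12 := s1.add s2
    have s123 := s12.add i2
    simp only [Pi.add_def] at s12 s123
    rw [integral_sub s123 i4, integral_add s12 i2, integral_add s1 s2, integral_const_mul,
      integral_const_mul]
  · have A1 : (∫ y, (-f1 y ^ 3 + 3 * f1 y * f2 y - f3 y) * exp (-U y)) =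
        ∫ y, ((-1 : ℝ) * (κ ^ 3 * exp (-U y) + 3 * κ ^ 2 * ((f1 y - κ) ^ 1 * exp (-U y)) +
          3 * κ * ((f1 y - κ) ^ 2 * exp (-U y)) + (f1 y - κ) ^ 3 * exp (-U y)) +
          3 * (κ * (f2 y * exp (-U y)) + (f1 y - κ) * f2 y * exp (-U y)) - f3 y * exp (-U y)) :=
      integral_congr_ae (Filter.Eventually.of_forall fun y => by ring)
    rw [A1]
    have s1 := i0.const_mul (κ ^ 3)
    have s2 := i1.const_mul (3 * κ ^ 2)
    have s3 := i2.const_mul (3 * κ)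
    have s12 := s1.add s2
    have s123 := s12.add s3
    have s1234 := s123.add i3
    have t1 := i4.const_mul κ
    have t12 := t1.add i5
    have t := t12.const_mul 3
    simp only [Pi.add_def] at s12 s123 s1234 t12 t
    have sn := s1234.const_mul (-1 : ℝ)
    have st := sn.add t
    simp only [Pi.add_def] at st
    rw [integral_sub st i6, integral_add sn t, integral_const_mul, integral_add s123 i3,
      integral_add s12 s3, integral_add s1 s2, integral_const_mul, integral_const_mul,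
      integral_const_mul, integral_const_mul, integral_add t1 i5, integral_const_mul]
    ring
  · simpa using h.abs_le hK (B := L ^ 1) (pow_nonneg L0 1) e1
  · exact h.abs_le hK (pow_nonneg L0 2) e2
  · exact h.abs_le hK (pow_nonneg L0 3) e3
  · exact h.abs_le hK L2 e4
  · exact h.abs_le hK (mul_nonneg L0 L2) e5
  · exact h.abs_le hK L3 e6

/-- bound of the logarithmic derivative -/
theorem Pin.drift (h : Pin U y0 K) (hK : 0 < K) (T : Three f1 f2 f3 y0 L B2 B3) :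
    |(∫ y, (-f1 y) * exp (-U y)) / ∫ y, exp (-U y)| ≤ |f1 y0| + JJ Y K * L := by
  obtain ⟨M0, I1, I2, I3, J0, J1, K0, κ, hκ, hM, hM0, h1, -, -, b1, -⟩ := h.moments hK T
  rw [h1, ← hM, ← hκ]
  have e : (-(κ * M0) - I1) / M0 = -κ - I1 / M0 := by field_simp
  rw [e]
  have b : |I1 / M0| ≤ JJ Y K * L := by
    rw [abs_div, abs_of_pos hM0, div_le_iff₀ hM0]; exact b1
  calc |-κ - I1 / M0| ≤ |-κ| + |I1 / M0| := abs_sub _ _
    _ ≤ _ := by rw [abs_neg]; linarith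

/-- bound of the second cumulant -/
theorem Pin.cum2 (h : Pin U y0 K) (hK : 0 < K) (T : Three f1 f2 f3 y0 L B2 B3) :
    |(∫ y, (f1 y ^ 2 - f2 y) * exp (-U y)) / (∫ y, exp (-U y)) -
      ((∫ y, (-f1 y) * exp (-U y)) / ∫ y, exp (-U y)) ^ 2| ≤ (1 + JJ Y K) ^ 2 * (L ^ 2 + B2) := by
  obtain ⟨M0, I1, I2, I3, J0, J1, K0, κ, hκ, hM, hM0, h1, h2, -, b1, b2, -, b4, -⟩ :=
    h.moments hK T
  rw [h1, h2, ← hM]
  have hJ := JJ_nonneg (Y := Y) K
  set J := JJ Y K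
  have c1 : |I1 / M0| ≤ J * L := by
    rw [abs_div, abs_of_pos hM0, div_le_iff₀ hM0]; exact b1
  have c2 : |I2 / M0| ≤ J * L ^ 2 := by
    rw [abs_div, abs_of_pos hM0, div_le_iff₀ hM0]; exact b2
  have c4 : |J0 / M0| ≤ J * B2 := by
    rw [abs_div, abs_of_pos hM0, div_le_iff₀ hM0]; exact b4
  have e : (κ ^ 2 * M0 + 2 * κ * I1 + I2 - J0) / M0 - ((-(κ * M0) - I1) / M0) ^ 2 =
      I2 / M0 - J0 / M0 - (I1 / M0) ^ 2 := by
    field_simp
    ring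
  rw [e]
  have c5 : (I1 / M0) ^ 2 ≤ (J * L) ^ 2 := by
    rw [← sq_abs]; exact pow_le_pow_left₀ (abs_nonneg _) c1 2
  have c6 : 0 ≤ (I1 / M0) ^ 2 := sq_nonneg _
  have L0 := T.hL
  have L2 := T.hB2
  rw [_root_.abs_le] at c2 c4 ⊢
  have c7 : (1 + J) ^ 2 * (L ^ 2 + B2) =
      J * L ^ 2 + J * B2 + (J * L) ^ 2 + (L ^ 2 + J * L ^ 2 + B2 + J * B2 + J ^ 2 * B2) := by ring
  have c8 : 0 ≤ L ^ 2 + J * L ^ 2 + B2 + J * B2 + J ^ 2 * B2 := by positivity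
  rw [c7]
  constructor <;> linarith [c2.1, c2.2, c4.1, c4.2]

/-- bound of the third cumulant -/
theorem Pin.cum3 (h : Pin U y0 K) (hK : 0 < K) (T : Three f1 f2 f3 y0 L B2 B3) :
    |(∫ y, (-f1 y ^ 3 + 3 * f1 y * f2 y - f3 y) * exp (-U y)) / (∫ y, exp (-U y)) -
      3 * ((∫ y, (f1 y ^ 2 - f2 y) * exp (-U y)) / ∫ y, exp (-U y)) *
        ((∫ y, (-f1 y) * exp (-U y)) / ∫ y, exp (-U y)) +
      2 * ((∫ y, (-f1 y) * exp (-U y)) / ∫ y, exp (-U y)) ^ 3| ≤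
      6 * (1 + JJ Y K) ^ 3 * (L ^ 3 + L * B2 + B3) := by
  obtain ⟨M0, I1, I2, I3, J0, J1, K0, κ, hκ, hM, hM0, h1, h2, h3, b1, b2, b3, b4, b5, b6⟩ :=
    h.moments hK T
  rw [h1, h2, h3, ← hM]
  have hJ := JJ_nonneg (Y := Y) K
  set J := JJ Y K
  have c1 : |I1 / M0| ≤ J * L := by
    rw [abs_div, abs_of_pos hM0, div_le_iff₀ hM0]; exact b1
  have c2 : |I2 / M0| ≤ J * L ^ 2 := by
    rw [abs_div, abs_of_pos hM0, div_le_iff₀ hM0]; exact b2
  have c3 : |I3 / M0| ≤ J * L ^ 3 := by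
    rw [abs_div, abs_of_pos hM0, div_le_iff₀ hM0]; exact b3
  have c4 : |J0 / M0| ≤ J * B2 := by
    rw [abs_div, abs_of_pos hM0, div_le_iff₀ hM0]; exact b4
  have c5 : |J1 / M0| ≤ J * (L * B2) := by
    rw [abs_div, abs_of_pos hM0, div_le_iff₀ hM0]; exact b5
  have c6 : |K0 / M0| ≤ J * B3 := by
    rw [abs_div, abs_of_pos hM0, div_le_iff₀ hM0]; exact b6
  have e : (-(κ ^ 3 * M0 + 3 * κ ^ 2 * I1 + 3 * κ * I2 + I3) + 3 * (κ * J0 + J1) - K0) / M0 -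
      3 * ((κ ^ 2 * M0 + 2 * κ * I1 + I2 - J0) / M0) * ((-(κ * M0) - I1) / M0) +
      2 * ((-(κ * M0) - I1) / M0) ^ 3 =
      -(I3 / M0) + 3 * (J1 / M0) - K0 / M0 + 3 * ((I2 / M0 - J0 / M0) * (I1 / M0)) -
        2 * (I1 / M0) ^ 3 := by
    field_simp
    ring
  rw [e]
  have L0 := T.hL
  have L2 := T.hB2
  have L3 := T.hB3
  have d1 : |(I2 / M0 - J0 / M0) * (I1 / M0)| ≤ (J * L ^ 2 + J * B2) * (J * L) := by
    rw [abs_mul]
    apply mul_le_mul _ c1 (abs_nonneg _) (by positivity)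
    exact (abs_sub _ _).trans (add_le_add c2 c4)
  have d2 : |(I1 / M0) ^ 3| ≤ (J * L) ^ 3 := by
    rw [abs_pow]; exact pow_le_pow_left₀ (abs_nonneg _) c1 3
  have c7 : 6 * (1 + J) ^ 3 * (L ^ 3 + L * B2 + B3) =
      J * L ^ 3 + 3 * (J * (L * B2)) + J * B3 + 3 * ((J * L ^ 2 + J * B2) * (J * L)) +
        2 * (J * L) ^ 3 + (L ^ 3 * (6 + 17 * J + 15 * J ^ 2 + 4 * J ^ 3) +
        L * B2 * (6 + 15 * J + 15 * J ^ 2 + 6 * J ^ 3) +
        B3 * (6 + 17 * J + 18 * J ^ 2 + 6 * J ^ 3)) := by ring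
  have c8 : 0 ≤ (L ^ 3 * (6 + 17 * J + 15 * J ^ 2 + 4 * J ^ 3) +
        L * B2 * (6 + 15 * J + 15 * J ^ 2 + 6 * J ^ 3) +
        B3 * (6 + 17 * J + 18 * J ^ 2 + 6 * J ^ 3)) := by positivity
  rw [_root_.abs_le] at c3 c5 c6 d1 d2 ⊢
  constructor <;> linarith [c3.1, c3.2, c5.1, c5.2, c6.1, c6.2, d1.1, d1.2, d2.1, d2.2]

end

end

end Vale.P227SC.Bd
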