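import Vale.Agent.P227.M.Bas
import Vale.Agent.P227.M.SC.StepDefs

/-! # P227, block SC, piece L3: the iterated directional derivatives of `e^{-W}` are smooth and
bounded, for `W` regular. -/

open Function

namespace Vale.Agent.P227.M.BD

section General

variable {X Y : Type*} [NormedAddCommGroup X] [NormedSpace ℝ X] [NormedAddCommGroup Y]
  [NormedSpace ℝ Y]

/-- the derivative of a function of temperate growth has temperate growth -/
theorem tg_fderiv {f : X → Y} (hf : f.HasTemperateGrowth) : (fderiv ℝ f).HasTemperateGrowth := by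
  refine ⟨hf.1.fderiv_right (m := (⊤ : ℕ∞)) (by simp), fun m => ?_⟩
  obtain ⟨k, C, hC⟩ := hf.2 (m + 1)
  refine ⟨k, C, fun x => ?_⟩
  have := hC x
  rwa [← norm_iteratedFDeriv_fderiv] at this

/-- directional derivative -/
theorem tg_fderiv_apply {f : X → ℝ} (hf : f.HasTemperateGrowth) (v : X) :
    (fun x => fderiv ℝ f x v).HasTemperateGrowth :=
  ((ContinuousLinearMap.apply ℝ ℝ v).hasTemperateGrowth).comp (tg_fderiv hf)

/-- growth of a function from the growth of its derivative -/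
theorem growth_of_fderiv {f : X → Y} (hf : Differentiable ℝ f) {C : ℝ} {k : ℕ}
    (hC : ∀ x, ‖fderiv ℝ f x‖ ≤ C * (1 + ‖x‖) ^ k) :
    ∀ x, ‖f x‖ ≤ (‖f 0‖ + C) * (1 + ‖x‖) ^ (k + 1) := by
  intro x
  have hC0 : 0 ≤ C := by
    have := (norm_nonneg _).trans (hC 0)
    simpa using this
  have h1 : ‖f x - f 0‖ ≤ C * (1 + ‖x‖) ^ k * ‖x - 0‖ := by
    refine Convex.norm_image_sub_le_of_norm_fderiv_le (𝕜 := ℝ) (s := Metric.closedBall 0 ‖x‖)
      (fun y _ => hf y) (fun y hy => ?_) (convex_closedBall _ _) (by simp) (by simp)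
    have hy' : ‖y‖ ≤ ‖x‖ := by simpa using hy
    refine (hC y).trans ?_
    gcongr
  have h2 : ‖f x‖ ≤ ‖f 0‖ + ‖f x - f 0‖ := by
    have := norm_add_le (f 0) (f x - f 0)
    simpa using this
  have h3 : (1 : ℝ) ≤ (1 + ‖x‖) ^ (k + 1) := one_le_pow₀ (by linarith [norm_nonneg x])
  have h4 : C * (1 + ‖x‖) ^ k * ‖x - 0‖ ≤ C * (1 + ‖x‖) ^ (k + 1) := by
    rw [sub_zero, pow_succ, ← mul_assoc]
    gcongr
    linarith
  have h5 : ‖f 0‖ ≤ ‖f 0‖ * (1 + ‖x‖) ^ (k + 1) := le_mul_of_one_le_right (norm_nonneg _) h3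
  nlinarith [h1, h2, h4, h5]

/-- a function with bounded derivatives of order at least `2` has temperate growth -/
theorem tg_of_bdd {f : X → Y} (hf : ContDiff ℝ (⊤ : ℕ∞) f)
    (h : ∀ k : ℕ, 2 ≤ k → ∃ B : ℝ, ∀ x, ‖iteratedFDeriv ℝ k f x‖ ≤ B) : f.HasTemperateGrowth := by
  have h1 : ContDiff ℝ (⊤ : ℕ∞) (fderiv ℝ f) := hf.fderiv_right (m := (⊤ : ℕ∞)) (by simp)
  have h2 : ContDiff ℝ (⊤ : ℕ∞) (fderiv ℝ (fderiv ℝ f)) := h1.fderiv_right (m := (⊤ : ℕ∞)) (by simp)
  have e2 : (fderiv ℝ (fderiv ℝ f)).HasTemperateGrowth := by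
    refine ⟨h2, fun m => ?_⟩
    obtain ⟨B, hB⟩ := h (m + 2) (by omega)
    refine ⟨0, B, fun x => ?_⟩
    rw [norm_iteratedFDeriv_fderiv, norm_iteratedFDeriv_fderiv, pow_zero, mul_one]
    exact hB x
  have d1 : Differentiable ℝ (fderiv ℝ f) := h1.differentiable (by simp)
  have d0 : Differentiable ℝ f := hf.differentiable (by simp)
  obtain ⟨B, hB⟩ := h 2 le_rfl
  have g1 := growth_of_fderiv (f := fderiv ℝ f) d1 (C := B) (k := 0) (fun x => by
    have h3 : ‖iteratedFDeriv ℝ 0 (fderiv ℝ (fderiv ℝ f)) x‖ = ‖iteratedFDeriv ℝ 2 f x‖ := by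
      rw [norm_iteratedFDeriv_fderiv, norm_iteratedFDeriv_fderiv]
    rw [norm_iteratedFDeriv_zero] at h3
    rw [h3, pow_zero, mul_one]
    exact hB x)
  have e1 : (fderiv ℝ f).HasTemperateGrowth := Function.HasTemperateGrowth.of_fderiv e2 d1 g1
  exact Function.HasTemperateGrowth.of_fderiv e1 d0 (growth_of_fderiv d0 g1)

end General

variable {n : ℕ} {W : E n → ℝ} {c C : ℝ}

theorem tg_of_reg (h : Reg W c C) : W.HasTemperateGrowth := tg_of_bdd h.smooth h.bdd

/-- `f = q e^{-W}` with `q` of temperate growth -/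
def EG (W f : E n → ℝ) : Prop :=
  ∃ q : E n → ℝ, q.HasTemperateGrowth ∧ f = fun x => q x * Real.exp (-W x)

theorem EG.exp (W : E n → ℝ) : EG W (fun x => Real.exp (-W x)) :=
  ⟨fun _ => 1, Function.HasTemperateGrowth.const 1, by simp⟩

theorem EG.dd (h : Reg W c C) {f : E n → ℝ} (hf : EG W f) (v : E n) : EG W (SC.dd v f) := by
  obtain ⟨q, hq, rfl⟩ := hf
  have hW := tg_of_reg h
  refine ⟨fun x => fderiv ℝ q x v - q x * fderiv ℝ W x v,
    (tg_fderiv_apply hq v).sub (hq.mul (tg_fderiv_apply hW v)), ?_⟩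
  funext x
  have dq : HasFDerivAt q (fderiv ℝ q x) x := (hq.1.differentiable (by simp) x).hasFDerivAt
  have dW : HasFDerivAt W (fderiv ℝ W x) x := (h.smooth.differentiable (by simp) x).hasFDerivAt
  have := dq.mul dW.neg.exp
  have e : (q * fun x => Real.exp ((-W) x)) = fun x => q x * Real.exp (-W x) := by
    funext y
    simp
  rw [e] at this
  unfold SC.dd
  rw [this.fderiv]
  simp only [_root_.add_apply, _root_.smul_apply,
    _root_.neg_apply, smul_eq_mul, Pi.neg_apply]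
  ring

theorem EG.iter (h : Reg W c C) {f : E n → ℝ} (hf : EG W f) (v : E n) (j : ℕ) :
    EG W ((SC.dd v)^[j] f) := by
  induction j with
  | zero => exact hf
  | succ j ih => rw [Function.iterate_succ_apply']; exact ih.dd h v

theorem EG.contDiff (h : Reg W c C) {f : E n → ℝ} (hf : EG W f) : ContDiff ℝ (⊤ : ℕ∞) f := by
  obtain ⟨q, hq, rfl⟩ := hf
  exact hq.1.mul h.smooth.neg.exp

theorem EG.bdd (h : Reg W c C) {f : E n → ℝ} (hf : EG W f) : ∃ K : ℝ, 0 ≤ K ∧ ∀ x, |f x| ≤ K := by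
  obtain ⟨q, hq, rfl⟩ := hf
  obtain ⟨k, B, hB⟩ := hq.2 0
  obtain ⟨A, hA⟩ := h.quad_lower
  have hc := h.c_pos
  obtain ⟨D, hD, hd⟩ := growth_le_exp (a := c / 4) (by positivity) k
  have hB0 : 0 ≤ B := by
    have := (norm_nonneg _).trans (hB 0)
    simpa using this
  refine ⟨B * D * Real.exp A, by positivity, fun x => ?_⟩
  have h1 : |q x| ≤ B * (1 + ‖x‖) ^ k := by
    have := hB x
    rwa [norm_iteratedFDeriv_zero, Real.norm_eq_abs] at this
  have h2 := hd ‖x‖ (norm_nonneg x)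
  have h3 : Real.exp (-W x) ≤ Real.exp A * Real.exp (-(c / 4 * ‖x‖ ^ 2)) := by
    rw [← Real.exp_add]
    exact Real.exp_le_exp.2 (by have := hA x; linarith)
  rw [abs_mul, Real.abs_exp]
  calc |q x| * Real.exp (-W x)
      ≤ (B * (D * Real.exp (c / 4 * ‖x‖ ^ 2))) * (Real.exp A * Real.exp (-(c / 4 * ‖x‖ ^ 2))) :=
        mul_le_mul (h1.trans (mul_le_mul_of_nonneg_left h2 hB0)) h3 (Real.exp_pos _).le
          (by positivity)
    _ = B * D * Real.exp A * (Real.exp (c / 4 * ‖x‖ ^ 2) * Real.exp (-(c / 4 * ‖x‖ ^ 2))) := by ring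
    _ = B * D * Real.exp A := by rw [← Real.exp_add]; simp

/-- **(L3)** all iterated directional derivatives of `e^{-W}` are smooth and bounded -/
theorem bddDer (h : Reg W c C) (v : E n) (j : ℕ) :
    ContDiff ℝ (⊤ : ℕ∞) ((SC.dd v)^[j] (fun x => Real.exp (-W x))) ∧
      ∃ K : ℝ, 0 ≤ K ∧ ∀ x, |(SC.dd v)^[j] (fun x => Real.exp (-W x)) x| ≤ K :=
  ⟨((EG.exp W).iter h v j).contDiff h, ((EG.exp W).iter h v j).bdd h⟩

/-- **(L3)** in the four-function form -/
theorem bddDer3 (h : Reg W c C) (v : E n) : ∃ p : ℕ → E n → ℝ, ∃ K : ℝ, 0 ≤ K ∧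
    (p 0 = fun x => Real.exp (-W x)) ∧ (∀ j, ContDiff ℝ (⊤ : ℕ∞) (p j)) ∧
    (∀ j x, p (j + 1) x = fderiv ℝ (p j) x v) ∧ (∀ j ≤ 3, ∀ x, |p j x| ≤ K) := by
  obtain ⟨K0, hK0, h0⟩ := (bddDer h v 0).2
  obtain ⟨K1, hK1, h1⟩ := (bddDer h v 1).2
  obtain ⟨K2, hK2, h2⟩ := (bddDer h v 2).2
  obtain ⟨K3, hK3, h3⟩ := (bddDer h v 3).2
  refine ⟨fun j => (SC.dd v)^[j] (fun x => Real.exp (-W x)), K0 + K1 + K2 + K3, by positivity, rfl,
    fun j => (bddDer h v j).1, fun j x => ?_, fun j hj x => ?_⟩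
  · simp only [Function.iterate_succ_apply']
    rfl
  · interval_cases j
    · have := h0 x
      simp only at this ⊢
      linarith
    · have := h1 x
      simp only at this ⊢
      linarith
    · have := h2 x
      simp only at this ⊢
      linarith
    · have := h3 x
      simp only at this ⊢
      linarith

/-- along lines: the `j`-th derivative of `t ↦ e^{-W (x + t v)}` -/
theorem hasDerivAt_line (h : Reg W c C) (v x : E n) (j : ℕ) (t : ℝ) :
    HasDerivAt (fun t : ℝ => (SC.dd v)^[j] (fun x => Real.exp (-W x)) (x + t • v))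
      ((SC.dd v)^[j + 1] (fun x => Real.exp (-W x)) (x + t • v)) t := by
  have hd := ((bddDer h v j).1.differentiable (by simp) (x + t • v)).hasFDerivAt
  have hl : HasDerivAt (fun t : ℝ => x + t • v) v t := by
    simpa using ((hasDerivAt_id t).smul_const v).const_add x
  have := hd.comp_hasDerivAt t hl
  rw [Function.iterate_succ_apply']
  exact this

end Vale.Agent.P227.M.BD
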