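import Vale.Agent.P227.M.SC.Dim1

/-!
P227, block SC-1, final form: for a measure `e^{-W}` on the line with `(W'')^{-1/2}` `c`-Lipschitz,
`|E (X - m)³| ≤ 2 c Var^{3/2}`.
-/

open MeasureTheory Set Real

namespace Vale.Agent.P227.M.SC

/-- one side, no normalisation -/
theorem third_central_le {W W1 W2 : ℝ → ℝ} {c : ℝ} (hc : 0 < c)
    (h1 : ∀ x, HasDerivAt W (W1 x) x) (h2 : ∀ x, HasDerivAt W1 (W2 x) x) (hpos : ∀ x, 0 < W2 x)
    (hsc : ∀ x y, x ≤ y → 1 / √(W2 y) ≤ 1 / √(W2 x) + c * (y - x))
    (hI : ∀ j ≤ 3, Integrable fun x => x ^ j * exp (-W x)) {Z m v : ℝ}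
    (hZ : ∫ x, exp (-W x) = Z) (hm : ∫ x, x * exp (-W x) = m * Z)
    (hv : ∫ x, (x - m) ^ 2 * exp (-W x) = v * Z) :
    ∫ x, (x - m) ^ 3 * exp (-W x) ≤ 2 * c * (v * √v) * Z := by
  have I0 : Integrable fun x => exp (-W x) := by simpa using hI 0 (by norm_num)
  have I1 : Integrable fun x => x * exp (-W x) := by simpa using hI 1 (by norm_num)
  have I2 := hI 2 (by norm_num)
  have I3 := hI 3 (by norm_num)
  have hZ0 : 0 < Z := by
    rw [← hZ]
    exact integral_exp_pos (by simpa using I0)
  set U : ℝ → ℝ := fun x => W (x + m) + log Z with hU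
  have hexp : ∀ x, exp (-U x) = exp (-W (x + m)) / Z := by
    intro x
    rw [hU]
    show exp (-(W (x + m) + log Z)) = _
    rw [neg_add, exp_add, exp_neg (log Z), exp_log hZ0]
    rfl
  have tr : ∀ f : ℝ → ℝ, ∫ x, f x * exp (-U x) = (∫ x, f (x - m) * exp (-W x)) / Z := by
    intro f
    have h := integral_add_right_eq_self (μ := volume) (fun t => f (t - m) * exp (-W t)) m
    rw [← h, ← integral_div]
    refine integral_congr_ae (Filter.Eventually.of_forall fun x => ?_)
    show f x * exp (-U x) = f (x + m - m) * exp (-W (x + m)) / Z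
    rw [hexp, add_sub_cancel_right]
    ring
  have trI : ∀ f : ℝ → ℝ, Integrable (fun x => f (x - m) * exp (-W x)) →
      Integrable fun x => f x * exp (-U x) := by
    intro f hf
    have h := (hf.comp_add_right m).div_const Z
    refine h.congr (Filter.Eventually.of_forall fun x => ?_)
    show f (x + m - m) * exp (-W (x + m)) / Z = f x * exp (-U x)
    rw [hexp, add_sub_cancel_right]
    ring
  have hj : ∀ j ≤ 3, Integrable fun x => (x - m) ^ j * exp (-W x) := by
    intro j hj
    interval_cases j
    · simpa using I0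
    · have e : (fun x => (x - m) ^ 1 * exp (-W x)) =
          fun x => x * exp (-W x) - m * exp (-W x) := by funext x; ring
      rw [e]
      exact I1.sub (I0.const_mul _)
    · have e : (fun x => (x - m) ^ 2 * exp (-W x)) = fun x => x ^ 2 * exp (-W x) -
          (2 * m) * (x * exp (-W x)) + m ^ 2 * exp (-W x) := by funext x; ring
      rw [e]
      exact (I2.sub (I1.const_mul _)).add (I0.const_mul _)
    · have e : (fun x => (x - m) ^ 3 * exp (-W x)) = fun x => x ^ 3 * exp (-W x) -
          (3 * m) * (x ^ 2 * exp (-W x)) + (3 * m ^ 2) * (x * exp (-W x)) -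
            m ^ 3 * exp (-W x) := by funext x; ring
      rw [e]
      exact ((I3.sub (I2.const_mul _)).add (I1.const_mul _)).sub (I0.const_mul _)
  have d1 : ∀ x, HasDerivAt U (W1 (x + m)) x := by
    intro x
    exact ((h1 (x + m)).comp_add_const x m).add_const _
  have d2 : ∀ x, HasDerivAt (fun x => W1 (x + m)) (W2 (x + m)) x := by
    intro x
    exact (h2 (x + m)).comp_add_const x m
  have key := third_le (W := U) hc d1 d2 (fun x => hpos _)
    (fun x y hxy => by
      have := hsc (x + m) (y + m) (by linarith)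
      have e : y + m - (x + m) = y - x := by ring
      rw [e] at this
      exact this)
    (fun j hj3 => trI (fun x => x ^ j) (hj j hj3)) ?_ ?_ (v := v) ?_
  · rw [tr (fun x => x ^ 3), div_le_iff₀ hZ0] at key
    exact key
  · have := tr (fun _ => 1)
    simp only [one_mul] at this
    rw [this, hZ, div_self hZ0.ne']
  · rw [tr (fun x => x)]
    have e : (fun x => (x - m) * exp (-W x)) = fun x => x * exp (-W x) - m * exp (-W x) := by
      funext x; ring
    rw [e, integral_sub I1 (I0.const_mul m), integral_const_mul, hm, hZ]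
    simp
  · rw [tr (fun x => x ^ 2), hv, mul_div_assoc, div_self hZ0.ne', mul_one]

/-- two sides -/
theorem third_central {W W1 W2 : ℝ → ℝ} {c : ℝ} (hc : 0 < c)
    (h1 : ∀ x, HasDerivAt W (W1 x) x) (h2 : ∀ x, HasDerivAt W1 (W2 x) x) (hpos : ∀ x, 0 < W2 x)
    (hsc : ∀ x y, |1 / √(W2 x) - 1 / √(W2 y)| ≤ c * |x - y|)
    (hI : ∀ j ≤ 3, Integrable fun x => x ^ j * exp (-W x)) {Z m v : ℝ}
    (hZ : ∫ x, exp (-W x) = Z) (hm : ∫ x, x * exp (-W x) = m * Z)
    (hv : ∫ x, (x - m) ^ 2 * exp (-W x) = v * Z) :
    |∫ x, (x - m) ^ 3 * exp (-W x)| ≤ 2 * c * (v * √v) * Z := by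
  rw [abs_le]
  constructor
  · -- reflection
    have rf : ∀ f : ℝ → ℝ, ∫ x, f x * exp (-W (-x)) = ∫ x, f (-x) * exp (-W x) := by
      intro f
      have := integral_neg_eq_self (μ := (volume : Measure ℝ)) (fun x => f (-x) * exp (-W x))
      rw [← this]
      refine integral_congr_ae (Filter.Eventually.of_forall fun x => ?_)
      show f x * exp (-W (-x)) = f (- -x) * exp (-W (-x))
      rw [neg_neg]
    have d1 : ∀ x, HasDerivAt (fun x => W (-x)) (-W1 (-x)) x := by
      intro x
      have : HasDerivAt (fun x => W (-x)) (W1 (-x) * -1) x := (h1 (-x)).comp x (hasDerivAt_neg x)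
      exact this.congr_deriv (by ring)
    have d2 : ∀ x, HasDerivAt (fun x => -W1 (-x)) (W2 (-x)) x := by
      intro x
      have : HasDerivAt (fun x => W1 (-x)) (W2 (-x) * -1) x := (h2 (-x)).comp x (hasDerivAt_neg x)
      exact this.fun_neg.congr_deriv (by ring)
    have key := third_central_le (W := fun x => W (-x)) (Z := Z) (m := -m) (v := v) hc d1 d2
      (fun x => hpos _)
      (fun x y hxy => by
        have := hsc (-y) (-x)
        have e : |-y - -x| = y - x := by
          rw [show -y - -x = -(y - x) by ring, abs_neg, abs_of_nonneg (by linarith)]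
        rw [e] at this
        have := le_of_abs_le this
        linarith)
      (fun j hj => by
        have h := (hI j hj).comp_neg
        have e : (fun x : ℝ => (-x) ^ j * exp (-W (-x))) =
            fun x => (-1) ^ j * (x ^ j * exp (-W (-x))) := by
          funext x
          rw [neg_pow]; ring
        have h' : Integrable fun x : ℝ => (-x) ^ j * exp (-W (-x)) := h
        rw [e] at h'
        have h'' := h'.const_mul ((-1) ^ j)
        refine h''.congr (Filter.Eventually.of_forall fun x => ?_)
        show (-1) ^ j * ((-1) ^ j * (x ^ j * exp (-W (-x)))) = x ^ j * exp (-W (-x))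
        rw [← mul_assoc, ← mul_pow]
        norm_num)
      ?_ ?_ ?_
    · rw [rf (fun x => (x - -m) ^ 3)] at key
      have e : (fun x => (-x - -m) ^ 3 * exp (-W x)) =
          fun x => -((x - m) ^ 3 * exp (-W x)) := by
        funext x; ring
      rw [e, integral_neg] at key
      linarith
    · have := rf (fun _ => 1)
      simp only [one_mul] at this
      rw [this, hZ]
    · rw [rf (fun x => x)]
      have e : (fun x => -x * exp (-W x)) = fun x => -(x * exp (-W x)) := by
        funext x; ring
      rw [e, integral_neg, hm]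
      ring
    · rw [rf (fun x => (x - -m) ^ 2)]
      have e : (fun x => (-x - -m) ^ 2 * exp (-W x)) = fun x => (x - m) ^ 2 * exp (-W x) := by
        funext x; ring
      rw [e, hv]
  · refine third_central_le hc h1 h2 hpos ?_ hI hZ hm hv
    intro x y hxy
    have := hsc y x
    rw [abs_of_nonneg (show 0 ≤ y - x by linarith)] at this
    have := le_of_abs_le this
    linarith

/-- the differential form of self-concordance implies the integrated one -/
theorem lip_of_deriv {W2 W3 : ℝ → ℝ} {c : ℝ} (h3 : ∀ x, HasDerivAt W2 (W3 x) x)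
    (hpos : ∀ x, 0 < W2 x) (h : ∀ x, |W3 x| ≤ 2 * c * (W2 x * √(W2 x))) :
    ∀ x y, |1 / √(W2 x) - 1 / √(W2 y)| ≤ c * |x - y| := by
  have hd : ∀ x, HasDerivAt (fun x => 1 / √(W2 x)) (-(W3 x / (2 * √(W2 x))) / W2 x) x := by
    intro x
    have e1 : HasDerivAt (fun x => √(W2 x)) (W3 x / (2 * √(W2 x))) x := (h3 x).sqrt (hpos x).ne'
    have e2 := e1.fun_inv (sqrt_pos.2 (hpos x)).ne'
    rw [sq_sqrt (hpos x).le] at e2
    simpa using e2
  intro x y
  have hb : ∀ z ∈ (univ : Set ℝ), ‖-(W3 z / (2 * √(W2 z))) / W2 z‖ ≤ c := by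
    intro z _
    have hs : 0 < √(W2 z) := sqrt_pos.2 (hpos z)
    rw [norm_div, norm_neg, norm_div, norm_eq_abs, norm_eq_abs, norm_eq_abs,
      abs_of_pos (hpos z), abs_of_pos (show 0 < 2 * √(W2 z) by positivity), div_div,
      div_le_iff₀ (by have := hpos z; positivity)]
    calc |W3 z| ≤ 2 * c * (W2 z * √(W2 z)) := h z
      _ = c * (2 * √(W2 z) * W2 z) := by ring
  have := Convex.norm_image_sub_le_of_norm_hasDerivWithin_le (s := univ)
    (fun z _ => (hd z).hasDerivWithinAt) hb convex_univ (mem_univ y) (mem_univ x)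
  simpa [norm_eq_abs] using this

end Vale.Agent.P227.M.SC
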