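import Mathlib

/-!
P227, block SC-1: the crossing lemma. If `r` has the sign pattern `+,-,+,-` (a sub-pattern starting
with `+`) and vanishing moments of order `0, 1, 2`, then its third moment is `≤ 0`.
-/

open MeasureTheory Set

namespace Vale.Agent.P227.M.SC

theorem int_comb {f3 f2 f1 f0 : ℝ → ℝ} (I3 : Integrable f3) (I2 : Integrable f2)
    (I1 : Integrable f1) (I0 : Integrable f0) (A B C : ℝ) :
    ∫ x, (f3 x - A * f2 x + B * f1 x - C * f0 x) =
      (∫ x, f3 x) - A * (∫ x, f2 x) + B * (∫ x, f1 x) - C * (∫ x, f0 x) := by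
  have J1 : Integrable fun x => f3 x - A * f2 x := I3.sub (I2.const_mul A)
  have J2 : Integrable fun x => f3 x - A * f2 x + B * f1 x := J1.add (I1.const_mul B)
  rw [integral_sub J2 (I0.const_mul C), integral_add J1 (I1.const_mul B),
    integral_sub I3 (I2.const_mul A), integral_const_mul, integral_const_mul, integral_const_mul]

theorem cross {r : ℝ → ℝ} {L : ℝ} (hL : ∀ x ≤ L, 0 < r x)
    (hI : ∀ j ≤ 3, Integrable fun x => x ^ j * r x)
    (h0 : ∫ x, r x = 0) (h1 : ∫ x, x * r x = 0) (h2 : ∫ x, x ^ 2 * r x = 0)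
    (hp : ∀ y1 y2 y3 y4, y1 < y2 → y2 < y3 → y3 < y4 → r y1 < 0 → 0 < r y2 → r y3 < 0 →
      ¬ 0 < r y4) :
    ∫ x, x ^ 3 * r x ≤ 0 := by
  have I0 : Integrable r := by simpa using hI 0 (by norm_num)
  have I1 : Integrable fun x => x * r x := by simpa using hI 1 (by norm_num)
  have I2 : Integrable fun x => x ^ 2 * r x := hI 2 (by norm_num)
  have I3 : Integrable fun x => x ^ 3 * r x := hI 3 le_rfl
  -- a nonzero factor on the left half line
  have key : ∀ f : ℝ → ℝ, Integrable f → (0 ≤ f) → ∫ x, f x = 0 → ∀ a : ℝ,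
      (∀ x, x < a → x ≤ L → f x ≠ 0) → False := by
    intro f hf hf0 hfi a hfa
    have h3 := (integral_eq_zero_iff_of_nonneg hf0 hf).1 hfi
    have h4 : volume (Iio (min a L)) = 0 := by
      refine measure_mono_null ?_ h3
      intro x hx
      exact hfa x (lt_of_lt_of_le hx (min_le_left _ _)) (le_of_lt (lt_of_lt_of_le hx (min_le_right _ _)))
    rw [Real.volume_Iio] at h4
    exact absurd h4 (by simp)
  set N : Set ℝ := {x | r x < 0} with hN
  have hNL : ∀ x ∈ N, L < x := by
    intro x hx
    by_contra h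
    exact absurd (hL x (not_lt.1 h)) (not_lt.2 (le_of_lt hx))
  have hNb : BddBelow N := ⟨L, fun x hx => (hNL x hx).le⟩
  have hNne : N.Nonempty := by
    by_contra h
    rw [not_nonempty_iff_eq_empty] at h
    refine key r I0 ?_ h0 (L + 1) (fun x _ hx => (hL x hx).ne')
    intro x
    by_contra hx
    have : x ∈ N := not_le.1 hx
    rw [h] at this
    exact this
  set a := sInf N with ha
  have hlta : ∀ x, x < a → 0 ≤ r x := by
    intro x hx
    by_contra h
    exact absurd (csInf_le hNb (show x ∈ N from not_le.1 h)) (not_le.2 hx)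
  have hgta : ∀ x, a < x → ∃ y ∈ N, y < x := fun x hx => exists_lt_of_csInf_lt hNne hx
  set P : Set ℝ := {x | 0 < r x ∧ ∃ y ∈ N, y < x} with hP
  have hPa : ∀ x ∈ P, a ≤ x := by
    rintro x ⟨_, y, hy, hyx⟩
    exact (csInf_le hNb hy).trans hyx.le
  have hPb : BddBelow P := ⟨a, fun x hx => hPa x hx⟩
  have hPne : P.Nonempty := by
    by_contra h
    rw [not_nonempty_iff_eq_empty] at h
    have hs : ∀ x, a < x → r x ≤ 0 := by
      intro x hx
      by_contra h'
      have : x ∈ P := ⟨not_le.1 h', hgta x hx⟩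
      rw [h] at this
      exact this
    refine key (fun x => a * r x - x * r x) ((I0.const_mul a).sub I1) ?_ ?_ a ?_
    · intro x
      show 0 ≤ a * r x - x * r x
      have e : a * r x - x * r x = (a - x) * r x := by ring
      rw [e]
      rcases lt_trichotomy x a with hx | hx | hx
      · exact mul_nonneg (by linarith) (hlta x hx)
      · rw [hx]; simp
      · exact mul_nonneg_of_nonpos_of_nonpos (by linarith) (hs x hx)
    · rw [integral_sub (I0.const_mul a) I1, integral_const_mul, h0, h1]
      simp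
    · intro x hx hxL
      have e : a * r x - x * r x = (a - x) * r x := by ring
      show a * r x - x * r x ≠ 0
      rw [e]
      exact mul_ne_zero (by linarith) (hL x hxL).ne'
  set b := sInf P with hb
  have hab : a ≤ b := le_csInf hPne hPa
  have hab' : ∀ x, a < x → x < b → r x ≤ 0 := by
    intro x hx hxb
    by_contra h'
    have : x ∈ P := ⟨not_le.1 h', hgta x hx⟩
    exact absurd (csInf_le hPb this) (not_le.2 hxb)
  have hgtb : ∀ x, b < x → ∃ y ∈ P, y < x := fun x hx => exists_lt_of_csInf_lt hPne hx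
  set N2 : Set ℝ := {x | r x < 0 ∧ ∃ y ∈ P, y < x} with hN2
  have hN2b' : ∀ x ∈ N2, b ≤ x := by
    rintro x ⟨_, y, hy, hyx⟩
    exact (csInf_le hPb hy).trans hyx.le
  have hN2b : BddBelow N2 := ⟨b, fun x hx => hN2b' x hx⟩
  have hN2ne : N2.Nonempty := by
    by_contra h
    rw [not_nonempty_iff_eq_empty] at h
    have hs : ∀ x, b < x → 0 ≤ r x := by
      intro x hx
      by_contra h'
      have : x ∈ N2 := ⟨not_le.1 h', hgtb x hx⟩
      rw [h] at this
      exact this
    have IQ : Integrable fun x => x ^ 2 * r x - (a + b) * (x * r x) + a * b * r x :=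
      (I2.sub (I1.const_mul (a + b))).add (I0.const_mul (a * b))
    refine key _ IQ ?_ ?_ a ?_
    · intro x
      show 0 ≤ x ^ 2 * r x - (a + b) * (x * r x) + a * b * r x
      have e : x ^ 2 * r x - (a + b) * (x * r x) + a * b * r x = ((x - a) * (x - b)) * r x := by ring
      rw [e]
      rcases lt_trichotomy x a with hx | hx | hx
      · exact mul_nonneg (mul_nonneg_of_nonpos_of_nonpos (by linarith) (by linarith)) (hlta x hx)
      · rw [hx]; simp
      · rcases lt_trichotomy x b with hx' | hx' | hx'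
        · exact mul_nonneg_of_nonpos_of_nonpos
            (mul_nonpos_of_nonneg_of_nonpos (by linarith) (by linarith)) (hab' x hx hx')
        · rw [hx']; simp
        · exact mul_nonneg (mul_nonneg (by linarith) (by linarith)) (hs x hx')
    · have := int_comb I2 I1 I0 I0 (a + b) (a * b) 0
      rw [h0, h1, h2] at this
      simpa using this
    · intro x hx hxL
      have e : x ^ 2 * r x - (a + b) * (x * r x) + a * b * r x = ((x - a) * (x - b)) * r x := by ring
      rw [e]
      exact mul_ne_zero (mul_ne_zero (by linarith) (by linarith)) (hL x hxL).ne'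
  set d := sInf N2 with hd
  have hbd : b ≤ d := le_csInf hN2ne hN2b'
  have hbd' : ∀ x, b < x → x < d → 0 ≤ r x := by
    intro x hx hxd
    by_contra h'
    have : x ∈ N2 := ⟨not_le.1 h', hgtb x hx⟩
    exact absurd (csInf_le hN2b this) (not_le.2 hxd)
  have hgtd : ∀ x, d < x → r x ≤ 0 := by
    intro x hx
    obtain ⟨y3, ⟨hy3, y2, ⟨hy2, y1, hy1, h12⟩, h23⟩, h3⟩ := exists_lt_of_csInf_lt hN2ne hx
    exact not_lt.1 (hp y1 y2 y3 x h12 h23 h3 hy1 hy2 hy3)
  have hfin : ∫ x, (x ^ 3 * r x - (a + b + d) * (x ^ 2 * r x) +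
      (a * b + a * d + b * d) * (x * r x) - a * b * d * r x) ≤ 0 := by
    refine integral_nonpos ?_
    intro x
    show x ^ 3 * r x - (a + b + d) * (x ^ 2 * r x) +
      (a * b + a * d + b * d) * (x * r x) - a * b * d * r x ≤ 0
    have e : x ^ 3 * r x - (a + b + d) * (x ^ 2 * r x) +
      (a * b + a * d + b * d) * (x * r x) - a * b * d * r x =
      ((x - a) * (x - b) * (x - d)) * r x := by ring
    rw [e]
    rcases lt_trichotomy x a with hx | hx | hx
    · exact mul_nonpos_of_nonpos_of_nonneg (mul_nonpos_of_nonneg_of_nonpos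
        (mul_nonneg_of_nonpos_of_nonpos (by linarith) (by linarith)) (by linarith)) (hlta x hx)
    · rw [hx]; simp
    · rcases lt_trichotomy x b with hx' | hx' | hx'
      · exact mul_nonpos_of_nonneg_of_nonpos (mul_nonneg_of_nonpos_of_nonpos
          (mul_nonpos_of_nonneg_of_nonpos (by linarith) (by linarith)) (by linarith)) (hab' x hx hx')
      · rw [hx']; simp
      · rcases lt_trichotomy x d with hx'' | hx'' | hx''
        · exact mul_nonpos_of_nonpos_of_nonneg (mul_nonpos_of_nonneg_of_nonpos
            (mul_nonneg (by linarith) (by linarith)) (by linarith)) (hbd' x hx' hx'')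
        · rw [hx'']; simp
        · exact mul_nonpos_of_nonneg_of_nonpos (mul_nonneg
            (mul_nonneg (by linarith) (by linarith)) (by linarith)) (hgtd x hx'')
  rw [int_comb I3 I2 I1 I0, h0, h1, h2] at hfin
  simpa using hfin

end Vale.Agent.P227.M.SC
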