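import Mathlib

/-!
# One-dimensional crossing lemma (abstract form)

If `D` has vanishing moments of order `0, 1, 2`, is nonnegative to the left and shows no
sign pattern `-, +, -, +`, then its third moment is nonpositive.
-/

open MeasureTheory Set

namespace Vale.P227.SC

theorem cross_zero {D q : ℝ → ℝ} {S : Set ℝ} (hS : S.Finite)
    (hq : ∀ t, t ∉ S → q t ≠ 0) (hi : Integrable (fun t => q t * D t))
    (hn : ∀ t, 0 ≤ q t * D t) (he : ∫ t, q t * D t = 0) :
    ∫ t, t ^ 3 * D t = 0 := by
  have h1 : (fun t => q t * D t) =ᵐ[volume] 0 :=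
    (integral_eq_zero_iff_of_nonneg (fun t => hn t) hi).1 he
  have h2 : ∀ᵐ t : ℝ, t ∉ S := by
    have := hS.measure_zero (volume : Measure ℝ)
    exact measure_eq_zero_iff_ae_notMem.1 this
  have h3 : (fun t => t ^ 3 * D t) =ᵐ[volume] fun _ => (0 : ℝ) := by
    filter_upwards [h1, h2] with t ht1 ht2
    have ht1' : q t * D t = 0 := ht1
    rcases mul_eq_zero.1 ht1' with h | h
    · exact absurd h (hq t ht2)
    · simp [h]
  rw [integral_congr_ae h3]
  simp

theorem cross_abs {D : ℝ → ℝ} (h0 : Integrable D) (h1 : Integrable fun t => t * D t)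
    (h2 : Integrable fun t => t ^ 2 * D t) (h3 : Integrable fun t => t ^ 3 * D t)
    (e0 : ∫ t, D t = 0) (e1 : ∫ t, t * D t = 0) (e2 : ∫ t, t ^ 2 * D t = 0)
    (hb : BddBelow {t | D t < 0})
    (hpat : ∀ a b c d, a < b → b < c → c < d → D a < 0 → 0 < D b → D c < 0 → 0 < D d →
      False) :
    ∫ t, t ^ 3 * D t ≤ 0 := by
  by_cases hN : {t | D t < 0}.Nonempty
  swap
  · -- `D ≥ 0`
    have hD : ∀ t, 0 ≤ D t := by
      intro t
      by_contra h
      exact hN ⟨t, not_le.1 h⟩
    refine le_of_eq (cross_zero (q := fun _ => 1) (S := ∅) finite_empty ?_ ?_ ?_ ?_)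
    · intro t _; norm_num
    · simpa using h0
    · intro t; simpa using hD t
    · simpa using e0
  set z1 := sInf {t | D t < 0} with hz1
  have F1 : ∀ t, t < z1 → 0 ≤ D t := by
    intro t ht
    by_contra h
    have : z1 ≤ t := csInf_le hb (not_le.1 h)
    linarith
  have G1 : ∀ t, z1 < t → ∃ a, D a < 0 ∧ a < t := by
    intro t ht
    obtain ⟨a, ha, hat⟩ := exists_lt_of_csInf_lt hN ht
    exact ⟨a, ha, hat⟩
  by_cases hB : {b | 0 < D b ∧ ∃ a, D a < 0 ∧ a < b}.Nonempty
  swap
  · have F2 : ∀ t, z1 < t → D t ≤ 0 := by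
      intro t ht
      by_contra h
      exact hB ⟨t, not_le.1 h, G1 t ht⟩
    have hexp : ∀ t, (z1 - t) * D t = z1 * D t - t * D t := fun t => by ring
    refine le_of_eq (cross_zero (q := fun t => z1 - t) (S := {z1}) (finite_singleton _)
      ?_ ?_ ?_ ?_)
    · intro t ht h
      apply ht
      simp only [mem_singleton_iff]
      linarith
    · simp only [hexp]
      exact (h0.const_mul z1).sub h1
    · intro t
      rcases lt_trichotomy t z1 with h | h | h
      · exact mul_nonneg (by linarith) (F1 t h)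
      · simp [h]
      · exact mul_nonneg_of_nonpos_of_nonpos (by linarith) (F2 t h)
    · simp only [hexp]
      rw [integral_sub (h0.const_mul z1) h1, integral_const_mul, e0, e1]
      ring
  have hBb : BddBelow {b | 0 < D b ∧ ∃ a, D a < 0 ∧ a < b} := by
    refine ⟨z1, ?_⟩
    rintro b ⟨_, a, ha, hab⟩
    have : z1 ≤ a := csInf_le hb ha
    linarith
  set z2 := sInf {b | 0 < D b ∧ ∃ a, D a < 0 ∧ a < b} with hz2
  have h12 : z1 ≤ z2 := by
    refine le_csInf hB ?_
    rintro b ⟨_, a, ha, hab⟩
    have : z1 ≤ a := csInf_le hb ha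
    linarith
  have F2 : ∀ t, z1 < t → t < z2 → D t ≤ 0 := by
    intro t ht1 ht2
    by_contra h
    have : z2 ≤ t := csInf_le hBb ⟨not_le.1 h, G1 t ht1⟩
    linarith
  have G2 : ∀ t, z2 < t → ∃ a b, D a < 0 ∧ 0 < D b ∧ a < b ∧ b < t := by
    intro t ht
    obtain ⟨b, ⟨hb0, a, ha, hab⟩, hbt⟩ := exists_lt_of_csInf_lt hB ht
    exact ⟨a, b, ha, hb0, hab, hbt⟩
  have G3 : ∀ t d, z2 < t → t < d → 0 < D d → 0 ≤ D t := by
    intro t d ht htd hd
    by_contra h
    obtain ⟨a, b, ha, hb0, hab, hbt⟩ := G2 t ht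
    exact hpat a b t d hab hbt htd ha hb0 (not_le.1 h) hd
  by_cases hP : BddAbove {t | 0 < D t}
  swap
  · have F3 : ∀ t, z2 < t → 0 ≤ D t := by
      intro t ht
      rw [not_bddAbove_iff] at hP
      obtain ⟨d, hd, htd⟩ := hP t
      exact G3 t d ht htd hd
    have hexp : ∀ t, ((t - z1) * (t - z2)) * D t
        = t ^ 2 * D t - (z1 + z2) * (t * D t) + (z1 * z2) * D t := fun t => by ring
    refine le_of_eq (cross_zero (q := fun t => (t - z1) * (t - z2)) (S := {z1, z2})
      (by simp) ?_ ?_ ?_ ?_)
    · intro t ht h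
      apply ht
      rcases mul_eq_zero.1 h with h | h
      · left; linarith
      · right; simp only [mem_singleton_iff]; linarith
    · simp only [hexp]
      exact (h2.sub (h1.const_mul _)).add (h0.const_mul _)
    · intro t
      rcases lt_trichotomy t z1 with h | h | h
      · exact mul_nonneg (mul_nonneg_of_nonpos_of_nonpos (by linarith) (by linarith)) (F1 t h)
      · simp [h]
      · rcases lt_trichotomy t z2 with h' | h' | h'
        · exact mul_nonneg_of_nonpos_of_nonpos
            (mul_nonpos_of_nonneg_of_nonpos (by linarith) (by linarith)) (F2 t h h')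
        · simp [h']
        · exact mul_nonneg (mul_nonneg (by linarith) (by linarith)) (F3 t h')
    · simp only [hexp]
      have A1 : Integrable (fun t => (z1 + z2) * (t * D t)) := h1.const_mul _
      have A2 : Integrable (fun t => (z1 * z2) * D t) := h0.const_mul _
      have A3 : Integrable (fun t => t ^ 2 * D t - (z1 + z2) * (t * D t)) := h2.sub A1
      rw [integral_add A3 A2, integral_sub h2 A1, integral_const_mul, integral_const_mul,
        e0, e1, e2]
      ring
  set z3 := sSup {t | 0 < D t} with hz3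
  have h23 : z2 ≤ z3 := by
    obtain ⟨b, hbB⟩ := hB
    exact (csInf_le hBb hbB).trans (le_csSup hP hbB.1)
  have hPne : {t | 0 < D t}.Nonempty := by
    obtain ⟨b, hbB⟩ := hB
    exact ⟨b, hbB.1⟩
  have F3 : ∀ t, z2 < t → t < z3 → 0 ≤ D t := by
    intro t ht1 ht2
    obtain ⟨d, hd, htd⟩ := exists_lt_of_lt_csSup hPne ht2
    exact G3 t d ht1 htd hd
  have F4 : ∀ t, z3 < t → D t ≤ 0 := by
    intro t ht
    by_contra h
    have : t ≤ z3 := le_csSup hP (not_le.1 h)
    linarith
  have hsign : ∀ t, ((t - z1) * (t - z2) * (t - z3)) * D t ≤ 0 := by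
    intro t
    rcases lt_trichotomy t z1 with h | h | h
    · exact mul_nonpos_of_nonpos_of_nonneg
        (mul_nonpos_of_nonneg_of_nonpos
          (mul_nonneg_of_nonpos_of_nonpos (by linarith) (by linarith)) (by linarith)) (F1 t h)
    · simp [h]
    · rcases lt_trichotomy t z2 with h' | h' | h'
      · exact mul_nonpos_of_nonneg_of_nonpos
          (mul_nonneg_of_nonpos_of_nonpos
            (mul_nonpos_of_nonneg_of_nonpos (by linarith) (by linarith)) (by linarith))
          (F2 t h h')
      · simp [h']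
      · rcases lt_trichotomy t z3 with h'' | h'' | h''
        · exact mul_nonpos_of_nonpos_of_nonneg
            (mul_nonpos_of_nonneg_of_nonpos
              (mul_nonneg (by linarith) (by linarith)) (by linarith)) (F3 t h' h'')
        · simp [h'']
        · exact mul_nonpos_of_nonneg_of_nonpos
            (mul_nonneg (mul_nonneg (by linarith) (by linarith)) (by linarith)) (F4 t h'')
  have hexp : ∀ t, ((t - z1) * (t - z2) * (t - z3)) * D t
      = t ^ 3 * D t - (z1 + z2 + z3) * (t ^ 2 * D t)
        + (z1 * z2 + z1 * z3 + z2 * z3) * (t * D t) - (z1 * z2 * z3) * D t :=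
    fun t => by ring
  have hint : ∫ t, ((t - z1) * (t - z2) * (t - z3)) * D t = ∫ t, t ^ 3 * D t := by
    simp only [hexp]
    have A1 : Integrable (fun t => (z1 + z2 + z3) * (t ^ 2 * D t)) := h2.const_mul _
    have A2 : Integrable (fun t => (z1 * z2 + z1 * z3 + z2 * z3) * (t * D t)) :=
      h1.const_mul _
    have A3 : Integrable (fun t => (z1 * z2 * z3) * D t) := h0.const_mul _
    have A4 : Integrable (fun t => t ^ 3 * D t - (z1 + z2 + z3) * (t ^ 2 * D t)) := h3.sub A1
    have A5 : Integrable (fun t => t ^ 3 * D t - (z1 + z2 + z3) * (t ^ 2 * D t)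
        + (z1 * z2 + z1 * z3 + z2 * z3) * (t * D t)) := A4.add A2
    rw [integral_sub A5 A3, integral_add A4 A2, integral_sub h3 A1, integral_const_mul,
      integral_const_mul, integral_const_mul, e0, e1, e2]
    ring
  rw [← hint]
  exact integral_nonpos hsign

end Vale.P227.SC
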