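import Mathlib
import Vale.Agent.P227.M.SC.Cross1

/-!
# One-dimensional crossing lemma: comparison with a Gamma density

`P = exp (-w)`, `w'' > 0` and `(w'')^(-1/2)` is `c`-Lipschitz (one-sided form `hlip`).
-/

open MeasureTheory Set

namespace Vale.P227.SC

/-- the Gamma comparison function -/
noncomputable def gam (C al be : ℝ) (t : ℝ) : ℝ :=
  (Ioi (0 : ℝ)).indicator (fun t => C * (t ^ al * Real.exp (-(be * t)))) t

theorem gam_pos {C al be t : ℝ} (ht : 0 < t) :
    gam C al be t = C * (t ^ al * Real.exp (-(be * t))) := by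
  simp [gam, ht]

theorem gam_nonpos {C al be t : ℝ} (ht : t ≤ 0) : gam C al be t = 0 := by
  simp [gam, not_lt.2 ht]

theorem rpow_aux (s : ℝ) (hs : 0 < s) : ((1 / s) ^ 2) ^ (-(1 / 2) : ℝ) = s := by
  have h1s : (0 : ℝ) ≤ 1 / s := by positivity
  rw [← Real.rpow_natCast (1 / s) 2, ← Real.rpow_mul h1s]
  norm_num
  rw [Real.rpow_neg_one, inv_inv]

/-- no sign pattern `-, +, -, +` -/
theorem pattern {w w1 w2 : ℝ → ℝ} (hw1 : ∀ x, HasDerivAt w (w1 x) x)
    (hw2 : ∀ x, HasDerivAt w1 (w2 x) x) (hpos : ∀ x, 0 < w2 x) {c : ℝ} (hc : 0 < c)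
    (hlip : ∀ x y, x < y →
      (w2 y) ^ (-(1 / 2) : ℝ) ≤ (w2 x) ^ (-(1 / 2) : ℝ) + c * (y - x))
    {C be : ℝ} (hC : 0 < C) :
    ∀ a b e d, a < b → b < e → e < d →
      Real.exp (-w a) - gam C (1 / c ^ 2) be a < 0 →
      0 < Real.exp (-w b) - gam C (1 / c ^ 2) be b →
      Real.exp (-w e) - gam C (1 / c ^ 2) be e < 0 →
      0 < Real.exp (-w d) - gam C (1 / c ^ 2) be d → False := by
  intro a b e d hab hbe hed ha hb he hd
  have ha0 : 0 < a := by
    by_contra h
    rw [gam_nonpos (not_lt.1 h)] at ha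
    have := Real.exp_pos (-w a)
    linarith
  have hb0 : 0 < b := ha0.trans hab
  have he0 : 0 < e := hb0.trans hbe
  have hd0 : 0 < d := he0.trans hed
  -- the logarithm of the quotient
  set al : ℝ := 1 / c ^ 2 with hal
  have halpos : 0 < al := by positivity
  set h : ℝ → ℝ := fun t => -w t - (Real.log C + (al * Real.log t - be * t)) with hh
  set h1 : ℝ → ℝ := fun t => -w1 t - (al * t⁻¹ - be) with hh1
  set h2 : ℝ → ℝ := fun t => -w2 t - (al * (-(t ^ 2)⁻¹)) with hh2
  have hd1 : ∀ t, 0 < t → HasDerivAt h (h1 t) t := by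
    intro t ht
    have e1 := (hw1 t).neg
    have e2 := ((Real.hasDerivAt_log ht.ne').const_mul al).sub
      ((hasDerivAt_id t).const_mul be)
    have e3 := e1.sub (e2.const_add (Real.log C))
    have e4 : h1 t = -w1 t - (al * t⁻¹ - be * 1) := by simp only [hh1]; ring
    rw [e4]
    exact e3
  have hd2 : ∀ t, 0 < t → HasDerivAt h1 (h2 t) t := by
    intro t ht
    have e1 := (hw2 t).neg
    have e2 := ((hasDerivAt_inv ht.ne').const_mul al).sub_const be
    exact e1.sub e2
  have hloggam : ∀ t, 0 < t →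
      Real.log (C * (t ^ al * Real.exp (-(be * t)))) = Real.log C + (al * Real.log t - be * t) := by
    intro t ht
    have h1 : 0 < t ^ al := Real.rpow_pos_of_pos ht al
    rw [Real.log_mul hC.ne' (by positivity), Real.log_mul h1.ne' (Real.exp_pos _).ne',
      Real.log_rpow ht, Real.log_exp]
    ring
  have sgn_neg : ∀ t, 0 < t → Real.exp (-w t) - gam C al be t < 0 → h t < 0 := by
    intro t ht hlt
    rw [gam_pos ht] at hlt
    have h1 : 0 < t ^ al := Real.rpow_pos_of_pos ht al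
    have : Real.log (Real.exp (-w t)) < Real.log (C * (t ^ al * Real.exp (-(be * t)))) :=
      Real.log_lt_log (Real.exp_pos _) (by linarith)
    rw [Real.log_exp, hloggam t ht] at this
    simp only [hh]
    linarith
  have sgn_pos : ∀ t, 0 < t → 0 < Real.exp (-w t) - gam C al be t → 0 < h t := by
    intro t ht hlt
    rw [gam_pos ht] at hlt
    have h1 : 0 < t ^ al := Real.rpow_pos_of_pos ht al
    have : Real.log (C * (t ^ al * Real.exp (-(be * t)))) < Real.log (Real.exp (-w t)) :=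
      Real.log_lt_log (by positivity) (by linarith)
    rw [Real.log_exp, hloggam t ht] at this
    simp only [hh]
    linarith
  have ka := sgn_neg a ha0 ha
  have kb := sgn_pos b hb0 hb
  have ke := sgn_neg e he0 he
  have kd := sgn_pos d hd0 hd
  -- mean value theorem for `h`
  have mvt : ∀ x y, 0 < x → x < y → ∃ t, x < t ∧ t < y ∧ h y - h x = h1 t * (y - x) := by
    intro x y hx hxy
    obtain ⟨t, ht, hteq⟩ := exists_hasDerivAt_eq_slope h h1 hxy
      (fun u hu => ((hd1 u (lt_of_lt_of_le hx hu.1)).continuousAt).continuousWithinAt)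
      (fun u hu => hd1 u (hx.trans hu.1))
    refine ⟨t, ht.1, ht.2, ?_⟩
    rw [hteq]
    field_simp [(sub_pos.2 hxy).ne']
  have mvt1 : ∀ x y, 0 < x → x < y → ∃ t, x < t ∧ t < y ∧ h1 y - h1 x = h2 t * (y - x) := by
    intro x y hx hxy
    obtain ⟨t, ht, hteq⟩ := exists_hasDerivAt_eq_slope h1 h2 hxy
      (fun u hu => ((hd2 u (lt_of_lt_of_le hx hu.1)).continuousAt).continuousWithinAt)
      (fun u hu => hd2 u (hx.trans hu.1))
    refine ⟨t, ht.1, ht.2, ?_⟩
    rw [hteq]
    field_simp [(sub_pos.2 hxy).ne']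
  obtain ⟨t2, ht2a, ht2b, ht2⟩ := mvt a b ha0 hab
  obtain ⟨t3, ht3a, ht3b, ht3⟩ := mvt b e hb0 hbe
  obtain ⟨t4, ht4a, ht4b, ht4⟩ := mvt e d he0 hed
  have p2 : 0 < h1 t2 := by
    by_contra hcon
    have : h1 t2 * (b - a) ≤ 0 :=
      mul_nonpos_of_nonpos_of_nonneg (not_lt.1 hcon) (by linarith)
    linarith
  have p3 : h1 t3 < 0 := by
    by_contra hcon
    have : 0 ≤ h1 t3 * (e - b) := mul_nonneg (not_lt.1 hcon) (by linarith)
    linarith
  have p4 : 0 < h1 t4 := by
    by_contra hcon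
    have : h1 t4 * (d - e) ≤ 0 :=
      mul_nonpos_of_nonpos_of_nonneg (not_lt.1 hcon) (by linarith)
    linarith
  have ht2p : 0 < t2 := ha0.trans ht2a
  have h23 : t2 < t3 := ht2b.trans ht3a
  have h34 : t3 < t4 := ht3b.trans ht4a
  obtain ⟨u, hu1, hu2, hu⟩ := mvt1 t2 t3 ht2p h23
  obtain ⟨v, hv1, hv2, hv⟩ := mvt1 t3 t4 (ht2p.trans h23) h34
  have hu0 : 0 < u := ht2p.trans hu1
  have huv : u < v := hu2.trans hv1
  have hv0 : 0 < v := hu0.trans huv
  have q1 : h2 u < 0 := by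
    by_contra hcon
    have : 0 ≤ h2 u * (t3 - t2) := mul_nonneg (not_lt.1 hcon) (by linarith)
    linarith
  have q2 : 0 < h2 v := by
    by_contra hcon
    have : h2 v * (t4 - t3) ≤ 0 :=
      mul_nonpos_of_nonpos_of_nonneg (not_lt.1 hcon) (by linarith)
    linarith
  -- translate into `w2 u > al/u^2`, `w2 v < al/v^2`
  have r1 : (1 / (c * u)) ^ 2 < w2 u := by
    have : al * (u ^ 2)⁻¹ < w2 u := by
      have e5 : h2 u = -w2 u + al * (u ^ 2)⁻¹ := by simp only [hh2]; ring
      rw [e5] at q1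
      linarith
    calc (1 / (c * u)) ^ 2 = al * (u ^ 2)⁻¹ := by rw [hal]; field_simp
      _ < w2 u := this
  have r2 : w2 v < (1 / (c * v)) ^ 2 := by
    have : w2 v < al * (v ^ 2)⁻¹ := by
      have e5 : h2 v = -w2 v + al * (v ^ 2)⁻¹ := by simp only [hh2]; ring
      rw [e5] at q2
      linarith
    calc w2 v < al * (v ^ 2)⁻¹ := this
      _ = (1 / (c * v)) ^ 2 := by rw [hal]; field_simp
  have s1 : (w2 u) ^ (-(1 / 2) : ℝ) < c * u := by
    have hpos' : (0 : ℝ) < (1 / (c * u)) ^ 2 := by positivity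
    have := Real.rpow_lt_rpow_of_neg hpos' r1 (by norm_num : (-(1 / 2) : ℝ) < 0)
    rwa [rpow_aux (c * u) (by positivity)] at this
  have s2 : c * v < (w2 v) ^ (-(1 / 2) : ℝ) := by
    have := Real.rpow_lt_rpow_of_neg (hpos v) r2 (by norm_num : (-(1 / 2) : ℝ) < 0)
    rwa [rpow_aux (c * v) (by positivity)] at this
  have h5 := hlip u v huv
  have h6 : c * (v - u) = c * v - c * u := by ring
  rw [h6] at h5
  linarith

end Vale.P227.SC
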