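import Mathlib
import Vale.Agent.P227.M.SC.Cross2

/-!
# One-dimensional crossing lemma: moments of the Gamma function and third moments
-/

open MeasureTheory Set

namespace Vale.P227.SC

/-- moments of `gam` -/
noncomputable def gmom (C al be : ℝ) (k : ℕ) : ℝ :=
  C * ((1 / be) ^ (al + k + 1) * Real.Gamma (al + k + 1))

theorem gam_mul_pow (C al be : ℝ) (k : ℕ) :
    (fun t => t ^ k * gam C al be t) =
      (Ioi (0 : ℝ)).indicator (fun t => C * (t ^ (al + k) * Real.exp (-(be * t)))) := by
  funext t
  by_cases ht : 0 < t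
  · rw [gam_pos ht, indicator_of_mem (mem_Ioi.2 ht), Real.rpow_add ht, Real.rpow_natCast]
    ring
  · rw [gam_nonpos (not_lt.1 ht), indicator_of_notMem (by simpa using ht), mul_zero]

theorem gam_integrable {C al be : ℝ} (hal : 0 < al) (hbe : 0 < be) (k : ℕ) :
    Integrable (fun t => t ^ k * gam C al be t) := by
  rw [gam_mul_pow, integrable_indicator_iff measurableSet_Ioi]
  have h := integrableOn_rpow_mul_exp_neg_mul_rpow (p := 1) (s := al + k) (b := be)
    (by have : (0 : ℝ) ≤ k := Nat.cast_nonneg k; linarith) one_pos hbe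
  refine Integrable.const_mul ?_ C
  refine h.congr ?_
  refine Filter.Eventually.of_forall fun t => ?_
  simp [Real.rpow_one]

theorem gam_integral {C al be : ℝ} (hal : 0 < al) (hbe : 0 < be) (k : ℕ) :
    ∫ t, t ^ k * gam C al be t = gmom C al be k := by
  rw [gam_mul_pow, integral_indicator measurableSet_Ioi, integral_const_mul]
  have hk : (0 : ℝ) ≤ k := Nat.cast_nonneg k
  have h := Real.integral_rpow_mul_exp_neg_mul_Ioi (a := al + k + 1) (r := be)
    (by linarith) hbe
  rw [show al + (k : ℝ) + 1 - 1 = al + k by ring] at h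
  rw [h, gmom]

theorem gmom_succ {C al be : ℝ} (hal : 0 < al) (hbe : 0 < be) (k : ℕ) :
    gmom C al be (k + 1) = (al + k + 1) / be * gmom C al be k := by
  have hk : (0 : ℝ) ≤ k := Nat.cast_nonneg k
  have hpos : 0 < al + k + 1 := by linarith
  unfold gmom
  push_cast
  rw [show al + ((k : ℝ) + 1) + 1 = (al + k + 1) + 1 by ring, Real.Gamma_add_one hpos.ne',
    Real.rpow_add (by positivity : (0 : ℝ) < 1 / be), Real.rpow_one]
  field_simp

/-- comparison of third moments, normalised form -/
theorem third_le {w w1 w2 : ℝ → ℝ} (hw1 : ∀ x, HasDerivAt w (w1 x) x)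
    (hw2 : ∀ x, HasDerivAt w1 (w2 x) x) (hpos : ∀ x, 0 < w2 x) {c : ℝ} (hc : 0 < c)
    (hlip : ∀ x y, x < y →
      (w2 y) ^ (-(1 / 2) : ℝ) ≤ (w2 x) ^ (-(1 / 2) : ℝ) + c * (y - x))
    (i0 : Integrable fun t => Real.exp (-w t))
    (i1 : Integrable fun t => t * Real.exp (-w t))
    (i2 : Integrable fun t => t ^ 2 * Real.exp (-w t))
    (i3 : Integrable fun t => t ^ 3 * Real.exp (-w t)) {be Z : ℝ} (hbe : 0 < be)
    (hZ : 0 < Z) (m0 : ∫ t, Real.exp (-w t) = Z)
    (m1 : ∫ t, t * Real.exp (-w t) = (1 / c ^ 2 + 1) / be * Z)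
    (m2 : ∫ t, t ^ 2 * Real.exp (-w t) =
      (1 / c ^ 2 + 2) / be * ((1 / c ^ 2 + 1) / be * Z)) :
    ∫ t, t ^ 3 * Real.exp (-w t) ≤
      (1 / c ^ 2 + 3) / be * ((1 / c ^ 2 + 2) / be * ((1 / c ^ 2 + 1) / be * Z)) := by
  set al : ℝ := 1 / c ^ 2 with hal
  have halpos : 0 < al := by positivity
  have hG : 0 < (1 / be) ^ (al + 1) * Real.Gamma (al + 1) :=
    mul_pos (Real.rpow_pos_of_pos (by positivity) _) (Real.Gamma_pos_of_pos (by linarith))
  set C : ℝ := Z / ((1 / be) ^ (al + 1) * Real.Gamma (al + 1)) with hC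
  have hCpos : 0 < C := div_pos hZ hG
  have g0 : gmom C al be 0 = Z := by
    unfold gmom
    simp only [Nat.cast_zero, add_zero]
    rw [hC]
    field_simp
  have g1 : gmom C al be 1 = (al + 1) / be * Z := by
    have := gmom_succ (C := C) halpos hbe 0
    rw [g0] at this
    simpa using this
  have g2 : gmom C al be 2 = (al + 2) / be * ((al + 1) / be * Z) := by
    have := gmom_succ (C := C) halpos hbe 1
    rw [g1] at this
    rw [this]
    push_cast
    ring
  have g3 : gmom C al be 3 = (al + 3) / be * ((al + 2) / be * ((al + 1) / be * Z)) := by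
    have := gmom_succ (C := C) halpos hbe 2
    rw [g2] at this
    rw [this]
    push_cast
    ring
  have J0 : Integrable (gam C al be) := by
    simpa using gam_integrable (C := C) halpos hbe 0
  have J1 : Integrable (fun t => t * gam C al be t) := by
    simpa using gam_integrable (C := C) halpos hbe 1
  have J2 := gam_integrable (C := C) halpos hbe 2
  have J3 := gam_integrable (C := C) halpos hbe 3
  have K0 : ∫ t, gam C al be t = Z := by
    have := gam_integral (C := C) halpos hbe 0
    rw [g0] at this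
    simpa using this
  have K1 : ∫ t, t * gam C al be t = (al + 1) / be * Z := by
    have := gam_integral (C := C) halpos hbe 1
    rw [g1] at this
    simpa using this
  have K2 := gam_integral (C := C) halpos hbe 2
  have K3 := gam_integral (C := C) halpos hbe 3
  rw [g2] at K2
  rw [g3] at K3
  have E : ∀ k : ℕ, (fun t => t ^ k * (Real.exp (-w t) - gam C al be t)) =
      fun t => t ^ k * Real.exp (-w t) - t ^ k * gam C al be t := fun k => by
    funext t; ring
  have E1 : (fun t => t * (Real.exp (-w t) - gam C al be t)) =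
      fun t => t * Real.exp (-w t) - t * gam C al be t := by
    funext t; ring
  have key := cross_abs (D := fun t => Real.exp (-w t) - gam C al be t) (i0.sub J0)
    (by rw [E1]; exact i1.sub J1) (by rw [E 2]; exact i2.sub J2)
    (by rw [E 3]; exact i3.sub J3)
    (by rw [integral_sub i0 J0, m0, K0, sub_self])
    (by rw [E1, integral_sub i1 J1, m1, K1, sub_self])
    (by rw [E 2, integral_sub i2 J2, m2, K2, sub_self])
    (by
      refine ⟨0, ?_⟩
      intro t ht
      by_contra hcon
      have ht0 : t ≤ 0 := le_of_lt (not_le.1 hcon)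
      have h1 : Real.exp (-w t) - gam C al be t < 0 := ht
      rw [gam_nonpos ht0] at h1
      have := Real.exp_pos (-w t)
      linarith)
    (pattern hw1 hw2 hpos hc hlip hCpos)
  rw [E 3, integral_sub i3 J3, K3] at key
  linarith

end Vale.P227.SC
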