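import Mathlib
import Vale.Agent.P227.M.SC.Cross3

/-!
# Third central moment of a one-dimensional self-concordant density

`skew_abs_le`: if `w'' > 0` and `(w'')^(-1/2)` is `c`-Lipschitz then
`|∫ (x - m)^3 exp (-w)| ≤ 2 c / √(1 + c^2) * s^3 * ∫ exp (-w)`.
-/

open MeasureTheory Set

namespace Vale.P227.SC

theorem skew_upper {w w1 w2 : ℝ → ℝ} (hw1 : ∀ x, HasDerivAt w (w1 x) x)
    (hw2 : ∀ x, HasDerivAt w1 (w2 x) x) (hpos : ∀ x, 0 < w2 x) {c : ℝ} (hc : 0 < c)
    (hlip : ∀ x y, x < y →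
      (w2 y) ^ (-(1 / 2) : ℝ) ≤ (w2 x) ^ (-(1 / 2) : ℝ) + c * (y - x))
    {m s : ℝ} (hs : 0 < s)
    (i0 : Integrable fun x => Real.exp (-w x))
    (i1 : Integrable fun x => (x - m) * Real.exp (-w x))
    (i2 : Integrable fun x => (x - m) ^ 2 * Real.exp (-w x))
    (i3 : Integrable fun x => (x - m) ^ 3 * Real.exp (-w x))
    (hm : ∫ x, (x - m) * Real.exp (-w x) = 0)
    (hv : ∫ x, (x - m) ^ 2 * Real.exp (-w x) = s ^ 2 * ∫ x, Real.exp (-w x)) :
    ∫ x, (x - m) ^ 3 * Real.exp (-w x) ≤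
      2 * c / √(1 + c ^ 2) * s ^ 3 * ∫ x, Real.exp (-w x) := by
  set Z : ℝ := ∫ x, Real.exp (-w x) with hZdef
  have hZ : 0 < Z := by
    rw [hZdef]
    exact integral_exp_pos i0
  set q : ℝ := √(1 / c ^ 2 + 1) with hq
  have hq2 : q ^ 2 = 1 / c ^ 2 + 1 := Real.sq_sqrt (by positivity)
  have hqpos : 0 < q := Real.sqrt_pos.2 (by positivity)
  set be : ℝ := q / s with hbe
  have hbepos : 0 < be := by positivity
  set A : ℝ := (1 / c ^ 2 + 1) / be with hA
  have hAq : A = q * s := by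
    rw [hA, ← hq2, hbe]; field_simp
  set b : ℝ := A - m with hb
  -- the shifted weight
  have H1 : ∀ x, HasDerivAt (fun t => w (t - b)) (w1 (x - b)) x := by
    intro x
    exact (hw1 (x - b)).comp_sub_const x b
  have H2 : ∀ x, HasDerivAt (fun t => w1 (t - b)) (w2 (x - b)) x := by
    intro x
    exact (hw2 (x - b)).comp_sub_const x b
  have hexp : ∀ k : ℕ, (fun t => t ^ k * Real.exp (-w (t - b))) =
      fun t => (fun x => ((x - m) + A) ^ k * Real.exp (-w x)) (t - b) := by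
    intro k; funext t
    have : t - b - m + A = t := by rw [hb]; ring
    simp only [this]
  have I0 : Integrable fun x => Real.exp (-w x) := i0
  have e1 : (fun x => ((x - m) + A) ^ 1 * Real.exp (-w x)) =
      fun x => (x - m) * Real.exp (-w x) + A * Real.exp (-w x) := by funext x; ring
  have e2 : (fun x => ((x - m) + A) ^ 2 * Real.exp (-w x)) =
      fun x => (x - m) ^ 2 * Real.exp (-w x) + 2 * A * ((x - m) * Real.exp (-w x))
        + A ^ 2 * Real.exp (-w x) := by funext x; ring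
  have e3 : (fun x => ((x - m) + A) ^ 3 * Real.exp (-w x)) =
      fun x => (x - m) ^ 3 * Real.exp (-w x) + 3 * A * ((x - m) ^ 2 * Real.exp (-w x))
        + 3 * A ^ 2 * ((x - m) * Real.exp (-w x)) + A ^ 3 * Real.exp (-w x) := by
    funext x; ring
  have a01 : Integrable (fun x => A * Real.exp (-w x)) := i0.const_mul _
  have a02 : Integrable (fun x => A ^ 2 * Real.exp (-w x)) := i0.const_mul _
  have a03 : Integrable (fun x => A ^ 3 * Real.exp (-w x)) := i0.const_mul _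
  have a12 : Integrable (fun x => 2 * A * ((x - m) * Real.exp (-w x))) := i1.const_mul _
  have a13 : Integrable (fun x => 3 * A ^ 2 * ((x - m) * Real.exp (-w x))) := i1.const_mul _
  have a23 : Integrable (fun x => 3 * A * ((x - m) ^ 2 * Real.exp (-w x))) := i2.const_mul _
  have b2 : Integrable (fun x => (x - m) ^ 2 * Real.exp (-w x)
      + 2 * A * ((x - m) * Real.exp (-w x))) := i2.add a12
  have b3 : Integrable (fun x => (x - m) ^ 3 * Real.exp (-w x)
      + 3 * A * ((x - m) ^ 2 * Real.exp (-w x))) := i3.add a23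
  have b4 : Integrable (fun x => (x - m) ^ 3 * Real.exp (-w x)
      + 3 * A * ((x - m) ^ 2 * Real.exp (-w x))
      + 3 * A ^ 2 * ((x - m) * Real.exp (-w x))) := b3.add a13
  have M1 : ∫ x, ((x - m) + A) ^ 1 * Real.exp (-w x) = A * Z := by
    rw [e1, integral_add i1 a01, integral_const_mul, hm]; ring
  have M2 : ∫ x, ((x - m) + A) ^ 2 * Real.exp (-w x) = (s ^ 2 + A ^ 2) * Z := by
    rw [e2, integral_add b2 a02, integral_add i2 a12, integral_const_mul, integral_const_mul,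
      hm, hv]
    ring
  have M3 : ∫ x, ((x - m) + A) ^ 3 * Real.exp (-w x) =
      (∫ x, (x - m) ^ 3 * Real.exp (-w x)) + (3 * A * s ^ 2 + A ^ 3) * Z := by
    rw [e3, integral_add b4 a03, integral_add b3 a13, integral_add i3 a23,
      integral_const_mul, integral_const_mul, integral_const_mul, hm, hv]
    ring
  have N1 : Integrable (fun x => ((x - m) + A) ^ 1 * Real.exp (-w x)) := by
    rw [e1]; exact i1.add a01
  have N2 : Integrable (fun x => ((x - m) + A) ^ 2 * Real.exp (-w x)) := by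
    rw [e2]; exact b2.add a02
  have N3 : Integrable (fun x => ((x - m) + A) ^ 3 * Real.exp (-w x)) := by
    rw [e3]; exact b4.add a03
  have key := third_le (w := fun t => w (t - b)) (w1 := fun t => w1 (t - b))
    (w2 := fun t => w2 (t - b)) H1 H2 (fun x => hpos _) hc
    (fun x y hxy => by
      have := hlip (x - b) (y - b) (by linarith)
      have h7 : y - b - (x - b) = y - x := by ring
      rw [h7] at this
      exact this)
    (i0.comp_sub_right b)
    (by
      have := N1.comp_sub_right b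
      rw [← hexp 1] at this
      simpa using this)
    (by
      have := N2.comp_sub_right b
      rw [← hexp 2] at this
      exact this)
    (by
      have := N3.comp_sub_right b
      rw [← hexp 3] at this
      exact this)
    hbepos hZ
    (by
      rw [integral_sub_right_eq_self (fun x => Real.exp (-w x)) b])
    (by
      have h8 : ∫ t, t ^ 1 * Real.exp (-w (t - b)) = A * Z := by
        rw [hexp 1, integral_sub_right_eq_self
          (fun x => ((x - m) + A) ^ 1 * Real.exp (-w x)) b, M1]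
      simp only [pow_one] at h8
      exact h8)
    (by
      rw [hexp 2, integral_sub_right_eq_self
          (fun x => ((x - m) + A) ^ 2 * Real.exp (-w x)) b, M2]
      have h9 : s ^ 2 = A / be := by
        rw [hAq, hbe]; field_simp
      have h10 : A ^ 2 = A * A := by ring
      rw [h9]
      have h11 : (1 / c ^ 2 + 2) / be = A + 1 / be := by
        rw [hA]; ring
      rw [h11]
      ring)
  rw [hexp 3, integral_sub_right_eq_self
    (fun x => ((x - m) + A) ^ 3 * Real.exp (-w x)) b, M3] at key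
  have h12 : (1 / c ^ 2 + 3) / be = A + 2 / be := by rw [hA]; ring
  have h13 : (1 / c ^ 2 + 2) / be = A + 1 / be := by rw [hA]; ring
  have h14 : (1 / be) = s / q := by rw [hbe]; field_simp
  have h15 : (2 / be) = 2 * (s / q) := by rw [hbe]; field_simp
  rw [h12, h13, h14, h15, ← hA, hAq] at key
  have h16 : (q * s + 2 * (s / q)) * ((q * s + s / q) * (q * s * Z))
      = (3 * (q * s) * s ^ 2 + (q * s) ^ 3) * Z + 2 * s ^ 3 / q * Z := by
    field_simp
    ring
  have h17 : 2 * s ^ 3 / q = 2 * c / √(1 + c ^ 2) * s ^ 3 := by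
    have h18 : √(1 + c ^ 2) = c * q := by
      rw [hq, ← Real.sqrt_sq hc.le, ← Real.sqrt_mul (sq_nonneg c), Real.sqrt_sq hc.le]
      congr 1
      field_simp
    rw [h18]
    field_simp
  rw [← h17]
  linarith [h16, key]

/-- two-sided bound -/
theorem skew_abs_le {w w1 w2 : ℝ → ℝ} (hw1 : ∀ x, HasDerivAt w (w1 x) x)
    (hw2 : ∀ x, HasDerivAt w1 (w2 x) x) (hpos : ∀ x, 0 < w2 x) {c : ℝ} (hc : 0 < c)
    (hlip : ∀ x y, x < y →
      |(w2 y) ^ (-(1 / 2) : ℝ) - (w2 x) ^ (-(1 / 2) : ℝ)| ≤ c * (y - x))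
    {m s : ℝ} (hs : 0 < s)
    (i0 : Integrable fun x => Real.exp (-w x))
    (i1 : Integrable fun x => (x - m) * Real.exp (-w x))
    (i2 : Integrable fun x => (x - m) ^ 2 * Real.exp (-w x))
    (i3 : Integrable fun x => (x - m) ^ 3 * Real.exp (-w x))
    (hm : ∫ x, (x - m) * Real.exp (-w x) = 0)
    (hv : ∫ x, (x - m) ^ 2 * Real.exp (-w x) = s ^ 2 * ∫ x, Real.exp (-w x)) :
    |∫ x, (x - m) ^ 3 * Real.exp (-w x)| ≤
      2 * c / √(1 + c ^ 2) * s ^ 3 * ∫ x, Real.exp (-w x) := by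
  have U := skew_upper hw1 hw2 hpos hc
    (fun x y hxy => by have := (abs_le.1 (hlip x y hxy)).2; linarith) hs i0 i1 i2 i3 hm hv
  -- reflected weight
  have hn : ∀ x : ℝ, HasDerivAt (fun t : ℝ => -t) (-1) x := fun x => hasDerivAt_neg x
  have H1 : ∀ x, HasDerivAt (fun t => w (-t)) (-w1 (-x)) x := by
    intro x
    have h5 : HasDerivAt (fun t => w (-t)) (w1 (-x) * -1) x := (hw1 (-x)).comp x (hn x)
    have h6 : -w1 (-x) = w1 (-x) * -1 := by ring
    rw [h6]; exact h5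
  have H2 : ∀ x, HasDerivAt (fun t => -w1 (-t)) (w2 (-x)) x := by
    intro x
    have h5 : HasDerivAt (fun t => w1 (-t)) (w2 (-x) * -1) x := (hw2 (-x)).comp x (hn x)
    have h6 : w2 (-x) = -(w2 (-x) * -1) := by ring
    rw [h6]; exact h5.neg
  have R : ∀ f : ℝ → ℝ, ∫ x, f (-x) = ∫ x, f x := fun f => integral_neg_eq_self f volume
  have E1 : (fun x => (x - -m) * Real.exp (-w (-x))) =
      fun x => (fun y => -((y - m) * Real.exp (-w y))) (-x) := by
    funext x; simp only; ring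
  have E2 : (fun x => (x - -m) ^ 2 * Real.exp (-w (-x))) =
      fun x => (fun y => (y - m) ^ 2 * Real.exp (-w y)) (-x) := by
    funext x; simp only; ring
  have E3 : (fun x => (x - -m) ^ 3 * Real.exp (-w (-x))) =
      fun x => (fun y => -((y - m) ^ 3 * Real.exp (-w y))) (-x) := by
    funext x; simp only; ring
  have L := skew_upper (w := fun t => w (-t)) (w1 := fun t => -w1 (-t))
    (w2 := fun t => w2 (-t)) H1 H2 (fun x => hpos _) hc
    (fun x y hxy => by
      have := (abs_le.1 (hlip (-y) (-x) (by linarith))).1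
      have h7 : -x - -y = y - x := by ring
      rw [h7] at this
      linarith) (m := -m) hs i0.comp_neg
    (by rw [E1]; exact i1.neg.comp_neg)
    (by rw [E2]; exact i2.comp_neg)
    (by rw [E3]; exact i3.neg.comp_neg)
    (by rw [E1, R (fun y => -((y - m) * Real.exp (-w y))), integral_neg, hm, neg_zero])
    (by rw [E2, R (fun y => (y - m) ^ 2 * Real.exp (-w y)), hv,
          R (fun y => Real.exp (-w y))])
  rw [E3, R (fun y => -((y - m) ^ 3 * Real.exp (-w y))), integral_neg,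
    R (fun y => Real.exp (-w y))] at L
  rw [abs_le]
  constructor <;> linarith

/-- the weaker bound with constant `2 c` -/
theorem skew_abs_le' {w w1 w2 : ℝ → ℝ} (hw1 : ∀ x, HasDerivAt w (w1 x) x)
    (hw2 : ∀ x, HasDerivAt w1 (w2 x) x) (hpos : ∀ x, 0 < w2 x) {c : ℝ} (hc : 0 < c)
    (hlip : ∀ x y, x < y →
      |(w2 y) ^ (-(1 / 2) : ℝ) - (w2 x) ^ (-(1 / 2) : ℝ)| ≤ c * (y - x))
    {m s : ℝ} (hs : 0 < s)
    (i0 : Integrable fun x => Real.exp (-w x))
    (i1 : Integrable fun x => (x - m) * Real.exp (-w x))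
    (i2 : Integrable fun x => (x - m) ^ 2 * Real.exp (-w x))
    (i3 : Integrable fun x => (x - m) ^ 3 * Real.exp (-w x))
    (hm : ∫ x, (x - m) * Real.exp (-w x) = 0)
    (hv : ∫ x, (x - m) ^ 2 * Real.exp (-w x) = s ^ 2 * ∫ x, Real.exp (-w x)) :
    |∫ x, (x - m) ^ 3 * Real.exp (-w x)| ≤ 2 * c * s ^ 3 * ∫ x, Real.exp (-w x) := by
  refine (skew_abs_le hw1 hw2 hpos hc hlip hs i0 i1 i2 i3 hm hv).trans ?_
  have hZ : 0 ≤ ∫ x, Real.exp (-w x) := integral_nonneg fun x => (Real.exp_pos _).le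
  have h1 : 1 ≤ √(1 + c ^ 2) := by
    rw [Real.one_le_sqrt]; nlinarith [sq_nonneg c]
  have h2 : 2 * c / √(1 + c ^ 2) ≤ 2 * c := div_le_self (by linarith) h1
  have h3 : 2 * c / √(1 + c ^ 2) * s ^ 3 ≤ 2 * c * s ^ 3 :=
    mul_le_mul_of_nonneg_right h2 (by positivity)
  exact mul_le_mul_of_nonneg_right h3 hZ

/-- `|w'''| ≤ 2 c (w'')^(3/2)` implies the Lipschitz form -/
theorem lip_of_third {w2 w3 : ℝ → ℝ} (hw3 : ∀ x, HasDerivAt w2 (w3 x) x)
    (hpos : ∀ x, 0 < w2 x) {c : ℝ} (hsc : ∀ x, |w3 x| ≤ 2 * c * (w2 x) ^ (3 / 2 : ℝ)) :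
    ∀ x y, x < y →
      |(w2 y) ^ (-(1 / 2) : ℝ) - (w2 x) ^ (-(1 / 2) : ℝ)| ≤ c * (y - x) := by
  intro x y hxy
  have hd : ∀ t, HasDerivAt (fun t => (w2 t) ^ (-(1 / 2) : ℝ))
      (w3 t * (-(1 / 2)) * (w2 t) ^ ((-(1 / 2) : ℝ) - 1)) t := by
    intro t
    exact (hw3 t).rpow_const (Or.inl (hpos t).ne')
  have hbd : ∀ t, |w3 t * (-(1 / 2)) * (w2 t) ^ ((-(1 / 2) : ℝ) - 1)| ≤ c := by
    intro t
    have hp : 0 < (w2 t) ^ ((-(1 / 2) : ℝ) - 1) := Real.rpow_pos_of_pos (hpos t) _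
    have hmul : (w2 t) ^ (3 / 2 : ℝ) * (w2 t) ^ ((-(1 / 2) : ℝ) - 1) = 1 := by
      rw [← Real.rpow_add (hpos t)]
      norm_num
    have habs : |w3 t * (-(1 / 2)) * (w2 t) ^ ((-(1 / 2) : ℝ) - 1)|
        = |w3 t| * (1 / 2) * (w2 t) ^ ((-(1 / 2) : ℝ) - 1) := by
      rw [abs_mul, abs_mul, abs_of_pos hp, abs_neg, abs_of_pos (by norm_num : (0 : ℝ) < 1 / 2)]
    rw [habs]
    calc |w3 t| * (1 / 2) * (w2 t) ^ ((-(1 / 2) : ℝ) - 1)
        ≤ (2 * c * (w2 t) ^ (3 / 2 : ℝ)) * (1 / 2) * (w2 t) ^ ((-(1 / 2) : ℝ) - 1) := by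
          apply mul_le_mul_of_nonneg_right _ hp.le
          apply mul_le_mul_of_nonneg_right (hsc t) (by norm_num)
      _ = c * ((w2 t) ^ (3 / 2 : ℝ) * (w2 t) ^ ((-(1 / 2) : ℝ) - 1)) := by ring
      _ = c := by rw [hmul, mul_one]
  obtain ⟨t, ht, hteq⟩ := exists_hasDerivAt_eq_slope (fun t => (w2 t) ^ (-(1 / 2) : ℝ))
    (fun t => w3 t * (-(1 / 2)) * (w2 t) ^ ((-(1 / 2) : ℝ) - 1)) hxy
    (fun u _ => ((hd u).continuousAt).continuousWithinAt) (fun u _ => hd u)
  have hne : y - x ≠ 0 := (sub_pos.2 hxy).ne'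
  have h5 : (w2 y) ^ (-(1 / 2) : ℝ) - (w2 x) ^ (-(1 / 2) : ℝ)
      = (w3 t * (-(1 / 2)) * (w2 t) ^ ((-(1 / 2) : ℝ) - 1)) * (y - x) := by
    rw [hteq]
    field_simp
  rw [h5, abs_mul, abs_of_pos (sub_pos.2 hxy)]
  exact mul_le_mul_of_nonneg_right (hbd t) (sub_pos.2 hxy).le

end Vale.P227.SC
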