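import Mathlib

/-!
P227, block SC-1: moments of the centred Gamma density `C (x - L)^k exp (-β (x - L))` on `x > L`.
-/

open MeasureTheory Set Real

namespace Vale.Agent.P227.M.SC

/-- Gamma density with shape `α` and rate `β`, starting at `0`. -/
noncomputable def gd (α β : ℝ) (t : ℝ) : ℝ :=
  if 0 < t then β ^ α / Gamma α * (t ^ (α - 1) * exp (-(β * t))) else 0

theorem gd_pos {α β t : ℝ} (hα : 0 < α) (hβ : 0 < β) (ht : 0 < t) : 0 < gd α β t := by
  unfold gd
  rw [if_pos ht]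
  positivity

theorem gd_nonpos {α β t : ℝ} (ht : t ≤ 0) : gd α β t = 0 := by
  unfold gd
  rw [if_neg (not_lt.2 ht)]

theorem gd_mom_aux {α β : ℝ} (j : ℕ) (t : ℝ) (ht : 0 < t) :
    t ^ j * gd α β t = β ^ α / Gamma α * (t ^ (α + j - 1) * exp (-(β * t))) := by
  unfold gd
  rw [if_pos ht]
  have : t ^ (α + j - 1) = t ^ j * t ^ (α - 1) := by
    rw [← rpow_natCast, ← rpow_add ht]
    congr 1
    ring
  rw [this]
  ring

theorem gd_mom_eq {α β : ℝ} (j : ℕ) : (fun t : ℝ => t ^ j * gd α β t) =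
    (Ioi 0).indicator fun t => β ^ α / Gamma α * (t ^ (α + j - 1) * exp (-(β * t))) := by
  funext t
  by_cases ht : 0 < t
  · rw [indicator_of_mem (show t ∈ Ioi (0 : ℝ) from ht), gd_mom_aux j t ht]
  · rw [indicator_of_notMem (show t ∉ Ioi (0 : ℝ) from ht), gd_nonpos (not_lt.1 ht), mul_zero]

theorem gd_int {α β : ℝ} (hα : 0 < α) (hβ : 0 < β) (j : ℕ) :
    Integrable fun t : ℝ => t ^ j * gd α β t := by
  rw [gd_mom_eq, integrable_indicator_iff measurableSet_Ioi]
  refine Integrable.const_mul ?_ _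
  have h := integrableOn_rpow_mul_exp_neg_mul_rpow (p := 1) (s := α + j - 1) (b := β)
    (by have : (0 : ℝ) ≤ j := Nat.cast_nonneg j; linarith) one_pos hβ
  refine h.congr_fun (fun t _ => ?_) measurableSet_Ioi
  simp [rpow_one]

theorem gd_mom {α β : ℝ} (hα : 0 < α) (hβ : 0 < β) (j : ℕ) :
    ∫ t : ℝ, t ^ j * gd α β t = Gamma (α + j) / (Gamma α * β ^ j) := by
  rw [gd_mom_eq, integral_indicator measurableSet_Ioi, integral_const_mul,
    integral_rpow_mul_exp_neg_mul_Ioi (by positivity) hβ]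
  have h1 : (1 / β) ^ (α + j) = (β ^ α * β ^ j)⁻¹ := by
    rw [one_div, inv_rpow hβ.le, rpow_add hβ, rpow_natCast]
  rw [h1]
  have h2 : β ^ α ≠ 0 := (rpow_pos_of_pos hβ _).ne'
  have h3 : Gamma α ≠ 0 := (Gamma_pos_of_pos hα).ne'
  field_simp

theorem gd_m0 {α β : ℝ} (hα : 0 < α) (hβ : 0 < β) : ∫ t : ℝ, gd α β t = 1 := by
  have h := gd_mom hα hβ 0
  have h3 : Gamma α ≠ 0 := (Gamma_pos_of_pos hα).ne'
  simpa [h3] using h

theorem gd_m1 {α β : ℝ} (hα : 0 < α) (hβ : 0 < β) : ∫ t : ℝ, t * gd α β t = α / β := by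
  have h := gd_mom hα hβ 1
  have h3 : Gamma α ≠ 0 := (Gamma_pos_of_pos hα).ne'
  have h4 : Gamma (α + 1) = α * Gamma α := Gamma_add_one hα.ne'
  simp only [pow_one, Nat.cast_one] at h
  rw [h, h4]
  field_simp

theorem gd_m2 {α β : ℝ} (hα : 0 < α) (hβ : 0 < β) :
    ∫ t : ℝ, t ^ 2 * gd α β t = α * (α + 1) / β ^ 2 := by
  have h := gd_mom hα hβ 2
  have h3 : Gamma α ≠ 0 := (Gamma_pos_of_pos hα).ne'
  have h4 : Gamma (α + 1) = α * Gamma α := Gamma_add_one hα.ne'
  have h5 : Gamma (α + 1 + 1) = (α + 1) * Gamma (α + 1) := Gamma_add_one (by positivity)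
  rw [h, show α + ((2 : ℕ) : ℝ) = α + 1 + 1 by push_cast; ring, h5, h4]
  field_simp

theorem gd_m3 {α β : ℝ} (hα : 0 < α) (hβ : 0 < β) :
    ∫ t : ℝ, t ^ 3 * gd α β t = α * (α + 1) * (α + 2) / β ^ 3 := by
  have h := gd_mom hα hβ 3
  have h3 : Gamma α ≠ 0 := (Gamma_pos_of_pos hα).ne'
  have h4 : Gamma (α + 1) = α * Gamma α := Gamma_add_one hα.ne'
  have h5 : Gamma (α + 1 + 1) = (α + 1) * Gamma (α + 1) := Gamma_add_one (by positivity)
  have h6 : Gamma (α + 1 + 1 + 1) = (α + 1 + 1) * Gamma (α + 1 + 1) :=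
    Gamma_add_one (by positivity)
  rw [h, show α + ((3 : ℕ) : ℝ) = α + 1 + 1 + 1 by push_cast; ring, h6, h5, h4]
  field_simp
  ring

/-- The centred Gamma density: mean `0`, support `x > -α/β`. -/
noncomputable def gc (α β : ℝ) (x : ℝ) : ℝ := gd α β (x + α / β)

theorem gc_shift (α β : ℝ) (f : ℝ → ℝ) :
    ∫ x, f x * gc α β x = ∫ t, f (t - α / β) * gd α β t := by
  have := integral_add_right_eq_self (μ := volume) (fun t => f (t - α / β) * gd α β t) (α / β)
  rw [← this]
  refine integral_congr_ae (Filter.Eventually.of_forall fun x => ?_)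
  show f x * gc α β x = f (x + α / β - α / β) * gd α β (x + α / β)
  rw [add_sub_cancel_right]
  rfl

theorem gc_int {α β : ℝ} (hα : 0 < α) (hβ : 0 < β) {j : ℕ} (hj : j ≤ 3) :
    Integrable fun x : ℝ => x ^ j * gc α β x := by
  have h : Integrable fun t => (t - α / β) ^ j * gd α β t := by
    have I0 : Integrable (gd α β) := by simpa using gd_int hα hβ 0
    have I1 : Integrable fun t => t * gd α β t := by simpa using gd_int hα hβ 1
    have I2 := gd_int hα hβ 2
    have I3 := gd_int hα hβ 3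
    interval_cases j
    · simpa using I0
    · have e : (fun t => (t - α / β) ^ 1 * gd α β t) =
          fun t => t * gd α β t - (α / β) * gd α β t := by
        funext t; ring
      rw [e]
      exact I1.sub (I0.const_mul _)
    · have e : (fun t => (t - α / β) ^ 2 * gd α β t) = fun t => t ^ 2 * gd α β t -
          (2 * (α / β)) * (t * gd α β t) + (α / β) ^ 2 * gd α β t := by
        funext t; ring
      rw [e]
      exact (I2.sub (I1.const_mul _)).add (I0.const_mul _)
    · have e : (fun t => (t - α / β) ^ 3 * gd α β t) = fun t => t ^ 3 * gd α β t -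
          (3 * (α / β)) * (t ^ 2 * gd α β t) + (3 * (α / β) ^ 2) * (t * gd α β t) -
            (α / β) ^ 3 * gd α β t := by
        funext t; ring
      rw [e]
      exact ((I3.sub (I2.const_mul _)).add (I1.const_mul _)).sub (I0.const_mul _)
  have h2 := h.comp_add_right (α / β)
  refine h2.congr (Filter.Eventually.of_forall fun x => ?_)
  show (x + α / β - α / β) ^ j * gd α β (x + α / β) = x ^ j * gc α β x
  rw [add_sub_cancel_right]
  rfl

end Vale.Agent.P227.M.SC
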