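import Vale.Agent.P227.M.SC.Cross
import Vale.Agent.P227.M.SC.GamMom

/-!
P227, block SC-1: the third central moment of a one-dimensional self-concordant measure.
`W'' > 0` and `(W'')^{-1/2}` increases at most with slope `c` imply `E X³ ≤ 2 c (E X²)^{3/2}` for
the centred law with density `e^{-W}`.
-/

open MeasureTheory Set Real

namespace Vale.Agent.P227.M.SC

theorem gc_m0 {α β : ℝ} (hα : 0 < α) (hβ : 0 < β) : ∫ x, gc α β x = 1 := by
  have h := gc_shift α β (fun _ => 1)
  simp only [one_mul] at h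
  rw [h, gd_m0 hα hβ]

theorem gc_m1 {α β : ℝ} (hα : 0 < α) (hβ : 0 < β) : ∫ x, x * gc α β x = 0 := by
  have I0 : Integrable (gd α β) := by simpa using gd_int hα hβ 0
  have I1 : Integrable fun t => t * gd α β t := by simpa using gd_int hα hβ 1
  rw [gc_shift α β (fun x => x)]
  have e : (fun t => (t - α / β) * gd α β t) = fun t => t * gd α β t - (α / β) * gd α β t := by
    funext t; ring
  rw [e, integral_sub I1 (I0.const_mul _), integral_const_mul, gd_m0 hα hβ, gd_m1 hα hβ]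
  ring

theorem gc_m2 {α β : ℝ} (hα : 0 < α) (hβ : 0 < β) : ∫ x, x ^ 2 * gc α β x = α / β ^ 2 := by
  have I0 : Integrable (gd α β) := by simpa using gd_int hα hβ 0
  have I1 : Integrable fun t => t * gd α β t := by simpa using gd_int hα hβ 1
  have I2 := gd_int hα hβ 2
  rw [gc_shift α β (fun x => x ^ 2)]
  have e : (fun t => (t - α / β) ^ 2 * gd α β t) = fun t => t ^ 2 * gd α β t -
      (2 * (α / β)) * (t * gd α β t) + (α / β) ^ 2 * gd α β t - 0 * gd α β t := by
    funext t; ring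
  rw [e, int_comb I2 I1 I0 I0, gd_m0 hα hβ, gd_m1 hα hβ, gd_m2 hα hβ]
  field_simp
  ring

theorem gc_m3 {α β : ℝ} (hα : 0 < α) (hβ : 0 < β) : ∫ x, x ^ 3 * gc α β x = 2 * α / β ^ 3 := by
  have I0 : Integrable (gd α β) := by simpa using gd_int hα hβ 0
  have I1 : Integrable fun t => t * gd α β t := by simpa using gd_int hα hβ 1
  have I2 := gd_int hα hβ 2
  have I3 := gd_int hα hβ 3
  rw [gc_shift α β (fun x => x ^ 3)]
  have e : (fun t => (t - α / β) ^ 3 * gd α β t) = fun t => t ^ 3 * gd α β t -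
      (3 * (α / β)) * (t ^ 2 * gd α β t) + (3 * (α / β) ^ 2) * (t * gd α β t) -
        (α / β) ^ 3 * gd α β t := by
    funext t; ring
  rw [e, int_comb I3 I2 I1 I0, gd_m0 hα hβ, gd_m1 hα hβ, gd_m2 hα hβ, gd_m3 hα hβ]
  field_simp
  ring

/-- Sign pattern: `log (p / q)` has second derivative `k / (x - L)² - W''`, whose sign changes at
most once, from `+` to `-`. -/
theorem pattern {W W1 W2 : ℝ → ℝ} {c : ℝ} (hc : 0 < c)
    (h1 : ∀ x, HasDerivAt W (W1 x) x) (h2 : ∀ x, HasDerivAt W1 (W2 x) x) (hpos : ∀ x, 0 < W2 x)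
    (hsc : ∀ x y, x ≤ y → 1 / √(W2 y) ≤ 1 / √(W2 x) + c * (y - x))
    {α β : ℝ} (hα : α = 1 + 1 / c ^ 2) (hβ : 0 < β) :
    ∀ y1 y2 y3 y4, y1 < y2 → y2 < y3 → y3 < y4 → exp (-W y1) - gc α β y1 < 0 →
      0 < exp (-W y2) - gc α β y2 → exp (-W y3) - gc α β y3 < 0 →
      ¬ 0 < exp (-W y4) - gc α β y4 := by
  intro y1 y2 y3 y4 h12 h23 h34 s1 s2 s3 s4
  have hα0 : 0 < α := by rw [hα]; positivity
  set L : ℝ := -(α / β) with hL
  have hy1 : L < y1 := by
    by_contra h
    have h' : y1 + α / β ≤ 0 := by rw [hL] at h; linarith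
    have : gc α β y1 = 0 := gd_nonpos h'
    rw [this, sub_zero] at s1
    exact absurd (exp_pos (-W y1)) (not_lt.2 s1.le)
  set K : ℝ := β ^ α / Gamma α with hK
  have hK0 : 0 < K := by rw [hK]; have := Gamma_pos_of_pos hα0; positivity
  -- logarithm of the quotient
  set D : ℝ → ℝ := fun x => -W x - log K - (α - 1) * log (x - L) + β * (x - L) with hD
  have hgc : ∀ x, L < x → gc α β x = exp (log K + (α - 1) * log (x - L) - β * (x - L)) := by
    intro x hx
    have hx' : 0 < x + α / β := by rw [hL] at hx; linarith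
    have e : x - L = x + α / β := by rw [hL]; ring
    unfold gc gd
    rw [if_pos hx', ← hK, e, exp_sub, exp_add, exp_log hK0, mul_comm (α - 1) (log _),
      ← rpow_def_of_pos hx', exp_neg]
    field_simp
  have hsgn : ∀ x, L < x → (0 < exp (-W x) - gc α β x ↔ 0 < D x) := by
    intro x hx
    rw [hgc x hx, sub_pos, exp_lt_exp, hD]
    constructor <;> intro h <;> simp only at * <;> linarith
  have hsgn' : ∀ x, L < x → (exp (-W x) - gc α β x < 0 ↔ D x < 0) := by
    intro x hx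
    rw [hgc x hx, sub_neg, exp_lt_exp, hD]
    constructor <;> intro h <;> simp only at * <;> linarith
  have hy2 : L < y2 := hy1.trans h12
  have hy3 : L < y3 := hy2.trans h23
  have hy4 : L < y4 := hy3.trans h34
  rw [hsgn' y1 hy1] at s1
  rw [hsgn y2 hy2] at s2
  rw [hsgn' y3 hy3] at s3
  rw [hsgn y4 hy4] at s4
  set D1 : ℝ → ℝ := fun x => -W1 x - (α - 1) * (1 / (x - L)) + β with hD1
  have hd : ∀ x, L < x → HasDerivAt D (D1 x) x := by
    intro x hx
    have hx0 : x - L ≠ 0 := by linarith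
    have e1 : HasDerivAt (fun x => x - L) 1 x := (hasDerivAt_id x).sub_const L
    have e2 : HasDerivAt (fun x => log (x - L)) (1 / (x - L)) x := e1.log hx0
    have e3 := ((((h1 x).neg).sub_const (log K)).sub (e2.const_mul (α - 1))).add (e1.const_mul β)
    refine e3.congr_deriv ?_
    simp [hD1]
  have hd1 : ∀ x, L < x → HasDerivAt D1 (-W2 x + (α - 1) / (x - L) ^ 2) x := by
    intro x hx
    have hx0 : x - L ≠ 0 := by linarith
    have e1 : HasDerivAt (fun x => x - L) 1 x := (hasDerivAt_id x).sub_const L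
    have e2 : HasDerivAt (fun x => 1 / (x - L)) (-1 / (x - L) ^ 2) x := by
      simpa using e1.fun_inv hx0
    have e3 := (((h2 x).neg).sub (e2.const_mul (α - 1))).add_const β
    refine e3.congr_deriv ?_
    field_simp
    ring
  -- mean value theorem for `D`
  have mvt : ∀ u v, L < u → u < v → ∃ ξ ∈ Ioo u v, D1 ξ = (D v - D u) / (v - u) := by
    intro u v hu huv
    refine exists_hasDerivAt_eq_slope D D1 huv ?_ ?_
    · intro x hx
      exact (hd x (lt_of_lt_of_le hu hx.1)).continuousAt.continuousWithinAt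
    · intro x hx
      exact hd x (hu.trans hx.1)
  have mvt1 : ∀ u v, L < u → u < v → ∃ ξ ∈ Ioo u v,
      -W2 ξ + (α - 1) / (ξ - L) ^ 2 = (D1 v - D1 u) / (v - u) := by
    intro u v hu huv
    refine exists_hasDerivAt_eq_slope D1 (fun ξ => -W2 ξ + (α - 1) / (ξ - L) ^ 2) huv ?_ ?_
    · intro x hx
      exact (hd1 x (lt_of_lt_of_le hu hx.1)).continuousAt.continuousWithinAt
    · intro x hx
      exact hd1 x (hu.trans hx.1)
  obtain ⟨ξ1, ⟨a1, a2⟩, a3⟩ := mvt y1 y2 hy1 h12
  obtain ⟨ξ2, ⟨b1, b2⟩, b3⟩ := mvt y2 y3 hy2 h23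
  obtain ⟨ξ3, ⟨c1, c2⟩, c3⟩ := mvt y3 y4 hy3 h34
  have p1 : 0 < D1 ξ1 := by rw [a3]; exact div_pos (by linarith) (by linarith)
  have p2 : D1 ξ2 < 0 := by rw [b3]; exact div_neg_of_neg_of_pos (by linarith) (by linarith)
  have p3 : 0 < D1 ξ3 := by rw [c3]; exact div_pos (by linarith) (by linarith)
  obtain ⟨η1, ⟨d1, d2⟩, d3⟩ := mvt1 ξ1 ξ2 (by linarith) (by linarith)
  obtain ⟨η2, ⟨f1, f2⟩, f3⟩ := mvt1 ξ2 ξ3 (by linarith) (by linarith)
  have q1 : -W2 η1 + (α - 1) / (η1 - L) ^ 2 < 0 := by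
    rw [d3]; exact div_neg_of_neg_of_pos (by linarith) (by linarith)
  have q2 : 0 < -W2 η2 + (α - 1) / (η2 - L) ^ 2 := by
    rw [f3]; exact div_pos (by linarith) (by linarith)
  have hη1 : 0 < η1 - L := by linarith
  have hη2 : 0 < η2 - L := by linarith
  have hαc : α - 1 = 1 / c ^ 2 := by rw [hα]; ring
  -- in terms of `1 / √W''`
  have g1 : 1 / √(W2 η1) < c * (η1 - L) := by
    have h3 : (1 / (c * (η1 - L))) ^ 2 < W2 η1 := by
      have : (1 / (c * (η1 - L))) ^ 2 = (α - 1) / (η1 - L) ^ 2 := by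
        rw [hαc]; field_simp
      rw [this]
      linarith
    have h4 : 1 / (c * (η1 - L)) < √(W2 η1) := by
      rw [← sqrt_sq (show 0 ≤ 1 / (c * (η1 - L)) by positivity)]
      exact sqrt_lt_sqrt (by positivity) h3
    rw [div_lt_iff₀ (sqrt_pos.2 (hpos η1))]
    rw [div_lt_iff₀ (by positivity)] at h4
    linarith [mul_comm (√(W2 η1)) (c * (η1 - L))]
  have g2 : c * (η2 - L) < 1 / √(W2 η2) := by
    have h3 : W2 η2 < (1 / (c * (η2 - L))) ^ 2 := by
      have : (1 / (c * (η2 - L))) ^ 2 = (α - 1) / (η2 - L) ^ 2 := by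
        rw [hαc]; field_simp
      rw [this]
      linarith
    have h4 : √(W2 η2) < 1 / (c * (η2 - L)) := by
      rw [← sqrt_sq (show 0 ≤ 1 / (c * (η2 - L)) by positivity)]
      exact sqrt_lt_sqrt (hpos η2).le h3
    rw [lt_div_iff₀ (sqrt_pos.2 (hpos η2))]
    rw [lt_div_iff₀ (by positivity)] at h4
    linarith [mul_comm (√(W2 η2)) (c * (η2 - L))]
  have := hsc η1 η2 (by linarith)
  nlinarith

/-- **Third moment of a centred self-concordant law on the line.** -/
theorem third_le {W W1 W2 : ℝ → ℝ} {c : ℝ} (hc : 0 < c)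
    (h1 : ∀ x, HasDerivAt W (W1 x) x) (h2 : ∀ x, HasDerivAt W1 (W2 x) x) (hpos : ∀ x, 0 < W2 x)
    (hsc : ∀ x y, x ≤ y → 1 / √(W2 y) ≤ 1 / √(W2 x) + c * (y - x))
    (hI : ∀ j ≤ 3, Integrable fun x => x ^ j * exp (-W x))
    (m0 : ∫ x, exp (-W x) = 1) (m1 : ∫ x, x * exp (-W x) = 0) {v : ℝ}
    (m2 : ∫ x, x ^ 2 * exp (-W x) = v) :
    ∫ x, x ^ 3 * exp (-W x) ≤ 2 * c * (v * √v) := by
  have hv : 0 < v := by
    rw [← m2]
    have hnn : 0 ≤ fun x : ℝ => x ^ 2 * exp (-W x) := fun x => by positivity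
    refine lt_of_le_of_ne (integral_nonneg hnn) (fun h => ?_)
    have h3 := (integral_eq_zero_iff_of_nonneg hnn (hI 2 (by norm_num))).1 h.symm
    have h4 : volume (Iio (0 : ℝ)) = 0 := by
      refine measure_mono_null ?_ h3
      intro x (hx : x < 0)
      show x ^ 2 * exp (-W x) ≠ 0
      exact mul_ne_zero (pow_ne_zero 2 hx.ne) (exp_pos _).ne'
    rw [Real.volume_Iio] at h4
    exact absurd h4 (by simp)
  set α : ℝ := 1 + 1 / c ^ 2 with hα
  have hα0 : 0 < α := by rw [hα]; positivity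
  set β : ℝ := √(α / v) with hβ
  have hβ0 : 0 < β := sqrt_pos.2 (by positivity)
  have hβ2 : β ^ 2 = α / v := sq_sqrt (by positivity)
  have hαβ : α / β ^ 2 = v := by rw [hβ2]; field_simp
  have J : ∀ j ≤ 3, Integrable fun x => x ^ j * (exp (-W x) - gc α β x) := by
    intro j hj
    have e : (fun x => x ^ j * (exp (-W x) - gc α β x)) =
        fun x => x ^ j * exp (-W x) - x ^ j * gc α β x := by
      funext x; ring
    rw [e]
    exact (hI j hj).sub (gc_int hα0 hβ0 hj)
  have split : ∀ j ≤ 3, ∫ x, x ^ j * (exp (-W x) - gc α β x) =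
      (∫ x, x ^ j * exp (-W x)) - ∫ x, x ^ j * gc α β x := by
    intro j hj
    rw [← integral_sub (hI j hj) (gc_int hα0 hβ0 hj)]
    refine integral_congr_ae (Filter.Eventually.of_forall fun x => ?_)
    show x ^ j * (exp (-W x) - gc α β x) = x ^ j * exp (-W x) - x ^ j * gc α β x
    ring
  have hcross := cross (r := fun x => exp (-W x) - gc α β x) (L := -(α / β)) ?_ J ?_ ?_ ?_
    (pattern hc h1 h2 hpos hsc hα hβ0)
  · rw [split 3 le_rfl, gc_m3 hα0 hβ0] at hcross
    have h5 : ∫ x, x ^ 3 * exp (-W x) ≤ 2 * α / β ^ 3 := by linarith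
    refine h5.trans ?_
    have h6 : 2 * α / β ^ 3 = 2 * v / β := by
      rw [← hαβ]; field_simp
    rw [h6, div_le_iff₀ hβ0]
    -- `1 ≤ c √v β = c √α`
    have h7 : √v * β = √α := by
      rw [hβ, ← sqrt_mul hv.le]
      congr 1
      field_simp
    have h8 : 1 ≤ c * √α := by
      have : √(1 / c ^ 2) ≤ √α := sqrt_le_sqrt (by rw [hα]; linarith)
      have h9 : √(1 / c ^ 2) = 1 / c := by
        rw [show (1 : ℝ) / c ^ 2 = (1 / c) ^ 2 by ring]
        exact sqrt_sq (by positivity)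
      rw [h9, div_le_iff₀ hc] at this
      linarith [mul_comm c (√α)]
    calc 2 * v = 2 * v * 1 := by ring
      _ ≤ 2 * v * (c * √α) := by
        apply mul_le_mul_of_nonneg_left h8 (by positivity)
      _ = 2 * c * (v * √v) * β := by rw [← h7]; ring
  · intro x hx
    have : gc α β x = 0 := gd_nonpos (by linarith)
    show 0 < exp (-W x) - gc α β x
    rw [this, sub_zero]
    exact exp_pos _
  · have := split 0 (by norm_num)
    simp only [pow_zero, one_mul] at this
    rw [this, m0, gc_m0 hα0 hβ0, sub_self]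
  · have := split 1 (by norm_num)
    simp only [pow_one] at this
    rw [this, m1, gc_m1 hα0 hβ0, sub_self]
  · rw [split 2 (by norm_num), m2, gc_m2 hα0 hβ0, hαβ, sub_self]

end Vale.Agent.P227.M.SC
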