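import Vale.Agent.P227.M.SC.StepDefs

/-! # P227/M/SC: calculus of directional derivatives `dd`. -/

namespace Vale.Agent.P227.M.SC

variable {E : Type*} [NormedAddCommGroup E] [NormedSpace ℝ E]

/-- smoothness abbreviation -/
abbrev Sm (f : E → ℝ) : Prop := ContDiff ℝ (⊤ : ℕ∞) f

theorem Sm.diff {f : E → ℝ} (hf : Sm f) (x : E) : DifferentiableAt ℝ f x :=
  (hf.differentiable (by simp)) x

theorem sm_dd {f : E → ℝ} (hf : Sm f) (v : E) : Sm (dd v f) := by
  have h : ContDiff ℝ (⊤ : ℕ∞) (fderiv ℝ f) := by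
    apply ContDiff.fderiv_right hf
    exact le_of_eq rfl
  exact h.clm_apply contDiff_const

theorem dd_add_dir (f : E → ℝ) (u v x : E) : dd (u + v) f x = dd u f x + dd v f x := by
  simp [dd]

theorem dd_smul_dir (f : E → ℝ) (c : ℝ) (v x : E) : dd (c • v) f x = c * dd v f x := by
  simp [dd]

theorem dd_add_dir' (f : E → ℝ) (u v : E) : dd (u + v) f = fun x => dd u f x + dd v f x :=
  funext fun x => dd_add_dir f u v x

theorem dd_smul_dir' (f : E → ℝ) (c : ℝ) (v : E) : dd (c • v) f = fun x => c * dd v f x :=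
  funext fun x => dd_smul_dir f c v x

theorem dd_add {f g : E → ℝ} (hf : Sm f) (hg : Sm g) (v x : E) :
    dd v (fun y => f y + g y) x = dd v f x + dd v g x := by
  unfold dd
  rw [fderiv_fun_add (hf.diff x) (hg.diff x)]
  rfl

theorem dd_sub {f g : E → ℝ} (hf : Sm f) (hg : Sm g) (v x : E) :
    dd v (fun y => f y - g y) x = dd v f x - dd v g x := by
  unfold dd
  rw [fderiv_fun_sub (hf.diff x) (hg.diff x)]
  rfl

theorem dd_mul {f g : E → ℝ} (hf : Sm f) (hg : Sm g) (v x : E) :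
    dd v (fun y => f y * g y) x = f x * dd v g x + g x * dd v f x := by
  unfold dd
  rw [fderiv_fun_mul (hf.diff x) (hg.diff x)]
  simp

theorem dd_const_mul {f : E → ℝ} (hf : Sm f) (c : ℝ) (v x : E) :
    dd v (fun y => c * f y) x = c * dd v f x := by
  unfold dd
  rw [fderiv_const_mul (hf.diff x)]
  rfl

theorem dd_comm {f : E → ℝ} (hf : Sm f) (u v : E) : dd u (dd v f) = dd v (dd u f) := by
  funext x
  have h2 : DifferentiableAt ℝ (fderiv ℝ f) x := by
    have h : ContDiff ℝ (⊤ : ℕ∞) (fderiv ℝ f) := by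
      apply ContDiff.fderiv_right hf
      exact le_of_eq rfl
    exact (h.differentiable (by simp)) x
  have e1 : ∀ a b : E, dd a (dd b f) x = (fderiv ℝ (fderiv ℝ f) x a) b := by
    intro a b
    unfold dd
    rw [fderiv_clm_apply h2 (differentiableAt_const b)]
    simp
  rw [e1, e1]
  have hs : IsSymmSndFDerivAt ℝ f x := by
    apply ContDiffAt.isSymmSndFDerivAt (n := (⊤ : ℕ∞)) hf.contDiffAt
    simp only [minSmoothness_of_isRCLikeNormedField]
    show ((2 : ℕ∞) : WithTop ℕ∞) ≤ ((⊤ : ℕ∞) : WithTop ℕ∞)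
    exact WithTop.coe_le_coe.2 le_top
  exact hs.eq u v

/-- derivative of `dd`-smooth functions along a line -/
theorem hasDerivAt_line {f : E → ℝ} (hf : Sm f) (x e : E) (t : ℝ) :
    HasDerivAt (fun s : ℝ => f (x + s • e)) (dd e f (x + t • e)) t := by
  have h1 : HasDerivAt (fun s : ℝ => x + s • e) e t := by
    have := ((hasDerivAt_id t).smul_const e).const_add x
    simpa using this
  have h2 : HasFDerivAt f (fderiv ℝ f (x + t • e)) (x + t • e) := (hf.diff _).hasFDerivAt
  exact h2.comp_hasDerivAt t h1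

/-- shift -/
theorem dd_shift (f : E → ℝ) (z v : E) :
    dd v (fun x => f (x + z)) = fun x => dd v f (x + z) := by
  funext x
  unfold dd
  rw [fderiv_comp_add_right]

theorem sm_shift {f : E → ℝ} (hf : Sm f) (z : E) : Sm (fun x => f (x + z)) :=
  hf.comp (contDiff_id.add contDiff_const)

/-- finite difference bound -/
theorem diff_bound {f : E → ℝ} (hf : Sm f) {B : ℝ} {e : E} (hB : ∀ x, |dd e f x| ≤ B)
    (x : E) {δ : ℝ} (hδ : 0 ≤ δ) :
    |f (x + δ • e) - f (x + (-δ) • e)| ≤ 2 * δ * B := by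
  have hc := Convex.norm_image_sub_le_of_norm_hasDerivWithin_le (𝕜 := ℝ) (C := B)
    (f := fun s : ℝ => f (x + s • e)) (f' := fun s => dd e f (x + s • e)) (s := Set.univ)
    (x := -δ) (y := δ)
    (fun t _ => (hasDerivAt_line hf x e t).hasDerivWithinAt) (fun t _ => by
      simpa [Real.norm_eq_abs] using hB (x + t • e)) convex_univ (Set.mem_univ _) (Set.mem_univ _)
  rw [Real.norm_eq_abs, Real.norm_eq_abs] at hc
  have : |δ - -δ| = 2 * δ := by rw [abs_of_nonneg (by linarith)]; ring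
  rw [this] at hc
  linarith

/-- one-sided difference bound -/
theorem diff_bound1 {f : E → ℝ} (hf : Sm f) {B : ℝ} {e : E} (hB : ∀ x, |dd e f x| ≤ B)
    (x : E) (t : ℝ) : |f (x + t • e) - f x| ≤ |t| * B := by
  have hc := Convex.norm_image_sub_le_of_norm_hasDerivWithin_le (𝕜 := ℝ) (C := B)
    (f := fun s : ℝ => f (x + s • e)) (f' := fun s => dd e f (x + s • e)) (s := Set.univ)
    (x := 0) (y := t)
    (fun t _ => (hasDerivAt_line hf x e t).hasDerivWithinAt) (fun t _ => by
      simpa [Real.norm_eq_abs] using hB (x + t • e)) convex_univ (Set.mem_univ _) (Set.mem_univ _)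
  rw [Real.norm_eq_abs, Real.norm_eq_abs] at hc
  simp only [zero_smul, add_zero, sub_zero] at hc
  linarith [mul_comm B |t|]

/-- second order finite difference bound -/
theorem diff_bound2 {f : E → ℝ} (hf : Sm f) {B : ℝ} {e : E} (hB : ∀ x, |dd e (dd e f) x| ≤ B)
    (x : E) {δ : ℝ} (hδ : 0 ≤ δ) :
    |f (x + δ • e) - f (x + (-δ) • e) - 2 * δ * dd e f x| ≤ 2 * B * δ ^ 2 := by
  have hB0 : 0 ≤ B := (abs_nonneg _).trans (hB x)
  have hd : ∀ t ∈ Set.Icc (-δ) δ, HasDerivWithinAt (fun s : ℝ => f (x + s • e) - s * dd e f x)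
      (dd e f (x + t • e) - 1 * dd e f x) (Set.Icc (-δ) δ) t := by
    intro t _
    exact ((hasDerivAt_line hf x e t).sub ((hasDerivAt_id t).mul_const (dd e f x))).hasDerivWithinAt
  have hc := Convex.norm_image_sub_le_of_norm_hasDerivWithin_le (𝕜 := ℝ) (C := B * δ)
    (x := -δ) (y := δ) hd (fun t ht => by
      rw [Real.norm_eq_abs, one_mul]
      have h1 := diff_bound1 (sm_dd hf e) hB x t
      have h2 : |t| ≤ δ := abs_le.2 ⟨ht.1, ht.2⟩
      nlinarith) (convex_Icc _ _) ⟨le_refl _, by linarith⟩ ⟨by linarith, le_refl _⟩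
  rw [Real.norm_eq_abs, Real.norm_eq_abs] at hc
  have h3 : |δ - -δ| = 2 * δ := by rw [abs_of_nonneg (by linarith)]; ring
  rw [h3] at hc
  have h4 : f (x + δ • e) - δ * dd e f x - (f (x + (-δ) • e) - -δ * dd e f x)
      = f (x + δ • e) - f (x + (-δ) • e) - 2 * δ * dd e f x := by ring
  rw [h4] at hc
  nlinarith

end Vale.Agent.P227.M.SC
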