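import Vale.Agent.P227.M.SC.Step
import Vale.Agent.P227.M.SC.HeatOfStep
import Vale.Agent.P227.M.SC2.MargN

/-! # P227/M/SC: `StmtSC` proved (two-point step + heat limit + one-dimensional lemma). -/

namespace Vale.Agent.P227.M.SC

theorem stmtHeat_proved : StmtHeat := stmtHeat_of_step (fun _ => step)

theorem stmtSC_proved : StmtSC := Vale.Agent.P227.M.HL.stmtSC_of_heat stmtHeat_proved

end Vale.Agent.P227.M.SC
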