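import Vale.Agent.P227.M.SC.Dir

/-! # P227/M/SC: multilinear expansion in the direction `v + ρ e`. -/

namespace Vale.Agent.P227.M.SC

variable {E : Type*} [NormedAddCommGroup E] [NormedSpace ℝ E]

theorem dd_line_dir {f : E → ℝ} (v e : E) (ρ : ℝ) :
    dd (v + ρ • e) f = fun x => dd v f x + ρ * dd e f x := by
  funext x
  rw [dd_add_dir, dd_smul_dir]

theorem dd_lin {f g : E → ℝ} (hf : Sm f) (hg : Sm g) (c : ℝ) (u : E) :
    dd u (fun x => f x + c * g x) = fun x => dd u f x + c * dd u g x := by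
  funext x
  rw [dd_add hf (contDiff_const.mul hg), dd_const_mul hg]

theorem expand2 {w : E → ℝ} (hw : Sm w) (v e : E) (ρ : ℝ) :
    dd (v + ρ • e) (dd (v + ρ • e) w) = fun y => dd v (dd v w) y + 2 * ρ * dd e (dd v w) y
      + ρ ^ 2 * dd e (dd e w) y := by
  funext y
  rw [dd_line_dir v e ρ (f := w), dd_lin (sm_dd hw v) (sm_dd hw e), dd_line_dir v e ρ (f := dd v w),
    dd_line_dir v e ρ (f := dd e w), dd_comm hw v e]
  ring

theorem expand3 {w : E → ℝ} (hw : Sm w) (v e : E) (ρ : ℝ) :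
    dd (v + ρ • e) (dd (v + ρ • e) (dd (v + ρ • e) w)) = fun y => dd v (dd v (dd v w)) y
      + 3 * ρ * dd e (dd v (dd v w)) y + 3 * ρ ^ 2 * dd e (dd e (dd v w)) y
      + ρ ^ 3 * dd e (dd e (dd e w)) y := by
  rw [expand2 hw v e ρ, dd_line_dir v e ρ]
  have h1 : ∀ u : E, dd u (fun y => dd v (dd v w) y + 2 * ρ * dd e (dd v w) y
      + ρ ^ 2 * dd e (dd e w) y) = fun y => dd u (dd v (dd v w)) y + 2 * ρ * dd u (dd e (dd v w)) y
      + ρ ^ 2 * dd u (dd e (dd e w)) y := by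
    intro u
    rw [dd_lin ((sm_dd (sm_dd hw v) v).add (contDiff_const.mul (sm_dd (sm_dd hw v) e)))
      (sm_dd (sm_dd hw e) e), dd_lin (sm_dd (sm_dd hw v) v) (sm_dd (sm_dd hw v) e)]
  rw [h1, h1]
  funext y
  have e1 : dd v (dd e (dd v w)) = dd e (dd v (dd v w)) := dd_comm (sm_dd hw v) v e
  have e2 : dd v (dd e (dd e w)) = dd e (dd e (dd v w)) := by
    rw [dd_comm (sm_dd hw e) v e, dd_comm hw v e]
  rw [e1, e2]
  ring

theorem dd_smul_dir2 {w : E → ℝ} (hw : Sm w) (c : ℝ) (v : E) :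
    dd (c • v) (dd (c • v) w) = fun x => c ^ 2 * dd v (dd v w) x := by
  funext x
  rw [dd_smul_dir' w c v, dd_const_mul (sm_dd hw v), dd_smul_dir]
  ring

theorem dd_smul_dir3 {w : E → ℝ} (hw : Sm w) (c : ℝ) (v : E) :
    dd (c • v) (dd (c • v) (dd (c • v) w)) = fun x => c ^ 3 * dd v (dd v (dd v w)) x := by
  funext x
  rw [dd_smul_dir2 hw c v, dd_const_mul (sm_dd (sm_dd hw v) v), dd_smul_dir]
  ring

end Vale.Agent.P227.M.SC
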