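import Mathlib
import Vale.Agent.P227.M.Defs

/-! # P227/M/SC: general lemma on families of functions closed under partial derivatives -/

open MeasureTheory
open scoped Topology

namespace Vale.Agent.P227.M.SC.Fam

open Vale.Agent.P227.M

variable {n : ℕ} {I : Type*}

/-- a set of families of functions, closed under partial derivatives -/
structure FamCl (S : Set (I → E n → ℝ)) : Prop where
  diff : ∀ f ∈ S, ∀ i, Differentiable ℝ (f i)
  pdc : ∀ f ∈ S, ∀ j, (fun i => pd j (f i)) ∈ S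

theorem fderiv_eq_sum {f : E n → ℝ} (x : E n) :
    fderiv ℝ f x = ∑ j, (pd j f x) • (EuclideanSpace.proj j : E n →L[ℝ] ℝ) := by
  ext v
  have hv : v = ∑ j, v j • (ei j : E n) := by
    ext k
    simp [ei, Finset.sum_apply, Pi.single_apply]
  conv_lhs => rw [hv]
  simp [map_sum, pd, mul_comm]

theorem FamCl.contDiff_nat {S : Set (I → E n → ℝ)} (hS : FamCl S) (k : ℕ) :
    ∀ f ∈ S, ∀ i, ContDiff ℝ k (f i) := by
  induction k with
  | zero =>
    intro f hf i
    exact contDiff_zero.2 (hS.diff f hf i).continuous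
  | succ k ih =>
    intro f hf i
    rw [show ((k + 1 : ℕ) : WithTop ℕ∞) = (k : WithTop ℕ∞) + 1 by push_cast; rfl]
    rw [contDiff_succ_iff_fderiv]
    refine ⟨hS.diff f hf i, fun h => by simp at h, ?_⟩
    have : fderiv ℝ (f i) = fun x => ∑ j, (pd j (f i) x) • (EuclideanSpace.proj j : E n →L[ℝ] ℝ) := by
      funext x
      exact fderiv_eq_sum x
    rw [this]
    refine ContDiff.sum fun j _ => ?_
    exact (ih _ (hS.pdc f hf j) i).smul contDiff_const

theorem FamCl.contDiff {S : Set (I → E n → ℝ)} (hS : FamCl S) :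
    ∀ f ∈ S, ∀ i, ContDiff ℝ (⊤ : ℕ∞) (f i) := by
  intro f hf i
  rw [contDiff_infty]
  exact fun k => hS.contDiff_nat k f hf i

theorem FamCl.bound {S : Set (I → E n → ℝ)} (hS : FamCl S)
    (hb : ∀ f ∈ S, ∃ B : ℝ, ∀ i, |f i 0| ≤ B) (k : ℕ) :
    ∀ f ∈ S, ∃ B : ℝ, ∀ i, ‖iteratedFDeriv ℝ k (f i) 0‖ ≤ B := by
  induction k with
  | zero =>
    intro f hf
    obtain ⟨B, hB⟩ := hb f hf
    refine ⟨B, fun i => ?_⟩
    rw [norm_iteratedFDeriv_zero]
    exact hB i
  | succ k ih =>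
    intro f hf
    choose B hB using fun j => ih _ (hS.pdc f hf j)
    refine ⟨∑ j, B j * ‖(EuclideanSpace.proj j : E n →L[ℝ] ℝ)‖, fun i => ?_⟩
    rw [← norm_iteratedFDeriv_fderiv]
    have : fderiv ℝ (f i) = fun x => ∑ j, (pd j (f i) x) • (EuclideanSpace.proj j : E n →L[ℝ] ℝ) := by
      funext x
      exact fderiv_eq_sum x
    rw [this]
    have hcd : ∀ j ∈ (Finset.univ : Finset (Fin n)), ContDiff ℝ k
        (fun x => (pd j (f i) x) • (EuclideanSpace.proj j : E n →L[ℝ] ℝ)) := fun j _ =>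
      (hS.contDiff_nat k _ (hS.pdc f hf j) i).smul contDiff_const
    rw [iteratedFDeriv_sum hcd]
    rw [Finset.sum_apply]
    refine (norm_sum_le _ _).trans (Finset.sum_le_sum fun j _ => ?_)
    have h1 : (fun x => (pd j (f i) x) • (EuclideanSpace.proj j : E n →L[ℝ] ℝ))
        = (ContinuousLinearMap.smulRight (ContinuousLinearMap.id ℝ ℝ)
            (EuclideanSpace.proj j : E n →L[ℝ] ℝ)) ∘ (pd j (f i)) := by
      funext x; simp
    rw [h1]
    refine (ContinuousLinearMap.norm_iteratedFDeriv_comp_left _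
      (hS.contDiff_nat k _ (hS.pdc f hf j) i).contDiffAt le_rfl).trans ?_
    rw [ContinuousLinearMap.norm_smulRight_apply, mul_comm]
    have h2 : ‖ContinuousLinearMap.id ℝ ℝ‖ ≤ 1 := ContinuousLinearMap.norm_id_le
    have h3 := hB j i
    have h4 : 0 ≤ ‖(EuclideanSpace.proj j : E n →L[ℝ] ℝ)‖ := norm_nonneg _
    have h5 : 0 ≤ ‖iteratedFDeriv ℝ k (pd j (f i)) 0‖ := norm_nonneg _
    calc ‖iteratedFDeriv ℝ k (pd j (f i)) 0‖ * (‖ContinuousLinearMap.id ℝ ℝ‖ * ‖(EuclideanSpace.proj j : E n →L[ℝ] ℝ)‖)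
        ≤ ‖iteratedFDeriv ℝ k (pd j (f i)) 0‖ * (1 * ‖(EuclideanSpace.proj j : E n →L[ℝ] ℝ)‖) := by gcongr
      _ ≤ _ := by rw [one_mul]; gcongr

end Vale.Agent.P227.M.SC.Fam
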