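import Mathlib
import Vale.Agent.P227.M.SC.FamGL

/-! # P227/M/SC: parametric integrals `h ↦ ∫ p(h,ζ) e^{-g(h,ζ)} dν(ζ)` for families of functions
with (uniform) polynomial bounds -/

open MeasureTheory
open scoped Topology

namespace Vale.Agent.P227.M.SC.Fam

open Vale.Agent.P227.M

variable {n : ℕ} {I : Type*} {G : Type*} [NormedAddCommGroup G] [NormedSpace ℝ G]

/-- family of smooth functions, all derivatives polynomially bounded, uniformly in the family -/
structure PF (p : I → E n × G → ℝ) : Prop where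
  smooth : ∀ i, ContDiff ℝ (⊤ : ℕ∞) (p i)
  growth : ∀ k : ℕ, ∃ K : ℝ, ∃ N : ℕ, ∀ i q, ‖iteratedFDeriv ℝ k (p i) q‖ ≤ K * (1 + ‖q‖) ^ N

theorem one_le_one_add_norm {F : Type*} [NormedAddCommGroup F] (q : F) : (1 : ℝ) ≤ 1 + ‖q‖ := by
  linarith [norm_nonneg q]

theorem PF.growth' {p : I → E n × G → ℝ} (hp : PF p) (k : ℕ) :
    ∃ K : ℝ, 0 ≤ K ∧ ∃ N : ℕ, ∀ i q, ‖iteratedFDeriv ℝ k (p i) q‖ ≤ K * (1 + ‖q‖) ^ N := by
  obtain ⟨K, N, h⟩ := hp.growth k
  refine ⟨|K|, abs_nonneg K, N, fun i q => (h i q).trans ?_⟩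
  have : 0 ≤ (1 + ‖q‖) ^ N := pow_nonneg (by linarith [one_le_one_add_norm q]) _
  exact mul_le_mul_of_nonneg_right (le_abs_self K) this

theorem PF.const (c : ℝ) : PF (fun (_ : I) (_ : E n × G) => c) where
  smooth := fun _ => contDiff_const
  growth := by
    intro k
    refine ⟨|c|, 0, fun i q => ?_⟩
    rcases Nat.eq_zero_or_pos k with rfl | hk
    · simp
    · rw [iteratedFDeriv_const_of_ne (by omega)]
      simp

theorem PF.add {p r : I → E n × G → ℝ} (hp : PF p) (hr : PF r) : PF (fun i q => p i q + r i q) where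
  smooth := fun i => (hp.smooth i).add (hr.smooth i)
  growth := by
    intro k
    obtain ⟨K, hK, N, h⟩ := hp.growth' k
    obtain ⟨K', hK', N', h'⟩ := hr.growth' k
    refine ⟨K + K', N + N', fun i q => ?_⟩
    have e : (fun q => p i q + r i q) = p i + r i := rfl
    rw [e, iteratedFDeriv_add_apply ((hp.smooth i).contDiffAt.of_le (by exact_mod_cast le_top))
      ((hr.smooth i).contDiffAt.of_le (by exact_mod_cast le_top))]
    have h1 := one_le_one_add_norm q
    calc _ ≤ ‖iteratedFDeriv ℝ k (p i) q‖ + ‖iteratedFDeriv ℝ k (r i) q‖ := norm_add_le _ _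
      _ ≤ K * (1 + ‖q‖) ^ N + K' * (1 + ‖q‖) ^ N' := add_le_add (h i q) (h' i q)
      _ ≤ K * (1 + ‖q‖) ^ (N + N') + K' * (1 + ‖q‖) ^ (N + N') := by
          gcongr <;> first | exact h1 | omega
      _ = _ := by ring

theorem PF.smul {p : I → E n × G → ℝ} (hp : PF p) (c : ℝ) : PF (fun i q => c * p i q) where
  smooth := fun i => contDiff_const.mul (hp.smooth i)
  growth := by
    intro k
    obtain ⟨K, hK, N, h⟩ := hp.growth' k
    refine ⟨|c| * K, N, fun i q => ?_⟩
    have e : (fun q => c * p i q) = c • p i := rfl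
    rw [e, iteratedFDeriv_const_smul_apply ((hp.smooth i).contDiffAt.of_le (by exact_mod_cast le_top)),
      norm_smul, Real.norm_eq_abs, mul_assoc]
    exact mul_le_mul_of_nonneg_left (h i q) (abs_nonneg c)

theorem PF.neg {p : I → E n × G → ℝ} (hp : PF p) : PF (fun i q => - p i q) := by
  simpa using hp.smul (-1)

theorem PF.sub {p r : I → E n × G → ℝ} (hp : PF p) (hr : PF r) : PF (fun i q => p i q - r i q) := by
  simpa [sub_eq_add_neg] using hp.add hr.neg

theorem PF.mul {p r : I → E n × G → ℝ} (hp : PF p) (hr : PF r) : PF (fun i q => p i q * r i q) where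
  smooth := fun i => (hp.smooth i).mul (hr.smooth i)
  growth := by
    intro k
    choose K hK N h using fun k => hp.growth' k
    choose K' hK' N' h' using fun k => hr.growth' k
    refine ⟨∑ j ∈ Finset.range (k + 1), (k.choose j : ℝ) * K j * K' (k - j),
      ∑ j ∈ Finset.range (k + 1), (N j + N' (k - j)), fun i q => ?_⟩
    have h1 := one_le_one_add_norm q
    refine (norm_iteratedFDeriv_mul_le (hp.smooth i) (hr.smooth i) q
      (n := k) (by exact_mod_cast le_top)).trans ?_
    rw [Finset.sum_mul]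
    refine Finset.sum_le_sum fun j hj => ?_
    have hle : N j + N' (k - j) ≤ ∑ j ∈ Finset.range (k + 1), (N j + N' (k - j)) :=
      Finset.single_le_sum (f := fun j => N j + N' (k - j)) (fun _ _ => Nat.zero_le _) hj
    calc (k.choose j : ℝ) * ‖iteratedFDeriv ℝ j (p i) q‖ * ‖iteratedFDeriv ℝ (k - j) (r i) q‖
        ≤ (k.choose j : ℝ) * (K j * (1 + ‖q‖) ^ N j) * (K' (k - j) * (1 + ‖q‖) ^ N' (k - j)) := by
          have := h j i q
          have := h' (k - j) i q
          have := hK j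
          gcongr
      _ = (k.choose j : ℝ) * K j * K' (k - j) * (1 + ‖q‖) ^ (N j + N' (k - j)) := by
          rw [pow_add]; ring
      _ ≤ _ := by
          have h2 : (0:ℝ) ≤ (k.choose j : ℝ) * K j * K' (k - j) :=
            mul_nonneg (mul_nonneg (Nat.cast_nonneg _) (hK j)) (hK' _)
          exact mul_le_mul_of_nonneg_left (pow_le_pow_right₀ h1 hle) h2

/-- partial derivative in the first variable -/
noncomputable def pdx (j : Fin n) (p : I → E n × G → ℝ) : I → E n × G → ℝ :=
  fun i q => fderiv ℝ (p i) q (ei j, 0)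

theorem PF.pdx {p : I → E n × G → ℝ} (hp : PF p) (j : Fin n) : PF (pdx j p) where
  smooth := fun i => ((hp.smooth i).fderiv_right (m := (⊤ : ℕ∞)) (by simp)).clm_apply contDiff_const
  growth := by
    intro k
    obtain ⟨K, hK, N, h⟩ := hp.growth' (k + 1)
    refine ⟨‖ContinuousLinearMap.apply ℝ ℝ ((ei j, 0) : E n × G)‖ * K, N, fun i q => ?_⟩
    have e : Fam.pdx j p i
        = (ContinuousLinearMap.apply ℝ ℝ ((ei j, 0) : E n × G)) ∘ (fderiv ℝ (p i)) := by
      funext q; simp [Fam.pdx]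
    rw [e]
    have hs : ContDiff ℝ (⊤ : ℕ∞) (fderiv ℝ (p i)) := (hp.smooth i).fderiv_right (by simp)
    refine (ContinuousLinearMap.norm_iteratedFDeriv_comp_left _
      (n := k) hs.contDiffAt (by exact_mod_cast le_top)).trans ?_
    rw [norm_iteratedFDeriv_fderiv, mul_assoc]
    exact mul_le_mul_of_nonneg_left (h i q) (norm_nonneg _)

end Vale.Agent.P227.M.SC.Fam
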