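import Mathlib
import Vale.Agent.P227.M.SC.FamInt

/-! # P227/M/SC: parametric integrals, differentiation and bounds -/

open MeasureTheory
open scoped Topology

namespace Vale.Agent.P227.M.SC.Fam

set_option linter.unusedSectionVars false
set_option linter.style.haveILetI false

open Vale.Agent.P227.M

variable {n : ℕ} {I : Type*} {G : Type*} [NormedAddCommGroup G] [NormedSpace ℝ G]
  [MeasurableSpace G] [BorelSpace G] [SecondCountableTopology G]

/-- hypotheses on the exponent -/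
structure GH (g : I → E n × G → ℝ) (ν : Measure G) : Prop where
  pf : PF g
  low : ∃ c : ℝ, 0 < c ∧ ∃ K : ℝ, 0 ≤ K ∧ ∀ i h ζ, c * ‖ζ‖ ^ 2 - K * (1 + ‖h‖) ^ 2 ≤ g i (h, ζ)
  int : ∀ c : ℝ, 0 < c → ∀ N : ℕ, Integrable (fun ζ : G => (1 + ‖ζ‖) ^ N * Real.exp (-(c * ‖ζ‖ ^ 2))) ν
  ne : ν ≠ 0

/-- unnormalised moment -/
noncomputable def Mo (ν : Measure G) (g p : I → E n × G → ℝ) : I → E n → ℝ :=
  fun i h => ∫ ζ, p i (h, ζ) * Real.exp (-(g i (h, ζ))) ∂ν

/-- normalised moment -/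
noncomputable def Ep (ν : Measure G) (g p : I → E n × G → ℝ) : I → E n → ℝ :=
  fun i h => Mo ν g p i h / Mo ν g (fun _ _ => 1) i h

variable {ν : Measure G} {g : I → E n × G → ℝ}

/-- domination -/
theorem dom (hg : GH g ν) {p : I → E n × G → ℝ}
    (hp : ∃ K : ℝ, 0 ≤ K ∧ ∃ N : ℕ, ∀ i q, |p i q| ≤ K * (1 + ‖q‖) ^ N) (R : ℝ) (hR : 0 ≤ R) :
    ∃ b : G → ℝ, Integrable b ν ∧ ∀ i h ζ, ‖h‖ ≤ R → |p i (h, ζ)| * Real.exp (-(g i (h, ζ))) ≤ b ζ := by
  obtain ⟨K, hK, N, h⟩ := hp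
  obtain ⟨c, hc, K', hK', hl⟩ := hg.low
  refine ⟨fun ζ => (K * (1 + R) ^ N * Real.exp (K' * (1 + R) ^ 2)) *
    ((1 + ‖ζ‖) ^ N * Real.exp (-(c * ‖ζ‖ ^ 2))), (hg.int c hc N).const_mul _, ?_⟩
  intro i x ζ hx
  have h1 : |p i (x, ζ)| ≤ K * ((1 + R) * (1 + ‖ζ‖)) ^ N := by
    refine (h i (x, ζ)).trans ?_
    have h2 : 1 + ‖(x, ζ)‖ ≤ (1 + R) * (1 + ‖ζ‖) := by
      rw [Prod.norm_mk]
      rcases le_total ‖x‖ ‖ζ‖ with h3 | h3
      · rw [max_eq_right h3]; nlinarith [norm_nonneg ζ]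
      · rw [max_eq_left h3]; nlinarith [norm_nonneg ζ, norm_nonneg x]
    have h3 : 0 ≤ 1 + ‖(x, ζ)‖ := by linarith [norm_nonneg (x, ζ)]
    gcongr
  have h2 : Real.exp (-(g i (x, ζ))) ≤ Real.exp (K' * (1 + R) ^ 2) * Real.exp (-(c * ‖ζ‖ ^ 2)) := by
    rw [← Real.exp_add]
    apply Real.exp_le_exp.2
    have h3 := hl i x ζ
    have h4 : K' * (1 + ‖x‖) ^ 2 ≤ K' * (1 + R) ^ 2 := by
      have := norm_nonneg x
      gcongr
    linarith
  calc |p i (x, ζ)| * Real.exp (-(g i (x, ζ)))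
      ≤ (K * ((1 + R) * (1 + ‖ζ‖)) ^ N) * (Real.exp (K' * (1 + R) ^ 2) * Real.exp (-(c * ‖ζ‖ ^ 2))) := by
        gcongr
    _ = _ := by rw [mul_pow]; ring

theorem PF.abs_bound {p : I → E n × G → ℝ} (hp : PF p) :
    ∃ K : ℝ, 0 ≤ K ∧ ∃ N : ℕ, ∀ i q, |p i q| ≤ K * (1 + ‖q‖) ^ N := by
  obtain ⟨K, hK, N, h⟩ := hp.growth' 0
  refine ⟨K, hK, N, fun i q => ?_⟩
  have := h i q
  rwa [norm_iteratedFDeriv_zero] at this

theorem PF.fderiv_bound {p : I → E n × G → ℝ} (hp : PF p) :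
    ∃ K : ℝ, 0 ≤ K ∧ ∃ N : ℕ, ∀ i q, ‖fderiv ℝ (p i) q‖ ≤ K * (1 + ‖q‖) ^ N := by
  obtain ⟨K, hK, N, h⟩ := hp.growth' 1
  refine ⟨K, hK, N, fun i q => ?_⟩
  have := h i q
  rwa [← norm_iteratedFDeriv_fderiv, norm_iteratedFDeriv_zero] at this

theorem PF.differentiable {p : I → E n × G → ℝ} (hp : PF p) (i : I) : Differentiable ℝ (p i) :=
  (hp.smooth i).differentiable (by simp)

theorem PF.continuous {p : I → E n × G → ℝ} (hp : PF p) (i : I) : Continuous (p i) :=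
  (hp.smooth i).continuous

theorem integrable_Mo (hg : GH g ν) {p : I → E n × G → ℝ} (hp : PF p) (i : I) (h : E n) :
    Integrable (fun ζ => p i (h, ζ) * Real.exp (-(g i (h, ζ)))) ν := by
  obtain ⟨b, hb, hbd⟩ := dom hg hp.abs_bound ‖h‖ (norm_nonneg h)
  refine hb.mono' ?_ (ae_of_all _ fun ζ => ?_)
  · have h1 : Continuous fun ζ : G => p i (h, ζ) * Real.exp (-(g i (h, ζ))) :=
      ((hp.continuous i).comp (by fun_prop)).mul
        (Real.continuous_exp.comp ((hg.pf.continuous i).comp (by fun_prop : Continuous fun ζ : G => (h, ζ))).neg)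
    exact h1.aestronglyMeasurable
  · rw [Real.norm_eq_abs, abs_mul, abs_of_pos (Real.exp_pos _)]
    exact hbd i h ζ le_rfl

/-- the integrand -/
noncomputable def Pq (g p : I → E n × G → ℝ) (i : I) (q : E n × G) : ℝ := p i q * Real.exp (-(g i q))

theorem hasFDerivAt_Pq (hg : GH g ν) {p : I → E n × G → ℝ} (hp : PF p) (i : I) (q : E n × G) :
    HasFDerivAt (Pq g p i) (Real.exp (-(g i q)) • (fderiv ℝ (p i) q - p i q • fderiv ℝ (g i) q)) q := by
  have h1 := ((hp.differentiable i) q).hasFDerivAt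
  have h2 := (((hg.pf.differentiable i) q).hasFDerivAt).neg.exp
  have h3 := h1.mul h2
  refine h3.congr_fderiv ?_
  refine ContinuousLinearMap.ext fun v => ?_
  simp only [Pi.neg_apply, _root_.add_apply, _root_.smul_apply,
    _root_.sub_apply, _root_.neg_apply, smul_eq_mul]
  ring

theorem hasFDerivAt_Mo (hg : GH g ν) {p : I → E n × G → ℝ} (hp : PF p) (i : I) (h₀ : E n) :
    HasFDerivAt (Mo ν g p i) (∫ ζ, ((Real.exp (-(g i (h₀, ζ))) •
      (fderiv ℝ (p i) (h₀, ζ) - p i (h₀, ζ) • fderiv ℝ (g i) (h₀, ζ))).comp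
        (ContinuousLinearMap.inl ℝ (E n) G)) ∂ν) h₀ ∧
    Integrable (fun ζ => ((Real.exp (-(g i (h₀, ζ))) •
      (fderiv ℝ (p i) (h₀, ζ) - p i (h₀, ζ) • fderiv ℝ (g i) (h₀, ζ))).comp
        (ContinuousLinearMap.inl ℝ (E n) G))) ν := by
  set F' : E n → G → (E n →L[ℝ] ℝ) := fun h ζ => ((Real.exp (-(g i (h, ζ))) •
      (fderiv ℝ (p i) (h, ζ) - p i (h, ζ) • fderiv ℝ (g i) (h, ζ))).comp
        (ContinuousLinearMap.inl ℝ (E n) G)) with hF'
  obtain ⟨K1, hK1, N1, hb1⟩ := hp.fderiv_bound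
  obtain ⟨K2, hK2, N2, hb2⟩ := hp.abs_bound
  obtain ⟨K3, hK3, N3, hb3⟩ := hg.pf.fderiv_bound
  -- bounding function
  have hbd : ∃ K : ℝ, 0 ≤ K ∧ ∃ N : ℕ, ∀ (j : I) (q : E n × G),
      |‖fderiv ℝ (p j) q‖ + |p j q| * ‖fderiv ℝ (g j) q‖| ≤ K * (1 + ‖q‖) ^ N := by
    refine ⟨K1 + K2 * K3, by positivity, N1 + (N2 + N3), fun j q => ?_⟩
    have h1 := one_le_one_add_norm q
    rw [abs_of_nonneg (by positivity)]
    calc ‖fderiv ℝ (p j) q‖ + |p j q| * ‖fderiv ℝ (g j) q‖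
        ≤ K1 * (1 + ‖q‖) ^ N1 + (K2 * (1 + ‖q‖) ^ N2) * (K3 * (1 + ‖q‖) ^ N3) := by
          have := hb1 j q
          have := hb2 j q
          have := hb3 j q
          gcongr
      _ = K1 * (1 + ‖q‖) ^ N1 + (K2 * K3) * (1 + ‖q‖) ^ (N2 + N3) := by rw [pow_add]; ring
      _ ≤ K1 * (1 + ‖q‖) ^ (N1 + (N2 + N3)) + (K2 * K3) * (1 + ‖q‖) ^ (N1 + (N2 + N3)) :=
          add_le_add (mul_le_mul_of_nonneg_left (pow_le_pow_right₀ h1 (by omega)) hK1)
            (mul_le_mul_of_nonneg_left (pow_le_pow_right₀ h1 (by omega)) (mul_nonneg hK2 hK3))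
      _ = _ := by ring
  obtain ⟨b, hbi, hb⟩ := dom (p := fun j q => ‖fderiv ℝ (p j) q‖ + |p j q| * ‖fderiv ℝ (g j) q‖) hg hbd
    (‖h₀‖ + 1) (by positivity)
  have hF'c : ∀ h, Continuous (F' h) := by
    intro h
    have hc : Continuous fun ζ : G => (h, ζ) := by fun_prop
    have e1 : Continuous fun ζ : G => fderiv ℝ (p i) (h, ζ) :=
      ((hp.smooth i).continuous_fderiv (by simp)).comp hc
    have e2 : Continuous fun ζ : G => fderiv ℝ (g i) (h, ζ) :=
      ((hg.pf.smooth i).continuous_fderiv (by simp)).comp hc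
    have e3 : Continuous fun ζ : G => p i (h, ζ) := (hp.continuous i).comp hc
    have e4 : Continuous fun ζ : G => g i (h, ζ) := (hg.pf.continuous i).comp hc
    have e5 : Continuous fun ζ : G => Real.exp (-(g i (h, ζ))) := Real.continuous_exp.comp e4.neg
    have e6 : Continuous fun ζ : G => (Real.exp (-(g i (h, ζ))) •
      (fderiv ℝ (p i) (h, ζ) - p i (h, ζ) • fderiv ℝ (g i) (h, ζ))) := e5.smul (e1.sub (e3.smul e2))
    exact e6.clm_comp continuous_const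
  have hbound : ∀ h ζ, ‖h‖ ≤ ‖h₀‖ + 1 → ‖F' h ζ‖ ≤ b ζ := by
    intro h ζ hh
    refine le_trans ?_ (hb i h ζ hh)
    rw [hF']
    refine (ContinuousLinearMap.opNorm_comp_le _ _).trans ?_
    have hinl : ‖ContinuousLinearMap.inl ℝ (E n) G‖ ≤ 1 := by
      refine ContinuousLinearMap.opNorm_le_bound _ zero_le_one fun v => ?_
      simp
    have h1 : ‖Real.exp (-(g i (h, ζ))) • (fderiv ℝ (p i) (h, ζ) - p i (h, ζ) • fderiv ℝ (g i) (h, ζ))‖
        ≤ (‖fderiv ℝ (p i) (h, ζ)‖ + |p i (h, ζ)| * ‖fderiv ℝ (g i) (h, ζ)‖) * Real.exp (-(g i (h, ζ))) := by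
      rw [norm_smul, Real.norm_eq_abs, abs_of_pos (Real.exp_pos _), mul_comm]
      gcongr
      refine (norm_sub_le _ _).trans ?_
      rw [norm_smul, Real.norm_eq_abs]
    rw [abs_of_nonneg (by positivity)]
    exact (mul_le_of_le_one_right (norm_nonneg _) hinl).trans h1
  have key := hasFDerivAt_integral_of_dominated_of_fderiv_le (μ := ν) (𝕜 := ℝ)
    (F := fun h ζ => Pq g p i (h, ζ)) (F' := F') (x₀ := h₀) (bound := b) (s := Metric.ball h₀ 1)
    (Metric.ball_mem_nhds h₀ one_pos)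
    (Filter.Eventually.of_forall fun h => (integrable_Mo hg hp i h).aestronglyMeasurable)
    (integrable_Mo hg hp i h₀) (hF'c h₀).aestronglyMeasurable
    (ae_of_all _ fun ζ h hh => hbound h ζ (by
      have : ‖h - h₀‖ < 1 := by simpa [dist_eq_norm] using hh
      have := norm_le_norm_add_norm_sub' h h₀
      linarith))
    hbi
    (ae_of_all _ fun ζ h _ => by
      have h1 := hasFDerivAt_Pq hg hp i (h, ζ)
      have h2 : HasFDerivAt (fun h : E n => (h, ζ)) (ContinuousLinearMap.inl ℝ (E n) G) h :=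
        (hasFDerivAt_prodMk_left h ζ)
      exact h1.comp h h2)
  refine ⟨key, ?_⟩
  refine hbi.mono' (hF'c h₀).aestronglyMeasurable (ae_of_all _ fun ζ => hbound h₀ ζ (by linarith))

theorem Mo_diff (hg : GH g ν) {p : I → E n × G → ℝ} (hp : PF p) (i : I) :
    Differentiable ℝ (Mo ν g p i) := fun h => (hasFDerivAt_Mo hg hp i h).1.differentiableAt

theorem pd_Mo (hg : GH g ν) {p : I → E n × G → ℝ} (hp : PF p) (i : I) (j : Fin n) (h : E n) :
    pd j (Mo ν g p i) h = Mo ν g (fun i q => pdx j p i q - p i q * pdx j g i q) i h := by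
  obtain ⟨h1, h2⟩ := hasFDerivAt_Mo hg hp i h
  rw [pd, h1.fderiv, ContinuousLinearMap.integral_apply h2]
  unfold Mo
  refine integral_congr_ae (ae_of_all _ fun ζ => ?_)
  simp [pdx]
  ring

theorem Mo_one_pos (hg : GH g ν) (i : I) (h : E n) : 0 < Mo ν g (fun _ _ => 1) i h := by
  unfold Mo
  simp only [one_mul]
  haveI : NeZero ν := ⟨hg.ne⟩
  have := integrable_Mo hg (PF.const (I := I) (n := n) (G := G) 1) i h
  simp only [one_mul] at this
  exact integral_exp_pos this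

/-- closure of the normalised moments -/
theorem pd_Ep (hg : GH g ν) {p : I → E n × G → ℝ} (hp : PF p) (i : I) (j : Fin n) (h : E n) :
    pd j (Ep ν g p i) h = Ep ν g (fun i q => pdx j p i q - p i q * pdx j g i q) i h
      + Ep ν g p i h * Ep ν g (pdx j g) i h := by
  have hZ := Mo_one_pos hg i h
  have hd1 := (Mo_diff hg hp i h).hasFDerivAt
  have hd2 := (Mo_diff hg (PF.const (I := I) (n := n) (G := G) 1) i h).hasFDerivAt
  have e1 := pd_Mo hg hp i j h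
  have e2 := pd_Mo hg (PF.const (I := I) (n := n) (G := G) 1) i j h
  have e3 : Mo ν g (fun i q => pdx j (fun (_ : I) (_ : E n × G) => (1:ℝ)) i q - 1 * pdx j g i q) i h
      = - Mo ν g (pdx j g) i h := by
    unfold Mo
    rw [← integral_neg]
    refine integral_congr_ae (ae_of_all _ fun ζ => ?_)
    simp [pdx]
  rw [e3] at e2
  have hinv := (hasDerivAt_inv hZ.ne').comp_hasFDerivAt h hd2
  have hq := hd1.mul hinv
  have hfun : Ep ν g p i = (Mo ν g p i) * (Inv.inv ∘ Mo ν g (fun _ _ => 1) i) := by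
    funext x
    simp [Ep, div_eq_mul_inv]
  unfold pd at e1 e2
  have hq2 := hq.fderiv
  have hfun' : (Mo ν g p i * (fun y : ℝ => y⁻¹) ∘ Mo ν g (fun _ _ => 1) i) = Ep ν g p i := hfun.symm
  rw [hfun'] at hq2
  rw [pd, hq2]
  simp only [_root_.smul_apply, _root_.add_apply, smul_eq_mul,
    Function.comp_apply]
  rw [e1, e2]
  unfold Ep
  field_simp
  ring

theorem Ep_diff (hg : GH g ν) {p : I → E n × G → ℝ} (hp : PF p) (i : I) :
    Differentiable ℝ (Ep ν g p i) := by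
  intro h
  have hd1 := (Mo_diff hg hp i h).hasFDerivAt
  have hd2 := (Mo_diff hg (PF.const (I := I) (n := n) (G := G) 1) i h).hasFDerivAt
  have hinv := (hasDerivAt_inv (Mo_one_pos hg i h).ne').comp_hasFDerivAt h hd2
  have hfun : Ep ν g p i = (Mo ν g p i) * (Inv.inv ∘ Mo ν g (fun _ _ => 1) i) := by
    funext x
    simp [Ep, div_eq_mul_inv]
  rw [hfun]
  exact (hd1.mul hinv).differentiableAt

theorem Ep_bound (hg : GH g ν) {p : I → E n × G → ℝ} (hp : PF p) : ∃ B : ℝ, ∀ i, |Ep ν g p i 0| ≤ B := by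
  obtain ⟨b, hbi, hb⟩ := dom hg hp.abs_bound 0 le_rfl
  obtain ⟨K, hK, N, hgK⟩ := hg.pf.abs_bound
  -- lower bound of Z
  haveI : NeZero ν := ⟨hg.ne⟩
  have hlow : ∃ z : ℝ, 0 < z ∧ ∀ i, z ≤ Mo ν g (fun _ _ => 1) i 0 := by
    obtain ⟨b', hbi', hb'⟩ := dom hg (PF.const (I := I) (n := n) (G := G) 1).abs_bound 0 le_rfl
    by_cases hI : Nonempty I
    · obtain ⟨i₀⟩ := hI
      have hint : Integrable (fun ζ : G => Real.exp (-(K * (1 + ‖ζ‖) ^ N))) ν := by
        refine hbi'.mono' ?_ ?_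
        · exact (by fun_prop : Continuous fun ζ : G => Real.exp (-(K * (1 + ‖ζ‖) ^ N))).aestronglyMeasurable
        · refine ae_of_all _ fun ζ => ?_
          have h1 := hb' i₀ 0 ζ (by simp)
          simp only [abs_one, one_mul] at h1
          refine le_trans ?_ h1
          rw [Real.norm_eq_abs, abs_of_pos (Real.exp_pos _)]
          apply Real.exp_le_exp.2
          have h2 := hgK i₀ ((0 : E n), ζ)
          have h3 := le_abs_self (g i₀ ((0 : E n), ζ))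
          have h4 : ‖((0 : E n), ζ)‖ = ‖ζ‖ := by simp [Prod.norm_mk]
          rw [h4] at h2
          linarith
      refine ⟨∫ ζ, Real.exp (-(K * (1 + ‖ζ‖) ^ N)) ∂ν, integral_exp_pos hint, fun i => ?_⟩
      unfold Mo
      have h5 := integrable_Mo hg (PF.const (I := I) (n := n) (G := G) 1) i 0
      refine integral_mono hint h5 fun ζ => ?_
      simp only [one_mul]
      apply Real.exp_le_exp.2
      have h2 := hgK i ((0 : E n), ζ)
      have h3 := le_abs_self (g i ((0 : E n), ζ))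
      have h4 : ‖((0 : E n), ζ)‖ = ‖ζ‖ := by simp [Prod.norm_mk]
      rw [h4] at h2
      linarith
    · exact ⟨1, one_pos, fun i => (hI ⟨i⟩).elim⟩
  obtain ⟨z, hz, hzl⟩ := hlow
  refine ⟨(∫ ζ, b ζ ∂ν) / z, fun i => ?_⟩
  unfold Ep
  have hZ := Mo_one_pos hg i 0
  rw [abs_div, abs_of_pos hZ]
  have h1 : |Mo ν g p i 0| ≤ ∫ ζ, b ζ ∂ν := by
    unfold Mo
    refine (abs_integral_le_integral_abs).trans ?_
    refine integral_mono (integrable_Mo hg hp i 0).abs hbi fun ζ => ?_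
    simp only
    rw [abs_mul, abs_of_pos (Real.exp_pos _)]
    exact hb i 0 ζ (by simp)
  have h2 : 0 ≤ ∫ ζ, b ζ ∂ν := (abs_nonneg _).trans h1
  exact div_le_div₀ h2 h1 hz (hzl i)

end Vale.Agent.P227.M.SC.Fam
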