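import Mathlib
import Vale.Agent.P227.M.SC.FamMo

/-! # P227/M/SC: `U = - log ∫ e^{-g(h,ζ)} dν(ζ)` is smooth and all its derivatives at `0` are bounded
uniformly in the family -/

open MeasureTheory
open scoped Topology

namespace Vale.Agent.P227.M.SC.Fam

set_option linter.unusedSectionVars false

open Vale.Agent.P227.M

variable {n : ℕ} {I : Type*} {G : Type*} [NormedAddCommGroup G] [NormedSpace ℝ G]
  [MeasurableSpace G] [BorelSpace G] [SecondCountableTopology G]
  {ν : Measure G} {g : I → E n × G → ℝ}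

/-- algebra generated by the normalised moments -/
inductive InS (ν : Measure G) (g : I → E n × G → ℝ) : (I → E n → ℝ) → Prop
  | base (p : I → E n × G → ℝ) (hp : PF p) : InS ν g (Ep ν g p)
  | add (f f' : I → E n → ℝ) (hf : InS ν g f) (hf' : InS ν g f') : InS ν g (fun i x => f i x + f' i x)
  | mul (f f' : I → E n → ℝ) (hf : InS ν g f) (hf' : InS ν g f') : InS ν g (fun i x => f i x * f' i x)

theorem InS.diff (hg : GH g ν) {f : I → E n → ℝ} (hf : InS ν g f) : ∀ i, Differentiable ℝ (f i) := by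
  induction hf with
  | base p hp => exact fun i => Ep_diff hg hp i
  | add f f' _ _ h1 h2 => exact fun i => (h1 i).add (h2 i)
  | mul f f' _ _ h1 h2 => exact fun i => (h1 i).mul (h2 i)

theorem InS.pd (hg : GH g ν) {f : I → E n → ℝ} (hf : InS ν g f) :
    ∀ j, InS ν g (fun i => M.pd j (f i)) := by
  induction hf with
  | base p hp =>
    intro j
    have h1 : (fun i => M.pd j (Ep ν g p i)) = fun i x => Ep ν g (fun i q => pdx j p i q - p i q * pdx j g i q) i x
      + Ep ν g p i x * Ep ν g (pdx j g) i x := by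
      funext i x
      exact pd_Ep hg hp i j x
    rw [h1]
    exact InS.add _ _ (InS.base _ ((hp.pdx j).sub (hp.mul (hg.pf.pdx j))))
      (InS.mul _ _ (InS.base _ hp) (InS.base _ (hg.pf.pdx j)))
  | add f f' hf hf' h1 h2 =>
    intro j
    have h3 : (fun i => M.pd j (fun x => f i x + f' i x)) = fun i x => M.pd j (f i) x + M.pd j (f' i) x := by
      funext i x
      simp only [M.pd]
      rw [fderiv_fun_add (hf.diff hg i x) (hf'.diff hg i x)]
      rfl
    rw [h3]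
    exact InS.add _ _ (h1 j) (h2 j)
  | mul f f' hf hf' h1 h2 =>
    intro j
    have h3 : (fun i => M.pd j (fun x => f i x * f' i x))
        = fun i x => f i x * M.pd j (f' i) x + f' i x * M.pd j (f i) x := by
      funext i x
      simp only [M.pd]
      rw [fderiv_fun_mul (hf.diff hg i x) (hf'.diff hg i x)]
      rfl
    rw [h3]
    exact InS.add _ _ (InS.mul _ _ hf (h2 j)) (InS.mul _ _ hf' (h1 j))

theorem InS.bound (hg : GH g ν) {f : I → E n → ℝ} (hf : InS ν g f) : ∃ B : ℝ, ∀ i, |f i 0| ≤ B := by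
  induction hf with
  | base p hp => exact Ep_bound hg hp
  | add f f' _ _ h1 h2 =>
    obtain ⟨B1, h1⟩ := h1
    obtain ⟨B2, h2⟩ := h2
    exact ⟨B1 + B2, fun i => (abs_add_le _ _).trans (add_le_add (h1 i) (h2 i))⟩
  | mul f f' _ _ h1 h2 =>
    obtain ⟨B1, h1⟩ := h1
    obtain ⟨B2, h2⟩ := h2
    refine ⟨|B1| * |B2|, fun i => ?_⟩
    rw [abs_mul]
    exact mul_le_mul ((h1 i).trans (le_abs_self _)) ((h2 i).trans (le_abs_self _)) (abs_nonneg _) (abs_nonneg _)

theorem famCl_InS (hg : GH g ν) : FamCl (n := n) (I := I) {f | InS ν g f} where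
  diff := fun _ hf i => InS.diff hg hf i
  pdc := fun _ hf j => InS.pd hg hf j

/-- the potential of the marginal -/
noncomputable def Ug (ν : Measure G) (g : I → E n × G → ℝ) (i : I) (h : E n) : ℝ :=
  - Real.log (∫ ζ, Real.exp (-(g i (h, ζ))) ∂ν)

theorem Ug_eq (i : I) : Ug ν g i = fun h => - Real.log (Mo ν g (fun _ _ => 1) i h) := by
  funext h
  simp [Ug, Mo]

theorem Ug_diff (hg : GH g ν) (i : I) : Differentiable ℝ (Ug ν g i) := by
  rw [Ug_eq]
  intro h
  exact ((Mo_diff hg (PF.const (I := I) (n := n) (G := G) 1) i h).log (Mo_one_pos hg i h).ne').neg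

theorem pd_Ug (hg : GH g ν) (i : I) (j : Fin n) (h : E n) :
    pd j (Ug ν g i) h = Ep ν g (pdx j g) i h := by
  rw [Ug_eq]
  have hZ := Mo_one_pos hg i h
  have hd := ((Mo_diff hg (PF.const (I := I) (n := n) (G := G) 1) i h).hasFDerivAt.log hZ.ne').neg
  have e2 := pd_Mo hg (PF.const (I := I) (n := n) (G := G) 1) i j h
  have e3 : Mo ν g (fun i q => pdx j (fun (_ : I) (_ : E n × G) => (1:ℝ)) i q - 1 * pdx j g i q) i h
      = - Mo ν g (pdx j g) i h := by
    unfold Mo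
    rw [← integral_neg]
    refine integral_congr_ae (ae_of_all _ fun ζ => ?_)
    simp [pdx]
  rw [e3] at e2
  unfold pd at e2 ⊢
  have hfd := hd.fderiv
  have hfun : (-fun x => Real.log (Mo ν g (fun _ _ => 1) i x))
      = fun h => - Real.log (Mo ν g (fun _ _ => 1) i h) := rfl
  rw [hfun] at hfd
  rw [hfd]
  simp only [_root_.neg_apply, _root_.smul_apply, smul_eq_mul]
  rw [e2]
  unfold Ep
  field_simp

theorem pd_pd_Ug (hg : GH g ν) (i : I) (j k : Fin n) (h : E n) :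
    pd k (pd j (Ug ν g i)) h = Ep ν g (fun i q => pdx k (pdx j g) i q - pdx j g i q * pdx k g i q) i h
      + Ep ν g (pdx j g) i h * Ep ν g (pdx k g) i h := by
  have h1 : pd j (Ug ν g i) = Ep ν g (pdx j g) i := by
    funext x
    exact pd_Ug hg i j x
  rw [h1]
  exact pd_Ep hg (hg.pf.pdx j) i k h

theorem Ug_contDiff (hg : GH g ν) (i : I) : ContDiff ℝ (⊤ : ℕ∞) (Ug ν g i) := by
  rw [show ((⊤ : ℕ∞) : WithTop ℕ∞) = ((⊤ : ℕ∞) : WithTop ℕ∞) + 1 by simp]
  rw [contDiff_succ_iff_fderiv]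
  refine ⟨Ug_diff hg i, fun h => by simp at h, ?_⟩
  have : fderiv ℝ (Ug ν g i) = fun x => ∑ j, (Ep ν g (pdx j g) i x) • (EuclideanSpace.proj j : E n →L[ℝ] ℝ) := by
    funext x
    rw [fderiv_eq_sum x]
    simp only [pd_Ug hg i]
  rw [this]
  refine ContDiff.sum fun j _ => ?_
  exact ((famCl_InS hg).contDiff _ (InS.base _ (hg.pf.pdx j)) i).smul contDiff_const

/-- uniform bounds of all derivatives at `0` -/
theorem Ug_bound (hg : GH g ν) (k : ℕ) (hk : 1 ≤ k) :
    ∃ B : ℝ, ∀ i, ‖iteratedFDeriv ℝ k (Ug ν g i) 0‖ ≤ B := by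
  obtain ⟨m, rfl⟩ : ∃ m, k = m + 1 := ⟨k - 1, by omega⟩
  choose B hB using fun j => (famCl_InS hg).bound (fun _ hf => InS.bound hg hf) m _
    (show Ep ν g (pdx j g) ∈ {f | InS ν g f} from InS.base _ (hg.pf.pdx j))
  refine ⟨∑ j, B j * ‖(EuclideanSpace.proj j : E n →L[ℝ] ℝ)‖, fun i => ?_⟩
  rw [← norm_iteratedFDeriv_fderiv]
  have : fderiv ℝ (Ug ν g i) = fun x => ∑ j, (Ep ν g (pdx j g) i x) • (EuclideanSpace.proj j : E n →L[ℝ] ℝ) := by
    funext x
    rw [fderiv_eq_sum x]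
    simp only [pd_Ug hg i]
  rw [this]
  have hsm : ∀ j, ContDiff ℝ m (Ep ν g (pdx j g) i) := fun j =>
    (famCl_InS hg).contDiff_nat m _ (InS.base _ (hg.pf.pdx j)) i
  have hcd : ∀ j ∈ (Finset.univ : Finset (Fin n)), ContDiff ℝ m
      (fun x => (Ep ν g (pdx j g) i x) • (EuclideanSpace.proj j : E n →L[ℝ] ℝ)) := fun j _ =>
    (hsm j).smul contDiff_const
  rw [iteratedFDeriv_sum hcd, Finset.sum_apply]
  refine (norm_sum_le _ _).trans (Finset.sum_le_sum fun j _ => ?_)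
  have h1 : (fun x => (Ep ν g (pdx j g) i x) • (EuclideanSpace.proj j : E n →L[ℝ] ℝ))
      = (ContinuousLinearMap.smulRight (ContinuousLinearMap.id ℝ ℝ)
          (EuclideanSpace.proj j : E n →L[ℝ] ℝ)) ∘ (Ep ν g (pdx j g) i) := by
    funext x; simp
  rw [h1]
  refine (ContinuousLinearMap.norm_iteratedFDeriv_comp_left _
    (hsm j).contDiffAt le_rfl).trans ?_
  rw [ContinuousLinearMap.norm_smulRight_apply, mul_comm]
  have h2 : ‖ContinuousLinearMap.id ℝ ℝ‖ ≤ 1 := ContinuousLinearMap.norm_id_le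
  have h3 := hB j i
  have h4 : 0 ≤ ‖(EuclideanSpace.proj j : E n →L[ℝ] ℝ)‖ := norm_nonneg _
  have h5 : 0 ≤ ‖iteratedFDeriv ℝ m (Ep ν g (pdx j g) i) 0‖ := norm_nonneg _
  calc ‖iteratedFDeriv ℝ m (Ep ν g (pdx j g) i) 0‖ *
        (‖ContinuousLinearMap.id ℝ ℝ‖ * ‖(EuclideanSpace.proj j : E n →L[ℝ] ℝ)‖)
      ≤ ‖iteratedFDeriv ℝ m (Ep ν g (pdx j g) i) 0‖ * (1 * ‖(EuclideanSpace.proj j : E n →L[ℝ] ℝ)‖) := by
        gcongr
    _ ≤ _ := by rw [one_mul]; gcongr

end Vale.Agent.P227.M.SC.Fam
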