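import Mathlib
import Vale.Agent.P227.M.SC.FamU

/-! # P227/M/SC: `U x = - log ∫ e^{-Φ(x,z)} dν(z)` is smooth and all its derivatives of order `≥ 2` are
bounded, for `Φ` with bounded derivatives of order `≥ 2`, uniformly convex in `z` -/

open MeasureTheory
open scoped Topology

namespace Vale.Agent.P227.M.SC.Fam

set_option linter.unusedSectionVars false

open Vale.Agent.P227.M

variable {n : ℕ} {G : Type*} [NormedAddCommGroup G] [NormedSpace ℝ G]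
  [MeasurableSpace G] [BorelSpace G] [SecondCountableTopology G]
  {ν : Measure G}

/-- hypotheses on the joint potential -/
structure PH (Φ : E n × G → ℝ) : Prop where
  smooth : ContDiff ℝ (⊤ : ℕ∞) Φ
  bdd : ∀ k : ℕ, 2 ≤ k → ∃ B : ℝ, ∀ q, ‖iteratedFDeriv ℝ k Φ q‖ ≤ B
  low : ∃ c : ℝ, 0 < c ∧ ∃ K : ℝ, 0 ≤ K ∧ ∀ (q : E n × G) (h : E n) (ζ : G),
    Φ q + fderiv ℝ Φ q (h, ζ) + c * ‖ζ‖ ^ 2 - K * ‖h‖ ^ 2 ≤ Φ (q + (h, ζ))
  crit : ∀ x : E n, ∃ z : G, ∀ ζ : G, fderiv ℝ Φ (x, z) (0, ζ) = 0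

section norm
variable {F : Type*} [NormedAddCommGroup F] [NormedSpace ℝ F]
/-- normalised function: value and derivative at `a` subtracted -/
noncomputable def nm (Φ : F → ℝ) (a q : F) : ℝ := Φ (a + q) - Φ a - fderiv ℝ Φ a q

theorem nm_smooth {Φ : F → ℝ} (h : ContDiff ℝ (⊤ : ℕ∞) Φ) (a : F) : ContDiff ℝ (⊤ : ℕ∞) (nm Φ a) := by
  unfold nm
  exact ((h.comp (contDiff_const.add contDiff_id)).sub contDiff_const).sub (fderiv ℝ Φ a).contDiff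

theorem fderiv_nm {Φ : F → ℝ} (h : ContDiff ℝ (⊤ : ℕ∞) Φ) (a : F) :
    fderiv ℝ (nm Φ a) = fun q => fderiv ℝ Φ (a + q) - fderiv ℝ Φ a := by
  funext q
  have hd : Differentiable ℝ Φ := h.differentiable (by simp)
  have h1 : HasFDerivAt (fun q => Φ (a + q)) (fderiv ℝ Φ (a + q)) q := by
    have := (hd (a + q)).hasFDerivAt.comp q ((hasFDerivAt_id q).const_add a)
    rw [ContinuousLinearMap.comp_id] at this
    exact this
  have h2 : HasFDerivAt (nm Φ a) (fderiv ℝ Φ (a + q) - fderiv ℝ Φ a) q := by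
    exact (h1.sub_const (Φ a)).sub (fderiv ℝ Φ a).hasFDerivAt
  exact h2.fderiv

theorem norm_iter2 {f g : F → ℝ} (h : ∀ x, fderiv ℝ (fderiv ℝ f) x = fderiv ℝ (fderiv ℝ g) x) (m : ℕ) (x : F) :
    ‖iteratedFDeriv ℝ (m + 2) f x‖ = ‖iteratedFDeriv ℝ (m + 2) g x‖ := by
  rw [show m + 2 = (m + 1) + 1 by ring, ← norm_iteratedFDeriv_fderiv, ← norm_iteratedFDeriv_fderiv,
    ← norm_iteratedFDeriv_fderiv, ← norm_iteratedFDeriv_fderiv]
  rw [show fderiv ℝ (fderiv ℝ f) = fderiv ℝ (fderiv ℝ g) from funext h]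

theorem fderiv2_nm {Φ : F → ℝ} (h : ContDiff ℝ (⊤ : ℕ∞) Φ) (a : F) (q : F) :
    fderiv ℝ (fderiv ℝ (nm Φ a)) q = fderiv ℝ (fderiv ℝ (fun q => Φ (a + q))) q := by
  have hd : Differentiable ℝ Φ := h.differentiable (by simp)
  have h1 : fderiv ℝ (fun q => Φ (a + q)) = fun q => fderiv ℝ Φ (a + q) := by
    funext q
    have := (hd (a + q)).hasFDerivAt.comp q ((hasFDerivAt_id q).const_add a)
    rw [ContinuousLinearMap.comp_id] at this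
    exact this.fderiv
  rw [fderiv_nm h, h1]
  exact fderiv_sub_const _

theorem nm_bdd {Φ : F → ℝ} (h : ContDiff ℝ (⊤ : ℕ∞) Φ) (a q : F) (m : ℕ) :
    ‖iteratedFDeriv ℝ (m + 2) (nm Φ a) q‖ = ‖iteratedFDeriv ℝ (m + 2) Φ (a + q)‖ := by
  rw [norm_iter2 (fderiv2_nm h a), iteratedFDeriv_comp_add_left]

theorem nm_lip {Φ : F → ℝ} (h : ContDiff ℝ (⊤ : ℕ∞) Φ) {B : ℝ} (hB : ∀ q, ‖iteratedFDeriv ℝ 2 Φ q‖ ≤ B)
    (a q : F) : ‖fderiv ℝ (nm Φ a) q‖ ≤ B * ‖q‖ := by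
  rw [fderiv_nm h]
  have h1 : ContDiff ℝ (⊤ : ℕ∞) (fderiv ℝ Φ) := h.fderiv_right (by simp)
  have h2 : Differentiable ℝ (fderiv ℝ Φ) := h1.differentiable (by simp)
  have h3 : ∀ x ∈ (Set.univ : Set F), ‖fderiv ℝ (fderiv ℝ Φ) x‖ ≤ B := by
    intro x _
    have := hB x
    rwa [show (2 : ℕ) = 1 + 1 by rfl, ← norm_iteratedFDeriv_fderiv, ← norm_iteratedFDeriv_fderiv,
      norm_iteratedFDeriv_zero] at this
  have h4 := convex_univ.norm_image_sub_le_of_norm_fderiv_le (fun x _ => h2 x) h3 (Set.mem_univ a)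
    (Set.mem_univ (a + q))
  simpa using h4

theorem nm_quad {Φ : F → ℝ} (h : ContDiff ℝ (⊤ : ℕ∞) Φ) {B : ℝ} (hB : ∀ q, ‖iteratedFDeriv ℝ 2 Φ q‖ ≤ B)
    (a q : F) : |nm Φ a q| ≤ B * ‖q‖ ^ 2 := by
  have hB0 : 0 ≤ B := (norm_nonneg _).trans (hB 0)
  have h1 : ∀ x ∈ Metric.closedBall (0 : F) ‖q‖, ‖fderiv ℝ (nm Φ a) x‖ ≤ B * ‖q‖ := by
    intro x hx
    refine (nm_lip h hB a x).trans ?_
    have : ‖x‖ ≤ ‖q‖ := by simpa using hx
    gcongr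
  have h2 := (convex_closedBall (0 : F) ‖q‖).norm_image_sub_le_of_norm_fderiv_le
    (fun x _ => (nm_smooth h a).differentiable (by simp) x) h1
    (show (0 : F) ∈ _ by simp) (show q ∈ Metric.closedBall (0 : F) ‖q‖ by simp)
  have h3 : nm Φ a 0 = 0 := by simp [nm]
  rw [h3] at h2
  simp only [sub_zero, Real.norm_eq_abs] at h2
  calc |nm Φ a q| ≤ B * ‖q‖ * ‖q‖ := h2
    _ = B * ‖q‖ ^ 2 := by ring

end norm

/-- the family of normalised exponents -/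
noncomputable def gq (Φ : E n × G → ℝ) (z0 : E n → G) (i : E n) (q : E n × G) : ℝ := nm Φ (i, z0 i) q

theorem PF_gq {Φ : E n × G → ℝ} (h : PH Φ) (z0 : E n → G) : PF (gq Φ z0) where
  smooth := fun i => nm_smooth h.smooth _
  growth := by
    intro k
    obtain ⟨B, hB⟩ := h.bdd 2 le_rfl
    have hB0 : 0 ≤ B := (norm_nonneg _).trans (hB 0)
    match k with
    | 0 =>
      refine ⟨B, 2, fun i q => ?_⟩
      rw [norm_iteratedFDeriv_zero, Real.norm_eq_abs]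
      refine (nm_quad h.smooth hB _ q).trans ?_
      have := norm_nonneg q
      gcongr
      linarith
    | 1 =>
      refine ⟨B, 1, fun i q => ?_⟩
      rw [show (1 : ℕ) = 0 + 1 by rfl, ← norm_iteratedFDeriv_fderiv, norm_iteratedFDeriv_zero]
      refine (nm_lip h.smooth hB _ q).trans ?_
      have := norm_nonneg q
      rw [zero_add, pow_one]
      gcongr
      linarith
    | m + 2 =>
      obtain ⟨B', hB'⟩ := h.bdd (m + 2) (by omega)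
      refine ⟨B', 0, fun i q => ?_⟩
      rw [pow_zero, mul_one]
      exact (nm_bdd h.smooth _ q m).le.trans (hB' _)

theorem GH_gq {Φ : E n × G → ℝ} (h : PH Φ) (z0 : E n → G)
    (hint : ∀ c : ℝ, 0 < c → ∀ N : ℕ, Integrable (fun ζ : G => (1 + ‖ζ‖) ^ N * Real.exp (-(c * ‖ζ‖ ^ 2))) ν)
    (hne : ν ≠ 0) : GH (gq Φ z0) ν where
  pf := PF_gq h z0
  low := by
    obtain ⟨c, hc, K, hK, hl⟩ := h.low
    refine ⟨c, hc, K, hK, fun i x ζ => ?_⟩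
    have h1 := hl (i, z0 i) x ζ
    unfold gq nm
    have h2 : K * ‖x‖ ^ 2 ≤ K * (1 + ‖x‖) ^ 2 := by
      have := norm_nonneg x
      gcongr
      linarith
    linarith
  int := hint
  ne := hne

/-- the potential of the marginal -/
noncomputable def Um (ν : Measure G) (Φ : E n × G → ℝ) (x : E n) : ℝ :=
  - Real.log (∫ z, Real.exp (-(Φ (x, z))) ∂ν)

theorem Um_eq [ν.IsAddLeftInvariant] {Φ : E n × G → ℝ} {z0 : E n → G}
    (hg : GH (gq Φ z0) ν) (hz : ∀ i ζ, fderiv ℝ Φ (i, z0 i) (0, ζ) = 0) (i h : E n) :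
    Um ν Φ (i + h) = Ug ν (gq Φ z0) i h + (Φ (i, z0 i) + fderiv ℝ Φ (i, z0 i) (h, 0)) := by
  unfold Um Ug
  have h1 : ∫ z, Real.exp (-(Φ (i + h, z))) ∂ν = ∫ ζ, Real.exp (-(Φ (i + h, z0 i + ζ))) ∂ν := by
    rw [integral_add_left_eq_self (fun z => Real.exp (-(Φ (i + h, z)))) (z0 i)]
  have h2 : ∀ ζ, Real.exp (-(Φ (i + h, z0 i + ζ))) = Real.exp (-(gq Φ z0 i (h, ζ))) *
      Real.exp (-(Φ (i, z0 i) + fderiv ℝ Φ (i, z0 i) (h, 0))) := by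
    intro ζ
    rw [← Real.exp_add]
    congr 1
    unfold gq nm
    have h3 : fderiv ℝ Φ (i, z0 i) (h, ζ) = fderiv ℝ Φ (i, z0 i) (h, 0) + fderiv ℝ Φ (i, z0 i) (0, ζ) := by
      rw [← map_add]; simp
    rw [h3, hz i ζ, Prod.mk_add_mk]
    ring
  have h4 : 0 < ∫ ζ, Real.exp (-(gq Φ z0 i (h, ζ))) ∂ν := by
    have := Mo_one_pos hg i h
    simpa [Mo] using this
  rw [h1]
  simp only [h2]
  rw [integral_mul_const, Real.log_mul h4.ne' (Real.exp_pos _).ne', Real.log_exp]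
  ring

theorem Um_contDiff [ν.IsAddLeftInvariant] {Φ : E n × G → ℝ} (hΦ : PH Φ)
    (hint : ∀ c : ℝ, 0 < c → ∀ N : ℕ, Integrable (fun ζ : G => (1 + ‖ζ‖) ^ N * Real.exp (-(c * ‖ζ‖ ^ 2))) ν)
    (hne : ν ≠ 0) : ContDiff ℝ (⊤ : ℕ∞) (Um ν Φ) := by
  choose z0 hz using hΦ.crit
  have hg := GH_gq (ν := ν) hΦ z0 hint hne
  have h1 : Um ν Φ = fun h => Ug ν (gq Φ z0) 0 h + (Φ (0, z0 0) + fderiv ℝ Φ (0, z0 0) (h, 0)) := by
    funext h
    have := Um_eq hg hz 0 h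
    rwa [zero_add] at this
  rw [h1]
  refine (Ug_contDiff hg 0).add (contDiff_const.add ?_)
  exact (fderiv ℝ Φ (0, z0 0)).contDiff.comp (contDiff_id.prodMk contDiff_const)

theorem Um_bdd [ν.IsAddLeftInvariant] {Φ : E n × G → ℝ} (hΦ : PH Φ)
    (hint : ∀ c : ℝ, 0 < c → ∀ N : ℕ, Integrable (fun ζ : G => (1 + ‖ζ‖) ^ N * Real.exp (-(c * ‖ζ‖ ^ 2))) ν)
    (hne : ν ≠ 0) (k : ℕ) (hk : 2 ≤ k) : ∃ B : ℝ, ∀ x, ‖iteratedFDeriv ℝ k (Um ν Φ) x‖ ≤ B := by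
  choose z0 hz using hΦ.crit
  have hg := GH_gq (ν := ν) hΦ z0 hint hne
  obtain ⟨B, hB⟩ := Ug_bound hg k (by omega)
  refine ⟨B, fun x => ?_⟩
  refine le_trans (le_of_eq ?_) (hB x)
  obtain ⟨m, rfl⟩ : ∃ m, k = m + 2 := ⟨k - 2, by omega⟩
  have h1 : ‖iteratedFDeriv ℝ (m + 2) (Um ν Φ) x‖ = ‖iteratedFDeriv ℝ (m + 2) (fun h => Um ν Φ (x + h)) 0‖ := by
    rw [iteratedFDeriv_comp_add_left, add_zero]
  rw [h1]
  have h2 : (fun h => Um ν Φ (x + h)) = fun h => Ug ν (gq Φ z0) x h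
      + (Φ (x, z0 x) + fderiv ℝ Φ (x, z0 x) (h, 0)) := by
    funext h
    exact Um_eq hg hz x h
  rw [h2]
  refine norm_iter2 (fun y => ?_) m 0
  have h3 : fderiv ℝ (fun h => Ug ν (gq Φ z0) x h + (Φ (x, z0 x) + fderiv ℝ Φ (x, z0 x) (h, 0)))
      = fun h => fderiv ℝ (Ug ν (gq Φ z0) x) h + (fderiv ℝ Φ (x, z0 x)).comp (ContinuousLinearMap.inl ℝ (E n) G) := by
    funext h
    have h4 : HasFDerivAt (fun h : E n => fderiv ℝ Φ (x, z0 x) (h, 0))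
        ((fderiv ℝ Φ (x, z0 x)).comp (ContinuousLinearMap.inl ℝ (E n) G)) h := by
      exact ((fderiv ℝ Φ (x, z0 x)).comp (ContinuousLinearMap.inl ℝ (E n) G)).hasFDerivAt
    exact ((Ug_diff hg x h).hasFDerivAt.add (h4.const_add _)).fderiv
  rw [h3]
  exact fderiv_add_const _

end Vale.Agent.P227.M.SC.Fam
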