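import Mathlib
import Vale.Agent.P227.M.SC.FamReg
import Vale.Agent.P227.M.LK.Conv
import Vale.Agent.P227.M.LK.RegLap

/-! # P227/M/SC: Gaussian averages of regular potentials are regular:
`x ↦ - log ∫ e^{-W(x + P z) - ‖z‖²/2} dz` -/

open MeasureTheory
open scoped Topology

namespace Vale.Agent.P227.M.SC.Fam

set_option linter.unusedSectionVars false

open Vale.Agent.P227.M

variable {n : ℕ} {G : Type*} [NormedAddCommGroup G] [InnerProductSpace ℝ G] [FiniteDimensional ℝ G]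
  [MeasurableSpace G] [BorelSpace G] {ν : Measure G}

/-- joint exponent of the Gaussian average -/
noncomputable def PhiH (W : E n → ℝ) (P : G →L[ℝ] E n) (q : E n × G) : ℝ :=
  W (q.1 + P q.2) + ‖q.2‖ ^ 2 / 2

/-- the sum map -/
noncomputable def Am (P : G →L[ℝ] E n) : E n × G →L[ℝ] E n :=
  ContinuousLinearMap.fst ℝ (E n) G + P.comp (ContinuousLinearMap.snd ℝ (E n) G)

theorem Am_apply (P : G →L[ℝ] E n) (q : E n × G) : Am P q = q.1 + P q.2 := rfl

theorem PhiH_smooth {W : E n → ℝ} (hW : ContDiff ℝ (⊤ : ℕ∞) W) (P : G →L[ℝ] E n) :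
    ContDiff ℝ (⊤ : ℕ∞) (PhiH W P) := by
  unfold PhiH
  exact (hW.comp (Am P).contDiff).add ((contDiff_snd.norm_sq ℝ).div_const 2)

theorem hasFDerivAt_nsq (z : G) : HasFDerivAt (fun z : G => ‖z‖ ^ 2 / 2) (innerSL ℝ z) z := by
  have h1 : HasFDerivAt (fun z : G => ‖z‖ ^ 2) (2 • innerSL ℝ z) z := by
    simpa using (hasFDerivAt_id z).norm_sq
  have h2 := h1.const_mul (1 / 2 : ℝ)
  refine (h2.congr_fderiv ?_).congr_of_eventuallyEq (Filter.Eventually.of_forall fun z => ?_)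
  · ext w; simp
  · simp only; ring

theorem fderiv_PhiH {W : E n → ℝ} (hW : ContDiff ℝ (⊤ : ℕ∞) W) (P : G →L[ℝ] E n) (q w : E n × G) :
    fderiv ℝ (PhiH W P) q w = fderiv ℝ W (q.1 + P q.2) (w.1 + P w.2) + inner ℝ q.2 w.2 := by
  have h1 : HasFDerivAt (fun q : E n × G => W (Am P q)) ((fderiv ℝ W (Am P q)).comp (Am P)) q :=
    ((hW.differentiable (by simp)) (Am P q)).hasFDerivAt.comp q (Am P).hasFDerivAt
  have h2 : HasFDerivAt (fun q : E n × G => ‖q.2‖ ^ 2 / 2)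
      ((innerSL ℝ q.2).comp (ContinuousLinearMap.snd ℝ (E n) G)) q :=
    (hasFDerivAt_nsq q.2).comp q (ContinuousLinearMap.snd ℝ (E n) G).hasFDerivAt
  have h3 := (h1.add h2).fderiv
  have h4 : (PhiH W P) = ((fun q : E n × G => W (Am P q)) + fun q : E n × G => ‖q.2‖ ^ 2 / 2) := rfl
  rw [h4, h3]
  rfl

theorem PhiH_bdd {W : E n → ℝ} {c C : ℝ} (h : Reg W c C) (P : G →L[ℝ] E n) (k : ℕ) (hk : 2 ≤ k) :
    ∃ B : ℝ, ∀ q, ‖iteratedFDeriv ℝ k (PhiH W P) q‖ ≤ B := by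
  obtain ⟨B, hB⟩ := h.bdd k hk
  have hN : ∃ B' : ℝ, ∀ z : G, ‖iteratedFDeriv ℝ k (fun z : G => ‖z‖ ^ 2 / 2) z‖ ≤ B' := by
    obtain ⟨m, rfl⟩ : ∃ m, k = m + 2 := ⟨k - 2, by omega⟩
    have h1 : fderiv ℝ (fderiv ℝ (fun z : G => ‖z‖ ^ 2 / 2)) = fun _ => (innerSL ℝ : G →L[ℝ] G →L[ℝ] ℝ) := by
      have h2 : fderiv ℝ (fun z : G => ‖z‖ ^ 2 / 2) = fun z => innerSL ℝ z :=
        funext fun z => (hasFDerivAt_nsq z).fderiv
      rw [h2]
      funext z
      exact (innerSL ℝ : G →L[ℝ] G →L[ℝ] ℝ).fderiv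
    refine ⟨‖(innerSL ℝ : G →L[ℝ] G →L[ℝ] ℝ)‖, fun z => ?_⟩
    rw [show m + 2 = (m + 1) + 1 by ring, ← norm_iteratedFDeriv_fderiv, ← norm_iteratedFDeriv_fderiv, h1]
    rcases Nat.eq_zero_or_pos m with rfl | hm
    · rw [norm_iteratedFDeriv_zero]
    · rw [iteratedFDeriv_const_of_ne (by omega)]
      simp only [Pi.zero_apply, norm_zero]
      exact norm_nonneg (innerSL ℝ : G →L[ℝ] G →L[ℝ] ℝ)
  obtain ⟨B', hB'⟩ := hN
  refine ⟨B * ‖Am P‖ ^ k + B' * ‖ContinuousLinearMap.snd ℝ (E n) G‖ ^ k, fun q => ?_⟩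
  have hs1 : ContDiff ℝ k W := by exact_mod_cast contDiff_infty.mp h.smooth k
  have hs2 : ContDiff ℝ k (fun z : G => ‖z‖ ^ 2 / 2) := (contDiff_norm_sq ℝ).div_const 2
  have h4 : (PhiH W P) = ((W ∘ (Am P)) + ((fun z : G => ‖z‖ ^ 2 / 2) ∘ (ContinuousLinearMap.snd ℝ (E n) G))) := rfl
  rw [h4, iteratedFDeriv_add_apply (hs1.comp (Am P).contDiff).contDiffAt
    (hs2.comp (ContinuousLinearMap.snd ℝ (E n) G).contDiff).contDiffAt,
    (Am P).iteratedFDeriv_comp_right hs1 q le_rfl,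
    (ContinuousLinearMap.snd ℝ (E n) G).iteratedFDeriv_comp_right hs2 q le_rfl]
  refine (norm_add_le _ _).trans (add_le_add ?_ ?_)
  · refine (ContinuousMultilinearMap.norm_compContinuousLinearMap_le _ _).trans ?_
    rw [Finset.prod_const, Finset.card_univ, Fintype.card_fin]
    exact mul_le_mul_of_nonneg_right (hB _) (pow_nonneg (norm_nonneg _) _)
  · refine (ContinuousMultilinearMap.norm_compContinuousLinearMap_le _ _).trans ?_
    rw [Finset.prod_const, Finset.card_univ, Fintype.card_fin]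
    exact mul_le_mul_of_nonneg_right (hB' _) (pow_nonneg (norm_nonneg _) _)

/-- second order lower bound -/
theorem PhiH_taylor {W : E n → ℝ} {c C : ℝ} (h : Reg W c C) (P : G →L[ℝ] E n) (q w : E n × G) :
    PhiH W P q + fderiv ℝ (PhiH W P) q w + (c / 2 * ‖w.1 + P w.2‖ ^ 2 + 1 / 2 * ‖w.2‖ ^ 2)
      ≤ PhiH W P (q + w) := by
  rw [fderiv_PhiH h.smooth]
  have h1 := RL983.reg_low h (q.1 + P q.2) (w.1 + P w.2)
  have h2 : PhiH W P (q + w) = W ((q.1 + P q.2) + (w.1 + P w.2)) + ‖q.2 + w.2‖ ^ 2 / 2 := by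
    unfold PhiH
    have : (q + w).1 + P (q + w).2 = (q.1 + P q.2) + (w.1 + P w.2) := by
      rw [Prod.fst_add, Prod.snd_add, map_add]; abel
    rw [this]
    rfl
  have h3 := norm_add_sq_real q.2 w.2
  rw [h2, h3]
  unfold PhiH
  linarith

/-- critical points exist -/
theorem exists_crit_of_low {Φ : E n × G → ℝ} (hs : ContDiff ℝ (⊤ : ℕ∞) Φ) {c K : ℝ} (hc : 0 < c)
    (hl : ∀ (q : E n × G) (h : E n) (ζ : G),
      Φ q + fderiv ℝ Φ q (h, ζ) + c * ‖ζ‖ ^ 2 - K * ‖h‖ ^ 2 ≤ Φ (q + (h, ζ))) (x : E n) :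
    ∃ z : G, ∀ ζ : G, fderiv ℝ Φ (x, z) (0, ζ) = 0 := by
  have hcont : Continuous fun z : G => Φ (x, z) := hs.continuous.comp (Continuous.prodMk_right x)
  set L : ℝ := ‖fderiv ℝ Φ (x, 0)‖ with hL
  have hlow : ∀ z : G, (c * ‖z‖ - L) * ‖z‖ + Φ (x, 0) ≤ Φ (x, z) := by
    intro z
    have h1 := hl (x, 0) 0 z
    have h2 : -(L * ‖z‖) ≤ fderiv ℝ Φ (x, 0) (0, z) := by
      have h3 := (fderiv ℝ Φ (x, 0)).le_opNorm (0, z)
      have h4 := neg_abs_le (fderiv ℝ Φ (x, 0) (0, z))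
      have h5 : ‖((0 : E n), z)‖ = ‖z‖ := by simp [Prod.norm_mk]
      rw [Real.norm_eq_abs, h5] at h3
      linarith
    have h6 : ((x, (0 : G)) + ((0 : E n), z)) = (x, z) := by simp
    rw [h6] at h1
    simp only [norm_zero, ne_eq, OfNat.ofNat_ne_zero, not_false_eq_true, zero_pow, mul_zero, sub_zero] at h1
    nlinarith
  have hlim : Filter.Tendsto (fun z : G => Φ (x, z)) (Filter.cocompact G) Filter.atTop := by
    have hn : Filter.Tendsto (fun x : G => ‖x‖) (Filter.cocompact G) Filter.atTop :=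
      tendsto_norm_cocompact_atTop
    have h2 : Filter.Tendsto (fun r : ℝ => (c * r - L) * r + Φ (x, 0)) Filter.atTop Filter.atTop := by
      refine Filter.tendsto_atTop_add_const_right _ _ ?_
      refine Filter.Tendsto.atTop_mul_atTop₀ ?_ Filter.tendsto_id
      exact Filter.tendsto_atTop_add_const_right _ _ (Filter.tendsto_id.const_mul_atTop hc)
    exact Filter.tendsto_atTop_mono hlow (h2.comp hn)
  obtain ⟨z, hz⟩ := hcont.exists_forall_le hlim
  refine ⟨z, fun ζ => ?_⟩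
  have h1 : HasDerivAt (fun t : ℝ => Φ ((x, z) + t • ((0 : E n), ζ))) (fderiv ℝ Φ (x, z) (0, ζ)) 0 := by
    have h2 : HasFDerivAt Φ (fderiv ℝ Φ (x, z)) ((x, z) + (0 : ℝ) • ((0 : E n), ζ)) := by
      rw [zero_smul, add_zero]
      exact (hs.differentiable (by simp) _).hasFDerivAt
    have h3 : HasDerivAt (fun t : ℝ => (x, z) + t • ((0 : E n), ζ)) ((0 : E n), ζ) 0 := by
      simpa using ((hasDerivAt_id (0 : ℝ)).smul_const ((0 : E n), ζ)).const_add (x, z)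
    exact h2.comp_hasDerivAt (0 : ℝ) h3
  have h4 : IsLocalMin (fun t : ℝ => Φ ((x, z) + t • ((0 : E n), ζ))) 0 := by
    refine Filter.Eventually.of_forall fun t => ?_
    have h5 : ((x, z) + t • ((0 : E n), ζ)) = (x, z + t • ζ) := by simp
    simp only [zero_smul, add_zero]
    rw [h5]
    exact hz _
  exact h4.hasDerivAt_eq_zero h1

theorem PH_PhiH {W : E n → ℝ} {c C : ℝ} (h : Reg W c C) (P : G →L[ℝ] E n) : PH (PhiH W P) where
  smooth := PhiH_smooth h.smooth P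
  bdd := PhiH_bdd h P
  low := by
    refine ⟨1 / 2, by norm_num, 0, le_rfl, fun q x ζ => ?_⟩
    have h1 := PhiH_taylor h P q (x, ζ)
    have h2 : 0 ≤ c / 2 * ‖x + P ζ‖ ^ 2 := by
      have := h.c_pos
      positivity
    simp only at h1
    linarith
  crit := by
    refine exists_crit_of_low (c := 1 / 2) (K := 0) (PhiH_smooth h.smooth P) (by norm_num)
      (fun q x ζ => ?_)
    have h1 := PhiH_taylor h P q (x, ζ)
    have h2 : 0 ≤ c / 2 * ‖x + P ζ‖ ^ 2 := by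
      have := h.c_pos
      positivity
    simp only at h1
    linarith

theorem convexOn_of_support {F : Type*} [NormedAddCommGroup F] [NormedSpace ℝ F] {Ψ : F → ℝ}
    (L : F → F →L[ℝ] ℝ) (h : ∀ q w, Ψ q + L q w ≤ Ψ (q + w)) : ConvexOn ℝ Set.univ Ψ := by
  refine ⟨convex_univ, fun x _ y _ s t hs ht hst => ?_⟩
  have h1 := h (s • x + t • y) (x - (s • x + t • y))
  have h2 := h (s • x + t • y) (y - (s • x + t • y))
  rw [add_sub_cancel] at h1 h2
  have h3 : s * (L (s • x + t • y)) (x - (s • x + t • y)) + t * (L (s • x + t • y)) (y - (s • x + t • y)) = 0 := by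
    rw [← smul_eq_mul, ← smul_eq_mul, ← map_smul, ← map_smul, ← map_add]
    have : s • (x - (s • x + t • y)) + t • (y - (s • x + t • y)) = 0 := by
      rw [smul_sub, smul_sub]
      have e : s • x - s • (s • x + t • y) + (t • y - t • (s • x + t • y))
        = (s • x + t • y) - (s + t) • (s • x + t • y) := by
        rw [add_smul]; abel
      rw [e, hst, one_smul, sub_self]
    rw [this, map_zero]
  simp only [smul_eq_mul]
  have h4 := mul_le_mul_of_nonneg_left h1 hs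
  have h5 := mul_le_mul_of_nonneg_left h2 ht
  have h6 : (s + t) * Ψ (s • x + t • y) = Ψ (s • x + t • y) := by rw [hst, one_mul]
  nlinarith

theorem quad_ineq {c p u v r : ℝ} (hc : 0 < c) (hr : 0 ≤ r)
    (h : r ≤ u + p * v) : c / (1 + c * p ^ 2) / 2 * r ^ 2 ≤ c / 2 * u ^ 2 + 1 / 2 * v ^ 2 := by
  have h0 : 0 < 1 + c * p ^ 2 := by positivity
  have h1 : r ^ 2 ≤ (u + p * v) ^ 2 := by gcongr
  have h2 : c * (u + p * v) ^ 2 ≤ (1 + c * p ^ 2) * (c * u ^ 2 + v ^ 2) := by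
    nlinarith [sq_nonneg (v - c * p * u)]
  rw [div_div, div_mul_eq_mul_div, div_le_iff₀ (by positivity)]
  nlinarith [mul_le_mul_of_nonneg_left h1 hc.le]

theorem PhiH_convex {W : E n → ℝ} {c C : ℝ} (h : Reg W c C) (P : G →L[ℝ] E n) :
    ConvexOn ℝ Set.univ (fun q : E n × G => PhiH W P q - c / (1 + c * ‖P‖ ^ 2) / 2 * ‖q.1‖ ^ 2) := by
  set a : ℝ := c / (1 + c * ‖P‖ ^ 2) / 2 with ha
  refine convexOn_of_support (fun q => fderiv ℝ (PhiH W P) q -
    (2 * a) • (innerSL ℝ q.1).comp (ContinuousLinearMap.fst ℝ (E n) G)) (fun q w => ?_)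
  have h1 := PhiH_taylor h P q w
  have h2 : a * ‖w.1‖ ^ 2 ≤ c / 2 * ‖w.1 + P w.2‖ ^ 2 + 1 / 2 * ‖w.2‖ ^ 2 := by
    refine quad_ineq h.c_pos (norm_nonneg _) ?_
    calc ‖w.1‖ = ‖(w.1 + P w.2) - P w.2‖ := by rw [add_sub_cancel_right]
      _ ≤ ‖w.1 + P w.2‖ + ‖P w.2‖ := norm_sub_le _ _
      _ ≤ _ := by gcongr; exact P.le_opNorm _
  have h3 := norm_add_sq_real q.1 w.1
  simp only [sub_apply, _root_.smul_apply, ContinuousLinearMap.comp_apply,
    ContinuousLinearMap.coe_fst', innerSL_apply_apply, smul_eq_mul, Prod.fst_add]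
  rw [h3]
  nlinarith

end Vale.Agent.P227.M.SC.Fam
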