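import Mathlib
import Vale.Agent.P227.M.SC.FamHeat

/-! # P227/M/SC: `Reg` of the Gaussian averages (`reg_heat1`, `reg_heat`) -/

open MeasureTheory
open scoped Topology

namespace Vale.Agent.P227.M.SC.Fam

set_option linter.unusedSectionVars false

open Vale.Agent.P227.M

theorem qf_lower_of_convex {n : ℕ} {U : E n → ℝ} (hU : ContDiff ℝ (⊤ : ℕ∞) U) {a : ℝ}
    (hc : ConvexOn ℝ Set.univ (fun x => U x - a / 2 * ‖x‖ ^ 2)) (x v : E n) :
    a * ‖v‖ ^ 2 ≤ qf (hess U x) v := by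
  have h2 : ContDiff ℝ 2 U := by exact_mod_cast contDiff_infty.mp hU 2
  rw [RL983.qf_hess h2]
  have hline : ConvexOn ℝ Set.univ (fun t : ℝ => U (x + t • v) - a / 2 * ‖x + t • v‖ ^ 2) := by
    refine ⟨convex_univ, fun s _ t _ p q hp hq hpq => ?_⟩
    have h3 := hc.2 (Set.mem_univ (x + s • v)) (Set.mem_univ (x + t • v)) hp hq hpq
    have h4 : p • (x + s • v) + q • (x + t • v) = x + (p • s + q • t) • v := by
      have : p • (x + s • v) + q • (x + t • v) = (p + q) • x + (p * s + q * t) • v := by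
        rw [smul_add, smul_add, add_smul, add_smul, mul_smul, mul_smul]; abel
      rw [this, hpq, one_smul]; rfl
    rw [h4] at h3
    exact h3
  have hq1 : ∀ t : ℝ, HasDerivAt (fun t : ℝ => a / 2 * ‖x + t • v‖ ^ 2) (a * (inner ℝ x v + t * ‖v‖ ^ 2)) t := by
    intro t
    have e : (fun t : ℝ => a / 2 * ‖x + t • v‖ ^ 2) = fun t : ℝ => a / 2 * (‖x‖ ^ 2 + 2 * (t * inner ℝ x v) + t ^ 2 * ‖v‖ ^ 2) := by
      funext t
      rw [norm_add_sq_real, norm_smul, inner_smul_right, mul_pow, Real.norm_eq_abs, sq_abs]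
    rw [e]
    have h5 : HasDerivAt (fun t : ℝ => ‖x‖ ^ 2 + 2 * (t * inner ℝ x v) + t ^ 2 * ‖v‖ ^ 2)
        (2 * (1 * inner ℝ x v) + (2 * t) * ‖v‖ ^ 2) t := by
      have h6 := ((hasDerivAt_id' t).mul_const (inner ℝ x v)).const_mul 2
      have h7 := (hasDerivAt_pow 2 t).mul_const (‖v‖ ^ 2)
      have h8 := (h6.const_add (‖x‖ ^ 2)).add h7
      refine h8.congr_deriv ?_
      simp
    refine (h5.const_mul (a / 2)).congr_deriv ?_
    ring
  have hd1 : ∀ t : ℝ, HasDerivAt (fun t : ℝ => U (x + t • v) - a / 2 * ‖x + t • v‖ ^ 2)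
      (fderiv ℝ U (x + t • v) v - a * (inner ℝ x v + t * ‖v‖ ^ 2)) t := fun t =>
    (RL983.line1 h2 x v t).sub (hq1 t)
  have hd2 : HasDerivAt (fun t : ℝ => fderiv ℝ U (x + t • v) v - a * (inner ℝ x v + t * ‖v‖ ^ 2))
      (fderiv ℝ (fderiv ℝ U) (x + (0:ℝ) • v) v v - a * ‖v‖ ^ 2) 0 := by
    have h5 : HasDerivAt (fun t : ℝ => a * (inner ℝ x v + t * ‖v‖ ^ 2)) (a * ‖v‖ ^ 2) 0 := by
      have := (((hasDerivAt_id' (0:ℝ)).mul_const (‖v‖ ^ 2)).const_add (inner ℝ x v)).const_mul a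
      simpa using this
    exact (RL983.line2 h2 x v 0).sub h5
  have hmono : Monotone (deriv fun t : ℝ => U (x + t • v) - a / 2 * ‖x + t • v‖ ^ 2) := by
    have := hline.monotoneOn_deriv (fun t _ => (hd1 t).differentiableAt)
    exact monotoneOn_univ.1 this
  have hde : (deriv fun t : ℝ => U (x + t • v) - a / 2 * ‖x + t • v‖ ^ 2)
      = fun t : ℝ => fderiv ℝ U (x + t • v) v - a * (inner ℝ x v + t * ‖v‖ ^ 2) :=
    funext fun t => (hd1 t).deriv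
  rw [hde] at hmono
  have h9 : 0 ≤ deriv (fun t : ℝ => fderiv ℝ U (x + t • v) v - a * (inner ℝ x v + t * ‖v‖ ^ 2)) 0 :=
    hmono.deriv_nonneg
  rw [hd2.deriv, zero_smul, add_zero] at h9
  linarith

theorem qf_upper_of_bdd {n : ℕ} {U : E n → ℝ} (hU : ContDiff ℝ (⊤ : ℕ∞) U) {B : ℝ}
    (hB : ∀ x, ‖iteratedFDeriv ℝ 2 U x‖ ≤ B) (x v : E n) : qf (hess U x) v ≤ B * ‖v‖ ^ 2 := by
  have h2 : ContDiff ℝ 2 U := by exact_mod_cast contDiff_infty.mp hU 2
  rw [RL983.qf_hess h2]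
  have h3 : ‖fderiv ℝ (fderiv ℝ U) x‖ ≤ B := by
    have := hB x
    rwa [show (2 : ℕ) = 1 + 1 by rfl, ← norm_iteratedFDeriv_fderiv, ← norm_iteratedFDeriv_fderiv,
      norm_iteratedFDeriv_zero] at this
  calc fderiv ℝ (fderiv ℝ U) x v v ≤ ‖fderiv ℝ (fderiv ℝ U) x v v‖ := Real.le_norm_self _
    _ ≤ ‖fderiv ℝ (fderiv ℝ U) x v‖ * ‖v‖ := ContinuousLinearMap.le_opNorm _ _
    _ ≤ ‖fderiv ℝ (fderiv ℝ U) x‖ * ‖v‖ * ‖v‖ := by gcongr; exact ContinuousLinearMap.le_opNorm _ _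
    _ ≤ B * ‖v‖ * ‖v‖ := by gcongr
    _ = B * ‖v‖ ^ 2 := by ring

variable {n : ℕ} {G : Type*} [NormedAddCommGroup G] [InnerProductSpace ℝ G] [FiniteDimensional ℝ G]
  [MeasurableSpace G] [BorelSpace G] {ν : Measure G}

theorem PhiH_integrable {W : E n → ℝ} {c C : ℝ} (h : Reg W c C) (P : G →L[ℝ] E n)
    (hint : ∀ c : ℝ, 0 < c → ∀ N : ℕ, Integrable (fun ζ : G => (1 + ‖ζ‖) ^ N * Real.exp (-(c * ‖ζ‖ ^ 2))) ν)
    (x : E n) : Integrable (fun z => Real.exp (-(PhiH W P (x, z)))) ν := by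
  set L : ℝ := ‖fderiv ℝ (PhiH W P) (x, 0)‖ with hL
  have h0 := (hint (1 / 4) (by norm_num) 0).const_mul (Real.exp (L ^ 2 - PhiH W P (x, 0)))
  have hcont : Continuous fun z : G => PhiH W P (x, z) :=
    (PhiH_smooth h.smooth P).continuous.comp (Continuous.prodMk_right x)
  refine h0.mono' (Real.continuous_exp.comp hcont.neg).aestronglyMeasurable (ae_of_all _ fun z => ?_)
  rw [Real.norm_eq_abs, abs_of_pos (Real.exp_pos _), pow_zero, one_mul, ← Real.exp_add]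
  refine Real.exp_le_exp.2 ?_
  have h1 := PhiH_taylor h P (x, 0) (0, z)
  have h2 : -(L * ‖z‖) ≤ fderiv ℝ (PhiH W P) (x, 0) (0, z) := by
    have h3 := (fderiv ℝ (PhiH W P) (x, 0)).le_opNorm (0, z)
    have h4 := neg_abs_le (fderiv ℝ (PhiH W P) (x, 0) (0, z))
    have h5 : ‖((0 : E n), z)‖ = ‖z‖ := by simp [Prod.norm_mk]
    rw [Real.norm_eq_abs, h5] at h3
    linarith
  have h6 : ((x, (0 : G)) + ((0 : E n), z)) = (x, z) := by simp
  rw [h6] at h1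
  have h7 : 0 ≤ c / 2 * ‖(0 : E n) + P z‖ ^ 2 := by
    have := h.c_pos
    positivity
  simp only at h1
  nlinarith [sq_nonneg (L - ‖z‖ / 2)]

/-- convexity of the marginal, via Prekopa on `Fin m → ℝ` -/
theorem Um_convex {W : E n → ℝ} {c C : ℝ} (h : Reg W c C) (P : G →L[ℝ] E n)
    (hint : ∀ c : ℝ, 0 < c → ∀ N : ℕ, Integrable (fun ζ : G => (1 + ‖ζ‖) ^ N * Real.exp (-(c * ‖ζ‖ ^ 2))) ν)
    {m : ℕ} (e : (Fin m → ℝ) →ₗ[ℝ] G) (he : MeasurePreserving e volume ν) (hm : MeasurableEmbedding e) :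
    ConvexOn ℝ Set.univ (fun x => Um ν (PhiH W P) x - c / (1 + c * ‖P‖ ^ 2) / 2 * ‖x‖ ^ 2) := by
  set a : ℝ := c / (1 + c * ‖P‖ ^ 2) / 2 with ha
  have hc0 := PhiH_convex h P
  rw [← ha] at hc0
  have hi := PhiH_integrable h P hint
  have hi2 : ∀ x, Integrable (fun y : Fin m → ℝ => Real.exp (-(PhiH W P (x, e y) - a * ‖x‖ ^ 2))) := by
    intro x
    have h1 := (he.integrable_comp_emb hm).2 (hi x)
    have h2 := h1.const_mul (Real.exp (a * ‖x‖ ^ 2))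
    refine h2.congr (ae_of_all _ fun y => ?_)
    simp only [Function.comp_apply]
    rw [← Real.exp_add]
    congr 1
    ring
  have hF : ConvexOn ℝ Set.univ (fun p : (Fin m → ℝ) × E n => PhiH W P (p.2, e p.1) - a * ‖p.2‖ ^ 2) := by
    refine ⟨convex_univ, fun x _ y _ s t hs ht hst => ?_⟩
    have h1 := hc0.2 (Set.mem_univ (x.2, e x.1)) (Set.mem_univ (y.2, e y.1)) hs ht hst
    have h2 : s • (x.2, e x.1) + t • (y.2, e y.1) = ((s • x + t • y).2, e (s • x + t • y).1) := by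
      rw [Prod.fst_add, Prod.snd_add, Prod.smul_fst, Prod.smul_fst, Prod.smul_snd, Prod.smul_snd,
        map_add, map_smul, map_smul]
      rfl
    rw [h2] at h1
    exact h1
  have hpk := LKHB.prekopa_convex (fun (y : Fin m → ℝ) (x : E n) => PhiH W P (x, e y) - a * ‖x‖ ^ 2) hF hi2
  refine hpk.congr fun x _ => ?_
  have h3 : ∫ y : Fin m → ℝ, Real.exp (-(PhiH W P (x, e y) - a * ‖x‖ ^ 2))
      = Real.exp (a * ‖x‖ ^ 2) * ∫ z, Real.exp (-(PhiH W P (x, z))) ∂ν := by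
    rw [← he.integral_comp hm, ← integral_const_mul]
    refine integral_congr_ae (ae_of_all _ fun y => ?_)
    simp only
    rw [← Real.exp_add]
    congr 1
    ring
  have h4 : 0 < ∫ z, Real.exp (-(PhiH W P (x, z))) ∂ν := by
    rw [← he.integral_comp hm]
    exact integral_exp_pos ((he.integrable_comp_emb hm).2 (hi x))
  simp only
  rw [h3, Real.log_mul (Real.exp_pos _).ne' h4.ne', Real.log_exp]
  unfold Um
  ring

/-- general statement -/
theorem reg_Um {W : E n → ℝ} {c C : ℝ} (h : Reg W c C) (P : G →L[ℝ] E n) [ν.IsAddLeftInvariant]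
    (hint : ∀ c : ℝ, 0 < c → ∀ N : ℕ, Integrable (fun ζ : G => (1 + ‖ζ‖) ^ N * Real.exp (-(c * ‖ζ‖ ^ 2))) ν)
    (hne : ν ≠ 0)
    {m : ℕ} (e : (Fin m → ℝ) →ₗ[ℝ] G) (he : MeasurePreserving e volume ν) (hm : MeasurableEmbedding e) :
    ∃ C' : ℝ, Reg (Um ν (PhiH W P)) (c / (1 + c * ‖P‖ ^ 2)) C' := by
  have hPH := PH_PhiH h P
  have hsm := Um_contDiff (ν := ν) hPH hint hne
  obtain ⟨B, hB⟩ := Um_bdd (ν := ν) hPH hint hne 2 le_rfl
  have hc := h.c_pos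
  refine ⟨B, ⟨by positivity, hsm, ?_, ?_, fun k hk => Um_bdd hPH hint hne k hk⟩⟩
  · intro x v
    exact qf_lower_of_convex hsm (Um_convex h P hint e he hm) x v
  · intro x v
    exact qf_upper_of_bdd hsm hB x v

end Vale.Agent.P227.M.SC.Fam
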