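import Mathlib
import Vale.Agent.P227.M.SC.FamHeat2
import Vale.Agent.P227.M.SC2.Heat1Def
import Vale.Agent.P227.M.SC2.HeatDef

/-! # P227/M/SC: `stmtRG_330 : StmtRG`, `reg_heat1`, `reg_heat` -/

open MeasureTheory
open scoped Topology

namespace Vale.Agent.P227.M.SC.Fam

set_option linter.unusedSectionVars false

open Vale.Agent.P227.M

theorem hint_of_gauss {G : Type*} [NormedAddCommGroup G] [MeasurableSpace G] [BorelSpace G]
    [SecondCountableTopology G] {ν : Measure G}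
    (h : ∀ c : ℝ, 0 < c → Integrable (fun ζ : G => Real.exp (-(c * ‖ζ‖ ^ 2))) ν) (c : ℝ) (hc : 0 < c) (N : ℕ) :
    Integrable (fun ζ : G => (1 + ‖ζ‖) ^ N * Real.exp (-(c * ‖ζ‖ ^ 2))) ν := by
  have h1 := (h (c / 2) (by positivity)).const_mul (N.factorial * Real.exp (1 + 1 / (2 * c)))
  refine h1.mono' (by fun_prop) (ae_of_all _ fun ζ => ?_)
  have hr := norm_nonneg ζ
  rw [Real.norm_eq_abs, abs_of_nonneg (by positivity)]
  have h2 : (1 + ‖ζ‖) ^ N ≤ N.factorial * Real.exp (1 + ‖ζ‖) := by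
    have := Real.pow_div_factorial_le_exp (x := 1 + ‖ζ‖) (by positivity) N
    rw [div_le_iff₀ (by positivity)] at this
    linarith
  calc (1 + ‖ζ‖) ^ N * Real.exp (-(c * ‖ζ‖ ^ 2))
      ≤ (N.factorial * Real.exp (1 + ‖ζ‖)) * Real.exp (-(c * ‖ζ‖ ^ 2)) := by gcongr
    _ = N.factorial * Real.exp ((1 + ‖ζ‖) + (-(c * ‖ζ‖ ^ 2))) := by
        rw [Real.exp_add (1 + ‖ζ‖) _]; ring
    _ ≤ N.factorial * Real.exp ((1 + 1 / (2 * c)) + (-(c / 2 * ‖ζ‖ ^ 2))) := by
        gcongr N.factorial * Real.exp ?_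
        have h3 : 0 ≤ (c * ‖ζ‖ - 1) ^ 2 / (2 * c) := by positivity
        have h4 : (c * ‖ζ‖ - 1) ^ 2 / (2 * c) = c / 2 * ‖ζ‖ ^ 2 - ‖ζ‖ + 1 / (2 * c) := by
          field_simp
          ring
        linarith
    _ = N.factorial * Real.exp (1 + 1 / (2 * c)) * Real.exp (-(c / 2 * ‖ζ‖ ^ 2)) := by
        rw [Real.exp_add (1 + 1 / (2 * c)) _]; ring

theorem reg_heat1_explicit {n : ℕ} {W : E n → ℝ} {c C : ℝ} (h : Reg W c C) (p : E n) :
    ∃ C' : ℝ, Reg (heat1 W p) (c / (1 + c * ‖p‖ ^ 2)) C' := by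
  set P : ℝ →L[ℝ] E n := ContinuousLinearMap.toSpanSingleton ℝ p with hP
  have hg : ∀ c : ℝ, 0 < c → Integrable (fun ζ : ℝ => Real.exp (-(c * ‖ζ‖ ^ 2))) := by
    intro c hc
    refine (integrable_exp_neg_mul_sq hc).congr (ae_of_all _ fun x => ?_)
    simp
  have he : MeasurePreserving (LinearMap.proj (R := ℝ) (φ := fun _ : Fin 1 => ℝ) 0)
      volume (volume : Measure ℝ) := volume_preserving_funUnique (Fin 1) ℝ
  have hm : MeasurableEmbedding (LinearMap.proj (R := ℝ) (φ := fun _ : Fin 1 => ℝ) 0) :=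
    (MeasurableEquiv.funUnique (Fin 1) ℝ).measurableEmbedding
  obtain ⟨C', hC'⟩ := reg_Um (ν := (volume : Measure ℝ)) h P (hint_of_gauss hg)
    (NeZero.ne _) _ he hm
  have h1 : ‖P‖ = ‖p‖ := ContinuousLinearMap.norm_toSpanSingleton p
  have h2 : Um (volume : Measure ℝ) (PhiH W P) = heat1 W p := by
    funext x
    unfold Um heat1
    congr 2
    refine integral_congr_ae (ae_of_all _ fun g => ?_)
    simp only [PhiH, hP, ContinuousLinearMap.toSpanSingleton_apply, Real.norm_eq_abs, sq_abs]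
    congr 1
    ring
  rw [h1, h2] at hC'
  exact ⟨C', hC'⟩

theorem stmtRG_330 : StmtRG := by
  intro n W c C h p
  obtain ⟨C', h'⟩ := reg_heat1_explicit h p
  exact ⟨_, C', h'⟩

theorem reg_heat_explicit {n : ℕ} {W : E n → ℝ} {c C : ℝ} (h : Reg W c C) (P : E n →L[ℝ] E n) :
    ∃ C' : ℝ, Reg (heat W P) (c / (1 + c * ‖P‖ ^ 2)) C' := by
  have he : MeasurePreserving (WithLp.linearEquiv 2 ℝ (Fin n → ℝ)).symm.toLinearMap
      volume (volume : Measure (E n)) := PiLp.volume_preserving_toLp (Fin n)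
  have hm : MeasurableEmbedding (WithLp.linearEquiv 2 ℝ (Fin n → ℝ)).symm.toLinearMap :=
    (MeasurableEquiv.toLp 2 (Fin n → ℝ)).measurableEmbedding
  have hg : ∀ c : ℝ, 0 < c → Integrable (fun ζ : E n => Real.exp (-(c * ‖ζ‖ ^ 2))) := by
    intro c hc
    rw [← he.integrable_comp_emb hm]
    have h1 : Integrable (fun x : Fin n → ℝ => ∏ i, Real.exp (-(c * (x i) ^ 2))) := by
      refine Integrable.fintype_prod (𝕜 := ℝ) (ι := Fin n) (E := ℝ) (μ := fun _ => volume)
        (f := fun _ => fun g : ℝ => Real.exp (-(c * g ^ 2))) (fun _ => ?_)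
      refine (integrable_exp_neg_mul_sq hc).congr (ae_of_all _ fun x => ?_)
      simp
    refine h1.congr (ae_of_all _ fun x => ?_)
    simp only [Function.comp_apply]
    rw [← Real.exp_sum, EuclideanSpace.norm_sq_eq]
    congr 1
    rw [Finset.sum_neg_distrib, Finset.mul_sum]
    simp
  obtain ⟨C', hC'⟩ := reg_Um (ν := (volume : Measure (E n))) h P (hint_of_gauss hg)
    (NeZero.ne _) _ he hm
  have h2 : Um (volume : Measure (E n)) (PhiH W P) = heat W P := by
    funext x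
    unfold Um heat
    congr 2
    refine integral_congr_ae (ae_of_all _ fun g => ?_)
    simp only [PhiH]
    congr 1
    ring
  rw [h2] at hC'
  exact ⟨C', hC'⟩

end Vale.Agent.P227.M.SC.Fam
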