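import Mathlib

/-!
# P227, SC: calculus with the weight `e^{-W}` on the line

Good functions (continuous, polynomial growth) form an algebra; the expectation is a linear map
on it; integration by parts, the Stein field, Poincare, a maximum principle.
-/

open MeasureTheory Set Filter Real
open scoped Topology

namespace Vale.Agent.P227.M.Fib

/-- good functions -/
def GS : Subalgebra ℝ (ℝ → ℝ) where
  carrier := {f | Continuous f ∧ ∃ (C : ℝ) (k : ℕ), 0 ≤ C ∧ ∀ z, |f z| ≤ C * (1 + |z|) ^ k}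
  mul_mem' := by
    rintro f g ⟨hf, C, k, hC, h⟩ ⟨hg, C', k', hC', h'⟩
    refine ⟨hf.mul hg, C * C', k + k', by positivity, fun z => ?_⟩
    rw [Pi.mul_apply, abs_mul]
    calc |f z| * |g z| ≤ (C * (1 + |z|) ^ k) * (C' * (1 + |z|) ^ k') :=
          mul_le_mul (h z) (h' z) (abs_nonneg _) (by positivity)
      _ = _ := by ring
  add_mem' := by
    rintro f g ⟨hf, C, k, hC, h⟩ ⟨hg, C', k', hC', h'⟩
    refine ⟨hf.add hg, C + C', k + k', by positivity, fun z => ?_⟩
    have h1 : (1 : ℝ) ≤ 1 + |z| := by linarith [abs_nonneg z]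
    have h2 : (1 + |z|) ^ k ≤ (1 + |z|) ^ (k + k') := pow_le_pow_right₀ h1 (by omega)
    have h3 : (1 + |z|) ^ k' ≤ (1 + |z|) ^ (k + k') := pow_le_pow_right₀ h1 (by omega)
    rw [Pi.add_apply]
    calc |f z + g z| ≤ |f z| + |g z| := abs_add_le _ _
      _ ≤ C * (1 + |z|) ^ k + C' * (1 + |z|) ^ k' := add_le_add (h z) (h' z)
      _ ≤ C * (1 + |z|) ^ (k + k') + C' * (1 + |z|) ^ (k + k') :=
          add_le_add (mul_le_mul_of_nonneg_left h2 hC) (mul_le_mul_of_nonneg_left h3 hC')
      _ = _ := by ring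
  algebraMap_mem' := by
    intro r
    refine ⟨continuous_const, |r|, 0, abs_nonneg r, fun z => ?_⟩
    simp

/-- good functions, as a type -/
abbrev GF := GS

instance : CoeFun GS (fun _ => ℝ → ℝ) := ⟨Subtype.val⟩

theorem gcont (f : GS) : Continuous (f : ℝ → ℝ) := f.2.1

theorem ggrowth (f : GS) : ∃ (C : ℝ) (k : ℕ), 0 ≤ C ∧ ∀ z, |f z| ≤ C * (1 + |z|) ^ k := f.2.2

@[simp] theorem GS.add_ap (f g : GS) (z : ℝ) : (f + g : GS) z = f z + g z := rfl
@[simp] theorem GS.mul_ap (f g : GS) (z : ℝ) : (f * g : GS) z = f z * g z := rfl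
@[simp] theorem GS.neg_ap (f : GS) (z : ℝ) : (-f : GS) z = -f z := rfl
@[simp] theorem GS.sub_ap (f g : GS) (z : ℝ) : (f - g : GS) z = f z - g z := rfl
@[simp] theorem GS.smul_ap (r : ℝ) (f : GS) (z : ℝ) : (r • f : GS) z = r * f z := rfl
@[simp] theorem GS.one_ap (z : ℝ) : (1 : GS) z = 1 := rfl
@[simp] theorem GS.zero_ap (z : ℝ) : (0 : GS) z = 0 := rfl
@[simp] theorem GS.pow_ap (f : GS) (k : ℕ) (z : ℝ) : (f ^ k : GS) z = (f z) ^ k := rfl
@[simp] theorem GS.alg_ap (r : ℝ) (z : ℝ) : (algebraMap ℝ GS r) z = r := rfl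

/-- bounded continuous functions are good -/
def GS.bdd (f : ℝ → ℝ) (hf : Continuous f) (B : ℝ) (h : ∀ z, |f z| ≤ B) : GS :=
  ⟨f, hf, B, 0, (abs_nonneg _).trans (h 0), fun z => by simpa using h z⟩

/-- linear growth -/
def GS.lin (f : ℝ → ℝ) (hf : Continuous f) (B : ℝ) (hB : 0 ≤ B) (h : ∀ z, |f z| ≤ B * (1 + |z|)) :
    GS := ⟨f, hf, B, 1, hB, fun z => by simpa using h z⟩

/-- identity -/
def GS.X : GS := GS.lin (fun z => z) continuous_id 1 zero_le_one (fun z => by linarith [abs_nonneg z])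

@[simp] theorem GS.X_ap (z : ℝ) : GS.X z = z := rfl

/-- absolute value -/
def GS.abs (f : GS) : GS := ⟨fun z => |f z|, (gcont f).abs, by
  obtain ⟨C, k, hC, h⟩ := ggrowth f
  exact ⟨C, k, hC, fun z => by rw [abs_abs]; exact h z⟩⟩

@[simp] theorem GS.abs_ap (f : GS) (z : ℝ) : (GS.abs f) z = |f z| := rfl

/-- square root -/
noncomputable def GS.sqrt (f : GS) : GS := ⟨fun z => √(f z), (gcont f).sqrt, by
  obtain ⟨C, k, hC, h⟩ := ggrowth f
  refine ⟨1 + C, k, by positivity, fun z => ?_⟩
  rw [abs_of_nonneg (Real.sqrt_nonneg _)]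
  have h1 : (1 : ℝ) ≤ (1 + |z|) ^ k := one_le_pow₀ (by linarith [abs_nonneg z])
  have h2 := h z
  have h3 := le_abs_self (f z)
  have h4 : √(f z) ≤ 1 + |f z| := by
    rw [Real.sqrt_le_left (by positivity)]
    nlinarith [abs_nonneg (f z)]
  calc √(f z) ≤ 1 + |f z| := h4
    _ ≤ (1 + |z|) ^ k + C * (1 + |z|) ^ k := add_le_add h1 h2
    _ = _ := by ring⟩

@[simp] theorem GS.sqrt_ap (f : GS) (z : ℝ) : (GS.sqrt f) z = √(f z) := rfl

/-- the weight -/
structure Wgt (W : ℝ → ℝ) (w d : GS) (α β : ℝ) : Prop where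
  hα : 0 < α
  hW : ∀ z, HasDerivAt W (w z) z
  hw : ∀ z, HasDerivAt w (d z) z
  lo : ∀ z, α ≤ d z
  hi : ∀ z, d z ≤ β
  h0 : w 0 = 0
  nrm : ∫ z, Real.exp (-W z) = 1

section
variable {W : ℝ → ℝ} {w d : GS} {α β : ℝ}

/-- mean value -/
theorem mv {F g : ℝ → ℝ} (hF : ∀ z, HasDerivAt F (g z) z) (x y : ℝ) :
    ∃ s, F y - F x = g s * (y - x) := by
  rcases lt_trichotomy x y with h | h | h
  · obtain ⟨s, -, hs⟩ := exists_hasDerivAt_eq_slope F g h
      (fun z _ => (hF z).continuousAt.continuousWithinAt) (fun z _ => hF z)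
    refine ⟨s, ?_⟩
    rw [hs]
    have : y - x ≠ 0 := by linarith
    field_simp
  · exact ⟨x, by rw [h]; ring⟩
  · obtain ⟨s, -, hs⟩ := exists_hasDerivAt_eq_slope F g h
      (fun z _ => (hF z).continuousAt.continuousWithinAt) (fun z _ => hF z)
    refine ⟨s, ?_⟩
    rw [hs]
    have : x - y ≠ 0 := by linarith
    field_simp
    ring

theorem Wgt.mul_self_le (h : Wgt W w d α β) (z : ℝ) : α * z ^ 2 ≤ w z * z := by
  obtain ⟨s, hs⟩ := mv h.hw 0 z
  rw [h.h0, sub_zero, sub_zero] at hs
  rw [hs]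
  nlinarith [h.lo s, sq_nonneg z]

theorem Wgt.abs_w_le (h : Wgt W w d α β) (z : ℝ) : |w z| ≤ β * |z| := by
  obtain ⟨s, hs⟩ := mv h.hw 0 z
  rw [h.h0, sub_zero, sub_zero] at hs
  rw [hs, abs_mul, abs_of_pos (h.hα.trans_le (h.lo s))]
  exact mul_le_mul_of_nonneg_right (h.hi s) (abs_nonneg z)

theorem Wgt.αβ (h : Wgt W w d α β) : α ≤ β := (h.lo 0).trans (h.hi 0)

theorem Wgt.quad (h : Wgt W w d α β) (z : ℝ) : W 0 + α / 2 * z ^ 2 ≤ W z := by
  set F : ℝ → ℝ := fun z => W z - α / 2 * z ^ 2 with hF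
  have hd : ∀ z, HasDerivAt F (w z - α * z) z := by
    intro z
    have h1 := (h.hW z).sub (((hasDerivAt_id z).pow 2).const_mul (α / 2))
    refine h1.congr_deriv ?_
    simp
    ring
  have hpos : F 0 ≤ F z := by
    rcases lt_trichotomy 0 z with hz | hz | hz
    · obtain ⟨s, hs, he⟩ := exists_hasDerivAt_eq_slope F (fun z => w z - α * z) hz
        (fun z _ => (hd z).continuousAt.continuousWithinAt) (fun z _ => hd z)
      have h1 := h.mul_self_le s
      have h2 : 0 ≤ w s - α * s := by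
        have := hs.1
        by_contra hcon
        push Not at hcon
        nlinarith
      rw [he, le_div_iff₀ (by linarith)] at h2
      linarith
    · rw [hz]
    · obtain ⟨s, hs, he⟩ := exists_hasDerivAt_eq_slope F (fun z => w z - α * z) hz
        (fun z _ => (hd z).continuousAt.continuousWithinAt) (fun z _ => hd z)
      have h1 := h.mul_self_le s
      have h2 : w s - α * s ≤ 0 := by
        have := hs.2
        by_contra hcon
        push Not at hcon
        nlinarith
      rw [he, div_le_iff₀ (by linarith)] at h2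
      linarith
  simp only [hF] at hpos
  nlinarith

theorem Wgt.cW (h : Wgt W w d α β) : Continuous W :=
  continuous_iff_continuousAt.2 fun z => (h.hW z).continuousAt

theorem Wgt.integrable (h : Wgt W w d α β) (f : GS) :
    Integrable (fun z => f z * Real.exp (-W z)) := by
  obtain ⟨C, k, hC, hf⟩ := ggrowth f
  have hα := h.hα
  have h1 : Integrable (fun z : ℝ => (C * (k.factorial : ℝ) * Real.exp (1 - W 0 + 1 / α)) *
      Real.exp (-(α / 4) * z ^ 2)) := (integrable_exp_neg_mul_sq (by positivity)).const_mul _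
  refine h1.mono' ((gcont f).mul (h.cW.neg.rexp)).aestronglyMeasurable (ae_of_all _ fun z => ?_)
  rw [Real.norm_eq_abs, abs_mul, abs_of_pos (Real.exp_pos _)]
  have h2 : (1 + |z|) ^ k ≤ (k.factorial : ℝ) * Real.exp (1 + |z|) := by
    have := Real.pow_div_factorial_le_exp (1 + |z|) (by positivity) k
    rw [div_le_iff₀ (by positivity)] at this
    linarith
  have h3 : Real.exp (-W z) ≤ Real.exp (-W 0 - α / 2 * z ^ 2) :=
    Real.exp_le_exp.2 (by linarith [h.quad z])
  have h4 : |z| ≤ 1 / α + α / 4 * z ^ 2 := by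
    have h5 : 0 ≤ (1 / α) * (α / 2 * |z| - 1) ^ 2 := by positivity
    have h6 : (1 / α) * (α / 2 * |z| - 1) ^ 2 = α / 4 * |z| ^ 2 - |z| + 1 / α := by
      field_simp
      ring
    rw [h6, sq_abs] at h5
    linarith
  calc |f z| * Real.exp (-W z) ≤ (C * ((k.factorial : ℝ) * Real.exp (1 + |z|))) *
        Real.exp (-W 0 - α / 2 * z ^ 2) :=
        mul_le_mul ((hf z).trans (mul_le_mul_of_nonneg_left h2 hC)) h3 (Real.exp_pos _).le
          (by positivity)
    _ = C * (k.factorial : ℝ) * (Real.exp (1 + |z|) * Real.exp (-W 0 - α / 2 * z ^ 2)) := by ring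
    _ = C * (k.factorial : ℝ) * Real.exp (1 + |z| + (-W 0 - α / 2 * z ^ 2)) := by
        rw [← Real.exp_add]
    _ ≤ C * (k.factorial : ℝ) * Real.exp (1 - W 0 + 1 / α + -(α / 4) * z ^ 2) :=
        mul_le_mul_of_nonneg_left (Real.exp_le_exp.2 (by linarith)) (by positivity)
    _ = _ := by rw [Real.exp_add]; ring

/-- the expectation -/
noncomputable def Wgt.ev (h : Wgt W w d α β) : GS →ₗ[ℝ] ℝ where
  toFun f := ∫ z, f z * Real.exp (-W z)
  map_add' f g := by
    rw [← integral_add (h.integrable f) (h.integrable g)]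
    refine integral_congr_ae (ae_of_all _ fun z => ?_)
    simp only [GS.add_ap]
    ring
  map_smul' r f := by
    rw [RingHom.id_apply, smul_eq_mul, ← integral_const_mul]
    refine integral_congr_ae (ae_of_all _ fun z => ?_)
    simp only [GS.smul_ap]
    ring

theorem Wgt.ev_def (h : Wgt W w d α β) (f : GS) : h.ev f = ∫ z, f z * Real.exp (-W z) := rfl

theorem Wgt.ev_one (h : Wgt W w d α β) : h.ev 1 = 1 := by
  rw [h.ev_def]
  simpa using h.nrm

theorem Wgt.ev_mono (h : Wgt W w d α β) {f g : GS} (hfg : ∀ z, f z ≤ g z) : h.ev f ≤ h.ev g :=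
  integral_mono (h.integrable f) (h.integrable g) fun z =>
    mul_le_mul_of_nonneg_right (hfg z) (Real.exp_pos _).le

theorem Wgt.ev_nonneg (h : Wgt W w d α β) {f : GS} (hf : ∀ z, 0 ≤ f z) : 0 ≤ h.ev f := by
  have := h.ev_mono (f := 0) (g := f) (fun z => by simpa using hf z)
  rwa [map_zero] at this

theorem Wgt.ev_alg (h : Wgt W w d α β) (r : ℝ) : h.ev (algebraMap ℝ GS r) = r := by
  rw [Algebra.algebraMap_eq_smul_one, map_smul, h.ev_one, smul_eq_mul, mul_one]

/-- integration by parts -/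
theorem Wgt.ibp (h : Wgt W w d α β) {f g : GS} (hfg : ∀ z, HasDerivAt f (g z) z) :
    h.ev g = h.ev (w * f) := by
  have h1 : ∫ z, (g z * Real.exp (-W z) - (w * f : GS) z * Real.exp (-W z)) = 0 := by
    refine integral_eq_zero_of_hasDerivAt_of_integrable (f := fun z => f z * Real.exp (-W z))
      (fun z => ?_) ((h.integrable g).sub (h.integrable (w * f))) (h.integrable f)
    have h2 := (hfg z).mul ((h.hW z).neg.exp)
    refine h2.congr_deriv ?_
    simp only [GS.mul_ap, Pi.neg_apply]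
    ring
  rw [integral_sub (h.integrable g) (h.integrable (w * f))] at h1
  rw [h.ev_def, h.ev_def]
  linarith

theorem Wgt.ev_w (h : Wgt W w d α β) : h.ev w = 0 := by
  have := h.ibp (f := 1) (g := 0) (fun z => hasDerivAt_const z (1 : ℝ))
  rw [map_zero, mul_one] at this
  exact this.symm

theorem Wgt.ev_sq (h : Wgt W w d α β) : h.ev (GS.X * GS.X) ≤ 1 / α := by
  have h1 := h.ibp (f := GS.X) (g := 1) (fun z => hasDerivAt_id z)
  rw [h.ev_one] at h1
  have h2 : h.ev (α • (GS.X * GS.X)) ≤ h.ev (w * GS.X) := h.ev_mono fun z => by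
    have := h.mul_self_le z
    simp only [GS.smul_ap, GS.mul_ap, GS.X_ap]
    nlinarith
  rw [map_smul, smul_eq_mul, ← h1] at h2
  rw [le_div_iff₀ h.hα]
  linarith

/-- monotone with mean zero -/
theorem Wgt.mono_zero (h : Wgt W w d α β) {f : GS} (hf : Monotone f) (h0 : h.ev f = 0) (z : ℝ) :
    ∫ x in Iic z, f x * Real.exp (-W x) ≤ 0 := by
  rcases le_or_gt (f z) 0 with h1 | h1
  · refine setIntegral_nonpos measurableSet_Iic fun x hx => ?_
    have : f x ≤ 0 := (hf hx).trans h1
    exact mul_nonpos_of_nonpos_of_nonneg this (Real.exp_pos _).le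
  · have h2 : 0 ≤ ∫ x in Ioi z, f x * Real.exp (-W x) :=
      setIntegral_nonneg measurableSet_Ioi fun x hx => by
        have : 0 ≤ f x := h1.le.trans (hf (le_of_lt hx))
        exact mul_nonneg this (Real.exp_pos _).le
    have h3 := integral_add_compl (measurableSet_Iic (a := z)) (h.integrable f)
    rw [compl_Iic] at h3
    rw [h.ev_def] at h0
    linarith

theorem Wgt.prim_w (h : Wgt W w d α β) (z : ℝ) :
    ∫ x in Iic z, w x * Real.exp (-W x) = -Real.exp (-W z) := by
  have hd : ∀ x, HasDerivAt (fun x => -Real.exp (-W x)) (w x * Real.exp (-W x)) x := fun x => by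
    have h2 := ((h.hW x).neg.exp).neg
    refine h2.congr_deriv ?_
    simp only [Pi.neg_apply]
    ring
  have hlim : Tendsto (fun x => -Real.exp (-W x)) atBot (𝓝 0) := by
    rw [← neg_zero]
    refine Tendsto.neg ?_
    rw [Real.tendsto_exp_comp_nhds_zero]
    have hα := h.hα
    refine tendsto_neg_atTop_atBot.comp (tendsto_atTop_mono h.quad ?_)
    refine tendsto_atTop_add_const_left _ _ (Tendsto.const_mul_atTop (by positivity) ?_)
    exact (tendsto_pow_atTop (two_ne_zero)).comp tendsto_neg_atBot_atTop |>.congr fun x => by simp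
  have := integral_Iic_of_hasDerivAt_of_tendsto' (a := z) (fun x _ => hd x)
    (h.integrable w).integrableOn hlim
  rw [this, sub_zero]

/-- the Stein field of a function with mean zero -/
theorem Wgt.stein (h : Wgt W w d α β) {Y y : GS} (hY : ∀ z, HasDerivAt Y (y z) z) {R : ℝ}
    (hR : 0 ≤ R) (hy : ∀ z, |y z| ≤ R * d z) (h0 : h.ev Y = 0) :
    ∃ q : GS, (∀ z, HasDerivAt q ((Y + w * q : GS) z) z) ∧ ∀ z, |q z| ≤ R := by
  set f : ℝ → ℝ := fun x => Y x * Real.exp (-W x) with hf
  have hfc : Continuous f := (gcont Y).mul (h.cW.neg.rexp)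
  have hfi : Integrable f := h.integrable Y
  have hP : ∀ z, ∫ x in Iic z, f x = (∫ x in Iic (0 : ℝ), f x) + ∫ x in (0 : ℝ)..z, f x := by
    intro z
    have := intervalIntegral.integral_Iic_sub_Iic (a := 0) (b := z) (f := f) (μ := volume)
      hfi.integrableOn hfi.integrableOn
    linarith
  have hPd : ∀ z, HasDerivAt (fun z => ∫ x in Iic z, f x) (f z) z := by
    intro z
    have h1 : HasDerivAt (fun z => (∫ x in Iic (0 : ℝ), f x) + ∫ x in (0 : ℝ)..z, f x) (f z) z :=
      ((hfc.integral_hasStrictDerivAt 0 z).hasDerivAt).const_add _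
    exact h1.congr_of_eventuallyEq (Filter.Eventually.of_forall hP)
  set q : ℝ → ℝ := fun z => Real.exp (W z) * ∫ x in Iic z, f x with hq
  have hqd : ∀ z, HasDerivAt q (Y z + w z * q z) z := by
    intro z
    have h1 := (h.hW z).exp.mul (hPd z)
    refine h1.congr_deriv ?_
    simp only [hq, hf]
    have h2 : Real.exp (W z) * (Y z * Real.exp (-W z)) = Y z := by
      rw [mul_left_comm, ← Real.exp_add, add_neg_cancel, Real.exp_zero, mul_one]
    rw [h2]
    ring
  have hmono : ∀ σ : ℝ, |σ| ≤ 1 → ∀ g : GS, (∀ z, HasDerivAt g (σ * y z + R * d z) z) →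
      Monotone g := by
    intro σ hσ g hg
    refine monotone_of_deriv_nonneg (fun z => (hg z).differentiableAt) fun z => ?_
    rw [(hg z).deriv]
    have h1 : |σ * y z| ≤ R * d z := by
      rw [abs_mul]
      calc |σ| * |y z| ≤ 1 * |y z| := mul_le_mul_of_nonneg_right hσ (abs_nonneg _)
        _ ≤ R * d z := by rw [one_mul]; exact hy z
    have := (abs_le.1 h1).1
    linarith
  have hb : ∀ z, |q z| ≤ R := by
    intro z
    have e1 : Real.exp (W z) * Real.exp (-W z) = 1 := by
      rw [← Real.exp_add, add_neg_cancel, Real.exp_zero]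
    have key : ∀ σ : ℝ, |σ| ≤ 1 → σ * q z ≤ R := by
      intro σ hσ
      have h1 := h.mono_zero (f := σ • Y + R • w) (hmono σ hσ _ (fun z => by
        have := ((hY z).const_mul σ).add ((h.hw z).const_mul R)
        exact this)) (by rw [map_add, map_smul, map_smul, h0, h.ev_w]; simp) z
      have h2 : ∫ x in Iic z, (σ • Y + R • w : GS) x * Real.exp (-W x) =
          σ * (∫ x in Iic z, f x) + R * (∫ x in Iic z, w x * Real.exp (-W x)) := by
        rw [← integral_const_mul, ← integral_const_mul, ← integral_add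
          (hfi.integrableOn.const_mul _) ((h.integrable w).integrableOn.const_mul _)]
        refine integral_congr_ae (ae_of_all _ fun x => ?_)
        simp only [GS.add_ap, GS.smul_ap, hf]
        ring
      rw [h2, h.prim_w] at h1
      have h3 := mul_le_mul_of_nonneg_left h1 (Real.exp_pos (W z)).le
      simp only [hq]
      nlinarith
    rw [abs_le]
    constructor
    · have := key (-1) (by norm_num)
      linarith
    · have := key 1 (by norm_num)
      linarith
  refine ⟨GS.bdd q (continuous_iff_continuousAt.2 fun z => (hqd z).continuousAt) R hb,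
    fun z => ?_, hb⟩
  exact hqd z

/-- Poincare -/
theorem Wgt.poincare (h : Wgt W w d α β) {g g' : GS} (hg : ∀ z, HasDerivAt g (g' z) z) {L : ℝ}
    (hL : ∀ z, |g' z| ≤ L) :
    h.ev ((g - algebraMap ℝ GS (h.ev g)) * (g - algebraMap ℝ GS (h.ev g))) ≤
      1 / α * h.ev (g' * g') := by
  have hα := h.hα
  have hL0 : 0 ≤ L := (abs_nonneg _).trans (hL 0)
  set Y : GS := g - algebraMap ℝ GS (h.ev g) with hYd
  have hY : ∀ z, HasDerivAt Y (g' z) z := fun z => (hg z).sub_const (h.ev g)
  have hY0 : h.ev Y = 0 := by rw [hYd, map_sub, h.ev_alg, sub_self]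
  obtain ⟨q, hq, hqb⟩ := h.stein hY (R := L / α) (by positivity) (fun z => by
    calc |g' z| ≤ L := hL z
      _ = L / α * α := by field_simp
      _ ≤ L / α * d z := mul_le_mul_of_nonneg_left (h.lo z) (by positivity)) hY0
  -- `E Y² = - E q g'`
  have i1 : h.ev ((Y + w * q) * Y + q * g') = h.ev (w * (q * Y)) :=
    h.ibp fun z => (hq z).mul (hY z)
  have i2 : h.ev (d * (q * q) + w * ((Y + w * q) * q + q * (Y + w * q))) =
      h.ev (w * (w * (q * q))) := h.ibp fun z => (h.hw z).mul ((hq z).mul (hq z))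
  have e1 : h.ev (Y * Y) + h.ev (q * g') = 0 := by
    have : (Y + w * q) * Y + q * g' = (Y * Y + q * g') + w * (q * Y) := by ring
    rw [this, map_add, map_add] at i1
    linarith
  have e2 : h.ev (Y * Y) = h.ev ((Y + w * q) * (Y + w * q)) + h.ev (d * (q * q)) := by
    have : d * (q * q) + w * ((Y + w * q) * q + q * (Y + w * q)) =
      (d * (q * q) + ((Y + w * q) * (Y + w * q) - Y * Y)) + w * (w * (q * q)) := by ring
    rw [this, map_add, map_add, map_sub] at i2
    linarith
  have e3 : 0 ≤ h.ev ((Y + w * q) * (Y + w * q)) := h.ev_nonneg fun z => by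
    rw [GS.mul_ap]
    exact mul_self_nonneg _
  have e4 : α * h.ev (q * q) ≤ h.ev (d * (q * q)) := by
    rw [← smul_eq_mul, ← map_smul]
    refine h.ev_mono fun z => ?_
    simp only [GS.smul_ap, GS.mul_ap]
    exact mul_le_mul_of_nonneg_right (h.lo z) (mul_self_nonneg _)
  have e5 : -h.ev (q * g') ≤ α / 2 * h.ev (q * q) + 1 / (2 * α) * h.ev (g' * g') := by
    have e50 : h.ev (-(q * g')) ≤ h.ev ((α / 2) • (q * q) + (1 / (2 * α)) • (g' * g')) := ?_
    · rw [map_neg, map_add, map_smul, map_smul, smul_eq_mul, smul_eq_mul] at e50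
      exact e50
    refine h.ev_mono fun z => ?_
    simp only [GS.smul_ap, GS.mul_ap, GS.add_ap, GS.neg_ap]
    have h1 : 0 ≤ 1 / (2 * α) * (α * q z + g' z) ^ 2 := by positivity
    have h2 : 1 / (2 * α) * (α * q z + g' z) ^ 2 =
        α / 2 * (q z * q z) + q z * g' z + 1 / (2 * α) * (g' z * g' z) := by
      field_simp
      ring
    linarith
  have e6 : 1 / (2 * α) * h.ev (g' * g') = 1 / 2 * (1 / α * h.ev (g' * g')) := by
    field_simp
  linarith

/-- second derivative test at a maximum -/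
theorem max_test {f f1 f2 : ℝ → ℝ} (h1 : ∀ z, HasDerivAt f (f1 z) z)
    (h2 : ∀ z, HasDerivAt f1 (f2 z) z) {x : ℝ} (hx : ∀ y, f y ≤ f x) : f1 x = 0 ∧ f2 x ≤ 0 := by
  have e1 : f1 x = 0 := IsLocalMax.hasDerivAt_eq_zero (Filter.Eventually.of_forall hx) (h1 x)
  refine ⟨e1, ?_⟩
  by_contra hcon
  push Not at hcon
  have hs := hasDerivAt_iff_tendsto_slope.1 (h2 x)
  have hev : ∀ᶠ s in 𝓝[>] x, 0 < slope f1 x s :=
    (hs.eventually (lt_mem_nhds hcon)).filter_mono (nhdsWithin_mono _ fun s hs => ne_of_gt hs)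
  rw [eventually_nhdsWithin_iff] at hev
  obtain ⟨ε, hε, hball⟩ := Metric.eventually_nhds_iff.1 hev
  obtain ⟨s, hs, he⟩ := exists_hasDerivAt_eq_slope f f1 (show x < x + ε / 2 by linarith)
    (fun z _ => (h1 z).continuousAt.continuousWithinAt) (fun z _ => h1 z)
  have h3 : 0 < slope f1 x s := hball (by
    rw [Real.dist_eq, abs_of_pos (by linarith [hs.1])]
    linarith [hs.2]) hs.1
  rw [slope_def_field, e1, sub_zero] at h3
  have h4 : 0 < f1 s := by
    have := hs.1
    rcases div_pos_iff.1 h3 with h | h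
    · exact h.1
    · linarith [h.2]
  rw [he] at h4
  have h5 := hx (x + ε / 2)
  have h6 : (f (x + ε / 2) - f x) / (x + ε / 2 - x) ≤ 0 :=
    div_nonpos_of_nonpos_of_nonneg (by linarith) (by linarith)
  linarith

/-- one sided barrier: `-m'' + w m' + 2 d m ≤ k`, barrier `A ψ + S` -/
theorem Wgt.barrier1 (h : Wgt W w d α β) {m m1 : GS} {m2 : ℝ → ℝ}
    (h1 : ∀ z, HasDerivAt m (m1 z) z) (h2 : ∀ z, HasDerivAt m1 (m2 z) z) {C : ℝ}
    (hC : ∀ z, m z ≤ C * (1 + |z|)) {S A : ℝ} (hA : 0 ≤ A)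
    (hk : ∀ z, -m2 z + w z * m1 z + 2 * d z * m z ≤ d z * (2 * S + A * (2 / α + z ^ 2))) (z : ℝ) :
    m z ≤ S + A * (2 / α + z ^ 2) := by
  have hα := h.hα
  -- with an additional `τ ψ`
  have key : ∀ τ : ℝ, 0 < τ → m z ≤ S + (A + τ) * (2 / α + z ^ 2) := by
    intro τ hτ
    by_contra hcon
    push Not at hcon
    set f : ℝ → ℝ := fun z => m z - (S + (A + τ) * (2 / α + z ^ 2)) with hf
    have hf1 : ∀ z, HasDerivAt f (m1 z - (A + τ) * (2 * z)) z := by
      intro z
      have := (h1 z).sub (((((hasDerivAt_id z).pow 2).const_add (2 / α)).const_mul (A + τ)).const_add S)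
      refine this.congr_deriv ?_
      simp
    have hf2 : ∀ z, HasDerivAt (fun z => m1 z - (A + τ) * (2 * z)) (m2 z - (A + τ) * 2) z := by
      intro z
      have := (h2 z).sub (((hasDerivAt_id z).const_mul 2).const_mul (A + τ))
      refine this.congr_deriv ?_
      simp
    have hfc : Continuous f := continuous_iff_continuousAt.2 fun z => (hf1 z).continuousAt
    have hlim : Tendsto f (cocompact ℝ) atBot := by
      have hle : ∀ z, f z ≤ (|C| + |S| + |C| ^ 2 / (2 * τ)) - τ / 2 * ‖z‖ ^ 2 := by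
        intro z
        simp only [hf]
        have a1 := hC z
        have a2 : C * (1 + |z|) ≤ |C| * (1 + |z|) :=
          mul_le_mul_of_nonneg_right (le_abs_self C) (by positivity)
        have a3 : |C| * |z| ≤ |C| ^ 2 / (2 * τ) + τ / 2 * |z| ^ 2 := by
          have b1 : 0 ≤ 1 / (2 * τ) * (|C| - τ * |z|) ^ 2 := by positivity
          have b2 : 1 / (2 * τ) * (|C| - τ * |z|) ^ 2 =
              |C| ^ 2 / (2 * τ) - |C| * |z| + τ / 2 * |z| ^ 2 := by
            field_simp
            ring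
          linarith
        have a4 := neg_abs_le S
        have a5 : 0 ≤ A * (2 / α + z ^ 2) := by positivity
        have a6 : 0 ≤ τ * (2 / α) := by positivity
        have a7 : |z| ^ 2 = z ^ 2 := sq_abs z
        rw [Real.norm_eq_abs, a7]
        rw [a7] at a3
        nlinarith
      refine tendsto_atBot_mono hle ?_
      refine tendsto_atBot_add_const_left _ _ ?_ |>.congr fun z => by rw [sub_eq_add_neg]
      refine tendsto_neg_atTop_atBot.comp (Tendsto.const_mul_atTop (by positivity) ?_)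
      exact (tendsto_pow_atTop two_ne_zero).comp tendsto_norm_cocompact_atTop
    obtain ⟨x, hx⟩ := hfc.exists_forall_ge hlim
    obtain ⟨t1, t2⟩ := max_test hf1 hf2 hx
    have t3 : 0 < f x := lt_of_lt_of_le (by simp only [hf]; linarith) (hx z)
    have t4 := hk x
    have t5 := h.mul_self_le x
    have t6 := h.lo x
    have t7 : m1 x = (A + τ) * (2 * x) := by linarith
    have t8 : m2 x ≤ (A + τ) * 2 := by linarith
    have t9 : S + (A + τ) * (2 / α + x ^ 2) < m x := by
      simp only [hf] at t3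
      linarith
    rw [t7] at t4
    have t10 : 2 ≤ d x * (2 / α + x ^ 2) := by
      have b1 : α * (2 / α) = 2 := by field_simp
      have b2 : α * (2 / α + x ^ 2) ≤ d x * (2 / α + x ^ 2) :=
        mul_le_mul_of_nonneg_right t6 (by positivity)
      nlinarith [sq_nonneg x]
    have hdx : 0 < d x := hα.trans_le t6
    have t11 : d x * (S + (A + τ) * (2 / α + x ^ 2)) < d x * m x :=
      mul_lt_mul_of_pos_left t9 hdx
    have t12 : 0 ≤ w x * x := le_trans (by positivity) t5
    have t13 : 0 ≤ (A + τ) * (w x * x) := by positivity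
    have t14 : (A + τ) * 2 ≤ (A + τ) * (d x * (2 / α + x ^ 2)) :=
      mul_le_mul_of_nonneg_left t10 (by positivity)
    have t15 : 0 < τ * (d x * (2 / α + x ^ 2)) := by positivity
    nlinarith
  refine le_of_forall_pos_le_add fun ε hε => ?_
  have hψ : 0 < 2 / α + z ^ 2 := by positivity
  have := key (ε / (2 / α + z ^ 2)) (by positivity)
  have e : (A + ε / (2 / α + z ^ 2)) * (2 / α + z ^ 2) = A * (2 / α + z ^ 2) + ε := by
    field_simp
  rw [e] at this
  linarith

end

end Vale.Agent.P227.M.Fib
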