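import Mathlib

/-! # P227/M, block SC: algebra of self-concordant cubic forms in the plane (leaf of helper659) -/

namespace Vale.Agent.P227.M.Fib

def Qf (a b d x y : ℝ) : ℝ := a * x ^ 2 + 2 * b * x * y + d * y ^ 2

def Tf (T0 T1 T2 T3 x y : ℝ) : ℝ :=
  T0 * x ^ 3 + 3 * T1 * x ^ 2 * y + 3 * T2 * x * y ^ 2 + T3 * y ^ 3

/-- `T(u,v,v)`, `u = (x,y)`, `v = (p,q)` -/
def Tp (T0 T1 T2 T3 x y p q : ℝ) : ℝ :=
  T0 * (x * p ^ 2) + T1 * (y * p ^ 2 + 2 * x * p * q) + T2 * (2 * y * p * q + x * q ^ 2)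
    + T3 * (y * q ^ 2)

lemma fa_sq_le {x y : ℝ} (hy : 0 ≤ y) (h : x ^ 2 ≤ y ^ 2) : x ≤ y := abs_le_of_sq_le_sq' h hy |>.2

/-- the numerical inequality behind `polar` -/
lemma fa_cube {p m w : ℝ} (hp : 0 ≤ p) (hm : 0 ≤ m) (hw : 0 < w)
    (h1 : p ^ 2 + m ^ 2 = 5 / 2 * w ^ 2) (h2 : 9 / 16 * w ^ 4 ≤ p ^ 2 * m ^ 2) :
    p ^ 3 + m ^ 3 ≤ 7 / 2 * w ^ 3 := by
  have ht : 3 / 4 * w ^ 2 ≤ p * m := by
    apply fa_sq_le (mul_nonneg hp hm)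
    nlinarith
  have ht2 : p * m ≤ 5 / 4 * w ^ 2 := by nlinarith [sq_nonneg (p - m)]
  obtain ⟨e, he⟩ : ∃ e, p * m = 3 / 4 * w ^ 2 + e := ⟨p * m - 3 / 4 * w ^ 2, by ring⟩
  have he0 : 0 ≤ e := by linarith
  have he1 : e ≤ w ^ 2 / 2 := by linarith
  apply fa_sq_le (by positivity)
  have h3 : (p ^ 3 + m ^ 3) ^ 2 = (5 / 2 * w ^ 2 + 2 * (p * m)) * (5 / 2 * w ^ 2 - p * m) ^ 2 := by
    rw [← h1]
    ring
  rw [h3, he]
  have hw2 : 0 < w ^ 2 := by positivity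
  have h4 : 0 ≤ e ^ 2 * (w ^ 2 / 2 - e) := mul_nonneg (sq_nonneg e) (by linarith)
  have h5 : 0 ≤ w ^ 4 * e := mul_nonneg (by positivity) he0
  have h6 : 0 ≤ w ^ 2 * e ^ 2 := by positivity
  nlinarith [h4, h5, h6]

lemma fa_CS {a b d r w x y p q B : ℝ} (hQ : ∀ x y, 0 ≤ Qf a b d x y) (hr0 : 0 < r)
    (hr2 : r ^ 2 = Qf a b d x y) (hw2 : w ^ 2 = Qf a b d p q)
    (hB : B = a * x * p + b * (x * q + y * p) + d * y * q) : B ^ 2 ≤ r ^ 2 * w ^ 2 := by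
  have h4 := hQ (B * x - r ^ 2 * p) (B * y - r ^ 2 * q)
  have h5 : Qf a b d (B * x - r ^ 2 * p) (B * y - r ^ 2 * q) =
      B ^ 2 * Qf a b d x y - 2 * r ^ 2 * B * B + r ^ 4 * Qf a b d p q := by
    rw [hB]
    unfold Qf
    ring
  rw [h5, ← hr2, ← hw2] at h4
  have h6 : 0 ≤ r ^ 2 * (r ^ 2 * w ^ 2 - B ^ 2) := by linarith
  have h7 := nonneg_of_mul_nonneg_right h6 (by positivity)
  linarith

lemma fa_prod {a b d r w s x y p q : ℝ} (hQ : ∀ x y, 0 ≤ Qf a b d x y) (hr0 : 0 < r)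
    (hr2 : r ^ 2 = Qf a b d x y) (hw2 : w ^ 2 = Qf a b d p q) (hsr : s * r = w / 2) :
    9 / 16 * w ^ 4 ≤ Qf a b d (s * x + p) (s * y + q) * Qf a b d (s * x - p) (s * y - q) := by
  obtain ⟨B, hB⟩ : ∃ B, B = a * x * p + b * (x * q + y * p) + d * y * q := ⟨_, rfl⟩
  have h3 : Qf a b d (s * x + p) (s * y + q) * Qf a b d (s * x - p) (s * y - q) =
      (s ^ 2 * Qf a b d x y + Qf a b d p q) ^ 2 - 4 * (s * B) ^ 2 := by
    rw [hB]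
    unfold Qf
    ring
  have hCS := fa_CS hQ hr0 hr2 hw2 hB
  have h8 : (s * B) ^ 2 ≤ w ^ 4 / 4 := by
    calc (s * B) ^ 2 = s ^ 2 * B ^ 2 := by ring
      _ ≤ s ^ 2 * (r ^ 2 * w ^ 2) := mul_le_mul_of_nonneg_left hCS (sq_nonneg s)
      _ = (s * r) ^ 2 * w ^ 2 := by ring
      _ = w ^ 4 / 4 := by rw [hsr]; ring
  have h9 : s ^ 2 * Qf a b d x y + Qf a b d p q = 5 / 4 * w ^ 2 := by
    rw [← hr2, ← hw2, ← mul_pow, hsr]
    ring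
  have h10 : (5 / 4 * w ^ 2) ^ 2 = 25 / 16 * w ^ 4 := by ring
  rw [h3, h9, h10]
  linarith

lemma fa_sum {a b d r w s x y p q : ℝ}
    (hr2 : r ^ 2 = Qf a b d x y) (hw2 : w ^ 2 = Qf a b d p q) (hsr : s * r = w / 2) :
    Qf a b d (s * x + p) (s * y + q) + Qf a b d (s * x - p) (s * y - q) = 5 / 2 * w ^ 2 := by
  have h3 : Qf a b d (s * x + p) (s * y + q) + Qf a b d (s * x - p) (s * y - q) =
      2 * (s ^ 2 * Qf a b d x y) + 2 * Qf a b d p q := by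
    unfold Qf
    ring
  rw [h3, ← hr2, ← hw2, ← mul_pow, hsr]
  ring

/-- the polarisation step, with the three square roots as variables -/
lemma fa_pol {a b d T0 T1 T2 T3 c r w s P m x y p q : ℝ} (hc : 0 ≤ c)
    (hQ : ∀ x y, 0 ≤ Qf a b d x y)
    (sc : ∀ x y, |Tf T0 T1 T2 T3 x y| ≤ 2 * c * (Qf a b d x y * √(Qf a b d x y)))
    (hr0 : 0 < r) (hw0 : 0 < w)
    (hr2 : r ^ 2 = Qf a b d x y) (hw2 : w ^ 2 = Qf a b d p q) (hsr : s * r = w / 2)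
    (hP : P = √(Qf a b d (s * x + p) (s * y + q)))
    (hm : m = √(Qf a b d (s * x - p) (s * y - q))) :
    |6 * s * Tp T0 T1 T2 T3 x y p q| ≤ 15 / 2 * c * w ^ 3 := by
  have hP0 : 0 ≤ P := by rw [hP]; exact Real.sqrt_nonneg _
  have hm0 : 0 ≤ m := by rw [hm]; exact Real.sqrt_nonneg _
  have hP2 : P ^ 2 = Qf a b d (s * x + p) (s * y + q) := by
    rw [hP]; exact Real.sq_sqrt (hQ _ _)
  have hm2 : m ^ 2 = Qf a b d (s * x - p) (s * y - q) := by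
    rw [hm]; exact Real.sq_sqrt (hQ _ _)
  have e1 := sc (s * x + p) (s * y + q)
  have e2 := sc (s * x - p) (s * y - q)
  have e3 := sc (s * x) (s * y)
  rw [← hP, ← hP2] at e1
  rw [← hm, ← hm2] at e2
  have hQ3 : Qf a b d (s * x) (s * y) = (w / 2) ^ 2 := by
    rw [← hsr, mul_pow, hr2]
    unfold Qf
    ring
  rw [hQ3, Real.sqrt_sq (by positivity)] at e3
  have hsum : P ^ 2 + m ^ 2 = 5 / 2 * w ^ 2 := by
    rw [hP2, hm2]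
    exact fa_sum hr2 hw2 hsr
  have hprod : 9 / 16 * w ^ 4 ≤ P ^ 2 * m ^ 2 := by
    rw [hP2, hm2]
    exact fa_prod hQ hr0 hr2 hw2 hsr
  have hcube := fa_cube hP0 hm0 hw0 hsum hprod
  have hpol : 6 * s * Tp T0 T1 T2 T3 x y p q = Tf T0 T1 T2 T3 (s * x + p) (s * y + q)
      + Tf T0 T1 T2 T3 (s * x - p) (s * y - q) - 2 * Tf T0 T1 T2 T3 (s * x) (s * y) := by
    unfold Tp Tf
    ring
  have h6 : 2 * c * (P ^ 3 + m ^ 3) ≤ 2 * c * (7 / 2 * w ^ 3) :=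
    mul_le_mul_of_nonneg_left hcube (by linarith)
  have k1 : 2 * c * (P ^ 2 * P) + 2 * c * (m ^ 2 * m) = 2 * c * (P ^ 3 + m ^ 3) := by ring
  have k3 : 2 * c * ((w / 2) ^ 2 * (w / 2)) = 1 / 4 * (c * w ^ 3) := by ring
  have k4 : 2 * c * (7 / 2 * w ^ 3) = 7 * (c * w ^ 3) := by ring
  have k5 : 15 / 2 * c * w ^ 3 = 15 / 2 * (c * w ^ 3) := by ring
  rw [k3] at e3
  rw [k4, ← k1] at h6
  rw [hpol, k5]
  generalize Tf T0 T1 T2 T3 (s * x + p) (s * y + q) = t1 at *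
  generalize Tf T0 T1 T2 T3 (s * x - p) (s * y - q) = t2 at *
  generalize Tf T0 T1 T2 T3 (s * x) (s * y) = t3 at *
  generalize 2 * c * (P ^ 2 * P) = z1 at *
  generalize 2 * c * (m ^ 2 * m) = z2 at *
  generalize c * w ^ 3 = z3 at *
  have h3 := abs_le.1 e1
  have h4 := abs_le.1 e2
  have h5 := abs_le.1 e3
  rw [abs_le]
  constructor
  · linarith [h3.1, h4.1, h5.2]
  · linarith [h3.2, h4.2, h5.1]

theorem polar {a b d T0 T1 T2 T3 c : ℝ} (hc : 0 ≤ c) (hQ : ∀ x y, 0 ≤ Qf a b d x y)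
    (sc : ∀ x y, |Tf T0 T1 T2 T3 x y| ≤ 2 * c * (Qf a b d x y * √(Qf a b d x y)))
    (x y p q : ℝ) (h1 : 0 < Qf a b d x y) (h2 : 0 < Qf a b d p q) :
    |Tp T0 T1 T2 T3 x y p q| ≤ 5 / 2 * c * √(Qf a b d x y) * Qf a b d p q := by
  obtain ⟨r, hr⟩ : ∃ r, r = √(Qf a b d x y) := ⟨_, rfl⟩
  obtain ⟨w, hw⟩ : ∃ w, w = √(Qf a b d p q) := ⟨_, rfl⟩
  have hr0 : 0 < r := by rw [hr]; exact Real.sqrt_pos.2 h1
  have hw0 : 0 < w := by rw [hw]; exact Real.sqrt_pos.2 h2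
  have hr2 : r ^ 2 = Qf a b d x y := by rw [hr]; exact Real.sq_sqrt h1.le
  have hw2 : w ^ 2 = Qf a b d p q := by rw [hw]; exact Real.sq_sqrt h2.le
  rw [← hr, ← hw2]
  have hsr : w / (2 * r) * r = w / 2 := by field_simp
  have habs := fa_pol hc hQ sc hr0 hw0 hr2 hw2 hsr rfl rfl
  have hs0 : 0 < 6 * (w / (2 * r)) := by positivity
  rw [abs_mul, abs_of_pos hs0] at habs
  have h10 : 6 * (w / (2 * r)) = 3 * w / r := by
    field_simp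
    ring
  rw [h10] at habs
  have h11 : 3 * w / r * |Tp T0 T1 T2 T3 x y p q| ≤ 3 * w / r * (5 / 2 * c * r * w ^ 2) := by
    refine habs.trans (le_of_eq ?_)
    field_simp
    ring
  exact le_of_mul_le_mul_left h11 (by positivity)

lemma fa_h5 {X U r z : ℝ} (hr0 : 0 < r) (hr2 : r ^ 2 = X) (hX : 0 < X) (hU : 0 ≤ U) (hUX : U ≤ X)
    (hz2 : z ^ 2 = X + U) : (X + U) * z ≤ X * r + 2 * r * U := by
  apply fa_sq_le (by positivity)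
  have h6 : ((X + U) * z) ^ 2 = (X + U) ^ 3 := by
    rw [mul_pow, hz2]
    ring
  have h7 : (X * r + 2 * r * U) ^ 2 = X * (X + 2 * U) ^ 2 := by
    have : (X * r + 2 * r * U) ^ 2 = r ^ 2 * (X + 2 * U) ^ 2 := by ring
    rw [this, hr2]
  have h8 : 0 ≤ U * (X - U) * (X + U) :=
    mul_nonneg (mul_nonneg hU (by linarith)) (by linarith)
  have h9 : 0 ≤ U ^ 2 * X := by positivity
  have h10 : X * (X + 2 * U) ^ 2 - (X + U) ^ 3 = U * (X - U) * (X + U) + U ^ 2 * X := by ring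
  rw [h6, h7]
  linarith

/-- the third order term -/
lemma fa_h12 {s δ D X r c p3 : ℝ} (hc : 0 < c) (hr0 : 0 < r) (hr2 : r ^ 2 = X)
    (hδ2 : δ ^ 2 = D) (hD0 : 0 < D) (hs : s ^ 2 * D ≤ X)
    (hp3b : |p3| ≤ 2 * c * (D * δ)) : -(s ^ 3 * p3) ≤ s ^ 2 * (2 * c * D * r) := by
  have hsδ : |s| * δ ≤ r := by
    apply fa_sq_le hr0.le
    rw [mul_pow, sq_abs, hδ2, hr2]
    exact hs
  have h13 : -(s ^ 3 * p3) ≤ |s| ^ 3 * |p3| := by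
    rw [← abs_pow, ← abs_mul]
    exact neg_le_abs _
  have h14 : |s| ^ 3 * |p3| ≤ |s| ^ 3 * (2 * c * (D * δ)) :=
    mul_le_mul_of_nonneg_left hp3b (by positivity)
  have h15 : |s| ^ 3 * (2 * c * (D * δ)) = s ^ 2 * (2 * c * D) * (|s| * δ) := by
    rw [← sq_abs s]
    ring
  have h16 : s ^ 2 * (2 * c * D) * (|s| * δ) ≤ s ^ 2 * (2 * c * D) * r :=
    mul_le_mul_of_nonneg_left hsδ (by positivity)
  have h17 : s ^ 2 * (2 * c * D) * r = s ^ 2 * (2 * c * D * r) := by ring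
  linarith

lemma fa_h11 {s p2 c r D : ℝ} (hp2b : |p2| ≤ 5 / 2 * c * r * D) :
    -(3 * s ^ 2 * p2) ≤ 3 * s ^ 2 * (5 / 2 * c * r * D) := by
  have h := (abs_le.1 hp2b).1
  have h2 : 3 * s ^ 2 * (-p2) ≤ 3 * s ^ 2 * (5 / 2 * c * r * D) :=
    mul_le_mul_of_nonneg_left (by linarith) (by positivity)
  linarith

/-- the cubic inequality -/
lemma fa_cubic {X D r δ c s A t0 g p2 p3 : ℝ} (hc : 0 < c) (hX0 : 0 < X) (hD0 : 0 < D)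
    (hr0 : 0 < r) (hr2 : r ^ 2 = X) (hδ2 : δ ^ 2 = D)
    (hp2b : |p2| ≤ 5 / 2 * c * r * D) (hp3b : |p3| ≤ 2 * c * (D * δ))
    (hA : A = 2 * c * (X * r) - t0) (hs : s ^ 2 * D ≤ X)
    (h3 : t0 + 3 * s * g + 3 * s ^ 2 * p2 + s ^ 3 * p3 ≤
      2 * c * ((X + s ^ 2 * D) * √(X + s ^ 2 * D))) :
    3 * s * g ≤ A + 27 / 2 * c * r * D * s ^ 2 := by
  have hU : 0 ≤ s ^ 2 * D := by positivity
  have hz2 : √(X + s ^ 2 * D) ^ 2 = X + s ^ 2 * D := Real.sq_sqrt (by positivity)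
  have h5 := fa_h5 hr0 hr2 hX0 hU hs hz2
  have h10 : 2 * c * ((X + s ^ 2 * D) * √(X + s ^ 2 * D)) ≤
      2 * c * (X * r + 2 * r * (s ^ 2 * D)) :=
    mul_le_mul_of_nonneg_left h5 (by linarith)
  have h11 := fa_h11 (s := s) hp2b
  have h12 := fa_h12 hc hr0 hr2 hδ2 hD0 hs hp3b
  have h18 : 27 / 2 * c * r * D * s ^ 2 = 2 * c * (2 * r * (s ^ 2 * D)) +
      3 * s ^ 2 * (5 / 2 * c * r * D) + s ^ 2 * (2 * c * D * r) := by ring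
  rw [h18, hA]
  linarith

/-- optimisation in `s` -/
lemma fa_opt {X D r δ c d A g : ℝ} (hc : 0 < c) (hX0 : 0 < X) (hD0 : 0 < D) (hDd : D ≤ d)
    (hr0 : 0 < r) (hr2 : r ^ 2 = X) (hδ2 : δ ^ 2 = D) (hA0 : 0 ≤ A)
    (hgb : |g| ≤ 5 / 2 * c * δ * X)
    (hcub : ∀ s : ℝ, s ^ 2 * D ≤ X → 3 * s * g ≤ A + 27 / 2 * c * r * D * s ^ 2) :
    g ^ 2 ≤ 27 / 4 * c * r * d * A := by
  obtain ⟨B, hB⟩ : ∃ B, B = 27 / 2 * c * r * D := ⟨_, rfl⟩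
  have hB0 : 0 < B := by rw [hB]; positivity
  have hs : (g / B) ^ 2 * D ≤ X := by
    rw [div_pow, div_mul_eq_mul_div, div_le_iff₀ (by positivity)]
    have h3 : g ^ 2 ≤ (5 / 2 * c * δ * X) ^ 2 := by
      rw [← sq_abs g]
      exact pow_le_pow_left₀ (abs_nonneg g) hgb 2
    have h4 : g ^ 2 * D ≤ (5 / 2 * c * δ * X) ^ 2 * D := mul_le_mul_of_nonneg_right h3 hD0.le
    have h5 : (5 / 2 * c * δ * X) ^ 2 * D = 25 / 4 * (c ^ 2 * D ^ 2 * X ^ 2) := by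
      rw [mul_pow, mul_pow, mul_pow, hδ2]
      ring
    have h6 : X * B ^ 2 = 729 / 4 * (c ^ 2 * D ^ 2 * X ^ 2) := by
      rw [hB, mul_pow, mul_pow, mul_pow, hr2]
      ring
    rw [h5] at h4
    rw [h6]
    have h7 : 0 ≤ c ^ 2 * D ^ 2 * X ^ 2 := by positivity
    linarith
  have hfin := hcub (g / B) hs
  rw [← hB] at hfin
  have h20 : 3 * (g / B) * g = 3 * (g ^ 2 / B) := by ring
  have h21 : B * (g / B) ^ 2 = g ^ 2 / B := by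
    field_simp
  rw [h20, h21] at hfin
  have h22 : g ^ 2 / B ≤ A / 2 := by linarith
  rw [div_le_iff₀ hB0] at h22
  have h24 : A / 2 * B = 27 / 4 * c * r * A * D := by
    rw [hB]
    ring
  have h25 : 27 / 4 * c * r * A * D ≤ 27 / 4 * c * r * A * d :=
    mul_le_mul_of_nonneg_left hDd (by positivity)
  have h26 : 27 / 4 * c * r * d * A = 27 / 4 * c * r * A * d := by ring
  rw [h26]
  linarith

/-- the orthogonal decomposition: `e₂ - (κ/X) (1,ζ)` is orthogonal to `(1,ζ)` -/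
lemma fa_orth {a b d X κ P q D ζ : ℝ} (hX0 : 0 < X) (hXe : X = Qf a b d 1 ζ)
    (hκ : κ = b + d * ζ) (hP : P = -(κ / X)) (hq : q = 1 - κ / X * ζ) (hD : D = Qf a b d P q)
    (s : ℝ) : Qf a b d (1 + s * P) (ζ + s * q) = X + s ^ 2 * D := by
  have h3 : Qf a b d (1 + s * P) (ζ + s * q) =
      Qf a b d 1 ζ + 2 * s * (a * P + b * (q + ζ * P) + d * ζ * q) + s ^ 2 * Qf a b d P q := by
    unfold Qf
    ring
  have h4 : a * P + b * (q + ζ * P) + d * ζ * q = κ - κ / X * Qf a b d 1 ζ := by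
    rw [hP, hq, hκ]
    unfold Qf
    ring
  rw [h3, h4, ← hXe, ← hD, div_mul_cancel₀ _ hX0.ne']
  ring

lemma fa_Dd {a b d X κ P q D ζ : ℝ} (hX0 : 0 < X) (hXe : X = Qf a b d 1 ζ)
    (hκ : κ = b + d * ζ) (hP : P = -(κ / X)) (hq : q = 1 - κ / X * ζ) (hD : D = Qf a b d P q) :
    D ≤ d := by
  have h3 : D = d - 2 * (κ / X) * κ + (κ / X) ^ 2 * Qf a b d 1 ζ := by
    rw [hD, hP, hq, hκ]
    unfold Qf
    ring
  rw [← hXe] at h3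
  have h4 : (κ / X) ^ 2 * X = (κ / X) * κ := by
    field_simp
  have h5 : 0 ≤ κ / X * κ := by
    have : κ / X * κ = κ ^ 2 / X := by ring
    rw [this]
    positivity
  rw [h3, h4]
  linarith

theorem penal {a b d T0 T1 T2 T3 c ζ : ℝ} (hc : 0 < c)
    (hpos : ∀ x y, (x, y) ≠ ((0 : ℝ), (0 : ℝ)) → 0 < Qf a b d x y)
    (sc : ∀ x y, |Tf T0 T1 T2 T3 x y| ≤ 2 * c * (Qf a b d x y * √(Qf a b d x y))) :
    (T1 + 2 * T2 * ζ + T3 * ζ ^ 2 - (b + d * ζ) / Qf a b d 1 ζ * Tf T0 T1 T2 T3 1 ζ) ^ 2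
      ≤ 27 / 4 * c * √(Qf a b d 1 ζ) * d
        * (2 * c * (Qf a b d 1 ζ * √(Qf a b d 1 ζ)) - Tf T0 T1 T2 T3 1 ζ) := by
  have hQ : ∀ x y, 0 ≤ Qf a b d x y := by
    intro x y
    by_cases h : (x, y) = ((0 : ℝ), (0 : ℝ))
    · rw [Prod.mk.injEq] at h
      rw [h.1, h.2]
      unfold Qf
      norm_num
    · exact (hpos x y h).le
  obtain ⟨X, hXe⟩ : ∃ X, X = Qf a b d 1 ζ := ⟨_, rfl⟩
  obtain ⟨κ, hκ⟩ : ∃ κ, κ = b + d * ζ := ⟨_, rfl⟩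
  obtain ⟨t0, ht0⟩ : ∃ t0, t0 = Tf T0 T1 T2 T3 1 ζ := ⟨_, rfl⟩
  obtain ⟨r, hr⟩ : ∃ r, r = √X := ⟨_, rfl⟩
  have hX0 : 0 < X := by rw [hXe]; exact hpos 1 ζ (by simp)
  rw [← hXe, ← hκ, ← ht0, ← hr]
  obtain ⟨P, hP⟩ : ∃ P, P = -(κ / X) := ⟨_, rfl⟩
  obtain ⟨q, hq⟩ : ∃ q, q = 1 - κ / X * ζ := ⟨_, rfl⟩
  obtain ⟨D, hD⟩ : ∃ D, D = Qf a b d P q := ⟨_, rfl⟩
  have hne : (P, q) ≠ ((0 : ℝ), (0 : ℝ)) := by
    intro h
    rw [Prod.mk.injEq] at h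
    have h3 : κ / X = 0 := by linarith [h.1, hP]
    have h4 := h.2
    rw [hq, h3] at h4
    norm_num at h4
  have hD0 : 0 < D := by rw [hD]; exact hpos P q hne
  have horth := fa_orth hX0 hXe hκ hP hq hD
  have hDd := fa_Dd hX0 hXe hκ hP hq hD
  obtain ⟨δ, hδ⟩ : ∃ δ, δ = √D := ⟨_, rfl⟩
  have hr0 : 0 < r := by rw [hr]; exact Real.sqrt_pos.2 hX0
  have hr2 : r ^ 2 = X := by rw [hr]; exact Real.sq_sqrt hX0.le
  have hδ2 : δ ^ 2 = D := by rw [hδ]; exact Real.sq_sqrt hD0.le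
  obtain ⟨g, hg⟩ : ∃ g, g = Tp T0 T1 T2 T3 P q 1 ζ := ⟨_, rfl⟩
  obtain ⟨p2, hp2⟩ : ∃ p2, p2 = Tp T0 T1 T2 T3 1 ζ P q := ⟨_, rfl⟩
  obtain ⟨p3, hp3⟩ : ∃ p3, p3 = Tf T0 T1 T2 T3 P q := ⟨_, rfl⟩
  have hge : T1 + 2 * T2 * ζ + T3 * ζ ^ 2 - κ / X * t0 = g := by
    rw [hg, ht0, hP, hq]
    unfold Tp Tf
    ring
  have hXQ : 0 < Qf a b d 1 ζ := by rw [← hXe]; exact hX0
  have hDQ : 0 < Qf a b d P q := by rw [← hD]; exact hD0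
  have hgb : |g| ≤ 5 / 2 * c * δ * X := by
    have h3 := polar hc.le hQ sc P q 1 ζ hDQ hXQ
    rw [← hg, ← hD, ← hδ, ← hXe] at h3
    exact h3
  have hp2b : |p2| ≤ 5 / 2 * c * r * D := by
    have h3 := polar hc.le hQ sc 1 ζ P q hXQ hDQ
    rw [← hp2, ← hXe, ← hr, ← hD] at h3
    exact h3
  have hp3b : |p3| ≤ 2 * c * (D * δ) := by
    have h3 := sc P q
    rw [← hp3, ← hD, ← hδ] at h3
    exact h3
  have hA0 : 0 ≤ 2 * c * (X * r) - t0 := by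
    have h3 := (abs_le.1 (sc 1 ζ)).2
    rw [← hXe, ← hr, ← ht0] at h3
    linarith
  rw [hge]
  refine fa_opt hc hX0 hD0 hDd hr0 hr2 hδ2 hA0 hgb ?_
  intro s hs
  refine fa_cubic hc hX0 hD0 hr0 hr2 hδ2 hp2b hp3b rfl hs ?_
  have h3 := (abs_le.1 (sc (1 + s * P) (ζ + s * q))).2
  have h4 : Tf T0 T1 T2 T3 (1 + s * P) (ζ + s * q) = t0 + 3 * s * g + 3 * s ^ 2 * p2 + s ^ 3 * p3 := by
    rw [ht0, hg, hp2, hp3]
    unfold Tp Tf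
    ring
  rw [h4, horth s] at h3
  exact h3

end Vale.Agent.P227.M.Fib
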