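import Vale.Agent.P227.M.SC.Fib0
import Vale.Agent.P227.M.SC.FibAlg

/-!
# P227, SC: the fibre lemma (self-concordance of a marginal, one variable, at one point)
-/

open MeasureTheory Set Filter Real
open scoped Topology

namespace Vale.Agent.P227.M.Fib

/-- data on one fibre: `W(t, ·)` at a fixed `t` -/
structure Fdat (W : ℝ → ℝ) (w d a b Wt T0 T1 T2 T3 : GS) (α β c : ℝ) : Prop where
  g : Wgt W w d α β
  hWt : ∀ z, HasDerivAt Wt (b z) z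
  ha : ∀ z, HasDerivAt a (T1 z) z
  hb : ∀ z, HasDerivAt b (T2 z) z
  hd : ∀ z, HasDerivAt d (T3 z) z
  hc : 0 < c
  qlo : ∀ z x y, α * (x ^ 2 + y ^ 2) ≤ Qf (a z) (b z) (d z) x y
  qhi : ∀ z x y, Qf (a z) (b z) (d z) x y ≤ β * (x ^ 2 + y ^ 2)
  sc : ∀ z x y, |Tf (T0 z) (T1 z) (T2 z) (T3 z) x y| ≤
    2 * c * (Qf (a z) (b z) (d z) x y * √(Qf (a z) (b z) (d z) x y))

section

variable {W : ℝ → ℝ} {w d a b Wt T0 T1 T2 T3 : GS} {α β c : ℝ}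

theorem dev {W : ℝ → ℝ} {w d : GS} {α β : ℝ} (h : Wgt W w d α β) {g g' : GS}
    (hg : ∀ z, HasDerivAt g (g' z) z) {L : ℝ} (hL : ∀ z, |g' z| ≤ L) (z : ℝ) :
    |g z - h.ev g| ≤ L * (|z| + (1 + 1 / α) / 2) := by
  have hL0 : 0 ≤ L := (abs_nonneg _).trans (hL 0)
  have h1 : ∀ x, |g z - g x| ≤ L * (|z| + (1 + x * x) / 2) := by
    intro x
    obtain ⟨s, hs⟩ := mv hg x z
    rw [hs, abs_mul]
    have e1 : |x| ≤ (1 + x * x) / 2 := by nlinarith [sq_nonneg (|x| - 1), sq_abs x]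
    calc |g' s| * |z - x| ≤ L * (|z| + |x|) :=
          mul_le_mul (hL s) (abs_sub _ _) (abs_nonneg _) hL0
      _ ≤ _ := mul_le_mul_of_nonneg_left (by linarith) hL0
  have h2 := h.ev_sq
  have e3 : h.ev (algebraMap ℝ GS (g z - L * (|z| + 1 / 2)) - (L / 2) • (GS.X * GS.X)) ≤ h.ev g :=
    h.ev_mono fun x => by
      have := (abs_le.1 (h1 x)).2
      simp only [GS.sub_ap, GS.alg_ap, GS.smul_ap, GS.mul_ap, GS.X_ap]
      linarith
  have e4 : h.ev g ≤ h.ev (algebraMap ℝ GS (g z + L * (|z| + 1 / 2)) + (L / 2) • (GS.X * GS.X)) :=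
    h.ev_mono fun x => by
      have := (abs_le.1 (h1 x)).1
      simp only [GS.add_ap, GS.alg_ap, GS.smul_ap, GS.mul_ap, GS.X_ap]
      linarith
  rw [map_sub, h.ev_alg, map_smul, smul_eq_mul] at e3
  rw [map_add, h.ev_alg, map_smul, smul_eq_mul] at e4
  have e5 : L / 2 * h.ev (GS.X * GS.X) ≤ L / 2 * (1 / α) :=
    mul_le_mul_of_nonneg_left h2 (by positivity)
  rw [abs_le]
  constructor <;> linarith

theorem Fdat.posQ (h : Fdat W w d a b Wt T0 T1 T2 T3 α β c) (z x y : ℝ) (hxy : (x, y) ≠ (0, 0)) :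
    0 < Qf (a z) (b z) (d z) x y := by
  refine lt_of_lt_of_le ?_ (h.qlo z x y)
  have hα := h.g.hα
  have : x ≠ 0 ∨ y ≠ 0 := by
    by_contra hcon
    push Not at hcon
    exact hxy (by rw [hcon.1, hcon.2])
  rcases this with h1 | h1
  · positivity
  · positivity

theorem Fdat.nnQ (h : Fdat W w d a b Wt T0 T1 T2 T3 α β c) (z x y : ℝ) :
    0 ≤ Qf (a z) (b z) (d z) x y :=
  (mul_nonneg h.g.hα.le (by positivity)).trans (h.qlo z x y)

theorem Fdat.abs_b (h : Fdat W w d a b Wt T0 T1 T2 T3 α β c) (z : ℝ) : |b z| ≤ β := by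
  have h1 := h.qhi z 1 1
  have h2 := h.qhi z 1 (-1)
  have h3 := h.qlo z 1 0
  have h4 := h.qlo z 0 1
  have hα := h.g.hα
  simp only [Qf] at h1 h2 h3 h4
  rw [abs_le]
  constructor <;> nlinarith

/-- the fields on the fibre -/
structure Fld (h : Fdat W w d a b Wt T0 T1 T2 T3 α β c) (ζ m κ X X' t0 tt hh Y : GS) : Prop where
  eY : Y = Wt - algebraMap ℝ GS (h.g.ev Wt)
  em : m = Y + w * ζ
  eκ : κ = b + d * ζ
  eX : X = a + 2 * b * ζ + d * ζ ^ 2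
  ett : tt = T1 + 2 * T2 * ζ + T3 * ζ ^ 2
  ehh : hh = T2 + T3 * ζ
  et0 : t0 = T0 + 3 * T1 * ζ + 3 * T2 * ζ ^ 2 + T3 * ζ ^ 3
  eX' : X' = tt + 2 * κ * m
  hY : ∀ z, HasDerivAt Y (b z) z
  hζ : ∀ z, HasDerivAt ζ (m z) z
  hm : ∀ z, HasDerivAt m ((κ + w * m : GS) z) z
  hκ : ∀ z, HasDerivAt κ ((hh + d * m : GS) z) z
  hX : ∀ z, HasDerivAt X (X' z) z
  ζb : ∀ z, |ζ z| ≤ β / α

theorem Fdat.fld (h : Fdat W w d a b Wt T0 T1 T2 T3 α β c) :
    ∃ ζ m κ X X' t0 tt hh Y : GS, Fld h ζ m κ X X' t0 tt hh Y := by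
  have hα := h.g.hα
  have hβ : 0 < β := hα.trans_le h.g.αβ
  have hY : ∀ z, HasDerivAt (Wt - algebraMap ℝ GS (h.g.ev Wt) : GS) (b z) z := fun z =>
    (h.hWt z).sub_const (h.g.ev Wt)
  obtain ⟨ζ, hζ, hζb⟩ := h.g.stein hY (R := β / α) (by positivity) (fun z => by
    calc |b z| ≤ β := h.abs_b z
      _ = β / α * α := by field_simp
      _ ≤ β / α * d z := mul_le_mul_of_nonneg_left (h.g.lo z) (by positivity))
    (by rw [map_sub, h.g.ev_alg, sub_self])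
  have hm : ∀ z, HasDerivAt ((Wt - algebraMap ℝ GS (h.g.ev Wt)) + w * ζ : GS)
      (((b + d * ζ) + w * ((Wt - algebraMap ℝ GS (h.g.ev Wt)) + w * ζ) : GS) z) z := fun z => by
    have := (hY z).add ((h.g.hw z).mul (hζ z))
    refine this.congr_deriv ?_
    simp only [GS.add_ap, GS.mul_ap, GS.sub_ap]
    ring
  have hκ : ∀ z, HasDerivAt (b + d * ζ : GS)
      (((T2 + T3 * ζ) + d * ((Wt - algebraMap ℝ GS (h.g.ev Wt)) + w * ζ) : GS) z) z := fun z => by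
    have := (h.hb z).add ((h.hd z).mul (hζ z))
    refine this.congr_deriv ?_
    simp only [GS.add_ap, GS.mul_ap, GS.sub_ap]
    ring
  refine ⟨ζ, (Wt - algebraMap ℝ GS (h.g.ev Wt)) + w * ζ, b + d * ζ, a + 2 * b * ζ + d * ζ ^ 2,
    (T1 + 2 * T2 * ζ + T3 * ζ ^ 2) + 2 * (b + d * ζ) * ((Wt - algebraMap ℝ GS (h.g.ev Wt)) + w * ζ),
    T0 + 3 * T1 * ζ + 3 * T2 * ζ ^ 2 + T3 * ζ ^ 3, T1 + 2 * T2 * ζ + T3 * ζ ^ 2, T2 + T3 * ζ,
    Wt - algebraMap ℝ GS (h.g.ev Wt), rfl, rfl, rfl, rfl, rfl, rfl, rfl, rfl, hY, hζ, hm, hκ,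
    fun z => ?_, hζb⟩
  have e1 : HasDerivAt (fun z => a z + 2 * (b z * ζ z) + d z * (ζ z * ζ z))
      (T1 z + 2 * (T2 z * ζ z + b z * ((Wt - algebraMap ℝ GS (h.g.ev Wt)) + w * ζ : GS) z) +
        (T3 z * (ζ z * ζ z) + d z * (((Wt - algebraMap ℝ GS (h.g.ev Wt)) + w * ζ : GS) z * ζ z +
          ζ z * ((Wt - algebraMap ℝ GS (h.g.ev Wt)) + w * ζ : GS) z))) z :=
    ((h.ha z).add (((h.hb z).mul (hζ z)).const_mul 2)).add ((h.hd z).mul ((hζ z).mul (hζ z)))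
  have e2 : ((a + 2 * b * ζ + d * ζ ^ 2 : GS) : ℝ → ℝ) =
      fun z => a z + 2 * (b z * ζ z) + d z * (ζ z * ζ z) := by
    funext x
    have e3 : (a + 2 * b * ζ + d * ζ ^ 2 : GS) = a + (b * ζ + b * ζ) + d * (ζ * ζ) := by ring
    rw [e3]
    simp only [GS.add_ap, GS.mul_ap]
    ring
  have e4 : ((T1 + 2 * T2 * ζ + T3 * ζ ^ 2) + 2 * (b + d * ζ) *
      ((Wt - algebraMap ℝ GS (h.g.ev Wt)) + w * ζ) : GS) =
      T1 + (T2 * ζ + T2 * ζ) + T3 * (ζ * ζ) + ((b + d * ζ) *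
      ((Wt - algebraMap ℝ GS (h.g.ev Wt)) + w * ζ) + (b + d * ζ) *
      ((Wt - algebraMap ℝ GS (h.g.ev Wt)) + w * ζ)) := by ring
  rw [e2, e4]
  refine e1.congr_deriv ?_
  simp only [GS.add_ap, GS.mul_ap]
  ring

variable {h : Fdat W w d a b Wt T0 T1 T2 T3 α β c} {ζ m κ X X' t0 tt hh Y : GS}

/-- second derivative -/
theorem Fld.second (F : Fld h ζ m κ X X' t0 tt hh Y) :
    h.g.ev X + h.g.ev (m * m) = h.g.ev a - h.g.ev (Y * Y) := by
  have j1 := h.g.ibp (f := ζ * Y) (g := m * Y + ζ * b) fun z => (F.hζ z).mul (F.hY z)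
  have j2 := h.g.ibp (f := m * ζ) (g := (κ + w * m) * ζ + m * m) fun z => (F.hm z).mul (F.hζ z)
  have e1 : m * Y + ζ * b = Y * Y + b * ζ + w * (ζ * Y) := by rw [F.em]; ring
  have e2 : (κ + w * m) * ζ + m * m = b * ζ + d * ζ ^ 2 + m * m + w * (m * ζ) := by
    rw [F.eκ]; ring
  rw [e1, map_add, map_add] at j1
  rw [e2, map_add, map_add, map_add] at j2
  have e3 : X = a + (b * ζ + b * ζ) + d * ζ ^ 2 := by rw [F.eX]; ring
  rw [e3, map_add, map_add, map_add]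
  linarith

/-- third derivative -/
theorem Fld.third (F : Fld h ζ m κ X X' t0 tt hh Y) :
    h.g.ev t0 - 2 * h.g.ev (m * m * m) =
      h.g.ev T0 - 3 * h.g.ev (Y * a) + h.g.ev (Y * Y * Y) := by
  have j3 := h.g.ibp (f := ζ * a) (g := m * a + ζ * T1) fun z => (F.hζ z).mul (h.ha z)
  have j4 := h.g.ibp (f := ζ * (Y * Y)) (g := m * (Y * Y) + ζ * (b * Y + Y * b)) fun z =>
    (F.hζ z).mul ((F.hY z).mul (F.hY z))
  have j5 := h.g.ibp (f := ζ * (ζ * b)) (g := m * (ζ * b) + ζ * (m * b + ζ * T2)) fun z =>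
    (F.hζ z).mul ((F.hζ z).mul (h.hb z))
  have j6 := h.g.ibp (f := ζ * (ζ * κ)) (g := m * (ζ * κ) + ζ * (m * κ + ζ * (hh + d * m)))
    fun z => (F.hζ z).mul ((F.hζ z).mul (F.hκ z))
  have j7 := h.g.ibp (f := m * (m * ζ)) (g := (κ + w * m) * (m * ζ) + m * ((κ + w * m) * ζ + m * m))
    fun z => (F.hm z).mul ((F.hm z).mul (F.hζ z))
  have j8 := h.g.ibp (f := w * (ζ * (ζ * m)))
    (g := d * (ζ * (ζ * m)) + w * (m * (ζ * m) + ζ * (m * m + ζ * (κ + w * m))))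
    fun z => (h.g.hw z).mul ((F.hζ z).mul ((F.hζ z).mul (F.hm z)))
  have e3 : m * a + ζ * T1 = Y * a + T1 * ζ + w * (ζ * a) := by rw [F.em]; ring
  have e4 : m * (Y * Y) + ζ * (b * Y + Y * b) = Y * Y * Y + (ζ * Y * b + ζ * Y * b) +
      w * (ζ * (Y * Y)) := by rw [F.em]; ring
  have e5 : m * (ζ * b) + ζ * (m * b + ζ * T2) = ζ * m * b + T2 * ζ ^ 2 + ζ * Y * b +
      w * (ζ * (ζ * b)) := by rw [F.em]; ring
  have e6 : m * (ζ * κ) + ζ * (m * κ + ζ * (hh + d * m)) = (ζ * m * κ + ζ * m * κ) +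
      T2 * ζ ^ 2 + T3 * ζ ^ 3 + d * (ζ * (ζ * m)) := by rw [F.ehh]; ring
  have e7 : (κ + w * m) * (m * ζ) + m * ((κ + w * m) * ζ + m * m) = (ζ * m * κ + ζ * m * κ) +
      w * (m * (ζ * m)) + m * m * m + w * (m * (m * ζ)) := by ring
  have e8 : d * (ζ * (ζ * m)) + w * (m * (ζ * m) + ζ * (m * m + ζ * (κ + w * m))) =
      d * (ζ * (ζ * m)) + (w * (m * (ζ * m)) + w * (m * (ζ * m))) + w * (ζ * (ζ * κ)) +
        w * (w * (ζ * (ζ * m))) := by ring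
  have e9 : ζ * m * κ = ζ * m * b + d * (ζ * (ζ * m)) := by rw [F.eκ]; ring
  rw [e3, map_add, map_add] at j3
  rw [e4, map_add, map_add, map_add] at j4
  rw [e5, map_add, map_add, map_add] at j5
  rw [e6, map_add, map_add, map_add, map_add] at j6
  rw [e7, map_add, map_add, map_add, map_add] at j7
  rw [e8, map_add, map_add, map_add, map_add] at j8
  have e10 := congrArg h.g.ev e9
  rw [map_add] at e10
  have e11 : t0 = T0 + (T1 * ζ + T1 * ζ + T1 * ζ) + (T2 * ζ ^ 2 + T2 * ζ ^ 2 + T2 * ζ ^ 2) +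
      T3 * ζ ^ 3 := by rw [F.et0]; ring
  rw [e11, map_add, map_add, map_add, map_add, map_add, map_add, map_add]
  linarith

end

end Vale.Agent.P227.M.Fib
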