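import Vale.Agent.P227.M.SC.Fib1

/-!
# P227, SC: the fibre lemma, estimates
-/

open MeasureTheory Set Filter Real
open scoped Topology

namespace Vale.Agent.P227.M.Fib

@[simp] theorem two_ap (z : ℝ) : (2 : GS) z = 2 := rfl
@[simp] theorem three_ap (z : ℝ) : (3 : GS) z = 3 := rfl

section

variable {W : ℝ → ℝ} {w d a b Wt T0 T1 T2 T3 : GS} {α β c : ℝ}
variable {h : Fdat W w d a b Wt T0 T1 T2 T3 α β c} {ζ m κ X X' t0 tt hh Y : GS}

theorem Fld.Xq (F : Fld h ζ m κ X X' t0 tt hh Y) (z : ℝ) :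
    X z = Qf (a z) (b z) (d z) 1 (ζ z) := by
  rw [F.eX]
  simp only [GS.add_ap, GS.mul_ap, GS.pow_ap, two_ap, Qf]
  ring

theorem Fld.t0q (F : Fld h ζ m κ X X' t0 tt hh Y) (z : ℝ) :
    t0 z = Tf (T0 z) (T1 z) (T2 z) (T3 z) 1 (ζ z) := by
  rw [F.et0]
  simp only [GS.add_ap, GS.mul_ap, GS.pow_ap, three_ap, Tf]
  ring

theorem Fld.ttq (F : Fld h ζ m κ X X' t0 tt hh Y) (z : ℝ) :
    tt z = T1 z + 2 * T2 z * ζ z + T3 z * ζ z ^ 2 := by
  rw [F.ett]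
  simp only [GS.add_ap, GS.mul_ap, GS.pow_ap, two_ap]

theorem Fld.κq (F : Fld h ζ m κ X X' t0 tt hh Y) (z : ℝ) : κ z = b z + d z * ζ z := by
  rw [F.eκ]
  simp only [GS.add_ap, GS.mul_ap]

theorem Fld.Xlo (F : Fld h ζ m κ X X' t0 tt hh Y) (z : ℝ) : α ≤ X z := by
  rw [F.Xq]
  refine le_trans ?_ (h.qlo z 1 (ζ z))
  have := h.g.hα
  nlinarith [sq_nonneg (ζ z)]

theorem Fld.ζsq (F : Fld h ζ m κ X X' t0 tt hh Y) (z : ℝ) : ζ z ^ 2 ≤ (β / α) ^ 2 :=
  sq_le_sq' (by linarith [(abs_le.1 (F.ζb z)).1]) (abs_le.1 (F.ζb z)).2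

theorem Fld.Xhi (F : Fld h ζ m κ X X' t0 tt hh Y) (z : ℝ) : X z ≤ β * (1 + (β / α) ^ 2) := by
  rw [F.Xq]
  refine le_trans (h.qhi z 1 (ζ z)) ?_
  have hβ : 0 < β := h.g.hα.trans_le h.g.αβ
  have := F.ζsq z
  nlinarith

theorem Fdat.dQ (h : Fdat W w d a b Wt T0 T1 T2 T3 α β c) (z : ℝ) :
    Qf (a z) (b z) (d z) 0 1 = d z := by simp [Qf]

theorem Fld.κb (F : Fld h ζ m κ X X' t0 tt hh Y) (z : ℝ) : |κ z| ≤ β * (1 + β / α) := by
  have hβ : 0 < β := h.g.hα.trans_le h.g.αβ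
  rw [F.κq]
  have h1 : |d z| ≤ β := by
    rw [abs_of_pos (h.g.hα.trans_le (h.g.lo z))]
    exact h.g.hi z
  calc |b z + d z * ζ z| ≤ |b z| + |d z| * |ζ z| := by
        rw [← abs_mul]; exact abs_add_le _ _
    _ ≤ β + β * (β / α) :=
        add_le_add (h.abs_b z) (mul_le_mul h1 (F.ζb z) (abs_nonneg _) hβ.le)
    _ = _ := by ring

theorem Fld.hhb (F : Fld h ζ m κ X X' t0 tt hh Y) (z : ℝ) :
    |hh z| ≤ 5 / 2 * c * √(X z) * d z := by
  have h0 : 0 < Qf (a z) (b z) (d z) 1 (ζ z) := h.posQ z 1 (ζ z) (by simp)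
  have h1 : 0 < Qf (a z) (b z) (d z) 0 1 := h.posQ z 0 1 (by simp)
  have h2 := polar h.hc.le (h.nnQ z) (h.sc z) 1 (ζ z) 0 1 h0 h1
  rw [h.dQ, ← F.Xq] at h2
  have e : hh z = Tp (T0 z) (T1 z) (T2 z) (T3 z) 1 (ζ z) 0 1 := by
    rw [F.ehh]
    simp only [GS.add_ap, GS.mul_ap, Tp]
    ring
  rw [e]
  exact h2

theorem Fld.ttb (F : Fld h ζ m κ X X' t0 tt hh Y) (z : ℝ) :
    |tt z| ≤ 5 / 2 * c * √(d z) * X z := by
  have h0 : 0 < Qf (a z) (b z) (d z) 1 (ζ z) := h.posQ z 1 (ζ z) (by simp)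
  have h1 : 0 < Qf (a z) (b z) (d z) 0 1 := h.posQ z 0 1 (by simp)
  have h2 := polar h.hc.le (h.nnQ z) (h.sc z) 0 1 1 (ζ z) h1 h0
  rw [h.dQ, ← F.Xq] at h2
  have e : tt z = Tp (T0 z) (T1 z) (T2 z) (T3 z) 0 1 1 (ζ z) := by
    rw [F.ttq]
    simp only [Tp]
    ring
  rw [e]
  exact h2

theorem Fld.t0b (F : Fld h ζ m κ X X' t0 tt hh Y) (z : ℝ) :
    |t0 z| ≤ 2 * c * (X z * √(X z)) := by
  rw [F.t0q, F.Xq]
  exact h.sc z 1 (ζ z)

/-- two sided barrier -/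
theorem Fld.bar (F : Fld h ζ m κ X X' t0 tt hh Y) {S A : ℝ} (hA : 0 ≤ A)
    (hk : ∀ z, |hh z| ≤ d z * (2 * S + A * (2 / α + z ^ 2))) (z : ℝ) :
    |m z| ≤ S + A * (2 / α + z ^ 2) := by
  have hβ : 0 < β := h.g.hα.trans_le h.g.αβ
  have hα := h.g.hα
  have hm2 : ∀ z, HasDerivAt (κ + w * m : GS)
      ((hh + d * m : GS) z + (d z * m z + w z * (κ + w * m : GS) z)) z := fun z =>
    (F.hκ z).add ((h.g.hw z).mul (F.hm z))
  have hgr : ∀ z, |m z| ≤ (|Y 0| + β + β * (β / α)) * (1 + |z|) := by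
    intro z
    obtain ⟨s, hs⟩ := mv F.hY 0 z
    rw [sub_zero] at hs
    have e1 : |Y z| ≤ |Y 0| + β * |z| := by
      have : Y z = Y 0 + b s * z := by linarith
      rw [this]
      calc |Y 0 + b s * z| ≤ |Y 0| + |b s| * |z| := by rw [← abs_mul]; exact abs_add_le _ _
        _ ≤ |Y 0| + β * |z| := by
            have := mul_le_mul_of_nonneg_right (h.abs_b s) (abs_nonneg z)
            linarith
    have e2 : |w z * ζ z| ≤ β * |z| * (β / α) := by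
      rw [abs_mul]
      exact mul_le_mul (h.g.abs_w_le z) (F.ζb z) (abs_nonneg _) (by positivity)
    have e3 : m z = Y z + w z * ζ z := by rw [F.em]; rfl
    rw [e3]
    have e4 := abs_add_le (Y z) (w z * ζ z)
    have e5 : 0 ≤ |Y 0| * |z| := by positivity
    have e6 : 0 ≤ β * (β / α) := by positivity
    nlinarith [abs_nonneg z]
  have up := h.g.barrier1 (m := m) (m1 := κ + w * m)
    (m2 := fun z => (hh + d * m : GS) z + (d z * m z + w z * (κ + w * m : GS) z)) F.hm hm2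
    (C := |Y 0| + β + β * (β / α)) (fun z => (le_abs_self _).trans (hgr z)) (S := S) hA
    (fun z => by
      have e1 : -((hh + d * m : GS) z + (d z * m z + w z * (κ + w * m : GS) z)) +
          w z * (κ + w * m : GS) z + 2 * d z * m z = - hh z := by
        simp only [GS.add_ap, GS.mul_ap]
        ring
      rw [e1]
      exact (neg_le_abs _).trans (hk z)) z
  have dn := h.g.barrier1 (m := -m) (m1 := -(κ + w * m))
    (m2 := fun z => -((hh + d * m : GS) z + (d z * m z + w z * (κ + w * m : GS) z)))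
    (fun z => (F.hm z).neg) (fun z => (hm2 z).neg)
    (C := |Y 0| + β + β * (β / α)) (fun z => (neg_le_abs _).trans (hgr z)) (S := S) hA
    (fun z => by
      have e1 : -(-((hh + d * m : GS) z + (d z * m z + w z * (κ + w * m : GS) z))) +
          w z * (-(κ + w * m) : GS) z + 2 * d z * (-m : GS) z = hh z := by
        simp only [GS.add_ap, GS.mul_ap, GS.neg_ap]
        ring
      rw [e1]
      exact (le_abs_self _).trans (hk z)) z
  rw [GS.neg_ap] at dn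
  rw [abs_le]
  constructor <;> linarith

/-- crude bound -/
theorem Fld.m1 (F : Fld h ζ m κ X X' t0 tt hh Y) (z : ℝ) :
    |m z| ≤ c * (5 / 4 * √(β * (1 + (β / α) ^ 2))) := by
  have := F.bar (S := c * (5 / 4 * √(β * (1 + (β / α) ^ 2)))) (A := 0) le_rfl (fun z => by
    refine (F.hhb z).trans ?_
    have h1 : √(X z) ≤ √(β * (1 + (β / α) ^ 2)) := Real.sqrt_le_sqrt (F.Xhi z)
    have hd : 0 < d z := h.g.hα.trans_le (h.g.lo z)
    have hc := h.hc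
    have h2 : 5 / 2 * c * √(X z) * d z ≤ 5 / 2 * c * √(β * (1 + (β / α) ^ 2)) * d z := by
      gcongr
    rw [zero_mul, add_zero]
    linarith) z
  linarith

theorem Fld.ev_κ (F : Fld h ζ m κ X X' t0 tt hh Y) : h.g.ev κ = 0 := by
  have := h.g.ibp (f := m) (g := κ + w * m) F.hm
  rw [map_add] at this
  linarith

theorem Fld.X'b (F : Fld h ζ m κ X X' t0 tt hh Y) (z : ℝ) :
    |X' z| ≤ c * (5 / 2 * √β * (β * (1 + (β / α) ^ 2)) +
      2 * (β * (1 + β / α)) * (5 / 4 * √(β * (1 + (β / α) ^ 2)))) := by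
  have hβ : 0 < β := h.g.hα.trans_le h.g.αβ
  have hc := h.hc
  have hX0 : 0 < X z := h.g.hα.trans_le (F.Xlo z)
  have e1 : X' z = tt z + 2 * κ z * m z := by
    rw [F.eX']
    simp only [GS.add_ap, GS.mul_ap, two_ap]
  have e2 := F.ttb z
  have e3 : 5 / 2 * c * √(d z) * X z ≤ 5 / 2 * c * √β * (β * (1 + (β / α) ^ 2)) := by
    have h1 : √(d z) ≤ √β := Real.sqrt_le_sqrt (h.g.hi z)
    have h2 := F.Xhi z
    gcongr
  have e4 : |2 * κ z * m z| ≤ 2 * (β * (1 + β / α)) * (c * (5 / 4 * √(β * (1 + (β / α) ^ 2)))) := by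
    rw [abs_mul, abs_mul, abs_two]
    have h1 := F.κb z
    have h2 := F.m1 z
    have hα := h.g.hα
    gcongr
  rw [e1]
  refine (abs_add_le _ _).trans ?_
  linarith

theorem Fld.κ'b (F : Fld h ζ m κ X X' t0 tt hh Y) (z : ℝ) :
    |(hh + d * m : GS) z| ≤ c * (5 / 2 * √(β * (1 + (β / α) ^ 2)) * β +
      β * (5 / 4 * √(β * (1 + (β / α) ^ 2)))) := by
  have hβ : 0 < β := h.g.hα.trans_le h.g.αβ
  have hα := h.g.hα
  have hc := h.hc
  have hd : 0 < d z := h.g.hα.trans_le (h.g.lo z)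
  have e2 := F.hhb z
  have e3 : 5 / 2 * c * √(X z) * d z ≤ 5 / 2 * c * √(β * (1 + (β / α) ^ 2)) * β := by
    have h1 : √(X z) ≤ √(β * (1 + (β / α) ^ 2)) := Real.sqrt_le_sqrt (F.Xhi z)
    have h2 := h.g.hi z
    gcongr
  have e4 : |d z * m z| ≤ β * (c * (5 / 4 * √(β * (1 + (β / α) ^ 2)))) := by
    rw [abs_mul, abs_of_pos hd]
    exact mul_le_mul (h.g.hi z) (F.m1 z) (abs_nonneg _) hβ.le
  simp only [GS.add_ap, GS.mul_ap]
  refine (abs_add_le _ _).trans ?_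
  linarith

end

end Vale.Agent.P227.M.Fib
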