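import Vale.Agent.P227.M.SC.Fib2

/-!
# P227, SC: the fibre lemma, conclusion
-/

open MeasureTheory Set Filter Real
open scoped Topology

namespace Vale.Agent.P227.M.Fib

noncomputable def B1 (α β : ℝ) : ℝ := β * (1 + (β / α) ^ 2)
noncomputable def K1 (α β : ℝ) : ℝ := 5 / 4 * √(B1 α β)
noncomputable def K2 (α β : ℝ) : ℝ := 5 / 2 * √β * B1 α β + 2 * (β * (1 + β / α)) * K1 α β
noncomputable def K3 (α β : ℝ) : ℝ := 5 / 2 * √(B1 α β) * β + β * K1 α β
noncomputable def e1 (α : ℝ) : ℝ := (1 + 1 / α) / 2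
noncomputable def K4 (α : ℝ) : ℝ := 1 / 2 + α / 2 * (1 / 2 + e1 α)
noncomputable def K5 (α β : ℝ) : ℝ := 5 / 4 * K2 α β * K4 α / √α
noncomputable def K6 (α β : ℝ) : ℝ := 2 * K3 α β * (√(B1 α β) + K1 α β)
noncomputable def K7 (α β : ℝ) : ℝ := 27 / 2 * √(B1 α β) * β / α
noncomputable def K9 (α : ℝ) : ℝ := 2 / α + 2 * e1 α ^ 2
noncomputable def K8 (α β : ℝ) : ℝ := 2 * K6 α β ^ 2 * K9 α / α
noncomputable def KK (α β : ℝ) : ℝ := K8 α β / √α + 6 * K5 α β * K1 α β ^ 2 / α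

section cst
variable {α β : ℝ}
theorem B1p (hα : 0 < α) (hβ : 0 < β) : 0 < B1 α β := by unfold B1; positivity
theorem K1p (hα : 0 < α) (hβ : 0 < β) : 0 < K1 α β := by
  have := B1p hα hβ
  unfold K1; positivity
theorem K2p (hα : 0 < α) (hβ : 0 < β) : 0 < K2 α β := by
  have := B1p hα hβ
  have := K1p hα hβ
  unfold K2; positivity
theorem K3p (hα : 0 < α) (hβ : 0 < β) : 0 < K3 α β := by
  have := B1p hα hβ
  have := K1p hα hβ
  unfold K3; positivity
theorem e1p (hα : 0 < α) : 0 < e1 α := by unfold e1; positivity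
theorem K4p (hα : 0 < α) : 0 < K4 α := by
  have := e1p hα
  unfold K4; positivity
theorem K5p (hα : 0 < α) (hβ : 0 < β) : 0 < K5 α β := by
  have := K2p hα hβ
  have := K4p hα
  unfold K5; positivity
theorem K6p (hα : 0 < α) (hβ : 0 < β) : 0 < K6 α β := by
  have := K3p hα hβ
  have := K1p hα hβ
  have := B1p hα hβ
  unfold K6; positivity
theorem K7p (hα : 0 < α) (hβ : 0 < β) : 0 < K7 α β := by
  have := B1p hα hβ
  unfold K7; positivity
theorem K9p (hα : 0 < α) : 0 < K9 α := by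
  have := e1p hα
  unfold K9; positivity
theorem K8p (hα : 0 < α) (hβ : 0 < β) : 0 < K8 α β := by
  have := K6p hα hβ
  have := K9p hα
  unfold K8; positivity
theorem KKp (hα : 0 < α) (hβ : 0 < β) : 0 < KK α β := by
  have := K8p hα hβ
  have := K5p hα hβ
  have := K1p hα hβ
  unfold KK; positivity

theorem K4ψ (hα : 0 < α) (z : ℝ) : |z| + e1 α ≤ K4 α * (2 / α + z ^ 2) := by
  have he := e1p hα
  have h1 : |z| ≤ (1 + z ^ 2) / 2 := by nlinarith [sq_nonneg (|z| - 1), sq_abs z]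
  have h2 : K4 α * (2 / α + z ^ 2) = 1 / α + (1 / 2 + e1 α) + 1 / 2 * z ^ 2 +
      α / 2 * (1 / 2 + e1 α) * z ^ 2 := by
    unfold K4
    field_simp
    ring
  rw [h2]
  have h3 : 0 ≤ α / 2 * (1 / 2 + e1 α) * z ^ 2 := by positivity
  have h4 : 0 < 1 / α := by positivity
  linarith

end cst

section

variable {W : ℝ → ℝ} {w d a b Wt T0 T1 T2 T3 : GS} {α β c : ℝ}
variable {h : Fdat W w d a b Wt T0 T1 T2 T3 α β c} {ζ m κ X X' t0 tt hh Y : GS}

theorem Fld.evX (F : Fld h ζ m κ X X' t0 tt hh Y) : α ≤ h.g.ev X := by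
  have := h.g.ev_mono (f := algebraMap ℝ GS α) (g := X) (fun z => F.Xlo z)
  rwa [h.g.ev_alg] at this

theorem Fld.m2 (F : Fld h ζ m κ X X' t0 tt hh Y) (z : ℝ) :
    |m z| ≤ 5 / 4 * c * √(h.g.ev X) + c ^ 2 * K5 α β * (2 / α + z ^ 2) := by
  have hα := h.g.hα
  have hβ : 0 < β := h.g.hα.trans_le h.g.αβ
  have hc := h.hc
  have k2 := K2p hα hβ
  have k5 := K5p hα hβ
  refine F.bar (by positivity) (fun z => (F.hhb z).trans ?_) z
  have hd : 0 < d z := h.g.hα.trans_le (h.g.lo z)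
  have d1 : |X z - h.g.ev X| ≤ c * K2 α β * (|z| + e1 α) := dev h.g F.hX F.X'b z
  have d2 : c * K2 α β * (|z| + e1 α) ≤ c * K2 α β * (K4 α * (2 / α + z ^ 2)) :=
    mul_le_mul_of_nonneg_left (K4ψ hα z) (by positivity)
  have hsα : 0 < √α := Real.sqrt_pos.2 hα
  have d3 : √(X z) ≤ √(h.g.ev X) + c * K2 α β * (K4 α * (2 / α + z ^ 2)) / (2 * √α) := by
    have k4 := K4p hα
    rw [Real.sqrt_le_left (by positivity)]
    have q1 : √(h.g.ev X) ^ 2 = h.g.ev X := Real.sq_sqrt (hα.le.trans F.evX)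
    have q2 : √α ≤ √(h.g.ev X) := Real.sqrt_le_sqrt F.evX
    set t := c * K2 α β * (K4 α * (2 / α + z ^ 2)) with ht
    have ht0 : 0 ≤ t := by positivity
    have q3 : X z ≤ h.g.ev X + t := by
      have := (abs_le.1 d1).2
      linarith
    have q4 : t ≤ √(h.g.ev X) * (t / √α) := by
      calc t = √α * (t / √α) := by field_simp
        _ ≤ √(h.g.ev X) * (t / √α) := mul_le_mul_of_nonneg_right q2 (by positivity)
    have q5 : (√(h.g.ev X) + t / (2 * √α)) ^ 2 = h.g.ev X + √(h.g.ev X) * (t / √α) +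
        (t / (2 * √α)) ^ 2 := by
      rw [add_sq, q1]
      field_simp
    rw [q5]
    have q6 : 0 ≤ (t / (2 * √α)) ^ 2 := by positivity
    linarith
  have d4 : 5 / 2 * c * √(X z) * d z ≤ 5 / 2 * c *
      (√(h.g.ev X) + c * K2 α β * (K4 α * (2 / α + z ^ 2)) / (2 * √α)) * d z := by
    gcongr
  refine d4.trans (le_of_eq ?_)
  unfold K5
  field_simp
  ring

theorem Fld.cubic (F : Fld h ζ m κ X X' t0 tt hh Y) :
    -(2 * h.g.ev (m * m * m)) ≤ 5 / 2 * c * √(h.g.ev X) * h.g.ev (m * m) +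
      c ^ 4 * (6 * K5 α β * K1 α β ^ 2 / α) := by
  have hα := h.g.hα
  have hβ : 0 < β := h.g.hα.trans_le h.g.αβ
  have hc := h.hc
  have k5 := K5p hα hβ
  have k1 := K1p hα hβ
  have e : h.g.ev (-((2 : ℝ) • (m * m * m))) ≤ h.g.ev ((5 / 2 * c * √(h.g.ev X)) • (m * m) +
      (2 * c ^ 4 * K5 α β * K1 α β ^ 2) • (algebraMap ℝ GS (2 / α) + GS.X * GS.X)) :=
    h.g.ev_mono fun z => by
      simp only [GS.neg_ap, GS.smul_ap, GS.mul_ap, GS.add_ap, GS.alg_ap, GS.X_ap]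
      have b1 := F.m2 z
      have b2 : |m z| ≤ c * K1 α β := F.m1 z
      have b3 : m z ^ 2 ≤ (c * K1 α β) ^ 2 := by
        rw [← sq_abs (m z)]
        exact pow_le_pow_left₀ (abs_nonneg _) b2 2
      have b4 : -(m z * m z * m z) ≤ m z ^ 2 * |m z| := by
        have := neg_abs_le (m z)
        nlinarith [sq_nonneg (m z)]
      have b5 : m z ^ 2 * |m z| ≤ m z ^ 2 * (5 / 4 * c * √(h.g.ev X) +
          c ^ 2 * K5 α β * (2 / α + z ^ 2)) := mul_le_mul_of_nonneg_left b1 (sq_nonneg _)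
      have b6 : m z ^ 2 * (c ^ 2 * K5 α β * (2 / α + z ^ 2)) ≤
          (c * K1 α β) ^ 2 * (c ^ 2 * K5 α β * (2 / α + z ^ 2)) :=
        mul_le_mul_of_nonneg_right b3 (by positivity)
      have b7 : (c * K1 α β) ^ 2 * (c ^ 2 * K5 α β * (2 / α + z ^ 2)) =
          c ^ 4 * K5 α β * K1 α β ^ 2 * (2 / α + z * z) := by ring
      rw [b7] at b6
      linarith
  rw [map_neg, map_smul, map_add, map_smul, map_smul, map_add, h.g.ev_alg, smul_eq_mul,
    smul_eq_mul, smul_eq_mul] at e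
  have e2 : 2 * c ^ 4 * K5 α β * K1 α β ^ 2 * (2 / α + h.g.ev (GS.X * GS.X)) ≤
      2 * c ^ 4 * K5 α β * K1 α β ^ 2 * (2 / α + 1 / α) :=
    mul_le_mul_of_nonneg_left (by linarith [h.g.ev_sq]) (by positivity)
  have e3 : 2 * c ^ 4 * K5 α β * K1 α β ^ 2 * (2 / α + 1 / α) =
      c ^ 4 * (6 * K5 α β * K1 α β ^ 2 / α) := by
    field_simp
    ring
  linarith

/-- the penalty -/
theorem Fld.pen (F : Fld h ζ m κ X X' t0 tt hh Y) :
    h.g.ev (X' * X') ≤ c * (27 / 2 * √(B1 α β) * β) *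
      h.g.ev ((2 * c) • (X * GS.sqrt X) - t0) + c ^ 4 * (2 * K6 α β ^ 2 * K9 α) := by
  have hα := h.g.hα
  have hβ : 0 < β := h.g.hα.trans_le h.g.αβ
  have hc := h.hc
  have k3 := K3p hα hβ
  have k1 := K1p hα hβ
  have k6 := K6p hα hβ
  have b1 := B1p hα hβ
  have he := e1p hα
  have e : h.g.ev (X' * X') ≤ h.g.ev ((c * (27 / 2 * √(B1 α β) * β)) •
      ((2 * c) • (X * GS.sqrt X) - t0) + (2 * c ^ 4 * K6 α β ^ 2) •
        ((2 : ℝ) • (GS.X * GS.X) + algebraMap ℝ GS (2 * e1 α ^ 2))) :=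
    h.g.ev_mono fun z => by
      simp only [GS.sub_ap, GS.smul_ap, GS.mul_ap, GS.add_ap, GS.alg_ap, GS.X_ap, GS.sqrt_ap]
      have hX0 : 0 < X z := hα.trans_le (F.Xlo z)
      have hsX : 0 < √(X z) := Real.sqrt_pos.2 hX0
      have hXB : X z ≤ B1 α β := F.Xhi z
      have hsB : √(X z) ≤ √(B1 α β) := Real.sqrt_le_sqrt hXB
      have hd : 0 < d z := hα.trans_le (h.g.lo z)
      have p1 := penal (ζ := ζ z) h.hc (h.posQ z) (h.sc z)
      rw [← F.Xq, ← F.t0q, ← F.κq, ← F.ttq] at p1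
      have p2 : 0 ≤ 2 * c * (X z * √(X z)) - t0 z := by
        have := (abs_le.1 (F.t0b z)).2
        linarith
      have p3 : 27 / 4 * c * √(X z) * d z * (2 * c * (X z * √(X z)) - t0 z) ≤
          27 / 4 * c * √(B1 α β) * β * (2 * c * (X z * √(X z)) - t0 z) := by
        have := h.g.hi z
        gcongr
      have r1 : |κ z| ≤ c * K3 α β * (|z| + e1 α) := by
        have := dev h.g F.hκ F.κ'b z
        rw [F.ev_κ, sub_zero] at this
        exact this
      have r2 : |κ z / X z * t0 z + 2 * κ z * m z| ≤ c ^ 2 * K6 α β * (|z| + e1 α) := by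
        have s1 : |κ z / X z * t0 z| ≤ |κ z| * (2 * c * √(B1 α β)) := by
          rw [abs_mul, abs_div, abs_of_pos hX0]
          calc |κ z| / X z * |t0 z| ≤ |κ z| / X z * (2 * c * (X z * √(X z))) :=
                mul_le_mul_of_nonneg_left (F.t0b z) (by positivity)
            _ = |κ z| * (2 * c * √(X z)) := by field_simp
            _ ≤ _ := by gcongr
        have s2 : |2 * κ z * m z| ≤ |κ z| * (2 * (c * K1 α β)) := by
          rw [abs_mul, abs_mul, abs_two]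
          have : |m z| ≤ c * K1 α β := F.m1 z
          calc 2 * |κ z| * |m z| ≤ 2 * |κ z| * (c * K1 α β) := by gcongr
            _ = _ := by ring
        calc |κ z / X z * t0 z + 2 * κ z * m z| ≤ |κ z / X z * t0 z| + |2 * κ z * m z| :=
              abs_add_le _ _
          _ ≤ |κ z| * (2 * c * √(B1 α β)) + |κ z| * (2 * (c * K1 α β)) := add_le_add s1 s2
          _ = |κ z| * (2 * c * (√(B1 α β) + K1 α β)) := by ring
          _ ≤ (c * K3 α β * (|z| + e1 α)) * (2 * c * (√(B1 α β) + K1 α β)) := by gcongr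
          _ = _ := by unfold K6; ring
      have r3 : (κ z / X z * t0 z + 2 * κ z * m z) ^ 2 ≤ (c ^ 2 * K6 α β * (|z| + e1 α)) ^ 2 := by
        rw [← sq_abs (κ z / X z * t0 z + 2 * κ z * m z)]
        exact pow_le_pow_left₀ (abs_nonneg _) r2 2
      have r4 : (|z| + e1 α) ^ 2 ≤ 2 * (z * z) + 2 * e1 α ^ 2 := by
        nlinarith [sq_nonneg (|z| - e1 α), sq_abs z]
      have r5 : (c ^ 2 * K6 α β * (|z| + e1 α)) ^ 2 ≤ c ^ 4 * K6 α β ^ 2 *
          (2 * (z * z) + 2 * e1 α ^ 2) := by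
        calc (c ^ 2 * K6 α β * (|z| + e1 α)) ^ 2 = c ^ 4 * K6 α β ^ 2 * (|z| + e1 α) ^ 2 := by ring
          _ ≤ _ := mul_le_mul_of_nonneg_left r4 (by positivity)
      have eX' : X' z = (tt z - κ z / X z * t0 z) + (κ z / X z * t0 z + 2 * κ z * m z) := by
        rw [F.eX']
        simp only [GS.add_ap, GS.mul_ap, two_ap]
        ring
      have r6 : X' z * X' z ≤ 2 * (tt z - κ z / X z * t0 z) ^ 2 +
          2 * (κ z / X z * t0 z + 2 * κ z * m z) ^ 2 := by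
        rw [eX']
        nlinarith [sq_nonneg ((tt z - κ z / X z * t0 z) - (κ z / X z * t0 z + 2 * κ z * m z))]
      linarith
  rw [map_add, map_smul, map_smul, map_add, map_smul, h.g.ev_alg, smul_eq_mul, smul_eq_mul,
    smul_eq_mul] at e
  have e2 : 2 * c ^ 4 * K6 α β ^ 2 * (2 * h.g.ev (GS.X * GS.X) + 2 * e1 α ^ 2) ≤
      2 * c ^ 4 * K6 α β ^ 2 * K9 α := by
    refine mul_le_mul_of_nonneg_left ?_ (by positivity)
    unfold K9
    have := h.g.ev_sq
    have h2 : 2 / α = 2 * (1 / α) := by ring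
    rw [h2]
    linarith
  linarith

/-- the fibre lemma, one side -/
theorem Fdat.up (h : Fdat W w d a b Wt T0 T1 T2 T3 α β c) (hc1 : c ≤ 1)
    (hc2 : c * K7 α β ≤ √α) :
    h.g.ev T0 - 3 * h.g.ev ((Wt - algebraMap ℝ GS (h.g.ev Wt)) * a) +
      h.g.ev ((Wt - algebraMap ℝ GS (h.g.ev Wt)) * (Wt - algebraMap ℝ GS (h.g.ev Wt)) *
        (Wt - algebraMap ℝ GS (h.g.ev Wt))) ≤
    2 * c * ((h.g.ev a - h.g.ev ((Wt - algebraMap ℝ GS (h.g.ev Wt)) *
      (Wt - algebraMap ℝ GS (h.g.ev Wt)))) * √(h.g.ev a -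
        h.g.ev ((Wt - algebraMap ℝ GS (h.g.ev Wt)) * (Wt - algebraMap ℝ GS (h.g.ev Wt))))) +
      KK α β * c ^ 4 := by
  have hα := h.g.hα
  have hβ : 0 < β := h.g.hα.trans_le h.g.αβ
  have hc := h.hc
  obtain ⟨ζ, m, κ, X, X', t0, tt, hh, Y, F⟩ := h.fld
  have h2 := F.second
  have h3 := F.third
  rw [← F.eY, ← h2, ← h3]
  have hX := F.evX
  have hq : 0 ≤ h.g.ev (m * m) := h.g.ev_nonneg fun z => mul_self_nonneg _
  have cub := F.cubic
  have pen := F.pen
  have poi := h.g.poincare F.hX F.X'b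
  set v := √(h.g.ev X) with hv
  have hv2 : v ^ 2 = h.g.ev X := Real.sq_sqrt (hα.le.trans hX)
  have hv0 : √α ≤ v := Real.sqrt_le_sqrt hX
  have hsα : 0 < √α := Real.sqrt_pos.2 hα
  have hvp : 0 < v := hsα.trans_le hv0
  set Θ := h.g.ev ((2 * c) • (X * GS.sqrt X) - t0) with hΘ
  have hΘ0 : 0 ≤ Θ := h.g.ev_nonneg fun z => by
    simp only [GS.sub_ap, GS.smul_ap, GS.mul_ap, GS.sqrt_ap]
    have := (abs_le.1 (F.t0b z)).2
    linarith
  have hΘ1 : Θ = 2 * c * h.g.ev (X * GS.sqrt X) - h.g.ev t0 := by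
    rw [hΘ, map_sub, map_smul, smul_eq_mul]
  -- variance
  have hvar : h.g.ev ((X - algebraMap ℝ GS (h.g.ev X)) * (X - algebraMap ℝ GS (h.g.ev X))) =
      h.g.ev (X * X) - h.g.ev X ^ 2 := by
    have e : (X - algebraMap ℝ GS (h.g.ev X)) * (X - algebraMap ℝ GS (h.g.ev X)) =
        X * X - (2 * h.g.ev X) • X + algebraMap ℝ GS (h.g.ev X ^ 2) := by
      refine Subtype.ext (funext fun z => ?_)
      change (X z - h.g.ev X) * (X z - h.g.ev X) = X z * X z - 2 * h.g.ev X * X z + h.g.ev X ^ 2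
      ring
    rw [e, map_add, map_sub, map_smul, h.g.ev_alg, smul_eq_mul]
    ring
  rw [hvar] at poi
  set V := h.g.ev (X * X) - h.g.ev X ^ 2 with hV
  have hXs : h.g.ev (X * GS.sqrt X) ≤ v ^ 3 + V / (2 * v) := by
    have e : h.g.ev (X * GS.sqrt X) ≤ h.g.ev ((1 / (2 * v)) • (X * X) + (v / 2) • X) :=
      h.g.ev_mono fun z => by
        simp only [GS.smul_ap, GS.mul_ap, GS.add_ap, GS.sqrt_ap]
        have hX0 : 0 < X z := hα.trans_le (F.Xlo z)
        have q1 : √(X z) ^ 2 = X z := Real.sq_sqrt hX0.le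
        have q2 : √(X z) ≤ 1 / (2 * v) * X z + v / 2 := by
          have q3 : 0 ≤ 1 / (2 * v) * (√(X z) - v) ^ 2 := by positivity
          have q4 : 1 / (2 * v) * (√(X z) - v) ^ 2 = 1 / (2 * v) * X z + v / 2 - √(X z) := by
            rw [sub_sq, q1]
            field_simp
            ring
          linarith
        calc X z * √(X z) ≤ X z * (1 / (2 * v) * X z + v / 2) :=
              mul_le_mul_of_nonneg_left q2 hX0.le
          _ = _ := by ring
    rw [map_add, map_smul, map_smul, smul_eq_mul, smul_eq_mul] at e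
    have e2 : 1 / (2 * v) * h.g.ev (X * X) + v / 2 * h.g.ev X = v ^ 3 + V / (2 * v) := by
      have e3 : h.g.ev (X * X) = V + (v ^ 2) ^ 2 := by rw [hv2, hV]; ring
      rw [e3, ← hv2]
      field_simp
      ring
    linarith
  have hVb : V ≤ c * K7 α β * Θ + c ^ 4 * K8 α β := by
    have e1 : 1 / α * h.g.ev (X' * X') ≤ 1 / α * (c * (27 / 2 * √(B1 α β) * β) * Θ +
        c ^ 4 * (2 * K6 α β ^ 2 * K9 α)) := mul_le_mul_of_nonneg_left pen (by positivity)
    have e2 : 1 / α * (c * (27 / 2 * √(B1 α β) * β) * Θ + c ^ 4 * (2 * K6 α β ^ 2 * K9 α)) =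
        c * K7 α β * Θ + c ^ 4 * K8 α β := by
      unfold K7 K8
      field_simp
    linarith
  have k8 := K8p hα hβ
  have k7 := K7p hα hβ
  -- `2 c V / (2 v) ≤ Θ + c^4 K8 / √α`
  have hVc : 2 * c * (V / (2 * v)) ≤ Θ + c ^ 4 * (K8 α β / √α) := by
    have e1 : 2 * c * (V / (2 * v)) = c / v * V := by field_simp
    have e2 : c / v * V ≤ c / v * (c * K7 α β * Θ + c ^ 4 * K8 α β) :=
      mul_le_mul_of_nonneg_left hVb (by positivity)
    have e3 : c / v ≤ c / √α := div_le_div_of_nonneg_left hc.le hsα hv0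
    have e4 : c / v * (c * K7 α β * Θ + c ^ 4 * K8 α β) ≤
        c / √α * (c * K7 α β * Θ + c ^ 4 * K8 α β) :=
      mul_le_mul_of_nonneg_right e3 (by positivity)
    have e5 : c / √α * (c * K7 α β * Θ + c ^ 4 * K8 α β) =
        c * (c * K7 α β / √α) * Θ + c * (c ^ 4 * (K8 α β / √α)) := by ring
    have e6 : c * K7 α β / √α ≤ 1 := by
      rw [div_le_one hsα]
      exact hc2
    have e7 : c * (c * K7 α β / √α) ≤ 1 * 1 := mul_le_mul hc1 e6 (by positivity) (by norm_num)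
    have e8 : c * (c * K7 α β / √α) * Θ ≤ 1 * Θ := mul_le_mul_of_nonneg_right (by linarith) hΘ0
    have e9 : c * (c ^ 4 * (K8 α β / √α)) ≤ 1 * (c ^ 4 * (K8 α β / √α)) :=
      mul_le_mul_of_nonneg_right hc1 (by positivity)
    linarith
  have ht0 : h.g.ev t0 ≤ 2 * c * v ^ 3 + c ^ 4 * (K8 α β / √α) := by
    have e1 : 2 * c * h.g.ev (X * GS.sqrt X) ≤ 2 * c * (v ^ 3 + V / (2 * v)) :=
      mul_le_mul_of_nonneg_left hXs (by positivity)
    linarith
  set q := h.g.ev (m * m) with hqd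
  have hu : v ^ 3 + 3 / 2 * v * q ≤ (h.g.ev X + q) * √(h.g.ev X + q) := by
    set u := √(h.g.ev X + q) with hud
    have hu2 : u ^ 2 = h.g.ev X + q := Real.sq_sqrt (by linarith)
    have huv : v ≤ u := Real.sqrt_le_sqrt (by linarith)
    rw [← hu2]
    have e1 : q = u ^ 2 - v ^ 2 := by rw [hu2, hv2]; ring
    rw [e1]
    nlinarith [mul_nonneg (sq_nonneg (u - v)) (show 0 ≤ u + v / 2 by linarith)]
  have hfin : 2 * c * (v ^ 3 + 3 / 2 * v * q) ≤ 2 * c * ((h.g.ev X + q) * √(h.g.ev X + q)) :=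
    mul_le_mul_of_nonneg_left hu (by positivity)
  have hvq : 0 ≤ c * v * q := by positivity
  have e0 : KK α β * c ^ 4 = c ^ 4 * (K8 α β / √α) + c ^ 4 * (6 * K5 α β * K1 α β ^ 2 / α) := by
    unfold KK
    ring
  rw [e0]
  linarith

end

end Vale.Agent.P227.M.Fib
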