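import Mathlib

/-! # P227, SC: third central moment of a one dimensional self-concordant density -/

open MeasureTheory Set Filter Topology

namespace Vale.Agent.P227.M.SC

lemma gam_exp_abs : Integrable (fun x : ℝ => Real.exp (-|x|)) := by
  rw [← integrableOn_univ, ← Iic_union_Ioi (a := (0 : ℝ))]
  refine IntegrableOn.union ?_ ?_
  · refine (integrableOn_exp_Iic 0).congr_fun (fun x hx => ?_) measurableSet_Iic
    have hx' : x ≤ 0 := hx
    simp [abs_of_nonpos hx']
  · refine (integrableOn_exp_neg_Ioi 0).congr_fun (fun x hx => ?_) measurableSet_Ioi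
    have hx' : 0 < x := hx
    simp [abs_of_pos hx']

lemma gam_int {f : ℝ → ℝ} (hf : Continuous f) {C : ℝ}
    (h : ∀ x, |f x| ≤ C * Real.exp (-|x|)) : Integrable f :=
  (gam_exp_abs.const_mul C).mono' hf.aestronglyMeasurable
    (Eventually.of_forall fun x => by simpa using h x)

lemma gam_pow (m : ℝ) (k : ℕ) (x : ℝ) :
    |(x - m) ^ k| ≤ (k.factorial * Real.exp |m|) * Real.exp |x| := by
  have h1 := Real.pow_div_factorial_le_exp |x - m| (abs_nonneg _) k
  have h2 : |x - m| ≤ |m| + |x| := by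
    have := abs_sub x m
    linarith
  have h3 : (0 : ℝ) < k.factorial := by positivity
  rw [abs_pow]
  rw [div_le_iff₀ h3] at h1
  refine h1.trans ?_
  rw [mul_comm (k.factorial : ℝ), mul_assoc, mul_comm (k.factorial : ℝ), ← mul_assoc,
    ← Real.exp_add]
  exact mul_le_mul_of_nonneg_right (Real.exp_le_exp.mpr h2) h3.le

lemma gam_pow_int {f : ℝ → ℝ} (hf : Continuous f) {C : ℝ} (_hC : 0 ≤ C)
    (h : ∀ x, |f x| ≤ C * Real.exp (-(2 * |x|))) (m : ℝ) (k : ℕ) :
    Integrable (fun x => (x - m) ^ k * f x) := by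
  refine gam_int (C := (k.factorial * Real.exp |m|) * C) (by fun_prop) fun x => ?_
  rw [abs_mul]
  calc |(x - m) ^ k| * |f x| ≤ ((k.factorial * Real.exp |m|) * Real.exp |x|) *
        (C * Real.exp (-(2 * |x|))) :=
        mul_le_mul (gam_pow m k x) (h x) (abs_nonneg _) (by positivity)
    _ = (k.factorial * Real.exp |m|) * C * (Real.exp |x| * Real.exp (-(2 * |x|))) := by ring
    _ = (k.factorial * Real.exp |m|) * C * Real.exp (-|x|) := by
        rw [← Real.exp_add]; congr 2; ring

lemma gam_int0 {f : ℝ → ℝ} (hf : Continuous f) {C : ℝ} (hC : 0 ≤ C)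
    (h : ∀ x, |f x| ≤ C * Real.exp (-(2 * |x|))) : Integrable f := by
  simpa using gam_pow_int hf hC h 0 0

lemma gam_zero {f : ℝ → ℝ} (hf : Continuous f) (hi : Integrable f) (h0 : ∀ x, 0 ≤ f x)
    (h : ∫ x, f x = 0) (x : ℝ) : f x = 0 := by
  have h1 := (integral_eq_zero_iff_of_nonneg (fun x => h0 x) hi).mp h
  have h2 := (Continuous.ae_eq_iff_eq volume hf continuous_const).mp h1
  exact congrFun h2 x

/-- The tail integral. -/
lemma gam_S {p : ℝ → ℝ} (hp : ∀ x, 0 < p x) (hc : Continuous p) {C m : ℝ}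
    (hC : ∀ x, p x ≤ C * Real.exp (-(3 * |x|))) (hm : ∫ x, (x - m) * p x = 0) :
    ∃ (S : ℝ → ℝ) (B : ℝ), 0 ≤ B ∧ (∀ x, HasDerivAt S (-((x - m) * p x)) x) ∧
      (∀ x, 0 < S x) ∧ ∀ x, S x ≤ B * Real.exp (-(2 * |x|)) := by
  have hC0 : 0 < C := by
    have := (hp 0).trans_le (hC 0)
    simpa using this
  obtain ⟨g, hg⟩ : ∃ g : ℝ → ℝ, g = fun x => (x - m) * p x := ⟨_, rfl⟩
  obtain ⟨D, hD⟩ : ∃ D : ℝ, D = Real.exp |m| * C := ⟨_, rfl⟩
  have hD0 : 0 < D := by rw [hD]; positivity
  have gc : Continuous g := by rw [hg]; fun_prop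
  have gb : ∀ x, |g x| ≤ D * Real.exp (-(2 * |x|)) := by
    intro x
    rw [hg]
    simp only
    rw [abs_mul, abs_of_pos (hp x)]
    have h1 := gam_pow m 1 x
    simp only [pow_one, Nat.factorial_one, Nat.cast_one, one_mul] at h1
    calc |x - m| * p x ≤ (Real.exp |m| * Real.exp |x|) * (C * Real.exp (-(3 * |x|))) :=
          mul_le_mul h1 (hC x) (hp x).le (by positivity)
      _ = D * (Real.exp |x| * Real.exp (-(3 * |x|))) := by rw [hD]; ring
      _ = D * Real.exp (-(2 * |x|)) := by rw [← Real.exp_add]; congr 2; ring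
  have gi : Integrable g := gam_int0 gc hD0.le gb
  obtain ⟨S, hS⟩ : ∃ S : ℝ → ℝ, S = fun x => (∫ t in Ioi (0 : ℝ), g t) - ∫ t in (0 : ℝ)..x, g t :=
    ⟨_, rfl⟩
  have dS : ∀ x, HasDerivAt S (-(g x)) x := by
    intro x
    rw [hS]
    exact (gc.integral_hasStrictDerivAt 0 x).hasDerivAt.const_sub _
  have Sc : Continuous S := continuous_iff_continuousAt.mpr fun x => (dS x).continuousAt
  have t1 : Tendsto S atTop (𝓝 0) := by
    have h := (intervalIntegral_tendsto_integral_Ioi 0 gi.integrableOn tendsto_id).const_sub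
      (∫ t in Ioi (0 : ℝ), g t)
    rw [sub_self] at h
    rw [hS]
    exact h
  have t2 : Tendsto S atBot (𝓝 0) := by
    have h := (intervalIntegral_tendsto_integral_Iic 0 gi.integrableOn tendsto_id).const_add
      (∫ t in Ioi (0 : ℝ), g t)
    have e : (∫ t in Ioi (0 : ℝ), g t) + ∫ t in Iic (0 : ℝ), g t = 0 := by
      rw [add_comm, intervalIntegral.integral_Iic_add_Ioi gi.integrableOn gi.integrableOn, hg]
      exact hm
    rw [e] at h
    rw [hS]
    refine h.congr fun x => ?_
    simp only [id]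
    rw [intervalIntegral.integral_symm]
    ring
  refine ⟨S, D / 2, by positivity, fun x => by simpa [hg] using dS x, ?_, ?_⟩
  · intro x
    rcases le_total m x with hx | hx
    · have h1 : StrictAntiOn S (Ici m) := by
        refine strictAntiOn_of_deriv_neg (convex_Ici m) Sc.continuousOn fun y hy => ?_
        rw [interior_Ici] at hy
        have hy' : m < y := hy
        rw [(dS y).deriv, hg]
        have : 0 < (y - m) * p y := mul_pos (by linarith) (hp y)
        simpa using this
      have h2 : S (x + 1) < S x := h1 hx (by simp only [mem_Ici]; linarith) (by linarith)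
      have h3 : 0 ≤ S (x + 1) := by
        refine le_of_tendsto t1 ((eventually_ge_atTop (x + 1)).mono fun y hy => ?_)
        exact h1.antitoneOn (by simp only [mem_Ici]; linarith)
          (by simp only [mem_Ici]; linarith) hy
      linarith
    · have h1 : StrictMonoOn S (Iic m) := by
        refine strictMonoOn_of_deriv_pos (convex_Iic m) Sc.continuousOn fun y hy => ?_
        rw [interior_Iic] at hy
        have hy' : y < m := hy
        rw [(dS y).deriv, hg]
        have : 0 < (m - y) * p y := mul_pos (by linarith) (hp y)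
        have e : -((y - m) * p y) = (m - y) * p y := by ring
        simpa [e] using this
      have h2 : S (x - 1) < S x := h1 (by simp only [mem_Iic]; linarith) hx (by linarith)
      have h3 : 0 ≤ S (x - 1) := by
        refine le_of_tendsto t2 ((eventually_le_atBot (x - 1)).mono fun y hy => ?_)
        exact h1.monotoneOn (by simp only [mem_Iic]; linarith)
          (by simp only [mem_Iic]; linarith) hy
      linarith
  · intro x
    rcases le_total 0 x with hx | hx
    · obtain ⟨G, hG⟩ : ∃ G : ℝ → ℝ, G = fun x => D / 2 * Real.exp (-(2 * x)) - S x := ⟨_, rfl⟩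
      have dG : ∀ y, HasDerivAt G (-(D * Real.exp (-(2 * y))) + g y) y := by
        intro y
        rw [hG]
        have h1 : HasDerivAt (fun y : ℝ => -(2 * y)) (-(2 * 1)) y :=
          ((hasDerivAt_id y).const_mul 2).neg
        refine ((h1.exp.const_mul (D / 2)).sub (dS y)).congr_deriv ?_
        ring
      have h1 : AntitoneOn G (Ici 0) := by
        refine antitoneOn_of_deriv_nonpos (convex_Ici 0)
          (continuous_iff_continuousAt.mpr fun y => (dG y).continuousAt).continuousOn
          (fun y _ => (dG y).differentiableAt.differentiableWithinAt) fun y hy => ?_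
        rw [interior_Ici] at hy
        have hy' : 0 < y := hy
        rw [(dG y).deriv]
        have h2 := gb y
        rw [abs_of_pos hy'] at h2
        linarith [le_abs_self (g y)]
      have t3 : Tendsto G atTop (𝓝 0) := by
        have h2 : Tendsto (fun x : ℝ => D / 2 * Real.exp (-(2 * x))) atTop (𝓝 (D / 2 * 0)) := by
          refine Tendsto.const_mul _ ?_
          refine Real.tendsto_exp_neg_atTop_nhds_zero.comp ?_
          exact tendsto_id.const_mul_atTop (by norm_num)
        have h3 := h2.sub t1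
        rw [mul_zero, sub_zero] at h3
        rw [hG]
        exact h3
      have h4 : 0 ≤ G x := by
        refine le_of_tendsto t3 ((eventually_ge_atTop x).mono fun y hy => ?_)
        exact h1 hx (hx.trans hy) hy
      rw [hG] at h4
      rw [abs_of_nonneg hx]
      simp only at h4
      linarith
    · obtain ⟨G, hG⟩ : ∃ G : ℝ → ℝ, G = fun x => D / 2 * Real.exp (2 * x) - S x := ⟨_, rfl⟩
      have dG : ∀ y, HasDerivAt G (D * Real.exp (2 * y) + g y) y := by
        intro y
        rw [hG]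
        have h1 : HasDerivAt (fun y : ℝ => 2 * y) (2 * 1) y := (hasDerivAt_id y).const_mul 2
        refine ((h1.exp.const_mul (D / 2)).sub (dS y)).congr_deriv ?_
        ring
      have h1 : MonotoneOn G (Iic 0) := by
        refine monotoneOn_of_deriv_nonneg (convex_Iic 0)
          (continuous_iff_continuousAt.mpr fun y => (dG y).continuousAt).continuousOn
          (fun y _ => (dG y).differentiableAt.differentiableWithinAt) fun y hy => ?_
        rw [interior_Iic] at hy
        have hy' : y < 0 := hy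
        rw [(dG y).deriv]
        have h2 := gb y
        rw [abs_of_neg hy'] at h2
        have e : -(2 * -y) = 2 * y := by ring
        rw [e] at h2
        linarith [neg_abs_le (g y)]
      have t3 : Tendsto G atBot (𝓝 0) := by
        have h2 : Tendsto (fun x : ℝ => D / 2 * Real.exp (2 * x)) atBot (𝓝 (D / 2 * 0)) := by
          refine Tendsto.const_mul _ ?_
          refine Real.tendsto_exp_atBot.comp ?_
          exact tendsto_id.const_mul_atBot (by norm_num)
        have h3 := h2.sub t2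
        rw [mul_zero, sub_zero] at h3
        rw [hG]
        exact h3
      have h4 : 0 ≤ G x := by
        refine le_of_tendsto t3 ((eventually_le_atBot x).mono fun y hy => ?_)
        exact h1 (hy.trans hx) hx hy
      rw [hG] at h4
      rw [abs_of_nonpos hx]
      simp only at h4
      have e : -(2 * -x) = 2 * x := by ring
      rw [e]
      linarith

/-- `w2 ^ (-1/2)` is `c`-Lipschitz from above. -/
lemma gam_lip {w2 w3 : ℝ → ℝ} (d3 : ∀ x, HasDerivAt w2 (w3 x) x) (h2 : ∀ x, 0 < w2 x)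
    {c K x0 : ℝ} (hK : c ^ 2 * K < 1)
    (h3 : ∀ x, -(2 * c * (w2 x * √(w2 x))) ≤ w3 x) {ξ η : ℝ} (hξ0 : x0 < ξ) (hξη : ξ < η)
    (e1 : K / (ξ - x0) ^ 2 < w2 ξ) (e2 : w2 η < K / (η - x0) ^ 2) : False := by
  have hξp : 0 < ξ - x0 := by linarith
  have hηp : 0 < η - x0 := by linarith
  have hK0 : 0 < K := by
    have h7 : 0 < K / (η - x0) ^ 2 := (h2 η).trans e2
    exact (div_pos_iff_of_pos_right (by positivity)).mp h7
  obtain ⟨H, hH⟩ : ∃ H : ℝ → ℝ, H = fun y => (√(w2 y))⁻¹ := ⟨_, rfl⟩
  have dH : ∀ y, HasDerivAt H (-(w3 y / (2 * √(w2 y))) / (√(w2 y)) ^ 2) y := by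
    intro y
    rw [hH]
    exact ((d3 y).sqrt (h2 y).ne').inv (Real.sqrt_pos.mpr (h2 y)).ne'
  obtain ⟨θ, ⟨hθ1, hθ2⟩, hθ⟩ := exists_hasDerivAt_eq_slope H _ hξη
    (fun y _ => (dH y).continuousAt.continuousWithinAt) (fun y _ => dH y)
  have e3 : -(w3 θ / (2 * √(w2 θ))) / (√(w2 θ)) ^ 2 ≤ c := by
    have hs : 0 < √(w2 θ) := Real.sqrt_pos.mpr (h2 θ)
    rw [Real.sq_sqrt (h2 θ).le, div_le_iff₀ (h2 θ), ← neg_div, div_le_iff₀ (by positivity)]
    have h8 := h3 θ
    have h9 : c * w2 θ * (2 * √(w2 θ)) = 2 * c * (w2 θ * √(w2 θ)) := by ring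
    rw [h9]
    linarith
  rw [hθ, div_le_iff₀ (by linarith)] at e3
  have hsK : 0 < √K := Real.sqrt_pos.mpr hK0
  have e4 : H ξ < (ξ - x0) / √K := by
    rw [hH]
    simp only
    have hs : 0 < √(w2 ξ) := Real.sqrt_pos.mpr (h2 ξ)
    rw [inv_eq_one_div, div_lt_div_iff₀ hs hsK]
    have h7 : √(K / (ξ - x0) ^ 2) < √(w2 ξ) := Real.sqrt_lt_sqrt (by positivity) e1
    rw [Real.sqrt_div hK0.le, Real.sqrt_sq hξp.le, div_lt_iff₀ hξp] at h7
    linarith
  have e5 : (η - x0) / √K < H η := by
    rw [hH]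
    simp only
    have hs : 0 < √(w2 η) := Real.sqrt_pos.mpr (h2 η)
    rw [inv_eq_one_div, div_lt_div_iff₀ hsK hs]
    have h7 : √(w2 η) < √(K / (η - x0) ^ 2) := Real.sqrt_lt_sqrt (h2 η).le e2
    rw [Real.sqrt_div hK0.le, Real.sqrt_sq hηp.le, lt_div_iff₀ hηp] at h7
    linarith
  have e6 : (η - x0) / √K - (ξ - x0) / √K = (η - ξ) / √K := by ring
  have e7 : (η - ξ) / √K < c * (η - ξ) := by linarith
  rw [div_lt_iff₀ hsK] at e7
  have e8 : 1 < c * √K := by
    have h7 : (η - ξ) * 1 < (η - ξ) * (c * √K) := by linarith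
    exact lt_of_mul_lt_mul_left h7 (by linarith)
  have e9 : 1 < (c * √K) ^ 2 := one_lt_pow₀ e8 two_ne_zero
  rw [mul_pow, Real.sq_sqrt hK0.le] at e9
  linarith

/-- The function `F` changes its sign at most once. -/
lemma gam_sep {w1 w2 w3 p F : ℝ → ℝ} (hp : ∀ x, 0 < p x)
    (d2 : ∀ x, HasDerivAt w1 (w2 x) x) (d3 : ∀ x, HasDerivAt w2 (w3 x) x) (h2 : ∀ x, 0 < w2 x)
    {c α K x0 : ℝ} (hα : 0 < α) (hK : c ^ 2 * K < 1)
    (h3 : ∀ x, -(2 * c * (w2 x * √(w2 x))) ≤ w3 x)
    (dF : ∀ x, x0 < x → HasDerivAt F (p x * (α * (x - x0)) * (w1 x - (1 / α - K / (x - x0)))) x)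
    (Fc : Continuous F) (F0 : 0 < F x0) (Ft : Tendsto F atTop (𝓝 0)) {x x' : ℝ}
    (hx : x0 < x) (hx' : x < x') (h : F x ≤ 0) : F x' ≤ 0 := by
  by_contra hn
  push Not at hn
  obtain ⟨E, hE⟩ : ∃ E : ℝ → ℝ, E = fun y => w1 y - (1 / α - K / (y - x0)) := ⟨_, rfl⟩
  have dE : ∀ y, x0 < y → HasDerivAt E (w2 y - K / (y - x0) ^ 2) y := by
    intro y hy
    have hy0 : y - x0 ≠ 0 := by linarith
    rw [hE]
    have h4 : HasDerivAt (fun y : ℝ => y - x0) 1 y := (hasDerivAt_id y).sub_const x0
    have h5 : HasDerivAt (fun y : ℝ => K / (y - x0)) (-(K / (y - x0) ^ 2)) y := by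
      refine ((hasDerivAt_const y K).div h4 hy0).congr_deriv ?_
      ring
    refine ((d2 y).sub (h5.const_sub (1 / α))).congr_deriv ?_
    ring
  have sE : ∀ y, x0 < y → 0 < p y * (α * (y - x0)) := fun y hy =>
    mul_pos (hp y) (mul_pos hα (by linarith))
  obtain ⟨A, ⟨hA1, hA2⟩, hA⟩ := exists_hasDerivAt_eq_slope F _ hx Fc.continuousOn
    (fun y hy => dF y hy.1)
  obtain ⟨B, ⟨hB1, hB2⟩, hB⟩ := exists_hasDerivAt_eq_slope F _ hx' Fc.continuousOn
    (fun y hy => dF y (hx.trans hy.1))
  obtain ⟨x'', hx'', h6⟩ : ∃ x'', x' < x'' ∧ F x'' < F x' :=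
    ((eventually_gt_atTop x').and (Ft.eventually_lt_const hn)).exists
  obtain ⟨D, ⟨hD1, hD2⟩, hD⟩ := exists_hasDerivAt_eq_slope F _ hx'' Fc.continuousOn
    (fun y hy => dF y ((hx.trans hx').trans hy.1))
  have EA : E A < 0 := by
    have h7 : (F x - F x0) / (x - x0) < 0 := div_neg_of_neg_of_pos (by linarith) (by linarith)
    rw [← hA] at h7
    rw [hE]
    exact neg_of_mul_neg_right h7 (sE A hA1).le
  have EB : 0 < E B := by
    have h7 : 0 < (F x' - F x) / (x' - x) := div_pos (by linarith) (by linarith)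
    rw [← hB] at h7
    rw [hE]
    exact (pos_iff_pos_of_mul_pos h7).mp (sE B (hx.trans hB1))
  have ED : E D < 0 := by
    have h7 : (F x'' - F x') / (x'' - x') < 0 := div_neg_of_neg_of_pos (by linarith) (by linarith)
    rw [← hD] at h7
    rw [hE]
    exact neg_of_mul_neg_right h7 (sE D ((hx.trans hx').trans hD1)).le
  have Ec : ∀ y, x0 < y → ContinuousAt E y := fun y hy => (dE y hy).continuousAt
  obtain ⟨ξ, ⟨hξ1, hξ2⟩, hξ⟩ := exists_hasDerivAt_eq_slope E _ (hA2.trans hB1)
    (fun y hy => (Ec y (hA1.trans_le hy.1)).continuousWithinAt)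
    (fun y hy => dE y (hA1.trans hy.1))
  obtain ⟨η, ⟨hη1, hη2⟩, hη⟩ := exists_hasDerivAt_eq_slope E _ (hB2.trans hD1)
    (fun y hy => (Ec y ((hx.trans hB1).trans_le hy.1)).continuousWithinAt)
    (fun y hy => dE y ((hx.trans hB1).trans hy.1))
  have hξ0 : x0 < ξ := hA1.trans hξ1
  have hη0 : x0 < η := (hx.trans hB1).trans hη1
  have hξη : ξ < η := hξ2.trans hη1
  have e1 : K / (ξ - x0) ^ 2 < w2 ξ := by
    have h7 : 0 < (E B - E A) / (B - A) := div_pos (by linarith) (by linarith)
    rw [← hξ] at h7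
    linarith
  have e2 : w2 η < K / (η - x0) ^ 2 := by
    have h7 : (E D - E B) / (D - B) < 0 := div_neg_of_neg_of_pos (by linarith) (by linarith)
    rw [← hη] at h7
    linarith
  exact gam_lip d3 h2 hK h3 hξ0 hξη e1 e2

lemma gam_le_exp {C : ℝ} (hC : 0 ≤ C) {y x : ℝ} (h : y ≤ C * Real.exp (-(3 * |x|))) :
    y ≤ C * Real.exp (-(2 * |x|)) := by
  refine h.trans (mul_le_mul_of_nonneg_left (Real.exp_le_exp.mpr ?_) hC)
  linarith [abs_nonneg x]

/-- The third central moment of a self-concordant density. -/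
theorem gam_core {w1 w2 w3 p : ℝ → ℝ} (hp : ∀ x, 0 < p x)
    (dp : ∀ x, HasDerivAt p (-(w1 x * p x)) x)
    (d2 : ∀ x, HasDerivAt w1 (w2 x) x) (d3 : ∀ x, HasDerivAt w2 (w3 x) x) (h2 : ∀ x, 0 < w2 x)
    {c : ℝ} (hc : 0 ≤ c) (h3 : ∀ x, -(2 * c * (w2 x * √(w2 x))) ≤ w3 x) {C : ℝ}
    (hC : ∀ x, p x ≤ C * Real.exp (-(3 * |x|))) {m : ℝ} (hm : ∫ x, (x - m) * p x = 0) {s k : ℝ}
    (hs : s * ∫ x, p x = ∫ x, (x - m) ^ 2 * p x) (hk : k * ∫ x, p x = ∫ x, (x - m) ^ 3 * p x) :
    k ≤ 2 * c * (s * √s) := by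
  have hC0 : 0 < C := by
    have := (hp 0).trans_le (hC 0)
    simpa using this
  have pc : Continuous p := continuous_iff_continuousAt.mpr fun x => (dp x).continuousAt
  have pb : ∀ x, |p x| ≤ C * Real.exp (-(2 * |x|)) := fun x => by
    rw [abs_of_pos (hp x)]
    exact gam_le_exp hC0.le (hC x)
  have pi : ∀ j : ℕ, Integrable (fun x => (x - m) ^ j * p x) := fun j =>
    gam_pow_int pc hC0.le pb m j
  have pi0 : Integrable p := by simpa using pi 0
  have pi1 : Integrable (fun x => (x - m) * p x) := by simpa using pi 1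
  have hZ : 0 < ∫ x, p x := by
    rcases (integral_nonneg (μ := volume) (f := p) fun x => (hp x).le).lt_or_eq with h | h
    · exact h
    · exact absurd (gam_zero pc pi0 (fun x => (hp x).le) h.symm 0) (hp 0).ne'
  have hs0 : 0 < s := by
    have h : 0 < ∫ x, (x - m) ^ 2 * p x := by
      have h0 : ∀ x, 0 ≤ (x - m) ^ 2 * p x := fun x => mul_nonneg (sq_nonneg _) (hp x).le
      rcases (integral_nonneg (μ := volume) (f := fun x => (x - m) ^ 2 * p x)
        (fun x => h0 x)).lt_or_eq with h | h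
      · exact h
      · have := gam_zero (by fun_prop) (pi 2) h0 h.symm (m + 1)
        simp at this
        exact absurd this (hp _).ne'
    rw [← hs] at h
    exact (pos_iff_pos_of_mul_pos h).mpr hZ
  by_contra hlt
  push Not at hlt
  obtain ⟨α, hα⟩ : ∃ α, α = k / (2 * s) := ⟨_, rfl⟩
  have hss : 0 < √s := Real.sqrt_pos.mpr hs0
  have hαc : c * √s < α := by
    rw [hα, lt_div_iff₀ (by positivity)]
    linarith [show c * √s * (2 * s) = 2 * c * (s * √s) by ring]
  have hα0 : 0 < α := lt_of_le_of_lt (by positivity) hαc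
  obtain ⟨K, hK⟩ : ∃ K, K = s / α ^ 2 - 1 := ⟨_, rfl⟩
  obtain ⟨x0, hx0⟩ : ∃ x0, x0 = m - s / α := ⟨_, rfl⟩
  have hKc : c ^ 2 * K < 1 := by
    have h : c ^ 2 * s < α ^ 2 := by
      have := pow_lt_pow_left₀ hαc (by positivity) two_ne_zero
      rwa [mul_pow, Real.sq_sqrt hs0.le] at this
    have h1 : c ^ 2 * K = c ^ 2 * s / α ^ 2 - c ^ 2 := by rw [hK]; ring
    have h2 : c ^ 2 * s / α ^ 2 < 1 := (div_lt_one (by positivity)).mpr h
    rw [h1]
    nlinarith [sq_nonneg c]
  obtain ⟨S, B, hB, dS, S0, Sb⟩ := gam_S hp pc hC hm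
  have Sc : Continuous S := continuous_iff_continuousAt.mpr fun x => (dS x).continuousAt
  have Sb' : ∀ x, |S x| ≤ B * Real.exp (-(2 * |x|)) := fun x => by
    rw [abs_of_pos (S0 x)]; exact Sb x
  have Si : ∀ j : ℕ, Integrable (fun x => (x - m) ^ j * S x) := fun j =>
    gam_pow_int Sc hB Sb' m j
  have Si0 : Integrable S := by simpa using Si 0
  have Si1 : Integrable (fun x => (x - m) * S x) := by simpa using Si 1
  -- the integrals of `S`
  have I0 : ∫ x, S x = s * ∫ x, p x := by
    have h := integral_mul_deriv_eq_deriv_mul_of_integrable (u := fun x : ℝ => x - m)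
      (u' := fun _ => (1 : ℝ)) (v := S) (v' := fun x => -((x - m) * p x))
      (fun x _ => (hasDerivAt_id x).sub_const m) (fun x _ => dS x)
      ((pi 2).neg.congr (Eventually.of_forall fun x => by simp only [Pi.neg_apply, Pi.mul_apply]; ring))
      (Si0.congr (Eventually.of_forall fun x => by simp)) Si1
    have e1 : ∫ x, (x - m) * -((x - m) * p x) = -∫ x, (x - m) ^ 2 * p x := by
      rw [← integral_neg]
      congr 1
      ext x
      ring
    rw [e1] at h
    simp only [one_mul] at h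
    rw [hs]
    linarith
  have I1 : ∫ x, (x - m) * S x = k / 2 * ∫ x, p x := by
    have h := integral_mul_deriv_eq_deriv_mul_of_integrable
      (u := fun x : ℝ => (x - m) ^ 2 / 2)
      (u' := fun x => x - m) (v := S) (v' := fun x => -((x - m) * p x))
      (fun x _ => by
        have h4 : HasDerivAt (fun x : ℝ => x - m) 1 x := (hasDerivAt_id x).sub_const m
        refine ((h4.pow 2).div_const 2).congr_deriv ?_
        simp) (fun x _ => dS x)
      (((pi 3).div_const 2).neg.congr
        (Eventually.of_forall fun x => by simp only [Pi.neg_apply, Pi.mul_apply]; ring))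
      Si1 (((Si 2).div_const 2).congr
        (Eventually.of_forall fun x => by simp only [Pi.mul_apply]; ring))
    have e1 : ∫ x, (x - m) ^ 2 / 2 * -((x - m) * p x) = -((∫ x, (x - m) ^ 3 * p x) / 2) := by
      rw [← integral_div, ← integral_neg]
      congr 1
      ext x
      ring
    rw [e1, ← hk] at h
    linarith
  obtain ⟨F, hF⟩ : ∃ F : ℝ → ℝ, F = fun x => S x - α * ((x - m) * p x + (m - x0) * p x) :=
    ⟨_, rfl⟩
  have hmx : m - x0 = s / α := by rw [hx0]; ring
  have Fc : Continuous F := by rw [hF]; fun_prop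
  have pj : Integrable (fun x => (x - m) * p x + (m - x0) * p x) := pi1.add (pi0.const_mul _)
  have Fi : Integrable F := by
    rw [hF]
    exact Si0.sub (pj.const_mul α)
  have J0 : ∫ x, F x = 0 := by
    rw [hF, integral_sub Si0 (pj.const_mul α), integral_const_mul,
      integral_add pi1 (pi0.const_mul _), integral_const_mul, hm, I0, hmx]
    field_simp
    ring
  have pk : Integrable (fun x => (x - m) ^ 2 * p x + (m - x0) * ((x - m) * p x)) :=
    (pi 2).add (pi1.const_mul _)
  have J1 : ∫ x, (x - m) * F x = 0 := by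
    have e : (fun x => (x - m) * F x) = fun x => (x - m) * S x -
        α * ((x - m) ^ 2 * p x + (m - x0) * ((x - m) * p x)) := by
      ext x
      rw [hF]
      ring
    rw [e, integral_sub Si1 (pk.const_mul α), integral_const_mul,
      integral_add (pi 2) (pi1.const_mul _), integral_const_mul, hm, I1, ← hs, hα]
    field_simp
    ring
  have Fi1 : Integrable (fun x => (x - m) * F x) := by
    have e : (fun x => (x - m) * F x) = fun x => (x - m) * S x -
        α * ((x - m) ^ 2 * p x + (m - x0) * ((x - m) * p x)) := by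
      ext x
      rw [hF]
      ring
    rw [e]
    exact Si1.sub (pk.const_mul α)
  have Fpos : ∀ x, x ≤ x0 → 0 < F x := by
    intro x hx
    rw [hF]
    have h1 : 0 ≤ α * ((x0 - x) * p x) :=
      mul_nonneg hα0.le (mul_nonneg (by linarith) (hp x).le)
    have h4 := S0 x
    have e : S x - α * ((x - m) * p x + (m - x0) * p x) = S x + α * ((x0 - x) * p x) := by ring
    simp only
    rw [e]
    linarith
  have dF : ∀ x, x0 < x →
      HasDerivAt F (p x * (α * (x - x0)) * (w1 x - (1 / α - K / (x - x0)))) x := by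
    intro x hx
    have hx' : x - x0 ≠ 0 := by linarith
    rw [hF]
    have h4 : HasDerivAt (fun x : ℝ => x - m) 1 x := (hasDerivAt_id x).sub_const m
    refine ((dS x).sub (((h4.mul (dp x)).add ((dp x).const_mul (m - x0))).const_mul α)).congr_deriv ?_
    rw [hmx, hK]
    have hxm : x - x0 = x - m + s / α := by rw [hx0]; ring
    have e5 : α * (x - x0) * (1 / α - (s / α ^ 2 - 1) / (x - x0)) = x - x0 - s / α + α := by
      field_simp
      ring
    have e6 : p x * (α * (x - x0)) * (w1 x - (1 / α - (s / α ^ 2 - 1) / (x - x0))) =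
        p x * (α * (x - x0) * w1 x - α * (x - x0) * (1 / α - (s / α ^ 2 - 1) / (x - x0))) := by
      ring
    rw [e6, e5, hxm]
    ring
  have Ft : Tendsto F atTop (𝓝 0) := by
    have h4 : ∀ x, |F x| ≤ (B + α * (Real.exp |m| * C + |m - x0| * C)) * Real.exp (-|x|) := by
      intro x
      have h5 := gam_pow m 1 x
      simp only [pow_one, Nat.factorial_one, Nat.cast_one, one_mul] at h5
      have h6 : |(x - m) * p x| ≤ Real.exp |m| * C * Real.exp (-|x|) := by
        rw [abs_mul]
        calc |x - m| * |p x| ≤ (Real.exp |m| * Real.exp |x|) * (C * Real.exp (-(2 * |x|))) :=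
              mul_le_mul h5 (pb x) (abs_nonneg _) (by positivity)
          _ = Real.exp |m| * C * (Real.exp |x| * Real.exp (-(2 * |x|))) := by ring
          _ = Real.exp |m| * C * Real.exp (-|x|) := by rw [← Real.exp_add]; congr 2; ring
      have h7 : Real.exp (-(2 * |x|)) ≤ Real.exp (-|x|) :=
        Real.exp_le_exp.mpr (by linarith [abs_nonneg x])
      have h8 : |p x| ≤ C * Real.exp (-|x|) :=
        (pb x).trans (mul_le_mul_of_nonneg_left h7 hC0.le)
      have h9 : |S x| ≤ B * Real.exp (-|x|) :=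
        (Sb' x).trans (mul_le_mul_of_nonneg_left h7 hB)
      have h10 : |(m - x0) * p x| ≤ |m - x0| * C * Real.exp (-|x|) := by
        rw [abs_mul, mul_assoc]
        exact mul_le_mul_of_nonneg_left h8 (abs_nonneg _)
      have h11 : |α * ((x - m) * p x + (m - x0) * p x)| ≤
          α * (Real.exp |m| * C * Real.exp (-|x|) + |m - x0| * C * Real.exp (-|x|)) := by
        rw [abs_mul, abs_of_pos hα0]
        exact mul_le_mul_of_nonneg_left ((abs_add_le _ _).trans (add_le_add h6 h10)) hα0.le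
      rw [hF]
      calc |S x - α * ((x - m) * p x + (m - x0) * p x)|
          ≤ |S x| + |α * ((x - m) * p x + (m - x0) * p x)| := abs_sub _ _
        _ ≤ B * Real.exp (-|x|) +
          α * (Real.exp |m| * C * Real.exp (-|x|) + |m - x0| * C * Real.exp (-|x|)) :=
            add_le_add h9 h11
        _ = _ := by ring
    rw [tendsto_zero_iff_abs_tendsto_zero]
    have h5 : Tendsto (fun x : ℝ => (B + α * (Real.exp |m| * C + |m - x0| * C)) *
        Real.exp (-|x|)) atTop (𝓝 ((B + α * (Real.exp |m| * C + |m - x0| * C)) * 0)) := by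
      refine Tendsto.const_mul _ ?_
      exact Real.tendsto_exp_neg_atTop_nhds_zero.comp tendsto_abs_atTop_atTop
    rw [mul_zero] at h5
    exact squeeze_zero (fun x => abs_nonneg _) h4 h5
  have sep : ∀ x x', x0 < x → x < x' → F x ≤ 0 → F x' ≤ 0 := fun x x' hx hx' h =>
    gam_sep hp d2 d3 h2 hα0 hKc h3 dF Fc (Fpos x0 le_rfl) Ft hx hx' h
  have gt : ∀ x, F x ≤ 0 → x0 < x := by
    intro x hx
    by_contra hn
    exact absurd (Fpos x (not_lt.mp hn)) (not_lt.mpr hx)
  obtain ⟨N, hN⟩ : ∃ N : Set ℝ, N = {x | F x ≤ 0} := ⟨_, rfl⟩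
  have Nb : BddBelow N := ⟨x0, fun x hx => by rw [hN] at hx; exact (gt x hx).le⟩
  have Nn : N.Nonempty := by
    by_contra hn
    rw [not_nonempty_iff_eq_empty] at hn
    have h4 : ∀ x, 0 < F x := by
      intro x
      by_contra h5
      have : x ∈ N := by rw [hN]; exact not_lt.mp h5
      rw [hn] at this
      exact this
    exact absurd (gam_zero Fc Fi (fun x => (h4 x).le) J0 0) (h4 0).ne'
  obtain ⟨z, hz⟩ : ∃ z, z = sInf N := ⟨_, rfl⟩
  have lt : ∀ x, x < z → 0 < F x := by
    intro x hx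
    rw [hz] at hx
    have h4 := notMem_of_lt_csInf hx Nb
    rw [hN] at h4
    exact not_le.mp h4
  have gt' : ∀ x, z < x → F x ≤ 0 := by
    intro x hx
    rw [hz] at hx
    obtain ⟨y, hy, hyx⟩ := exists_lt_of_csInf_lt Nn hx
    rw [hN] at hy
    exact sep y x (gt y hy) hyx hy
  have fin : ∀ x, -((x - m) * F x + (m - z) * F x) = 0 := by
    refine gam_zero (by fun_prop) (Fi1.add (Fi.const_mul _)).neg ?_ ?_
    · intro x
      have e : -((x - m) * F x + (m - z) * F x) = (z - x) * F x := by ring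
      rw [e]
      rcases lt_trichotomy x z with h | h | h
      · exact mul_nonneg (by linarith) (lt x h).le
      · rw [h]; simp
      · exact mul_nonneg_of_nonpos_of_nonpos (by linarith) (gt' x h)
    · rw [integral_neg, integral_add Fi1 (Fi.const_mul _), integral_const_mul, J0, J1]
      simp
  have h4 := fin (z - 1)
  have h5 := lt (z - 1) (by linarith)
  have e : -((z - 1 - m) * F (z - 1) + (m - z) * F (z - 1)) = F (z - 1) := by ring
  rw [e] at h4
  exact h5.ne' h4

/-- A uniformly convex potential gives exponential decay. -/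
lemma gam_bound {w w1 w2 : ℝ → ℝ} (d1 : ∀ x, HasDerivAt w (w1 x) x)
    (d2 : ∀ x, HasDerivAt w1 (w2 x) x) {a : ℝ} (ha : 0 < a) (h2 : ∀ x, a ≤ w2 x) :
    ∃ C, ∀ x, Real.exp (-w x) ≤ C * Real.exp (-(3 * |x|)) := by
  have q : ∀ x, w 0 + w1 0 * x + a / 2 * x ^ 2 ≤ w x := by
    have dq : ∀ x, HasDerivAt (fun x => w x - (w 0 + w1 0 * x + a / 2 * x ^ 2))
        (w1 x - (w1 0 + a * x)) x := by
      intro x
      have h4 : HasDerivAt (fun x : ℝ => w 0 + w1 0 * x + a / 2 * x ^ 2)
          (w1 0 * 1 + a / 2 * (2 * x)) x := by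
        refine ((((hasDerivAt_id x).const_mul (w1 0)).const_add (w 0)).add
          (((hasDerivAt_id x).pow 2).const_mul (a / 2))).congr_deriv ?_
        simp
      refine ((d1 x).sub h4).congr_deriv ?_
      ring
    have mono : Monotone (fun x => w1 x - (w1 0 + a * x)) := by
      refine monotone_of_hasDerivAt_nonneg (f' := fun x => w2 x - a) (fun x => ?_) (fun x => ?_)
      · refine ((d2 x).sub (((hasDerivAt_id x).const_mul a).const_add (w1 0))).congr_deriv ?_
        ring
      · simpa using h2 x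
    have qc : Continuous (fun x => w x - (w 0 + w1 0 * x + a / 2 * x ^ 2)) :=
      continuous_iff_continuousAt.mpr fun x => (dq x).continuousAt
    intro x
    rcases le_total 0 x with hx | hx
    · have h5 : MonotoneOn (fun x => w x - (w 0 + w1 0 * x + a / 2 * x ^ 2)) (Ici 0) := by
        refine monotoneOn_of_deriv_nonneg (convex_Ici 0) qc.continuousOn
          (fun y _ => (dq y).differentiableAt.differentiableWithinAt) fun y hy => ?_
        rw [interior_Ici] at hy
        have hy' : 0 < y := hy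
        rw [(dq y).deriv]
        simpa using mono hy'.le
      have h6 := h5 (show (0 : ℝ) ∈ Ici 0 from le_refl (0 : ℝ)) hx hx
      simp only at h6
      simp at h6
      linarith
    · have h5 : AntitoneOn (fun x => w x - (w 0 + w1 0 * x + a / 2 * x ^ 2)) (Iic 0) := by
        refine antitoneOn_of_deriv_nonpos (convex_Iic 0) qc.continuousOn
          (fun y _ => (dq y).differentiableAt.differentiableWithinAt) fun y hy => ?_
        rw [interior_Iic] at hy
        have hy' : y < 0 := hy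
        rw [(dq y).deriv]
        simpa using mono hy'.le
      have h6 := h5 hx (show (0 : ℝ) ∈ Iic 0 from le_refl (0 : ℝ)) hx
      simp only at h6
      simp at h6
      linarith
  obtain ⟨L, hL⟩ : ∃ L, L = (3 + |w1 0|) / a := ⟨_, rfl⟩
  refine ⟨Real.exp (-w 0 + a / 2 * L ^ 2), fun x => ?_⟩
  rw [← Real.exp_add]
  refine Real.exp_le_exp.mpr ?_
  have h7 := q x
  have h8 : -(|w1 0| * |x|) ≤ w1 0 * x := by rw [← abs_mul]; exact neg_abs_le _
  have h9 : 0 ≤ a / 2 * (|x| - L) ^ 2 := by positivity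
  have h10 : a * L = 3 + |w1 0| := by rw [hL]; field_simp
  have h11 : a / 2 * (|x| - L) ^ 2 = a / 2 * x ^ 2 - (a * L) * |x| + a / 2 * L ^ 2 := by
    rw [← sq_abs x]; ring
  rw [h11, h10] at h9
  linarith

/-- One sided form for the potential `w`. -/
theorem gam_third {w w1 w2 w3 : ℝ → ℝ} (d1 : ∀ x, HasDerivAt w (w1 x) x)
    (d2 : ∀ x, HasDerivAt w1 (w2 x) x) (d3 : ∀ x, HasDerivAt w2 (w3 x) x) {a c : ℝ} (ha : 0 < a)
    (h2 : ∀ x, a ≤ w2 x) (hc : 0 ≤ c) (h3 : ∀ x, -(2 * c * (w2 x * √(w2 x))) ≤ w3 x) {m s k : ℝ}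
    (hm : ∫ x, (x - m) * Real.exp (-w x) = 0)
    (hs : s * ∫ x, Real.exp (-w x) = ∫ x, (x - m) ^ 2 * Real.exp (-w x))
    (hk : k * ∫ x, Real.exp (-w x) = ∫ x, (x - m) ^ 3 * Real.exp (-w x)) :
    k ≤ 2 * c * (s * √s) := by
  obtain ⟨C, hC⟩ := gam_bound d1 d2 ha h2
  refine gam_core (p := fun x => Real.exp (-w x)) (fun x => Real.exp_pos _) (fun x => ?_) d2 d3
    (fun x => ha.trans_le (h2 x)) hc h3 hC hm hs hk
  have h4 : HasDerivAt (fun x => -w x) (-w1 x) x := (d1 x).neg
  refine h4.exp.congr_deriv ?_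
  ring

/-- The third central moment of `exp (-w)`, `w` self-concordant. -/
theorem gam_abs {w w1 w2 w3 : ℝ → ℝ} (d1 : ∀ x, HasDerivAt w (w1 x) x)
    (d2 : ∀ x, HasDerivAt w1 (w2 x) x) (d3 : ∀ x, HasDerivAt w2 (w3 x) x) {a c : ℝ} (ha : 0 < a)
    (h2 : ∀ x, a ≤ w2 x) (hc : 0 ≤ c) (h3 : ∀ x, |w3 x| ≤ 2 * c * (w2 x * √(w2 x))) {m s k : ℝ}
    (hm : ∫ x, (x - m) * Real.exp (-w x) = 0)
    (hs : s * ∫ x, Real.exp (-w x) = ∫ x, (x - m) ^ 2 * Real.exp (-w x))
    (hk : k * ∫ x, Real.exp (-w x) = ∫ x, (x - m) ^ 3 * Real.exp (-w x)) :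
    |k| ≤ 2 * c * (s * √s) := by
  rw [abs_le]
  constructor
  · have hn : ∀ f : ℝ → ℝ, ∫ x, f (-x) = ∫ x, f x := fun f => integral_neg_eq_self f volume
    have d1' : ∀ x, HasDerivAt (fun x => w (-x)) (-w1 (-x)) x := fun x => by
      refine ((d1 (-x)).comp x (hasDerivAt_neg x)).congr_deriv ?_
      ring
    have d2' : ∀ x, HasDerivAt (fun x => -w1 (-x)) (w2 (-x)) x := fun x => by
      refine ((d2 (-x)).comp x (hasDerivAt_neg x)).neg.congr_deriv ?_
      ring
    have d3' : ∀ x, HasDerivAt (fun x => w2 (-x)) (-w3 (-x)) x := fun x => by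
      refine ((d3 (-x)).comp x (hasDerivAt_neg x)).congr_deriv ?_
      ring
    have h := gam_third (m := -m) (s := s) (k := -k) d1' d2' d3' ha (fun x => h2 (-x)) hc
      (fun x => by linarith [(abs_le.mp (h3 (-x))).2]) ?_ ?_ ?_
    · linarith
    · have e : (fun x => (x - -m) * Real.exp (-w (-x))) =
          fun x => (fun y => -((y - m) * Real.exp (-w y))) (-x) := by
        ext x
        simp only
        ring
      rw [e, hn (fun y => -((y - m) * Real.exp (-w y))), integral_neg, hm, neg_zero]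
    · rw [hn (fun y => Real.exp (-w y)), hs]
      have e : (fun x => (x - -m) ^ 2 * Real.exp (-w (-x))) =
          fun x => (fun y => (y - m) ^ 2 * Real.exp (-w y)) (-x) := by
        ext x
        simp only
        ring
      rw [e, hn (fun y => (y - m) ^ 2 * Real.exp (-w y))]
    · rw [hn (fun y => Real.exp (-w y)), neg_mul, hk]
      have e : (fun x => (x - -m) ^ 3 * Real.exp (-w (-x))) =
          fun x => (fun y => -((y - m) ^ 3 * Real.exp (-w y))) (-x) := by
        ext x
        simp only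
        ring
      rw [e, hn (fun y => -((y - m) ^ 3 * Real.exp (-w y))), integral_neg]
  · exact gam_third d1 d2 d3 ha h2 hc (fun x => (abs_le.mp (h3 x)).1) hm hs hk

end Vale.Agent.P227.M.SC
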