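import Vale.Agent.P227.M.SC.Iter

/-! # P227/M/SC: iterated two-point averages and the Gaussian limit (Lévy). -/

open MeasureTheory Filter Topology

namespace Vale.Agent.P227.M.SC.F79

section Alg
variable {E : Type*} [NormedAddCommGroup E] [NormedSpace ℝ E]

/-- iterated two-point average of a function -/
noncomputable def AA (δ : ℝ) : List E → (E → ℝ) → (E → ℝ)
  | [], f => f
  | e :: l, f => AA δ l (fun x => (f (x + δ • e) + f (x - δ • e)) / 2)

theorem exp_avgs (δ : ℝ) : ∀ (l : List E) (w : E → ℝ) (x : E),
    Real.exp (-(avgs δ l w x)) = AA δ l (fun y => Real.exp (-w y)) x := by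
  intro l
  induction l with
  | nil => intro w x; rfl
  | cons e l ih =>
    intro w x
    rw [avgs, AA, ih]
    congr 1
    funext y
    rw [avg, neg_neg, Real.exp_log (by positivity)]

theorem AA_pos (δ : ℝ) : ∀ (l : List E) (f : E → ℝ) (_ : ∀ x, 0 < f x) (x : E), 0 < AA δ l f x := by
  intro l
  induction l with
  | nil => intro f hf x; exact hf x
  | cons e l ih =>
    intro f hf x
    rw [AA]
    refine ih _ (fun y => ?_) x
    have h1 := hf (y + δ • e)
    have h2 := hf (y - δ • e)
    positivity

theorem avgs_eq (δ : ℝ) (l : List E) (w : E → ℝ) (x : E) :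
    avgs δ l w x = -Real.log (AA δ l (fun y => Real.exp (-w y)) x) := by
  rw [← exp_avgs, Real.log_exp, neg_neg]

theorem AA_diff (δ : ℝ) : ∀ (l : List E) (f : E → ℝ), Differentiable ℝ f →
    Differentiable ℝ (AA δ l f) := by
  intro l
  induction l with
  | nil => intro f hf; exact hf
  | cons e l ih =>
    intro f hf
    rw [AA]
    exact ih _ (by fun_prop)

theorem dd_AA (δ : ℝ) (v : E) : ∀ (l : List E) (f : E → ℝ), Differentiable ℝ f →
    dd v (AA δ l f) = AA δ l (dd v f) := by
  intro l
  induction l with
  | nil => intro f hf; rfl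
  | cons e l ih =>
    intro f hf
    rw [AA, AA, ih]
    · congr 1
      funext x
      have h1 : HasFDerivAt (fun x => f (x + δ • e)) (fderiv ℝ f (x + δ • e)) x :=
        (hasFDerivAt_comp_add_right _).2 (hf (x + δ • e)).hasFDerivAt
      have h2 : HasFDerivAt (fun x => f (x - δ • e)) (fderiv ℝ f (x - δ • e)) x :=
        (hasFDerivAt_comp_sub _).2 (hf (x - δ • e)).hasFDerivAt
      have h3 : HasFDerivAt (fun x => (f (x + δ • e) + f (x - δ • e)) / 2)
          ((2 : ℝ)⁻¹ • (fderiv ℝ f (x + δ • e) + fderiv ℝ f (x - δ • e))) x := by
        have := (h1.add h2).const_smul (2 : ℝ)⁻¹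
        refine this.congr_of_eventuallyEq (Eventually.of_forall fun y => ?_)
        simp [div_eq_inv_mul]
      simp only [dd]
      rw [h3.fderiv]
      simp [div_eq_inv_mul, mul_add]
    · fun_prop

end Alg

section Meas
variable {E : Type*} [NormedAddCommGroup E] [InnerProductSpace ℝ E] [MeasurableSpace E]
  [BorelSpace E]

/-- the law of the sum of the steps -/
noncomputable def nu (δ : ℝ) : List E → Measure E
  | [] => Measure.dirac 0
  | e :: l => (2⁻¹ : ENNReal) • ((nu δ l).map (· + δ • e)) +
      (2⁻¹ : ENNReal) • ((nu δ l).map (· + (-(δ • e))))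

theorem nu_prob (δ : ℝ) : ∀ l : List E, IsProbabilityMeasure (nu δ l) := by
  intro l
  induction l with
  | nil => rw [nu]; infer_instance
  | cons e l ih =>
    have := ih
    have h1 : IsProbabilityMeasure ((nu δ l).map (· + δ • e)) :=
      Measure.isProbabilityMeasure_map (by fun_prop)
    have h2 : IsProbabilityMeasure ((nu δ l).map (· + (-(δ • e)))) :=
      Measure.isProbabilityMeasure_map (by fun_prop)
    constructor
    rw [nu]
    simp [ENNReal.inv_two_add_inv_two]

theorem nu_int (δ : ℝ) : ∀ (l : List E) (f : E → ℝ), Continuous f → (∃ B, ∀ x, |f x| ≤ B) →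
    ∀ x, AA δ l f x = ∫ z, f (x + z) ∂(nu δ l) := by
  intro l
  induction l with
  | nil => intro f hf hb x; simp [AA, nu]
  | cons e l ih =>
    intro f hf hb x
    obtain ⟨B, hB⟩ := hb
    have := nu_prob δ l
    have h1 : IsProbabilityMeasure ((nu δ l).map (· + δ • e)) :=
      Measure.isProbabilityMeasure_map (by fun_prop)
    have h2 : IsProbabilityMeasure ((nu δ l).map (· + (-(δ • e)))) :=
      Measure.isProbabilityMeasure_map (by fun_prop)
    rw [AA, ih _ (by fun_prop) ⟨B, fun y => ?_⟩ x, nu]
    · have hint : ∀ (μ : Measure E) [IsProbabilityMeasure μ] (g : E → ℝ), Continuous g →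
          (∀ x, |g x| ≤ B) → Integrable g μ := by
        intro μ _ g hg hgB
        exact Integrable.of_bound hg.aestronglyMeasurable B (Eventually.of_forall hgB)
      rw [integral_add_measure, integral_smul_measure, integral_smul_measure,
        integral_map (by fun_prop) (Continuous.aestronglyMeasurable (by fun_prop)),
        integral_map (by fun_prop) (Continuous.aestronglyMeasurable (by fun_prop))]
      · rw [integral_div, integral_add]
        · have e1 : ∀ z : E, f (x + z + δ • e) = f (x + (z + δ • e)) := fun z => by rw [add_assoc]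
          have e2 : ∀ z : E, f (x + z - δ • e) = f (x + (z + -(δ • e))) := fun z => by
            rw [sub_eq_add_neg, add_assoc]
          simp only [e1, e2]
          simp
          ring
        · exact hint _ _ (by fun_prop) fun z => hB _
        · exact hint _ _ (by fun_prop) fun z => hB _
      · exact (hint _ _ (by fun_prop) fun z => hB _).smul_measure (by simp)
      · exact (hint _ _ (by fun_prop) fun z => hB _).smul_measure (by simp)
    · rw [abs_div, abs_two, div_le_iff₀ (by norm_num)]
      refine (abs_add_le _ _).trans ?_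
      have := hB (y + δ • e)
      have := hB (y - δ • e)
      linarith

theorem charFun_nu (δ : ℝ) (θ : E) : ∀ l : List E,
    charFun (nu δ l) θ = ((l.map fun e => Real.cos (δ * inner ℝ e θ)).prod : ℝ) := by
  intro l
  induction l with
  | nil => simp [nu]
  | cons e l ih =>
    have := nu_prob δ l
    have h1 : IsProbabilityMeasure ((nu δ l).map (· + δ • e)) :=
      Measure.isProbabilityMeasure_map (by fun_prop)
    have h2 : IsProbabilityMeasure ((nu δ l).map (· + (-(δ • e)))) :=
      Measure.isProbabilityMeasure_map (by fun_prop)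
    have hint : ∀ (μ : Measure E) [IsProbabilityMeasure μ],
        Integrable (fun x : E => Complex.exp ((inner ℝ x θ : ℝ) * Complex.I)) μ := by
      intro μ _
      refine Integrable.of_bound (Continuous.aestronglyMeasurable (by fun_prop)) 1
        (Eventually.of_forall fun x => ?_)
      rw [Complex.norm_exp_ofReal_mul_I]
    have key : charFun (nu δ (e :: l)) θ =
        2⁻¹ * charFun ((nu δ l).map (· + δ • e)) θ +
          2⁻¹ * charFun ((nu δ l).map (· + (-(δ • e)))) θ := by
      rw [nu, charFun_apply, charFun_apply, charFun_apply, integral_add_measure,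
        integral_smul_measure, integral_smul_measure]
      · simp
      · exact (hint _).smul_measure (by simp)
      · exact (hint _).smul_measure (by simp)
    rw [key, charFun_map_add_const, charFun_map_add_const, ih]
    simp only [List.map_cons, List.prod_cons, Complex.ofReal_mul, Complex.ofReal_cos]
    rw [inner_neg_left, real_inner_smul_left]
    have : Complex.cos ((δ : ℂ) * (inner ℝ e θ : ℝ)) =
        (Complex.exp (((δ * inner ℝ e θ : ℝ) : ℂ) * Complex.I) +
          Complex.exp (((-(δ * inner ℝ e θ) : ℝ) : ℂ) * Complex.I)) / 2 := by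
      rw [Complex.cos]
      push_cast
      ring_nf
    rw [this]
    ring

end Meas

end Vale.Agent.P227.M.SC.F79
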