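import Vale.Agent.P227.M.SC.HStep1
import Vale.Agent.P227.M.Bas

/-! # P227/M/SC: the Gaussian limit of the iterated two-point averages. -/

open MeasureTheory Filter Topology

namespace Vale.Agent.P227.M.SC.F79

/-- `k (cos (b/√k) - 1) → -b²/2` -/
theorem cos_lim (b : ℝ) :
    Tendsto (fun k : ℕ => (k : ℝ) * (Real.cos ((√(k : ℝ))⁻¹ * b) - 1)) atTop
      (𝓝 (-b ^ 2 / 2)) := by
  have h0 : Tendsto (fun k : ℕ => b ^ 4 * (5 / 96) * (1 / (k : ℝ))) atTop (𝓝 0) := by
    have := (tendsto_one_div_atTop_nhds_zero_nat (𝕜 := ℝ)).const_mul (b ^ 4 * (5 / 96))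
    simpa using this
  rw [tendsto_iff_dist_tendsto_zero]
  have hs : Tendsto (fun k : ℕ => (√(k : ℝ))⁻¹ * b) atTop (𝓝 0) := by
    rw [← zero_mul b]
    exact .mul_const b (tendsto_inv_atTop_zero.comp <| Real.tendsto_sqrt_atTop.comp <|
      tendsto_natCast_atTop_atTop)
  refine squeeze_zero' (Eventually.of_forall fun _ => dist_nonneg) ?_ h0
  have h1 : ∀ᶠ k : ℕ in atTop, |(√(k : ℝ))⁻¹ * b| ≤ 1 := by
    have := (hs.abs).eventually (eventually_le_nhds (b := 1) (by simp))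
    exact this
  filter_upwards [h1, eventually_gt_atTop 0] with k hk hk0
  have hkr : (0 : ℝ) < k := by exact_mod_cast hk0
  have hb := Real.cos_bound hk
  have e1 : ((√(k : ℝ))⁻¹ * b) ^ 2 = b ^ 2 / k := by
    rw [mul_pow, inv_pow, Real.sq_sqrt hkr.le]; ring
  have e2 : |(√(k : ℝ))⁻¹ * b| ^ 4 = b ^ 4 / (k : ℝ) ^ 2 := by
    have : |(√(k : ℝ))⁻¹ * b| ^ 4 = (((√(k : ℝ))⁻¹ * b) ^ 2) ^ 2 := by
      rw [← sq_abs ((√(k : ℝ))⁻¹ * b)]; ring
    rw [this, e1]; ring
  rw [e1, e2] at hb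
  rw [Real.dist_eq]
  have e3 : (k : ℝ) * (Real.cos ((√(k : ℝ))⁻¹ * b) - 1) - -b ^ 2 / 2 =
      k * (Real.cos ((√(k : ℝ))⁻¹ * b) - (1 - b ^ 2 / k / 2)) := by
    field_simp; ring
  rw [e3, abs_mul, abs_of_pos hkr]
  calc (k : ℝ) * |Real.cos ((√(k : ℝ))⁻¹ * b) - (1 - b ^ 2 / k / 2)|
      ≤ k * (b ^ 4 / (k : ℝ) ^ 2 * (5 / 96)) := mul_le_mul_of_nonneg_left hb hkr.le
    _ = b ^ 4 * (5 / 96) * (1 / (k : ℝ)) := by field_simp

theorem cos_pow_lim (b c : ℝ) (hc : 0 ≤ c) :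
    Tendsto (fun k : ℕ => (Real.cos ((√(k : ℝ))⁻¹ * b)) ^ ⌊c * k⌋₊) atTop
      (𝓝 (Real.exp (-(c * b ^ 2) / 2))) := by
  have h1 := Real.tendsto_nat_mul_log_one_add_of_tendsto (cos_lim b)
  have h2 : Tendsto (fun k : ℕ => (⌊c * (k : ℝ)⌋₊ : ℝ) / (k : ℝ)) atTop (𝓝 c) :=
    (tendsto_nat_floor_mul_div_atTop hc).comp tendsto_natCast_atTop_atTop
  have h3 := (h2.mul h1).rexp
  have e : c * (-b ^ 2 / 2) = -(c * b ^ 2) / 2 := by ring
  rw [e] at h3
  refine h3.congr' ?_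
  have hs : Tendsto (fun k : ℕ => (√(k : ℝ))⁻¹ * b) atTop (𝓝 0) := by
    rw [← zero_mul b]
    exact .mul_const b (tendsto_inv_atTop_zero.comp <| Real.tendsto_sqrt_atTop.comp <|
      tendsto_natCast_atTop_atTop)
  have h4 : ∀ᶠ k : ℕ in atTop, 0 < Real.cos ((√(k : ℝ))⁻¹ * b) := by
    have h5 : Tendsto (fun k : ℕ => Real.cos ((√(k : ℝ))⁻¹ * b)) atTop (𝓝 1) := by
      have := (Real.continuous_cos.tendsto 0).comp hs
      rw [Real.cos_zero] at this
      exact this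
    exact h5.eventually (lt_mem_nhds one_pos)
  filter_upwards [h4, eventually_gt_atTop 0] with k hk hk0
  have hkr : (0 : ℝ) < k := by exact_mod_cast hk0
  have e5 : 1 + (Real.cos ((√(k : ℝ))⁻¹ * b) - 1) = Real.cos ((√(k : ℝ))⁻¹ * b) := by ring
  rw [e5]
  have e6 : (⌊c * (k : ℝ)⌋₊ : ℝ) / (k : ℝ) * (k * Real.log (Real.cos ((√(k : ℝ))⁻¹ * b))) =
      (⌊c * (k : ℝ)⌋₊ : ℝ) * Real.log (Real.cos ((√(k : ℝ))⁻¹ * b)) := by
    field_simp
  rw [e6, mul_comm, ← Real.rpow_def_of_pos hk, Real.rpow_natCast]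

variable {n : ℕ}

/-- the list of steps -/
noncomputable def steps (P : E n →L[ℝ] E n) (k : ℕ) : List (E n) :=
  ((List.finRange n).map fun i =>
    List.replicate ⌊‖P (ei i)‖ ^ 2 * k⌋₊ (‖P (ei i)‖⁻¹ • P (ei i))).flatten

theorem steps_norm (P : E n →L[ℝ] E n) (k : ℕ) : ∀ e ∈ steps P k, ‖e‖ = 1 := by
  intro e he
  rw [steps, List.mem_flatten] at he
  obtain ⟨l, hl, hel⟩ := he
  rw [List.mem_map] at hl
  obtain ⟨i, -, rfl⟩ := hl
  rw [List.mem_replicate] at hel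
  obtain ⟨h1, rfl⟩ := hel
  have h2 : ‖P (ei i)‖ ≠ 0 := by
    intro h0
    rw [h0] at h1
    simp at h1
  rw [norm_smul, norm_inv, norm_norm, inv_mul_cancel₀ h2]

theorem steps_length (P : E n →L[ℝ] E n) (k : ℕ) :
    ((steps P k).length : ℝ) * ((√(k : ℝ))⁻¹) ^ 2 ≤ ∑ i, ‖P (ei i)‖ ^ 2 := by
  rcases Nat.eq_zero_or_pos k with rfl | hk
  · simp
    positivity
  have hkr : (0 : ℝ) < k := by exact_mod_cast hk
  rw [inv_pow, Real.sq_sqrt hkr.le, ← div_eq_mul_inv, div_le_iff₀ hkr, Finset.sum_mul]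
  rw [steps, List.length_flatten, List.map_map]
  have : (List.map (List.length ∘ fun i : Fin n =>
      List.replicate ⌊‖P (ei i)‖ ^ 2 * k⌋₊ (‖P (ei i)‖⁻¹ • P (ei i))) (List.finRange n)).sum =
      ∑ i : Fin n, ⌊‖P (ei i)‖ ^ 2 * k⌋₊ := by
    rw [Fin.sum_univ_def]
    congr 1
    refine List.map_congr_left fun i _ => ?_
    simp
  rw [this]
  push_cast
  refine Finset.sum_le_sum fun i _ => ?_
  exact Nat.floor_le (by positivity)

theorem charFun_steps (P : E n →L[ℝ] E n) (θ : E n) :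
    Tendsto (fun k : ℕ => charFun (nu ((√(k : ℝ))⁻¹) (steps P k)) θ) atTop
      (𝓝 ((Real.exp (-(∑ i, (inner ℝ (P (ei i)) θ : ℝ) ^ 2) / 2) : ℝ) : ℂ)) := by
  simp only [charFun_nu]
  refine (Complex.continuous_ofReal.tendsto _).comp ?_
  have h1 : ∀ k : ℕ, ((steps P k).map fun e => Real.cos ((√(k : ℝ))⁻¹ * inner ℝ e θ)).prod =
      ∏ i : Fin n, (Real.cos ((√(k : ℝ))⁻¹ * inner ℝ (‖P (ei i)‖⁻¹ • P (ei i)) θ)) ^
        ⌊‖P (ei i)‖ ^ 2 * k⌋₊ := by
    intro k
    rw [steps, List.map_flatten, List.prod_flatten, List.map_map, List.map_map, Fin.prod_univ_def]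
    congr 1
    refine List.map_congr_left fun i _ => ?_
    simp
  simp only [h1]
  have h2 : Real.exp (-(∑ i, (inner ℝ (P (ei i)) θ : ℝ) ^ 2) / 2) =
      ∏ i : Fin n, Real.exp (-(‖P (ei i)‖ ^ 2 *
        (inner ℝ (‖P (ei i)‖⁻¹ • P (ei i)) θ : ℝ) ^ 2) / 2) := by
    rw [← Real.exp_sum]
    congr 1
    rw [neg_div, Finset.sum_div, ← Finset.sum_neg_distrib]
    refine Finset.sum_congr rfl fun i _ => ?_
    rw [real_inner_smul_left, mul_pow, ← mul_assoc, neg_div]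
    congr 2
    by_cases h0 : ‖P (ei i)‖ = 0
    · have : P (ei i) = 0 := norm_eq_zero.1 h0
      simp [this]
    · rw [← mul_pow, mul_inv_cancel₀ h0]; ring
  rw [h2]
  refine tendsto_finsetProd _ fun i _ => ?_
  exact cos_pow_lim _ _ (by positivity)

/-! the Gaussian side -/

/-- Gaussian weight -/
noncomputable def gw (z : E n) : ℝ := Real.exp (-‖z‖ ^ 2 / 2)

theorem gw_int : Integrable (gw (n := n)) := by
  have := integrable_gauss (n := n) (a := 1 / 2) (by norm_num)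
  refine this.congr (Eventually.of_forall fun z => ?_)
  simp only [gw]
  congr 1
  ring

theorem gw_cont : Continuous (gw (n := n)) := by
  unfold gw
  fun_prop

theorem gw_pos (z : E n) : 0 < gw z := Real.exp_pos _

theorem gwZ_pos : 0 < ∫ z : E n, gw z :=
  integral_pos_of_integrable_nonneg_nonzero (x := (0 : E n)) gw_cont gw_int
    (fun z => (gw_pos z).le) (gw_pos 0).ne'

/-- standard Gaussian measure -/
noncomputable def gam (n : ℕ) : Measure (E n) :=
  volume.withDensity fun z => ENNReal.ofReal ((∫ z : E n, gw z)⁻¹ * gw z)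

theorem gam_prob : IsProbabilityMeasure (gam n) := by
  constructor
  rw [gam, withDensity_apply _ MeasurableSet.univ, Measure.restrict_univ,
    ← ofReal_integral_eq_lintegral_ofReal (gw_int.const_mul _)
      (Eventually.of_forall fun z => mul_nonneg (inv_nonneg.2 gwZ_pos.le) (gw_pos z).le),
    integral_const_mul, inv_mul_cancel₀ gwZ_pos.ne', ENNReal.ofReal_one]

theorem gam_integral {F : Type*} [NormedAddCommGroup F] [NormedSpace ℝ F] (f : E n → F) :
    ∫ z, f z ∂(gam n) = (∫ z : E n, gw z)⁻¹ • ∫ z : E n, gw z • f z := by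
  rw [gam, integral_withDensity_eq_integral_toReal_smul
    ((gw_cont.measurable.const_mul _).ennreal_ofReal) (by simp), ← integral_smul]
  refine integral_congr_ae (Eventually.of_forall fun z => ?_)
  simp only
  rw [ENNReal.toReal_ofReal (mul_nonneg (inv_nonneg.2 gwZ_pos.le) (gw_pos z).le), mul_smul]

theorem charFun_gam (P : E n →L[ℝ] E n) (θ : E n) :
    charFun ((gam n).map P) θ =
      ((Real.exp (-(∑ i, (inner ℝ (P (ei i)) θ : ℝ) ^ 2) / 2) : ℝ) : ℂ) := by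
  have h0 : (∑ i, (inner ℝ (P (ei i)) θ : ℝ) ^ 2) = ‖ContinuousLinearMap.adjoint P θ‖ ^ 2 := by
    rw [norm_sq_eq_sum]
    refine Finset.sum_congr rfl fun i _ => ?_
    congr 1
    have : (ContinuousLinearMap.adjoint P θ) i =
        inner ℝ (ei i) (ContinuousLinearMap.adjoint P θ) := by
      rw [ei, EuclideanSpace.inner_single_left]; simp
    rw [this, ContinuousLinearMap.adjoint_inner_right]
  rw [h0, charFun_apply, integral_map (by fun_prop) (Continuous.aestronglyMeasurable (by fun_prop)),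
    gam_integral]
  have hb : (0 : ℝ) < (1 / 2 : ℂ).re := by norm_num
  have h1 := GaussianFourier.integral_cexp_neg_mul_sq_norm_add (V := E n) hb Complex.I
    (ContinuousLinearMap.adjoint P θ)
  have h2 := GaussianFourier.integral_cexp_neg_mul_sq_norm (V := E n) hb
  have h3 : (∫ z : E n, gw z • Complex.exp ((inner ℝ (P z) θ : ℝ) * Complex.I)) =
      ∫ v : E n, Complex.exp (-(1 / 2 : ℂ) * ‖v‖ ^ 2 +
        Complex.I * (inner ℝ (ContinuousLinearMap.adjoint P θ) v : ℝ)) := by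
    refine integral_congr_ae (Eventually.of_forall fun z => ?_)
    simp only
    rw [ContinuousLinearMap.adjoint_inner_left, real_inner_comm, Complex.exp_add, gw]
    rw [Complex.real_smul, Complex.ofReal_exp]
    congr 2
    · push_cast; ring
    · rw [mul_comm]
  have h4 : (((∫ z : E n, gw z : ℝ)) : ℂ) = ∫ v : E n, Complex.exp (-(1 / 2 : ℂ) * ‖v‖ ^ 2) := by
    rw [← integral_complex_ofReal]
    refine integral_congr_ae (Eventually.of_forall fun z => ?_)
    simp only [gw]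
    rw [Complex.ofReal_exp]
    congr 1
    push_cast; ring
  rw [h3, h1, ← h2, ← h4, Complex.real_smul, ← mul_assoc]
  have h5 : (((∫ z : E n, gw z : ℝ)) : ℂ) ≠ 0 := by
    exact_mod_cast gwZ_pos.ne'
  rw [Complex.ofReal_inv, inv_mul_cancel₀ h5, one_mul, Complex.ofReal_exp, Complex.I_sq]
  congr 1
  push_cast; ring

/-- the Gaussian limit of the iterated averages -/
theorem AA_lim (P : E n →L[ℝ] E n) {f : E n → ℝ} (hf : Continuous f) {B : ℝ}
    (hB : ∀ x, |f x| ≤ B) (x : E n) :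
    Tendsto (fun k : ℕ => AA ((√(k : ℝ))⁻¹) (steps P k) f x) atTop
      (𝓝 ((∫ z : E n, gw z)⁻¹ * ∫ z : E n, gw z * f (x + P z))) := by
  have hp1 : ∀ k : ℕ, IsProbabilityMeasure (nu ((√(k : ℝ))⁻¹) (steps P k)) := fun k => nu_prob _ _
  have hp0 := gam_prob (n := n)
  have hp2 : IsProbabilityMeasure ((gam n).map P) := Measure.isProbabilityMeasure_map (by fun_prop)
  let μ : ℕ → ProbabilityMeasure (E n) := fun k => ⟨nu ((√(k : ℝ))⁻¹) (steps P k), hp1 k⟩
  let μ0 : ProbabilityMeasure (E n) := ⟨(gam n).map P, hp2⟩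
  have h1 : Tendsto μ atTop (𝓝 μ0) := by
    refine ProbabilityMeasure.tendsto_of_tendsto_charFun fun θ => ?_
    have := charFun_steps P θ
    rw [← charFun_gam P θ] at this
    exact this
  rw [ProbabilityMeasure.tendsto_iff_forall_integral_tendsto] at h1
  let g : BoundedContinuousFunction (E n) ℝ :=
    BoundedContinuousFunction.ofNormedAddCommGroup (fun z => f (x + z)) (by fun_prop) B
      (fun z => by rw [Real.norm_eq_abs]; exact hB _)
  have h2 := h1 g
  have e1 : ∀ k : ℕ, AA ((√(k : ℝ))⁻¹) (steps P k) f x = ∫ z, g z ∂(μ k : Measure (E n)) := by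
    intro k
    rw [nu_int _ _ f hf ⟨B, hB⟩ x]
    rfl
  have e2 : (∫ z, g z ∂(μ0 : Measure (E n))) =
      (∫ z : E n, gw z)⁻¹ * ∫ z : E n, gw z * f (x + P z) := by
    have : (∫ z, g z ∂(μ0 : Measure (E n))) = ∫ z, f (x + z) ∂((gam n).map P) := rfl
    rw [this, integral_map (by fun_prop) (Continuous.aestronglyMeasurable (by fun_prop)),
      gam_integral]
    simp [smul_eq_mul]
  rw [← e2]
  simpa only [e1] using h2

end Vale.Agent.P227.M.SC.F79
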