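import Vale.Agent.P227.M.SC.Iter
import Vale.Agent.P227.M.SC2.HeatLine

/-! # P227/M/SC: passage to the limit in the discrete route: iterated two-point averages → Gaussian. -/

open MeasureTheory Filter Topology

namespace Vale.Agent.P227.M.SC.HL102

section avg

variable {F : Type*} [NormedAddCommGroup F] [NormedSpace ℝ F]

/-- iterated two-point averages of a function -/
noncomputable def A (δ : ℝ) : List F → (F → ℝ) → (F → ℝ)
  | [], f => f
  | e :: l, f => A δ l (fun x => (f (x + δ • e) + f (x - δ • e)) / 2)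

theorem A_pos (δ : ℝ) (l : List F) : ∀ (f : F → ℝ), (∀ x, 0 < f x) → ∀ x, 0 < A δ l f x := by
  induction l with
  | nil => intro f hf x; exact hf x
  | cons e l ih =>
    intro f hf x
    exact ih _ (fun y => by have := hf (y + δ • e); have := hf (y - δ • e); positivity) x

theorem exp_avg (δ : ℝ) (e : F) (w : F → ℝ) (x : F) :
    Real.exp (-(avg δ e w x)) = (Real.exp (-w (x + δ • e)) + Real.exp (-w (x - δ • e))) / 2 := by
  unfold avg
  rw [neg_neg, Real.exp_log (by positivity)]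

theorem exp_avgs (δ : ℝ) (l : List F) : ∀ (w : F → ℝ) (x : F),
    Real.exp (-(avgs δ l w x)) = A δ l (fun y => Real.exp (-w y)) x := by
  induction l with
  | nil => intro w x; rfl
  | cons e l ih =>
    intro w x
    show Real.exp (-(avgs δ l (avg δ e w) x)) = A δ l _ x
    rw [ih (avg δ e w) x]
    congr 1
    funext y
    exact exp_avg δ e w y

theorem A_hasDerivAt (δ : ℝ) (v : F) (l : List F) : ∀ (f g : F → ℝ),
    (∀ x (t : ℝ), HasDerivAt (fun s : ℝ => f (x + s • v)) (g (x + t • v)) t) →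
    ∀ x (t : ℝ), HasDerivAt (fun s : ℝ => A δ l f (x + s • v)) (A δ l g (x + t • v)) t := by
  induction l with
  | nil => intro f g h x t; exact h x t
  | cons e l ih =>
    intro f g h x t
    refine ih _ _ (fun y s => ?_) x t
    have h1 := h (y + δ • e) s
    have h2 := h (y - δ • e) s
    have e1 : ∀ s : ℝ, y + δ • e + s • v = y + s • v + δ • e := fun s => by abel
    have e2 : ∀ s : ℝ, y - δ • e + s • v = y + s • v - δ • e := fun s => by abel
    simp only [e1, e2] at h1 h2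
    exact (h1.add h2).div_const 2

theorem dd_eq_of_line {f : F → ℝ} {v x : F} {d : ℝ} (hf : DifferentiableAt ℝ f x)
    (h : HasDerivAt (fun s : ℝ => f (x + s • v)) d 0) : dd v f x = d := by
  have h1 : HasDerivAt (fun s : ℝ => x + s • v) v 0 := by
    simpa using ((hasDerivAt_id (0 : ℝ)).smul_const v).const_add x
  have h2 : HasFDerivAt f (fderiv ℝ f x) (x + (0 : ℝ) • v) := by simpa using hf.hasFDerivAt
  have h3 := h2.comp_hasDerivAt (0 : ℝ) h1
  exact h3.unique h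

theorem contDiff_dd {f : F → ℝ} (hf : ContDiff ℝ (⊤ : ℕ∞) f) (v : F) :
    ContDiff ℝ (⊤ : ℕ∞) (dd v f) := by
  have h1 : ContDiff ℝ (⊤ : ℕ∞) (fderiv ℝ f) := hf.fderiv_right (by exact_mod_cast le_top)
  exact h1.clm_apply contDiff_const

theorem dd_of_lines {w : F → ℝ} (hw : ContDiff ℝ (⊤ : ℕ∞) w) {Q : ℕ → F → ℝ} {v : F}
    (h0 : ∀ x, Real.exp (-w x) = Q 0 x) (hQ : ∀ x, 0 < Q 0 x)
    (hd : ∀ i, i < 3 → ∀ x (t : ℝ),
      HasDerivAt (fun s : ℝ => Q i (x + s • v)) (Q (i + 1) (x + t • v)) t) (x : F) :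
    dd v (dd v w) x = -(Q 2 x / Q 0 x) + (Q 1 x / Q 0 x) ^ 2 ∧
    dd v (dd v (dd v w)) x = -(Q 3 x / Q 0 x) + 3 * (Q 1 x / Q 0 x * (Q 2 x / Q 0 x))
      - 2 * (Q 1 x / Q 0 x) ^ 3 := by
  have hr : ∀ i, i < 3 → ∀ x, HasDerivAt (fun s : ℝ => Q i (x + s • v) / Q 0 (x + s • v))
      (Q (i + 1) x / Q 0 x - Q i x / Q 0 x * (Q 1 x / Q 0 x)) 0 := by
    intro i hi x
    have h1 := (hd i hi x 0).div (hd 0 (by norm_num) x 0) (hQ _).ne'
    refine HasDerivAt.congr_deriv (f := fun s : ℝ => Q i (x + s • v) / Q 0 (x + s • v)) h1 ?_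
    have := (hQ x).ne'
    simp only [zero_smul, add_zero, zero_add]
    field_simp
  have hwl : w = fun x => -Real.log (Q 0 x) := by
    funext x
    rw [← h0, Real.log_exp, neg_neg]
  have d1 : dd v w = fun x => -(Q 1 x / Q 0 x) := by
    funext x
    refine dd_eq_of_line (hw.differentiable (by simp) x) ?_
    have h1 := ((hd 0 (by norm_num) x 0).log (hQ _).ne').neg
    have e : (fun s : ℝ => w (x + s • v)) = fun s : ℝ => -Real.log (Q 0 (x + s • v)) := by
      rw [hwl]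
    rw [e]
    refine HasDerivAt.congr_deriv (f := fun s : ℝ => -Real.log (Q 0 (x + s • v))) h1 ?_
    simp
  have hw1 := contDiff_dd hw v
  have d2 : dd v (dd v w) = fun x => -(Q 2 x / Q 0 x) + (Q 1 x / Q 0 x) ^ 2 := by
    funext x
    refine dd_eq_of_line (hw1.differentiable (by simp) x) ?_
    rw [d1]
    refine HasDerivAt.congr_deriv (f := fun s : ℝ => -(Q 1 (x + s • v) / Q 0 (x + s • v)))
      (hr 1 (by norm_num) x).neg ?_
    ring
  have hw2 := contDiff_dd hw1 v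
  refine ⟨congrFun d2 x, ?_⟩
  refine dd_eq_of_line (hw2.differentiable (by simp) x) ?_
  rw [d2]
  refine HasDerivAt.congr_deriv (f := fun s : ℝ => -(Q 2 (x + s • v) / Q 0 (x + s • v))
      + (Q 1 (x + s • v) / Q 0 (x + s • v)) ^ 2)
    ((hr 2 (by norm_num) x).neg.add ((hr 1 (by norm_num) x).pow 2)) ?_
  simp only [zero_smul, add_zero, Nat.reduceAdd, Nat.add_one_sub_one, Nat.cast_ofNat, pow_one]
  ring

end avg

variable {n : ℕ}

/-- one-sided inequality in the limit -/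
theorem limit_le {κ d : ℝ} {q1 q2 q3 : ℕ → ℝ} {r1 r2 r3 : ℝ} {ε : ℕ → ℝ}
    (hε : Tendsto ε atTop (𝓝 0)) (h1 : Tendsto q1 atTop (𝓝 r1)) (h2 : Tendsto q2 atTop (𝓝 r2))
    (h3 : Tendsto q3 atTop (𝓝 r3))
    (h : ∀ᶠ k in atTop, -q3 k + 3 * (q1 k * q2 k) - 2 * q1 k ^ 3 ≤
      2 * κ * (-q2 k + q1 k ^ 2) ^ ((3 : ℝ) / 2) + ε k * d) :
    -r3 + 3 * (r1 * r2) - 2 * r1 ^ 3 ≤ 2 * κ * (-r2 + r1 ^ 2) ^ ((3 : ℝ) / 2) := by
  have hL : Tendsto (fun k => -q3 k + 3 * (q1 k * q2 k) - 2 * q1 k ^ 3) atTop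
      (𝓝 (-r3 + 3 * (r1 * r2) - 2 * r1 ^ 3)) :=
    ((h3.neg).add ((h1.mul h2).const_mul 3)).sub ((h1.pow 3).const_mul 2)
  have hR : Tendsto (fun k => 2 * κ * (-q2 k + q1 k ^ 2) ^ ((3 : ℝ) / 2) + ε k * d) atTop
      (𝓝 (2 * κ * (-r2 + r1 ^ 2) ^ ((3 : ℝ) / 2) + 0 * d)) := by
    refine Tendsto.add (Tendsto.const_mul _ ?_) (hε.mul_const d)
    exact ((h2.neg).add (h1.pow 2)).rpow_const (Or.inr (by norm_num))
  have := le_of_tendsto_of_tendsto hL hR h
  simpa using this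

theorem selfConc_heat_of_seq {U : E n → ℝ} {c C κ Z : ℝ} (h : Reg U c C) (hκ : 0 ≤ κ) (hZ : 0 < Z)
    (P : E n →L[ℝ] E n) (δ : ℕ → ℝ) (l : ℕ → List (E n)) (ε : ℕ → ℝ)
    (hε : Tendsto ε atTop (𝓝 0))
    (hA : ∀ f : E n → ℝ, Continuous f → (∃ K, ∀ x, |f x| ≤ K) → ∀ x,
      Tendsto (fun k => A (δ k) (l k) f x) atTop
        (𝓝 ((∫ z : E n, f (x + P z) * Real.exp (-‖z‖ ^ 2 / 2)) / Z)))
    (hSt : ∀ᶠ k in atTop, ∃ a b C3 C4 : ℝ, St a b C3 C4 κ (ε k) (avgs (δ k) (l k) U)) :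
    SelfConc κ (heat U P) := by
  -- one-sided inequality
  have key : ∀ x v : E n, HL.w3 U v P x ≤ 2 * κ * (HL.w2 U v P x) ^ ((3 : ℝ) / 2) := by
    intro x v
    have hq : ∀ i, Tendsto (fun k => A (δ k) (l k) (HL.f U v i) x / A (δ k) (l k) (HL.f U v 0) x)
        atTop (𝓝 (HL.r U v P i x)) := by
      intro i
      have t : ∀ i, Tendsto (fun k => A (δ k) (l k) (HL.f U v i) x) atTop
          (𝓝 (HL.H U v P i x / Z)) := by
        intro i
        obtain ⟨K, -, hK⟩ := HL.bdd_mul_exp h (HL.gr_q h v i)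
        exact hA _ (HL.cont_f h v i) ⟨K, hK⟩ x
      have hp := HL.H_zero_pos h v P x
      have := (t i).div (t 0) (div_pos hp hZ).ne'
      have e : HL.H U v P i x / Z / (HL.H U v P 0 x / Z) = HL.r U v P i x := by
        unfold HL.r
        field_simp
      rwa [e] at this
    have := limit_le (κ := κ) (d := ‖v‖ ^ 3) hε (hq 1) (hq 2) (hq 3) ?_
    · unfold HL.w3 HL.w2
      linarith
    · filter_upwards [hSt] with k hk
      obtain ⟨a, b, C3, C4, hs⟩ := hk
      have h0 : ∀ x, Real.exp (-(avgs (δ k) (l k) U x)) = A (δ k) (l k) (HL.f U v 0) x := by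
        intro x
        rw [exp_avgs]
        congr 1
        funext y
        simp [HL.f, HL.q_zero]
      have hpos : ∀ x, 0 < A (δ k) (l k) (HL.f U v 0) x := fun x => by
        rw [← h0]; exact Real.exp_pos _
      obtain ⟨e2, e3⟩ := dd_of_lines (v := v) hs.smooth
        (Q := fun i => A (δ k) (l k) (HL.f U v i)) h0 hpos
        (fun i hi y t => A_hasDerivAt (δ k) v (l k) _ _
          (fun z s => HL.hasDerivAt_f h.smooth v i hi z s) y t) x
      have := hs.sc x v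
      rw [e2, e3] at this
      exact this
  intro x v
  rw [HL.iteratedDeriv_three_heat h, HL.iteratedDeriv_two_heat h]
  have hneg3 : HL.w3 U (-v) P x = -HL.w3 U v P x := by
    rw [← HL.iteratedDeriv_three_heat h, ← HL.iteratedDeriv_three_heat h]
    have e : (fun t : ℝ => heat U P (x + t • -v)) = fun t : ℝ => heat U P (x + (-t) • v) := by
      funext t; simp
    rw [e, iteratedDeriv_comp_neg 3 (fun t : ℝ => heat U P (x + t • v)) 0]
    norm_num
  have hneg2 : HL.w2 U (-v) P x = HL.w2 U v P x := by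
    rw [← HL.iteratedDeriv_two_heat h, ← HL.iteratedDeriv_two_heat h]
    have e : (fun t : ℝ => heat U P (x + t • -v)) = fun t : ℝ => heat U P (x + (-t) • v) := by
      funext t; simp
    rw [e, iteratedDeriv_comp_neg 2 (fun t : ℝ => heat U P (x + t • v)) 0]
    norm_num
  have k1 := key x v
  have k2 := key x (-v)
  rw [hneg3, hneg2] at k2
  exact abs_le.2 ⟨by linarith, k1⟩

end Vale.Agent.P227.M.SC.HL102
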