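import Vale.Agent.P227.M.SC.StepDefs

/-! # P227/M/SC: iteration of the two-point step (Gronwall). -/

namespace Vale.Agent.P227.M.SC

variable {E : Type*} [NormedAddCommGroup E] [NormedSpace ℝ E]

/-- iterated two-point averages -/
noncomputable def avgs (δ : ℝ) : List E → (E → ℝ) → (E → ℝ)
  | [], w => w
  | e :: l, w => avgs δ l (avg δ e w)

theorem St.mono {a b C3 C4 κ ε a' ε' : ℝ} {w : E → ℝ} (h : St a b C3 C4 κ ε w) (ha : a' ≤ a)
    (hε : ε ≤ ε') : St a' b C3 C4 κ ε' w where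
  smooth := h.smooth
  lower := fun x v => le_trans (mul_le_mul_of_nonneg_right ha (by positivity)) (h.lower x v)
  upper := h.upper
  b3 := h.b3
  b4 := h.b4
  sc := fun x v => (h.sc x v).trans (by
    have : ε * ‖v‖ ^ 3 ≤ ε' * ‖v‖ ^ 3 := mul_le_mul_of_nonneg_right hε (by positivity)
    linarith)

theorem one_sub_ge {x : ℝ} (h0 : 0 ≤ x) (h1 : x ≤ 1 / 2) : Real.exp (-(2 * x)) ≤ 1 - x := by
  -- e^{-2x} ≤ 1/(1+2x) ≤ 1 - x  for 0 ≤ x ≤ 1/2
  have h2 : 1 + 2 * x ≤ Real.exp (2 * x) := by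
    have := Real.add_one_le_exp (2 * x); linarith
  rw [Real.exp_neg]
  have h3 : (Real.exp (2 * x))⁻¹ ≤ (1 + 2 * x)⁻¹ := inv_anti₀ (by linarith) h2
  refine h3.trans ?_
  rw [inv_le_iff_one_le_mul₀ (by linarith)]
  nlinarith

theorem inv_a {a b K s δ ai : ℝ} (ha : 0 < a) (hK : 0 ≤ K) (hs : 0 ≤ s) (hδ : 0 < δ) (hb : 0 ≤ b)
    (hδb : b * δ ^ 2 ≤ 1 / 2) (hai : a * Real.exp (-(2 * b * s)) - K * s * δ ≤ ai) :
    a * Real.exp (-(2 * b * (s + δ ^ 2))) - K * (s + δ ^ 2) * δ ≤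
      ai * (1 - b * δ ^ 2) - K * δ ^ 3 := by
  have h1 : Real.exp (-(2 * b * (s + δ ^ 2))) =
      Real.exp (-(2 * b * s)) * Real.exp (-(2 * (b * δ ^ 2))) := by
    rw [← Real.exp_add]; congr 1; ring
  have h2 := one_sub_ge (x := b * δ ^ 2) (by positivity) hδb
  have h3 : a * Real.exp (-(2 * b * s)) * Real.exp (-(2 * (b * δ ^ 2))) ≤
      a * Real.exp (-(2 * b * s)) * (1 - b * δ ^ 2) :=
    mul_le_mul_of_nonneg_left h2 (by positivity)
  have h4 : (a * Real.exp (-(2 * b * s)) - K * s * δ) * (1 - b * δ ^ 2) ≤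
      ai * (1 - b * δ ^ 2) := mul_le_mul_of_nonneg_right hai (by linarith)
  have h5 : 0 ≤ K * s * δ * (b * δ ^ 2) := by positivity
  rw [h1]
  have e1 : (a * Real.exp (-(2 * b * s)) - K * s * δ) * (1 - b * δ ^ 2) =
      a * Real.exp (-(2 * b * s)) * (1 - b * δ ^ 2) - K * s * δ + K * s * δ * (b * δ ^ 2) := by ring
  have e2 : K * (s + δ ^ 2) * δ = K * s * δ + K * δ ^ 3 := by ring
  have e3 : a * (Real.exp (-(2 * b * s)) * Real.exp (-(2 * (b * δ ^ 2)))) =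
      a * Real.exp (-(2 * b * s)) * Real.exp (-(2 * (b * δ ^ 2))) := by ring
  rw [e2, e3]
  linarith

/-- one Gronwall step: `x ≤ (X + Y s) e^{g s}` is kept by `x ↦ x (1 + g t) + Y t` -/
theorem gron {x X Y g s t y : ℝ} (hX : 0 ≤ X) (hY : 0 ≤ Y) (hg : 0 ≤ g) (hs : 0 ≤ s) (ht : 0 ≤ t)
    (hx : x ≤ (X + Y * s) * Real.exp (g * s)) (hy : y ≤ Y * t) :
    x * (1 + g * t) + y ≤ (X + Y * (s + t)) * Real.exp (g * (s + t)) := by
  have h1 : Real.exp (g * (s + t)) = Real.exp (g * s) * Real.exp (g * t) := by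
    rw [← Real.exp_add]; congr 1; ring
  have h2 : 1 + g * t ≤ Real.exp (g * t) := by
    have := Real.add_one_le_exp (g * t); linarith
  have h3a : x * (1 + g * t) ≤ (X + Y * s) * Real.exp (g * s) * (1 + g * t) :=
    mul_le_mul_of_nonneg_right hx (by positivity)
  have h3b : (X + Y * s) * Real.exp (g * s) * (1 + g * t) ≤
      (X + Y * s) * Real.exp (g * s) * Real.exp (g * t) :=
    mul_le_mul_of_nonneg_left h2 (by positivity)
  have h5 : (1 : ℝ) ≤ Real.exp (g * s) * Real.exp (g * t) := by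
    rw [← Real.exp_add]; exact Real.one_le_exp (by positivity)
  have h6 : Y * t * 1 ≤ Y * t * (Real.exp (g * s) * Real.exp (g * t)) :=
    mul_le_mul_of_nonneg_left h5 (by positivity)
  have e1 : (X + Y * (s + t)) * (Real.exp (g * s) * Real.exp (g * t)) =
      (X + Y * s) * Real.exp (g * s) * Real.exp (g * t) +
        Y * t * (Real.exp (g * s) * Real.exp (g * t)) := by ring
  rw [h1, e1]
  linarith

theorem iter_aux {a b C3 C4 κ S K δ a0 A3 A4 : ℝ}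
    (ha : 0 < a) (hb : 0 ≤ b) (hC3 : 0 ≤ C3) (hC4 : 0 ≤ C4) (hκ0 : 0 ≤ κ) (hκ1 : κ ≤ 1)
    (hS : 0 ≤ S) (hK : 0 ≤ K) (hδ : 0 < δ) (hδ1 : δ ≤ 1) (hδb : b * δ ^ 2 ≤ 1 / 2)
    (hA3 : A3 = (C3 + 2 * b ^ 3 * S) * Real.exp (3 * b * S))
    (hA4 : A4 = (C4 + (3 * A3 ^ 2 + 12 * A3 * b ^ 2 + 4 * b ^ 4) * S) * Real.exp (4 * b * S))
    (ha0 : a0 + K * S * δ ≤ a * Real.exp (-(2 * b * S)))
    (hε1 : K * S * δ * Real.exp (K * S) ≤ 1)
    (hstep : ∀ (ε a C3 C4 : ℝ) (e : E) (w : E → ℝ), 0 ≤ ε → ε ≤ 1 →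
      a0 ≤ a → C3 ≤ A3 → C4 ≤ A4 → ‖e‖ = 1 → St a b C3 C4 κ ε w →
      St (a * (1 - b * δ ^ 2) - K * δ ^ 3) b
        (C3 * (1 + 3 * b * δ ^ 2) + 2 * b ^ 3 * δ ^ 3)
        (C4 * (1 + 4 * b * δ ^ 2) + δ ^ 2 * (3 * C3 ^ 2 + 12 * C3 * b ^ 2 + 4 * b ^ 4))
        κ (ε * (1 + K * δ ^ 2) + K * δ ^ 3) (avg δ e w)) :
    ∀ (l : List E) (w : E → ℝ) (ai c3 c4 ε s : ℝ), (∀ e ∈ l, ‖e‖ = 1) → 0 ≤ s →
      s + l.length * δ ^ 2 ≤ S →
      a * Real.exp (-(2 * b * s)) - K * s * δ ≤ ai →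
      0 ≤ c3 → c3 ≤ (C3 + 2 * b ^ 3 * s) * Real.exp (3 * b * s) →
      c4 ≤ (C4 + (3 * A3 ^ 2 + 12 * A3 * b ^ 2 + 4 * b ^ 4) * s) * Real.exp (4 * b * s) →
      0 ≤ ε → ε ≤ K * s * δ * Real.exp (K * s) →
      St ai b c3 c4 κ ε w →
      ∃ c3' c4', St a0 b c3' c4' κ (K * S * Real.exp (K * S) * δ) (avgs δ l w) := by
  have hA3nn : 0 ≤ A3 := by rw [hA3]; positivity
  set D4 : ℝ := 3 * A3 ^ 2 + 12 * A3 * b ^ 2 + 4 * b ^ 4 with hD4
  have hD4nn : 0 ≤ D4 := by positivity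
  -- bounds at any time s ≤ S
  have ba : ∀ s, 0 ≤ s → s ≤ S → a0 ≤ a * Real.exp (-(2 * b * s)) - K * s * δ := by
    intro s hs hsS
    have h1 : Real.exp (-(2 * b * S)) ≤ Real.exp (-(2 * b * s)) :=
      Real.exp_le_exp.2 (by nlinarith)
    have h2 : a * Real.exp (-(2 * b * S)) ≤ a * Real.exp (-(2 * b * s)) :=
      mul_le_mul_of_nonneg_left h1 ha.le
    have h3 : K * s * δ ≤ K * S * δ := by
      have : K * s ≤ K * S := mul_le_mul_of_nonneg_left hsS hK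
      exact mul_le_mul_of_nonneg_right this hδ.le
    linarith
  have b3 : ∀ s, 0 ≤ s → s ≤ S → (C3 + 2 * b ^ 3 * s) * Real.exp (3 * b * s) ≤ A3 := by
    intro s hs hsS
    rw [hA3]
    have h1 : Real.exp (3 * b * s) ≤ Real.exp (3 * b * S) := Real.exp_le_exp.2 (by nlinarith)
    have h2 : C3 + 2 * b ^ 3 * s ≤ C3 + 2 * b ^ 3 * S := by
      have : 2 * b ^ 3 * s ≤ 2 * b ^ 3 * S := mul_le_mul_of_nonneg_left hsS (by positivity)
      linarith
    exact mul_le_mul h2 h1 (Real.exp_pos _).le (by positivity)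
  have b4 : ∀ s, 0 ≤ s → s ≤ S → (C4 + D4 * s) * Real.exp (4 * b * s) ≤ A4 := by
    intro s hs hsS
    rw [hA4]
    have h1 : Real.exp (4 * b * s) ≤ Real.exp (4 * b * S) := Real.exp_le_exp.2 (by nlinarith)
    have h2 : C4 + D4 * s ≤ C4 + D4 * S := by
      have : D4 * s ≤ D4 * S := mul_le_mul_of_nonneg_left hsS hD4nn
      linarith
    exact mul_le_mul h2 h1 (Real.exp_pos _).le (by positivity)
  have bε : ∀ s, 0 ≤ s → s ≤ S → K * s * δ * Real.exp (K * s) ≤ K * S * δ * Real.exp (K * S) := by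
    intro s hs hsS
    have h1 : Real.exp (K * s) ≤ Real.exp (K * S) :=
      Real.exp_le_exp.2 (mul_le_mul_of_nonneg_left hsS hK)
    have h2 : K * s * δ ≤ K * S * δ :=
      mul_le_mul_of_nonneg_right (mul_le_mul_of_nonneg_left hsS hK) hδ.le
    exact mul_le_mul h2 h1 (Real.exp_pos _).le (by positivity)
  intro l
  induction l with
  | nil =>
    intro w ai c3 c4 ε s _ hs hsS hai hc3 hc3' hc4 hε hε' hw
    have hsS' : s ≤ S := by simpa using hsS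
    refine ⟨c3, c4, ?_⟩
    refine hw.mono ((ba s hs hsS').trans hai) ?_
    refine hε'.trans ((bε s hs hsS').trans (le_of_eq ?_))
    ring
  | cons e l ih =>
    intro w ai c3 c4 ε s hl hs hsS hai hc3 hc3' hc4 hε hε' hw
    have hlen : s + δ ^ 2 + l.length * δ ^ 2 ≤ S := by
      have : ((e :: l).length : ℝ) = l.length + 1 := by simp
      rw [this] at hsS
      linarith
    have hsS' : s ≤ S := by
      have : 0 ≤ (l.length : ℝ) * δ ^ 2 := by positivity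
      nlinarith [sq_nonneg δ]
    have hstep1 := hstep ε ai c3 c4 e w hε ((hε'.trans (bε s hs hsS')).trans hε1)
      ((ba s hs hsS').trans hai) (hc3'.trans (b3 s hs hsS')) (hc4.trans (b4 s hs hsS'))
      (hl e (by simp)) hw
    refine ih (avg δ e w) _ _ _ _ (s + δ ^ 2) (fun e' he' => hl e' (by simp [he'])) (by positivity)
      hlen ?_ (by positivity) ?_ ?_ (by positivity) ?_ hstep1
    · exact inv_a ha hK hs hδ hb hδb hai
    · -- c3
      refine gron hC3 (by positivity) (by positivity) hs (by positivity) hc3' ?_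
      have : δ ^ 3 ≤ δ ^ 2 := pow_le_pow_of_le_one hδ.le hδ1 (by norm_num)
      exact mul_le_mul_of_nonneg_left this (by positivity)
    · -- c4
      refine gron hC4 hD4nn (by positivity) hs (by positivity) hc4 ?_
      have hc3A : c3 ≤ A3 := hc3'.trans (b3 s hs hsS')
      have h4 : 3 * c3 ^ 2 + 12 * c3 * b ^ 2 + 4 * b ^ 4 ≤ D4 := by
        rw [hD4]
        have e1 : c3 ^ 2 ≤ A3 ^ 2 := pow_le_pow_left₀ hc3 hc3A 2
        have e2 : c3 * b ^ 2 ≤ A3 * b ^ 2 := mul_le_mul_of_nonneg_right hc3A (by positivity)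
        linarith
      rw [mul_comm D4]
      exact mul_le_mul_of_nonneg_left h4 (by positivity)
    · -- ε
      have h := gron (x := ε) (X := 0) (Y := K * δ) (g := K) (s := s) (t := δ ^ 2)
        (y := K * δ ^ 3) le_rfl (by positivity) hK hs (by positivity)
        (by rw [zero_add]; refine hε'.trans (le_of_eq ?_); ring) (le_of_eq (by ring))
      refine h.trans (le_of_eq ?_)
      ring

/-- After at most `S/δ²` steps from an exactly self-concordant function, the error is `O(δ)`. -/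
theorem iterate (hstep : StepStmt E) {a b C3 C4 κ S : ℝ} (ha : 0 < a) (hb : 0 ≤ b)
    (hC3 : 0 ≤ C3) (hC4 : 0 ≤ C4) (hκ0 : 0 ≤ κ) (hκ1 : κ ≤ 1) (hS : 0 ≤ S) :
    ∃ a' K δ0 : ℝ, 0 < a' ∧ 0 ≤ K ∧ 0 < δ0 ∧ ∀ δ, 0 < δ → δ ≤ δ0 → ∀ (l : List E) (w : E → ℝ),
      (∀ e ∈ l, ‖e‖ = 1) → l.length * δ ^ 2 ≤ S → St a b C3 C4 κ 0 w →
      ∃ C3' C4', St a' b C3' C4' κ (K * δ) (avgs δ l w) := by
  set a0 : ℝ := a * Real.exp (-(2 * b * S)) / 2 with ha0
  have ha0pos : 0 < a0 := by positivity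
  set A3 : ℝ := (C3 + 2 * b ^ 3 * S) * Real.exp (3 * b * S) with hA3
  set A4 : ℝ := (C4 + (3 * A3 ^ 2 + 12 * A3 * b ^ 2 + 4 * b ^ 4) * S) * Real.exp (4 * b * S)
    with hA4
  obtain ⟨K, hK, hst⟩ := hstep a0 b A3 A4 ha0pos
  refine ⟨a0, K * S * Real.exp (K * S), min (min 1 (1 / (2 * b + 1)))
    (min (a0 / (K * S + 1)) (1 / (K * S * Real.exp (K * S) + 1))), ha0pos, by positivity,
    by positivity, ?_⟩
  intro δ hδ hδ0 l w hl hlen hw
  have hδ1 : δ ≤ 1 := hδ0.trans ((min_le_left _ _).trans (min_le_left _ _))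
  have hδb : δ ≤ 1 / (2 * b + 1) := hδ0.trans ((min_le_left _ _).trans (min_le_right _ _))
  have hδa : δ ≤ a0 / (K * S + 1) := hδ0.trans ((min_le_right _ _).trans (min_le_left _ _))
  have hδe : δ ≤ 1 / (K * S * Real.exp (K * S) + 1) :=
    hδ0.trans ((min_le_right _ _).trans (min_le_right _ _))
  have hb2 : b * δ ^ 2 ≤ 1 / 2 := by
    have h1 : δ * (2 * b + 1) ≤ 1 := by
      rw [le_div_iff₀ (by positivity)] at hδb; exact hδb
    have h2 : δ ^ 2 ≤ δ := by nlinarith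
    nlinarith [mul_le_mul_of_nonneg_left h2 hb]
  have ha1 : a0 + K * S * δ ≤ a * Real.exp (-(2 * b * S)) := by
    have h1 : δ * (K * S + 1) ≤ a0 := by
      rw [le_div_iff₀ (by positivity)] at hδa; exact hδa
    have h2 : a * Real.exp (-(2 * b * S)) = 2 * a0 := by rw [ha0]; ring
    rw [h2]; nlinarith
  have he1 : K * S * δ * Real.exp (K * S) ≤ 1 := by
    have h1 : δ * (K * S * Real.exp (K * S) + 1) ≤ 1 := by
      rw [le_div_iff₀ (by positivity)] at hδe; exact hδe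
    nlinarith
  have := iter_aux (E := E) ha hb hC3 hC4 hκ0 hκ1 hS hK hδ hδ1 hb2 hA3 hA4 ha1 he1
    (fun ε a C3 C4 e w h1 h2 h3 h4 h5 h6 h7 => hst κ δ ε a C3 C4 e w hκ0 hκ1 hδ hδ1 h1 h2 h3 h4 h5 h6 h7)
    l w a C3 C4 0 0 hl le_rfl (by simpa using hlen) (by simp) hC3 (by simp) (by simp) le_rfl
    (by simp) hw
  exact this

end Vale.Agent.P227.M.SC
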