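import Vale.Agent.P227.M.SC.StepDefs
import Vale.Agent.P227.M.SC2.HeatDef

/-! # P227/M/SC: (L4) + (L5) of the discrete route: derivatives of `-log` of Gaussian averages along lines,
passage to the limit of the self-concordance inequality. -/

open MeasureTheory Filter
open scoped Topology

namespace Vale.Agent.P227.M.SC.L45

open Vale.Agent.P227.M

/-- second derivative of `-log F0` -/
noncomputable def k2 (a b c : ℝ) : ℝ := -(c / a) + (b / a) ^ 2

/-- third derivative of `-log F0` -/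
noncomputable def k3 (a b c d : ℝ) : ℝ := -(d / a) + 3 * (b / a) * (c / a) - 2 * (b / a) ^ 3

theorem k2_smul {l a b c : ℝ} (hl : l ≠ 0) : k2 (l * a) (l * b) (l * c) = k2 a b c := by
  unfold k2
  rw [mul_div_mul_left _ _ hl, mul_div_mul_left _ _ hl]

theorem k3_smul {l a b c d : ℝ} (hl : l ≠ 0) : k3 (l * a) (l * b) (l * c) (l * d) = k3 a b c d := by
  unfold k3
  rw [mul_div_mul_left _ _ hl, mul_div_mul_left _ _ hl, mul_div_mul_left _ _ hl]

theorem k2_neg (a b c : ℝ) : k2 a (-b) c = k2 a b c := by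
  unfold k2; rw [neg_div]; ring

theorem k3_neg (a b c d : ℝ) : k3 a (-b) c (-d) = -k3 a b c d := by
  unfold k3; rw [neg_div, neg_div]; ring

section line

variable {F0 F1 F2 F3 : ℝ → ℝ} {t : ℝ}

theorem hasDerivAt_neglog (h0 : HasDerivAt F0 (F1 t) t) (hp : 0 < F0 t) :
    HasDerivAt (fun s => -Real.log (F0 s)) (-(F1 t / F0 t)) t := (h0.log hp.ne').neg

theorem hasDerivAt_k1 (h0 : HasDerivAt F0 (F1 t) t) (h1 : HasDerivAt F1 (F2 t) t) (hp : 0 < F0 t) :
    HasDerivAt (fun s => -(F1 s / F0 s)) (k2 (F0 t) (F1 t) (F2 t)) t := by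
  have := (h1.div h0 hp.ne').neg
  refine this.congr_deriv ?_
  unfold k2
  field_simp
  ring

theorem hasDerivAt_k2 (h0 : HasDerivAt F0 (F1 t) t) (h1 : HasDerivAt F1 (F2 t) t)
    (h2 : HasDerivAt F2 (F3 t) t) (hp : 0 < F0 t) :
    HasDerivAt (fun s => k2 (F0 s) (F1 s) (F2 s)) (k3 (F0 t) (F1 t) (F2 t) (F3 t)) t := by
  have := ((h2.div h0 hp.ne').neg).add ((h1.div h0 hp.ne').pow 2)
  unfold k2
  refine this.congr_deriv ?_
  unfold k3
  have hne : F0 t ≠ 0 := hp.ne'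
  simp only [Pi.div_apply, Nat.cast_ofNat, Nat.add_one_sub_one, pow_one]
  field_simp
  ring

theorem iter2 (h0 : ∀ t, HasDerivAt F0 (F1 t) t) (h1 : ∀ t, HasDerivAt F1 (F2 t) t)
    (hp : ∀ t, 0 < F0 t) (t : ℝ) :
    iteratedDeriv 2 (fun s => -Real.log (F0 s)) t = k2 (F0 t) (F1 t) (F2 t) := by
  have e1 : deriv (fun s => -Real.log (F0 s)) = fun s => -(F1 s / F0 s) := by
    funext s; exact (hasDerivAt_neglog (h0 s) (hp s)).deriv
  rw [iteratedDeriv_succ, iteratedDeriv_one, e1]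
  exact (hasDerivAt_k1 (h0 t) (h1 t) (hp t)).deriv

theorem iter3 (h0 : ∀ t, HasDerivAt F0 (F1 t) t) (h1 : ∀ t, HasDerivAt F1 (F2 t) t)
    (h2 : ∀ t, HasDerivAt F2 (F3 t) t) (hp : ∀ t, 0 < F0 t) (t : ℝ) :
    iteratedDeriv 3 (fun s => -Real.log (F0 s)) t = k3 (F0 t) (F1 t) (F2 t) (F3 t) := by
  have e2 : iteratedDeriv 2 (fun s => -Real.log (F0 s)) = fun s => k2 (F0 s) (F1 s) (F2 s) := by
    funext s; exact iter2 h0 h1 hp s
  rw [iteratedDeriv_succ, e2]
  exact (hasDerivAt_k2 (h0 t) (h1 t) (h2 t) (hp t)).deriv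

end line

section dd

variable {E' : Type*} [NormedAddCommGroup E'] [NormedSpace ℝ E']

/-- derivative along a line -/
theorem line_hasDerivAt {f : E' → ℝ} (hf : Differentiable ℝ f) (x v : E') (t : ℝ) :
    HasDerivAt (fun s : ℝ => f (x + s • v)) (fderiv ℝ f (x + t • v) v) t := by
  have h1 : HasDerivAt (fun s : ℝ => x + s • v) v t := by
    simpa using ((hasDerivAt_id t).smul_const v).const_add x
  exact (hf (x + t • v)).hasFDerivAt.comp_hasDerivAt t h1

theorem dd_eq_of_line {f : E' → ℝ} {x v : E'} {d : ℝ} (hf : DifferentiableAt ℝ f x)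
    (h : HasDerivAt (fun s : ℝ => f (x + s • v)) d 0) : dd v f x = d := by
  have h1 : HasDerivAt (fun s : ℝ => x + s • v) v 0 := by
    simpa using ((hasDerivAt_id (0 : ℝ)).smul_const v).const_add x
  have h2 : HasFDerivAt f (fderiv ℝ f x) (x + (0 : ℝ) • v) := by
    simpa using hf.hasFDerivAt
  exact (h2.comp_hasDerivAt (0 : ℝ) h1).unique h

theorem diffAt_div {a b : E' → ℝ} {x : E'} (ha : DifferentiableAt ℝ a x) (hb : DifferentiableAt ℝ b x)
    (h : b x ≠ 0) : DifferentiableAt ℝ (fun y => a y / b y) x := by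
  have e : (fun y => a y / b y) = a * b⁻¹ := by
    funext y
    simp [div_eq_mul_inv]
  rw [e]
  exact ha.mul (hb.inv h)

variable {a0 a1 a2 a3 : E' → ℝ} {v : E'}

theorem dd_neglog (d0 : Differentiable ℝ a0) (h0 : ∀ x, dd v a0 x = a1 x) (hp : ∀ x, 0 < a0 x) :
    dd v (fun x => -Real.log (a0 x)) = fun x => -(a1 x / a0 x) := by
  funext x
  refine dd_eq_of_line ((d0 x).log (hp x).ne').neg ?_
  have h := line_hasDerivAt d0 x v 0
  have e : fderiv ℝ a0 (x + (0 : ℝ) • v) v = (fun s : ℝ => a1 (x + s • v)) 0 := by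
    simp only [zero_smul, add_zero]; exact h0 x
  rw [e] at h
  simpa using hasDerivAt_neglog (F0 := fun s : ℝ => a0 (x + s • v)) (F1 := fun s : ℝ => a1 (x + s • v)) h
    (by simpa using hp x)

theorem dd2_neglog (d0 : Differentiable ℝ a0) (d1 : Differentiable ℝ a1)
    (h0 : ∀ x, dd v a0 x = a1 x) (h1 : ∀ x, dd v a1 x = a2 x) (hp : ∀ x, 0 < a0 x) :
    dd v (dd v (fun x => -Real.log (a0 x))) = fun x => k2 (a0 x) (a1 x) (a2 x) := by
  rw [dd_neglog d0 h0 hp]
  funext x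
  refine dd_eq_of_line (diffAt_div (d1 x) (d0 x) (hp x).ne').neg ?_
  have g0 := line_hasDerivAt d0 x v 0
  have g1 := line_hasDerivAt d1 x v 0
  have e0 : fderiv ℝ a0 (x + (0 : ℝ) • v) v = (fun s : ℝ => a1 (x + s • v)) 0 := by
    simp only [zero_smul, add_zero]; exact h0 x
  have e1 : fderiv ℝ a1 (x + (0 : ℝ) • v) v = (fun s : ℝ => a2 (x + s • v)) 0 := by
    simp only [zero_smul, add_zero]; exact h1 x
  rw [e0] at g0
  rw [e1] at g1
  simpa using hasDerivAt_k1 (F0 := fun s : ℝ => a0 (x + s • v)) (F1 := fun s : ℝ => a1 (x + s • v))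
    (F2 := fun s : ℝ => a2 (x + s • v)) g0 g1 (by simpa using hp x)

theorem dd3_neglog (d0 : Differentiable ℝ a0) (d1 : Differentiable ℝ a1) (d2 : Differentiable ℝ a2)
    (h0 : ∀ x, dd v a0 x = a1 x) (h1 : ∀ x, dd v a1 x = a2 x) (h2 : ∀ x, dd v a2 x = a3 x)
    (hp : ∀ x, 0 < a0 x) :
    dd v (dd v (dd v (fun x => -Real.log (a0 x)))) = fun x => k3 (a0 x) (a1 x) (a2 x) (a3 x) := by
  rw [dd2_neglog d0 d1 h0 h1 hp]
  funext x
  refine dd_eq_of_line ?_ ?_
  · unfold k2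
    exact (diffAt_div (d2 x) (d0 x) (hp x).ne').neg.add ((diffAt_div (d1 x) (d0 x) (hp x).ne').pow 2)
  have g0 := line_hasDerivAt d0 x v 0
  have g1 := line_hasDerivAt d1 x v 0
  have g2 := line_hasDerivAt d2 x v 0
  have e0 : fderiv ℝ a0 (x + (0 : ℝ) • v) v = (fun s : ℝ => a1 (x + s • v)) 0 := by
    simp only [zero_smul, add_zero]; exact h0 x
  have e1 : fderiv ℝ a1 (x + (0 : ℝ) • v) v = (fun s : ℝ => a2 (x + s • v)) 0 := by
    simp only [zero_smul, add_zero]; exact h1 x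
  have e2 : fderiv ℝ a2 (x + (0 : ℝ) • v) v = (fun s : ℝ => a3 (x + s • v)) 0 := by
    simp only [zero_smul, add_zero]; exact h2 x
  rw [e0] at g0
  rw [e1] at g1
  rw [e2] at g2
  simpa using hasDerivAt_k2 (F0 := fun s : ℝ => a0 (x + s • v)) (F1 := fun s : ℝ => a1 (x + s • v))
    (F2 := fun s : ℝ => a2 (x + s • v)) (F3 := fun s : ℝ => a3 (x + s • v)) g0 g1 g2
    (by simpa using hp x)

end dd

/-- continuity of `k2`, `k3` -/
theorem tendsto_k2 {α : Type*} {l : Filter α} {a b c : α → ℝ} {A B C : ℝ} (hA : A ≠ 0)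
    (ha : Tendsto a l (𝓝 A)) (hb : Tendsto b l (𝓝 B)) (hc : Tendsto c l (𝓝 C)) :
    Tendsto (fun i => k2 (a i) (b i) (c i)) l (𝓝 (k2 A B C)) :=
  ((hc.div ha hA).neg).add ((hb.div ha hA).pow 2)

theorem tendsto_k3 {α : Type*} {l : Filter α} {a b c d : α → ℝ} {A B C D : ℝ} (hA : A ≠ 0)
    (ha : Tendsto a l (𝓝 A)) (hb : Tendsto b l (𝓝 B)) (hc : Tendsto c l (𝓝 C))
    (hd : Tendsto d l (𝓝 D)) :
    Tendsto (fun i => k3 (a i) (b i) (c i) (d i)) l (𝓝 (k3 A B C D)) :=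
  (((hd.div ha hA).neg).add (((hb.div ha hA).const_mul 3).mul (hc.div ha hA))).sub
    (((hb.div ha hA).pow 3).const_mul 2)

/-- passage to the limit -/
theorem k3_le_of_tendsto {a b c d ε : ℕ → ℝ} {A B C D κ : ℝ} (hA : A ≠ 0)
    (ha : Tendsto a atTop (𝓝 A)) (hb : Tendsto b atTop (𝓝 B)) (hc : Tendsto c atTop (𝓝 C))
    (hd : Tendsto d atTop (𝓝 D)) (hε : Tendsto ε atTop (𝓝 0))
    (h : ∀ᶠ k in atTop, k3 (a k) (b k) (c k) (d k) ≤
      2 * κ * (k2 (a k) (b k) (c k)) ^ ((3 : ℝ) / 2) + ε k) :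
    k3 A B C D ≤ 2 * κ * (k2 A B C) ^ ((3 : ℝ) / 2) := by
  have h1 : Tendsto (fun k => 2 * κ * (k2 (a k) (b k) (c k)) ^ ((3 : ℝ) / 2) + ε k) atTop
      (𝓝 (2 * κ * (k2 A B C) ^ ((3 : ℝ) / 2) + 0)) :=
    (((tendsto_k2 hA ha hb hc).rpow_const (Or.inr (by norm_num))).const_mul (2 * κ)).add hε
  rw [add_zero] at h1
  exact le_of_tendsto_of_tendsto (tendsto_k3 hA ha hb hc hd) h1 h

/-- the passage to the limit in the form of the steps: `w k = -log (a k 0)` -/
theorem sc_limit {E' : Type*} [NormedAddCommGroup E'] [NormedSpace ℝ E'] {v x : E'} {κ : ℝ}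
    {w : ℕ → E' → ℝ} {a : ℕ → ℕ → E' → ℝ} {g ε : ℕ → ℝ}
    (hw : ∀ k y, w k y = -Real.log (a k 0 y)) (hpos : ∀ k y, 0 < a k 0 y)
    (hd : ∀ k j, j < 3 → Differentiable ℝ (a k j))
    (hdd : ∀ k j, j < 3 → ∀ y, dd v (a k j) y = a k (j + 1) y)
    (hsc : ∀ᶠ k in atTop, dd v (dd v (dd v (w k))) x ≤
      2 * κ * (dd v (dd v (w k)) x) ^ ((3 : ℝ) / 2) + ε k * ‖v‖ ^ 3)
    (hε : Tendsto ε atTop (𝓝 0))
    (hlim : ∀ j, j < 4 → Tendsto (fun k => a k j x) atTop (𝓝 (g j))) (hg : g 0 ≠ 0) :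
    k3 (g 0) (g 1) (g 2) (g 3) ≤ 2 * κ * (k2 (g 0) (g 1) (g 2)) ^ ((3 : ℝ) / 2) := by
  have hε' : Tendsto (fun k => ε k * ‖v‖ ^ 3) atTop (𝓝 0) := by
    simpa using hε.mul_const (‖v‖ ^ 3)
  refine k3_le_of_tendsto (ε := fun k => ε k * ‖v‖ ^ 3) hg (hlim 0 (by norm_num)) (hlim 1 (by norm_num))
    (hlim 2 (by norm_num)) (hlim 3 (by norm_num)) hε' ?_
  filter_upwards [hsc] with k hk
  have e : w k = fun y => -Real.log (a k 0 y) := funext (hw k)
  have e2 := dd2_neglog (v := v) (hd k 0 (by norm_num)) (hd k 1 (by norm_num))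
    (hdd k 0 (by norm_num)) (hdd k 1 (by norm_num)) (hpos k)
  have e3 := dd3_neglog (v := v) (hd k 0 (by norm_num)) (hd k 1 (by norm_num)) (hd k 2 (by norm_num))
    (hdd k 0 (by norm_num)) (hdd k 1 (by norm_num)) (hdd k 2 (by norm_num)) (hpos k)
  rw [e, e3, e2] at hk
  exact hk

section gauss

variable {n : ℕ}

theorem integrable_gauss : Integrable (fun z : E n => Real.exp (-‖z‖ ^ 2 / 2)) := by
  have h := GaussianFourier.integrable_cexp_neg_mul_sq_norm_add (V := E n) (b := (1 / 2 : ℂ))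
    (by norm_num) 0 (0 : E n)
  have h2 := h.norm
  refine h2.congr (Eventually.of_forall fun z => ?_)
  simp only [zero_mul, add_zero]
  rw [Complex.norm_exp]
  congr 1
  have : (-(1 / 2 : ℂ) * (‖z‖ : ℂ) ^ 2) = ((-(1 / 2) * ‖z‖ ^ 2 : ℝ) : ℂ) := by push_cast; ring
  rw [this, Complex.ofReal_re]
  ring

theorem integrable_mul_gauss {f : E n → ℝ} (hf : Continuous f) {B : ℝ} (hB : ∀ x, |f x| ≤ B) :
    Integrable (fun z : E n => f z * Real.exp (-‖z‖ ^ 2 / 2)) := by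
  refine integrable_gauss.bdd_mul (c := B) hf.aestronglyMeasurable ?_
  exact Eventually.of_forall fun x => by simpa [Real.norm_eq_abs] using hB x

/-- (L5): differentiation under the Gaussian integral along a line -/
theorem hasDerivAt_gauss {f f' : E n → ℝ} (hf : Differentiable ℝ f) (v : E n)
    (hf' : ∀ x, fderiv ℝ f x v = f' x) (hc' : Continuous f') {B B' : ℝ} (hb : ∀ x, |f x| ≤ B)
    (hb' : ∀ x, |f' x| ≤ B') (P : E n →L[ℝ] E n) (x : E n) (t : ℝ) :
    HasDerivAt (fun s : ℝ => ∫ z : E n, f (x + s • v + P z) * Real.exp (-‖z‖ ^ 2 / 2))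
      (∫ z : E n, f' (x + t • v + P z) * Real.exp (-‖z‖ ^ 2 / 2)) t := by
  have hcP : ∀ s : ℝ, Continuous fun z : E n => x + s • v + P z := fun s =>
    continuous_const.add P.continuous
  have key := hasDerivAt_integral_of_dominated_loc_of_deriv_le (μ := (volume : Measure (E n)))
    (F := fun (s : ℝ) (z : E n) => f (x + s • v + P z) * Real.exp (-‖z‖ ^ 2 / 2))
    (F' := fun (s : ℝ) (z : E n) => f' (x + s • v + P z) * Real.exp (-‖z‖ ^ 2 / 2))
    (x₀ := t) (s := Set.univ) (bound := fun z : E n => B' * Real.exp (-‖z‖ ^ 2 / 2))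
    Filter.univ_mem
    (Eventually.of_forall fun s =>
      (integrable_mul_gauss (hf.continuous.comp (hcP s)) (fun z => hb _)).aestronglyMeasurable)
    (integrable_mul_gauss (hf.continuous.comp (hcP t)) (fun z => hb _))
    (integrable_mul_gauss (hc'.comp (hcP t)) (fun z => hb' _)).aestronglyMeasurable
    (Eventually.of_forall fun z s _ => by
      rw [norm_mul, Real.norm_eq_abs, Real.norm_eq_abs, abs_of_pos (Real.exp_pos _)]
      exact mul_le_mul_of_nonneg_right (hb' _) (Real.exp_pos _).le)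
    (integrable_gauss.const_mul B')
    (Eventually.of_forall fun z s _ => by
      have h1 := line_hasDerivAt hf (x + P z) v s
      rw [hf'] at h1
      have e : (fun r : ℝ => f (x + r • v + P z)) = fun r : ℝ => f (x + P z + r • v) := by
        funext r; congr 1; abel
      have e' : x + s • v + P z = x + P z + s • v := by abel
      have h2 : HasDerivAt (fun r : ℝ => f (x + r • v + P z)) (f' (x + s • v + P z)) s := by
        rw [e, e']; exact h1
      exact h2.mul_const _)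
  exact key.2

/-- iterated directional derivatives of `e^{-W}` -/
noncomputable def pj (W : E n → ℝ) (v : E n) : ℕ → E n → ℝ
  | 0 => fun x => Real.exp (-W x)
  | (j + 1) => fun x => fderiv ℝ (pj W v j) x v

theorem pj_contDiff {W : E n → ℝ} (hW : ContDiff ℝ (⊤ : ℕ∞) W) (v : E n) (j : ℕ) :
    ContDiff ℝ (⊤ : ℕ∞) (pj W v j) := by
  induction j with
  | zero => exact hW.neg.exp
  | succ j ih => exact (ih.fderiv_right (m := (⊤ : ℕ∞)) (by simp)).clm_apply contDiff_const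

theorem pj_neg {W : E n → ℝ} (hW : ContDiff ℝ (⊤ : ℕ∞) W) (v : E n) (j : ℕ) (x : E n) :
    pj W (-v) j x = (-1) ^ j * pj W v j x := by
  induction j generalizing x with
  | zero => simp [pj]
  | succ j ih =>
    have e : pj W (-v) j = fun y => (-1) ^ j * pj W v j y := funext ih
    have hd : DifferentiableAt ℝ (pj W v j) x :=
      ((pj_contDiff hW v j).differentiable (by simp)) x
    show fderiv ℝ (pj W (-v) j) x (-v) = _
    rw [e, fderiv_const_mul hd]
    show (-1) ^ j * fderiv ℝ (pj W v j) x (-v) = (-1) ^ (j + 1) * fderiv ℝ (pj W v j) x v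
    rw [map_neg, pow_succ]
    ring

/-- Gaussian averages of `pj` -/
noncomputable def Gj (W : E n → ℝ) (P : E n →L[ℝ] E n) (v : E n) (j : ℕ) (x : E n) : ℝ :=
  ∫ z : E n, pj W v j (x + P z) * Real.exp (-‖z‖ ^ 2 / 2)

theorem Gj_neg {W : E n → ℝ} (hW : ContDiff ℝ (⊤ : ℕ∞) W) (P : E n →L[ℝ] E n) (v : E n) (j : ℕ)
    (x : E n) : Gj W P (-v) j x = (-1) ^ j * Gj W P v j x := by
  unfold Gj
  rw [← integral_const_mul]
  refine integral_congr_ae (Eventually.of_forall fun z => ?_)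
  simp only [pj_neg hW]
  ring

theorem Gj_pos {W : E n → ℝ} (hW : ContDiff ℝ (⊤ : ℕ∞) W) {B : ℝ} (v : E n)
    (hb : ∀ x, |pj W v 0 x| ≤ B) (P : E n →L[ℝ] E n) (x : E n) : 0 < Gj W P v 0 x := by
  unfold Gj
  have hcP : Continuous fun z : E n => x + P z := continuous_const.add P.continuous
  have hint := integrable_mul_gauss ((pj_contDiff hW v 0).continuous.comp hcP) (fun z => hb _)
  refine (integral_pos_iff_support_of_nonneg (fun z => ?_) hint).2 ?_
  · exact mul_nonneg (Real.exp_pos _).le (Real.exp_pos _).le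
  · have : Function.support (fun z : E n => pj W v 0 (x + P z) * Real.exp (-‖z‖ ^ 2 / 2)) =
        Set.univ := by
      ext z
      simp only [Function.mem_support, Set.mem_univ, iff_true]
      exact (mul_pos (Real.exp_pos _) (Real.exp_pos _)).ne'
    erw [this]
    exact Measure.measure_univ_pos.2 (NeZero.ne _)

theorem heat_eq (W : E n → ℝ) (P : E n →L[ℝ] E n) (v x : E n) :
    heat W P x = -Real.log (Gj W P v 0 x) := by
  unfold heat Gj pj
  congr 2
  refine integral_congr_ae (Eventually.of_forall fun z => ?_)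
  show Real.exp (-W (x + P z) - ‖z‖ ^ 2 / 2) = Real.exp (-W (x + P z)) * Real.exp (-‖z‖ ^ 2 / 2)
  rw [← Real.exp_add]
  congr 1
  ring

section

variable {W : E n → ℝ} (hW : ContDiff ℝ (⊤ : ℕ∞) W) (v : E n)
  (hb : ∀ j, j ≤ 3 → ∃ B, ∀ x, |pj W v j x| ≤ B) (P : E n →L[ℝ] E n)

include hW hb

theorem Gj_hasDerivAt (j : ℕ) (hj : j < 3) (x : E n) (t : ℝ) :
    HasDerivAt (fun s : ℝ => Gj W P v j (x + s • v)) (Gj W P v (j + 1) (x + t • v)) t := by
  obtain ⟨B, hB⟩ := hb j (by omega)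
  obtain ⟨B', hB'⟩ := hb (j + 1) (by omega)
  exact hasDerivAt_gauss ((pj_contDiff hW v j).differentiable (by simp)) v (fun x => rfl)
    (pj_contDiff hW v (j + 1)).continuous hB hB' P x t

theorem heat_iter2 (x : E n) :
    iteratedDeriv 2 (fun t : ℝ => heat W P (x + t • v)) 0 =
      k2 (Gj W P v 0 x) (Gj W P v 1 x) (Gj W P v 2 x) := by
  obtain ⟨B, hB⟩ := hb 0 (by omega)
  have e : (fun t : ℝ => heat W P (x + t • v)) = fun t : ℝ => -Real.log (Gj W P v 0 (x + t • v)) :=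
    funext fun t => heat_eq W P v _
  rw [e]
  have := iter2 (F0 := fun t : ℝ => Gj W P v 0 (x + t • v)) (F1 := fun t : ℝ => Gj W P v 1 (x + t • v))
    (F2 := fun t : ℝ => Gj W P v 2 (x + t • v)) (Gj_hasDerivAt hW v hb P 0 (by norm_num) x)
    (Gj_hasDerivAt hW v hb P 1 (by norm_num) x) (fun t => Gj_pos hW v hB P _) 0
  simpa using this

theorem heat_iter3 (x : E n) :
    iteratedDeriv 3 (fun t : ℝ => heat W P (x + t • v)) 0 =
      k3 (Gj W P v 0 x) (Gj W P v 1 x) (Gj W P v 2 x) (Gj W P v 3 x) := by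
  obtain ⟨B, hB⟩ := hb 0 (by omega)
  have e : (fun t : ℝ => heat W P (x + t • v)) = fun t : ℝ => -Real.log (Gj W P v 0 (x + t • v)) :=
    funext fun t => heat_eq W P v _
  rw [e]
  have := iter3 (F0 := fun t : ℝ => Gj W P v 0 (x + t • v)) (F1 := fun t : ℝ => Gj W P v 1 (x + t • v))
    (F2 := fun t : ℝ => Gj W P v 2 (x + t • v)) (F3 := fun t : ℝ => Gj W P v 3 (x + t • v))
    (Gj_hasDerivAt hW v hb P 0 (by norm_num) x)
    (Gj_hasDerivAt hW v hb P 1 (by norm_num) x) (Gj_hasDerivAt hW v hb P 2 (by norm_num) x)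
    (fun t => Gj_pos hW v hB P _) 0
  simpa using this

end

/-- (L4)+(L5): the one-sided inequality for the Gaussian averages gives `SelfConc κ (heat W P)` -/
theorem selfConc_heat {W : E n → ℝ} (hW : ContDiff ℝ (⊤ : ℕ∞) W)
    (hb : ∀ v : E n, ∀ j, j ≤ 3 → ∃ B, ∀ x, |pj W v j x| ≤ B) (P : E n →L[ℝ] E n) {κ : ℝ}
    (h : ∀ x v : E n, k3 (Gj W P v 0 x) (Gj W P v 1 x) (Gj W P v 2 x) (Gj W P v 3 x) ≤
      2 * κ * (k2 (Gj W P v 0 x) (Gj W P v 1 x) (Gj W P v 2 x)) ^ ((3 : ℝ) / 2)) :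
    SelfConc κ (heat W P) := by
  intro x v
  rw [heat_iter2 hW v (hb v) P x, heat_iter3 hW v (hb v) P x, abs_le]
  refine ⟨?_, h x v⟩
  have h2 := h x (-v)
  rw [Gj_neg hW, Gj_neg hW, Gj_neg hW, Gj_neg hW] at h2
  have e1 : (-1 : ℝ) ^ 0 * Gj W P v 0 x = Gj W P v 0 x := by ring
  have e2 : (-1 : ℝ) ^ 1 * Gj W P v 1 x = -Gj W P v 1 x := by ring
  have e3 : (-1 : ℝ) ^ 2 * Gj W P v 2 x = Gj W P v 2 x := by ring
  have e4 : (-1 : ℝ) ^ 3 * Gj W P v 3 x = -Gj W P v 3 x := by ring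
  rw [e1, e2, e3, e4, k2_neg, k3_neg] at h2
  linarith

end gauss

end Vale.Agent.P227.M.SC.L45
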