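import Mathlib

/-! Regular potentials on a real normed space, second and third derivatives along lines. -/

open MeasureTheory Set Filter
open scoped Topology ContDiff

namespace Vale.Agent.P227.M.SC

section
variable {F : Type} [NormedAddCommGroup F] [NormedSpace ℝ F]

/-- second derivative along a line -/
noncomputable def Ld2 (W : F → ℝ) (x v : F) : ℝ := iteratedDeriv 2 (fun t : ℝ => W (x + t • v)) 0

/-- third derivative along a line -/
noncomputable def Ld3 (W : F → ℝ) (x v : F) : ℝ := iteratedDeriv 3 (fun t : ℝ => W (x + t • v)) 0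

/-- regular potential (generic normed space): smooth, `c‖v‖² ≤ D²W`, all derivatives of order
`≥ 2` bounded -/
structure RegG (W : F → ℝ) (c : ℝ) : Prop where
  c_pos : 0 < c
  smooth : ContDiff ℝ ∞ W
  lower : ∀ x v, c * ‖v‖ ^ 2 ≤ Ld2 W x v
  bdd : ∀ k : ℕ, 2 ≤ k → ∃ B : ℝ, ∀ x, ‖iteratedFDeriv ℝ k W x‖ ≤ B

/-- self-concordance along lines -/
def SCG (κ : ℝ) (W : F → ℝ) : Prop := ∀ x v : F, |Ld3 W x v| ≤ 2 * κ * (Ld2 W x v) ^ ((3 : ℝ) / 2)

theorem line_hasDerivAt (x v : F) (t : ℝ) : HasDerivAt (fun t : ℝ => x + t • v) v t := by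
  simpa using ((hasDerivAt_id t).smul_const v).const_add x

theorem hasDerivAt_line0 {W : F → ℝ} (hW : ContDiff ℝ ∞ W) (x v : F) (t : ℝ) :
    HasDerivAt (fun t : ℝ => W (x + t • v)) (fderiv ℝ W (x + t • v) v) t :=
  ((hW.differentiable (by simp) _).hasFDerivAt).comp_hasDerivAt t (line_hasDerivAt x v t)

theorem hasDerivAt_line1 {W : F → ℝ} (hW : ContDiff ℝ ∞ W) (x v : F) (t : ℝ) :
    HasDerivAt (fun t : ℝ => fderiv ℝ W (x + t • v) v)
      (fderiv ℝ (fderiv ℝ W) (x + t • v) v v) t := by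
  have h1 : ContDiff ℝ ∞ (fderiv ℝ W) := (contDiff_infty_iff_fderiv.1 hW).2
  have h2 := ((h1.differentiable (by simp) (x + t • v)).hasFDerivAt).comp_hasDerivAt t
    (line_hasDerivAt x v t)
  exact ((ContinuousLinearMap.apply ℝ ℝ v).hasFDerivAt).comp_hasDerivAt t h2

theorem hasDerivAt_line2 {W : F → ℝ} (hW : ContDiff ℝ ∞ W) (x v : F) (t : ℝ) :
    HasDerivAt (fun t : ℝ => fderiv ℝ (fderiv ℝ W) (x + t • v) v v)
      (fderiv ℝ (fderiv ℝ (fderiv ℝ W)) (x + t • v) v v v) t := by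
  have h1 : ContDiff ℝ ∞ (fderiv ℝ W) := (contDiff_infty_iff_fderiv.1 hW).2
  have h1' : ContDiff ℝ ∞ (fderiv ℝ (fderiv ℝ W)) := (contDiff_infty_iff_fderiv.1 h1).2
  have h2 := ((h1'.differentiable (by simp) (x + t • v)).hasFDerivAt).comp_hasDerivAt t
    (line_hasDerivAt x v t)
  have h3 := ((ContinuousLinearMap.apply ℝ (F →L[ℝ] ℝ) v).hasFDerivAt).comp_hasDerivAt t h2
  exact ((ContinuousLinearMap.apply ℝ ℝ v).hasFDerivAt).comp_hasDerivAt t h3

theorem iteratedDeriv_line2 {W : F → ℝ} (hW : ContDiff ℝ ∞ W) (x v : F) :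
    iteratedDeriv 2 (fun t : ℝ => W (x + t • v)) = fun t => fderiv ℝ (fderiv ℝ W) (x + t • v) v v := by
  have h1 : deriv (fun t : ℝ => W (x + t • v)) = fun t => fderiv ℝ W (x + t • v) v :=
    funext fun t => (hasDerivAt_line0 hW x v t).deriv
  have h2 : deriv (fun t : ℝ => fderiv ℝ W (x + t • v) v) =
      fun t => fderiv ℝ (fderiv ℝ W) (x + t • v) v v :=
    funext fun t => (hasDerivAt_line1 hW x v t).deriv
  rw [iteratedDeriv_succ, iteratedDeriv_one, h1, h2]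

theorem iteratedDeriv_line3 {W : F → ℝ} (hW : ContDiff ℝ ∞ W) (x v : F) :
    iteratedDeriv 3 (fun t : ℝ => W (x + t • v)) =
      fun t => fderiv ℝ (fderiv ℝ (fderiv ℝ W)) (x + t • v) v v v := by
  have h3 : deriv (fun t : ℝ => fderiv ℝ (fderiv ℝ W) (x + t • v) v v) =
      fun t => fderiv ℝ (fderiv ℝ (fderiv ℝ W)) (x + t • v) v v v :=
    funext fun t => (hasDerivAt_line2 hW x v t).deriv
  rw [iteratedDeriv_succ, iteratedDeriv_line2 hW x v, h3]

theorem D2_eq {W : F → ℝ} (hW : ContDiff ℝ ∞ W) (x v : F) :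
    Ld2 W x v = fderiv ℝ (fderiv ℝ W) x v v := by
  rw [Ld2, iteratedDeriv_line2 hW]; simp

theorem D3_eq {W : F → ℝ} (hW : ContDiff ℝ ∞ W) (x v : F) :
    Ld3 W x v = fderiv ℝ (fderiv ℝ (fderiv ℝ W)) x v v v := by
  rw [Ld3, iteratedDeriv_line3 hW]; simp

theorem norm_fderiv2 (W : F → ℝ) (x : F) :
    ‖fderiv ℝ (fderiv ℝ W) x‖ = ‖iteratedFDeriv ℝ 2 W x‖ := by
  rw [← norm_iteratedFDeriv_fderiv (n := 1), ← norm_iteratedFDeriv_fderiv (n := 0),
    norm_iteratedFDeriv_zero]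

theorem D2_add {W : F → ℝ} (hW : ContDiff ℝ ∞ W) (x v : F) (t : ℝ) :
    HasDerivAt (fun t : ℝ => fderiv ℝ W (x + t • v) v) (Ld2 W (x + t • v) v) t := by
  rw [D2_eq hW]
  exact hasDerivAt_line1 hW x v t

theorem abs_D2_le {W : F → ℝ} (hW : ContDiff ℝ ∞ W) {B : ℝ}
    (hB : ∀ x, ‖iteratedFDeriv ℝ 2 W x‖ ≤ B) (x v : F) : |Ld2 W x v| ≤ B * ‖v‖ ^ 2 := by
  rw [D2_eq hW]
  have h1 := (fderiv ℝ (fderiv ℝ W) x v).le_opNorm v
  have h2 := (fderiv ℝ (fderiv ℝ W) x).le_opNorm v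
  rw [norm_fderiv2] at h2
  have h3 := hB x
  have h4 : ‖fderiv ℝ (fderiv ℝ W) x v‖ ≤ B * ‖v‖ := by nlinarith [norm_nonneg v]
  rw [← Real.norm_eq_abs]
  nlinarith [norm_nonneg v]

/-- Taylor, lower bound -/
theorem RegG.taylor_lower {W : F → ℝ} {c : ℝ} (h : RegG W c) (p v : F) :
    W p + fderiv ℝ W p v + c / 2 * ‖v‖ ^ 2 ≤ W (p + v) := by
  -- g t = W (p + t v) - c/2 ‖v‖² t² is convex
  have hg1 : ∀ t, HasDerivAt (fun t : ℝ => fderiv ℝ W (p + t • v) v - fderiv ℝ W p v - c * ‖v‖ ^ 2 * t)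
      (Ld2 W (p + t • v) v - c * ‖v‖ ^ 2) t := by
    intro t
    have h1 := (D2_add h.smooth p v t).sub_const (fderiv ℝ W p v)
    have h2 := (hasDerivAt_id t).const_mul (c * ‖v‖ ^ 2)
    refine (h1.sub h2).congr_deriv ?_
    simp
  have hm : Monotone (fun t : ℝ => fderiv ℝ W (p + t • v) v - fderiv ℝ W p v - c * ‖v‖ ^ 2 * t) := by
    refine monotone_of_deriv_nonneg (fun t => (hg1 t).differentiableAt) fun t => ?_
    rw [(hg1 t).deriv]
    linarith [h.lower (p + t • v) v]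
  have hpos : ∀ t, 0 ≤ t → 0 ≤ fderiv ℝ W (p + t • v) v - fderiv ℝ W p v - c * ‖v‖ ^ 2 * t := by
    intro t ht
    have := hm ht
    simpa using this
  have hg0 : ∀ t, HasDerivAt (fun t : ℝ => W (p + t • v) - W p - fderiv ℝ W p v * t
      - c / 2 * ‖v‖ ^ 2 * t ^ 2)
      (fderiv ℝ W (p + t • v) v - fderiv ℝ W p v - c * ‖v‖ ^ 2 * t) t := by
    intro t
    have h1 := (hasDerivAt_line0 h.smooth p v t).sub_const (W p)
    have h2 := (hasDerivAt_id t).const_mul (fderiv ℝ W p v)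
    have h3 := ((hasDerivAt_pow 2 t)).const_mul (c / 2 * ‖v‖ ^ 2)
    have h4 := (h1.sub h2).sub h3
    refine h4.congr_deriv ?_
    simp
    ring
  have hm0 : MonotoneOn (fun t : ℝ => W (p + t • v) - W p - fderiv ℝ W p v * t
      - c / 2 * ‖v‖ ^ 2 * t ^ 2) (Icc 0 1) := by
    refine monotoneOn_of_deriv_nonneg (convex_Icc 0 1)
      (fun t _ => (hg0 t).continuousAt.continuousWithinAt)
      (fun t _ => (hg0 t).differentiableAt.differentiableWithinAt) fun t ht => ?_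
    rw [(hg0 t).deriv]
    rw [interior_Icc] at ht
    exact hpos t ht.1.le
  have := hm0 (left_mem_Icc.2 zero_le_one) (right_mem_Icc.2 zero_le_one) zero_le_one
  simp at this
  linarith

theorem grad_lip {W : F → ℝ} (hW : ContDiff ℝ ∞ W) {B : ℝ}
    (hB : ∀ x, ‖iteratedFDeriv ℝ 2 W x‖ ≤ B) (p q : F) :
    ‖fderiv ℝ W q - fderiv ℝ W p‖ ≤ B * ‖q - p‖ := by
  have h1 : ContDiff ℝ ∞ (fderiv ℝ W) := (contDiff_infty_iff_fderiv.1 hW).2
  refine Convex.norm_image_sub_le_of_norm_fderiv_le (s := univ) (𝕜 := ℝ)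
    (fun x _ => h1.differentiable (by simp) x) (fun x _ => ?_) convex_univ (mem_univ p) (mem_univ q)
  rw [norm_fderiv2]
  exact hB x

/-- Taylor, upper bound -/
theorem taylor_upper {W : F → ℝ} (hW : ContDiff ℝ ∞ W) {B : ℝ}
    (hB : ∀ x, ‖iteratedFDeriv ℝ 2 W x‖ ≤ B) (p v : F) :
    W (p + v) ≤ W p + fderiv ℝ W p v + B / 2 * ‖v‖ ^ 2 := by
  have hg0 : ∀ t, HasDerivAt (fun t : ℝ => W p + fderiv ℝ W p v * t
      + B / 2 * ‖v‖ ^ 2 * t ^ 2 - W (p + t • v))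
      (fderiv ℝ W p v + B * ‖v‖ ^ 2 * t - fderiv ℝ W (p + t • v) v) t := by
    intro t
    have h1 := (hasDerivAt_line0 hW p v t)
    have h2 := ((hasDerivAt_id t).const_mul (fderiv ℝ W p v)).const_add (W p)
    have h3 := ((hasDerivAt_pow 2 t)).const_mul (B / 2 * ‖v‖ ^ 2)
    have h4 := (h2.add h3).sub h1
    refine h4.congr_deriv ?_
    simp
    ring
  have hm0 : MonotoneOn (fun t : ℝ => W p + fderiv ℝ W p v * t
      + B / 2 * ‖v‖ ^ 2 * t ^ 2 - W (p + t • v)) (Icc 0 1) := by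
    refine monotoneOn_of_deriv_nonneg (convex_Icc 0 1)
      (fun t _ => (hg0 t).continuousAt.continuousWithinAt)
      (fun t _ => (hg0 t).differentiableAt.differentiableWithinAt) fun t ht => ?_
    rw [(hg0 t).deriv]
    rw [interior_Icc] at ht
    have h5 := grad_lip hW hB p (p + t • v)
    have h6 := (fderiv ℝ W (p + t • v) - fderiv ℝ W p).le_opNorm v
    have h7 : ‖p + t • v - p‖ = t * ‖v‖ := by
      rw [add_sub_cancel_left, norm_smul, Real.norm_of_nonneg ht.1.le]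
    rw [h7] at h5
    have h8 : fderiv ℝ W (p + t • v) v - fderiv ℝ W p v ≤
        ‖(fderiv ℝ W (p + t • v) - fderiv ℝ W p) v‖ := by
      rw [_root_.sub_apply, Real.norm_eq_abs]
      exact le_abs_self _
    have h9 : ‖fderiv ℝ W (p + t • v) - fderiv ℝ W p‖ * ‖v‖ ≤ B * (t * ‖v‖) * ‖v‖ :=
      mul_le_mul_of_nonneg_right h5 (norm_nonneg _)
    nlinarith
  have := hm0 (left_mem_Icc.2 zero_le_one) (right_mem_Icc.2 zero_le_one) zero_le_one
  simp at this
  linarith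

end

end Vale.Agent.P227.M.SC
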