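import Vale.Agent.P227.M.SC.Marg1

/-! Marginal lemma for nearly self-concordant potentials, energy method, helper66. -/

open MeasureTheory Filter Topology Set

namespace Vale.Agent.P227.M.Marg

/-! ### pointwise algebra -/

theorem sqrt8 : Real.sqrt 8 ≤ 2.8285 := by
  rw [Real.sqrt_le_left (by norm_num)]; norm_num

/-- `X^{3/2}` upper Taylor bound -/
theorem rpow_up {X P : ℝ} (hX : 1 ≤ X) (hP : 0 ≤ P) :
    P * √P ≤ X * √X + 3 / 2 * √X * (P - X) + 1 / 2 * (P - X) ^ 2 := by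
  have hx : 1 ≤ √X := by rw [Real.one_le_sqrt]; exact hX
  have hy : 0 ≤ √P := Real.sqrt_nonneg P
  have ex : X = √X ^ 2 := (Real.sq_sqrt (by linarith)).symm
  have ey : P = √P ^ 2 := (Real.sq_sqrt hP).symm
  set x := √X
  set y := √P
  rw [ex, ey]
  have key : x ^ 2 * x + 3 / 2 * x * (y ^ 2 - x ^ 2) + 1 / 2 * (y ^ 2 - x ^ 2) ^ 2 - y ^ 2 * y
      = (y - x) ^ 2 * (1 / 2 * x * (x - 1) + y * (x - 1) + 1 / 2 * y ^ 2) := by ring
  have : 0 ≤ (y - x) ^ 2 * (1 / 2 * x * (x - 1) + y * (x - 1) + 1 / 2 * y ^ 2) := by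
    apply mul_nonneg (sq_nonneg _)
    have h1 : 0 ≤ x - 1 := by linarith
    positivity
  linarith

theorem rpow_lo {e y : ℝ} (he : 0 ≤ e) (hy : 0 ≤ y) :
    e * √e + 3 / 2 * √e * y ≤ (e + y) * √(e + y) := by
  have hr : 0 ≤ √e := Real.sqrt_nonneg e
  have hs : 0 ≤ √(e + y) := Real.sqrt_nonneg _
  have er : e = √e ^ 2 := (Real.sq_sqrt he).symm
  have es : e + y = √(e + y) ^ 2 := (Real.sq_sqrt (by linarith)).symm
  set r := √e
  set s := √(e + y)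
  have ey : y = s ^ 2 - r ^ 2 := by linarith
  have key : s ^ 2 * s - (r ^ 2 * r + 3 / 2 * r * (s ^ 2 - r ^ 2)) = (s - r) ^ 2 * (s + 1 / 2 * r) := by ring
  have h1 : 0 ≤ (s - r) ^ 2 * (s + 1 / 2 * r) := by positivity
  rw [es, ey, er]
  linarith

variable {a m om C3 a1 m1 om1 b c R : ℝ}

/-- bound for `D^3W(xi,e,e)` -/
theorem pt1 (hc : 0 ≤ c) (hlo : ∀ α β : ℝ, α ^ 2 + β ^ 2 ≤ a * α ^ 2 + 2 * m * α * β + om * β ^ 2)
    (hsc : ∀ α β : ℝ, |C3 * α ^ 3 + 3 * a1 * α ^ 2 * β + 3 * m1 * α * β ^ 2 + om1 * β ^ 3| ≤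
      2 * c * ((a * α ^ 2 + 2 * m * α * β + om * β ^ 2) * √(a * α ^ 2 + 2 * m * α * β + om * β ^ 2))) :
    |m1 + b * om1| ≤ 137 / 50 * c * om * √(a + 2 * b * m + b ^ 2 * om) := by
  set X := a + 2 * b * m + b ^ 2 * om with hX
  have hom : 1 ≤ om := by have := hlo 0 1; nlinarith
  have hX1 : 1 ≤ X := by have := hlo 1 b; nlinarith [sq_nonneg b]
  set l := √(3 * X / om) with hl
  have hl2 : l ^ 2 = 3 * X / om := Real.sq_sqrt (by positivity)
  have hl2o : l ^ 2 * om = 3 * X := by rw [hl2]; field_simp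
  -- the two quadratic values
  set u := a * 1 ^ 2 + 2 * m * 1 * (b + l) + om * (b + l) ^ 2 with hu
  set v := a * 1 ^ 2 + 2 * m * 1 * (b - l) + om * (b - l) ^ 2 with hv
  have huv : u + v = 8 * X := by rw [hu, hv]; linear_combination 2 * hl2o
  have hu0 : 0 ≤ u := by have := hlo 1 (b + l); rw [hu]; nlinarith [sq_nonneg (b + l)]
  have hv0 : 0 ≤ v := by have := hlo 1 (b - l); rw [hv]; nlinarith [sq_nonneg (b - l)]
  have e0 : a * 1 ^ 2 + 2 * m * 1 * b + om * b ^ 2 = X := by rw [hX]; ring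
  have T1 := hsc 1 (b + l)
  have T2 := hsc 1 (b - l)
  have T0 := hsc 1 b
  rw [← hu] at T1
  rw [← hv] at T2
  rw [e0] at T0
  have hsX : 0 ≤ √X := Real.sqrt_nonneg X
  have s8 : √(8 * X) ≤ 2.8285 * √X := by
    rw [Real.sqrt_mul (by norm_num)]
    exact mul_le_mul_of_nonneg_right sqrt8 hsX
  have hu1 : u * √u ≤ u * (2.8285 * √X) := by
    apply mul_le_mul_of_nonneg_left _ hu0
    exact le_trans (Real.sqrt_le_sqrt (by linarith)) s8
  have hv1 : v * √v ≤ v * (2.8285 * √X) := by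
    apply mul_le_mul_of_nonneg_left _ hv0
    exact le_trans (Real.sqrt_le_sqrt (by linarith)) s8
  have hsum : u * √u + v * √v + 2 * (X * √X) ≤ 24.628 * (X * √X) := by
    have : u * (2.8285 * √X) + v * (2.8285 * √X) = 22.628 * (X * √X) := by
      rw [← add_mul, huv]; ring
    linarith
  have hid : 6 * l ^ 2 * (m1 + b * om1) =
      (C3 * 1 ^ 3 + 3 * a1 * 1 ^ 2 * (b + l) + 3 * m1 * 1 * (b + l) ^ 2 + om1 * (b + l) ^ 3) +
      (C3 * 1 ^ 3 + 3 * a1 * 1 ^ 2 * (b - l) + 3 * m1 * 1 * (b - l) ^ 2 + om1 * (b - l) ^ 3) -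
      2 * (C3 * 1 ^ 3 + 3 * a1 * 1 ^ 2 * b + 3 * m1 * 1 * b ^ 2 + om1 * b ^ 3) := by ring
  have habs : 6 * l ^ 2 * |m1 + b * om1| ≤ 2 * c * (24.628 * (X * √X)) := by
    have h6 : 0 ≤ 6 * l ^ 2 := by positivity
    rw [← abs_of_nonneg h6, ← abs_mul, hid]
    have h7 := abs_le.1 T1
    have h8 := abs_le.1 T2
    have h9 := abs_le.1 T0
    have h10 : 2 * c * (u * √u + v * √v + 2 * (X * √X)) ≤ 2 * c * (24.628 * (X * √X)) :=
      mul_le_mul_of_nonneg_left hsum (by linarith)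
    rw [abs_le]
    constructor
    · linarith [h7.1, h8.1, h9.2]
    · linarith [h7.2, h8.2, h9.1]
  -- 6 l^2 = 18 X / om
  have h18 : 18 * X * |m1 + b * om1| ≤ om * (2 * c * (24.628 * (X * √X))) := by
    have := mul_le_mul_of_nonneg_left habs (by linarith : (0:ℝ) ≤ om)
    have e : om * (6 * l ^ 2 * |m1 + b * om1|) = 18 * X * |m1 + b * om1| := by
      linear_combination 6 * |m1 + b * om1| * hl2o
    linarith
  have hXpos : 0 < X := by linarith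
  have : 18 * X * |m1 + b * om1| ≤ 18 * X * (137 / 50 * c * om * √X) := by
    refine le_trans h18 ?_
    have h11 : 0 ≤ c * om * (X * √X) := by positivity
    nlinarith
  exact le_of_mul_le_mul_left this (by positivity)

/-- one Taylor step -/
theorem tstep {X k om C0 C1 C2 om1 c l K0 R R1 R2 : ℝ} (hc : 0 ≤ c) (hX : 1 ≤ X) (hXR : X ≤ R1)
    (hom0 : 0 ≤ om) (homR : om ≤ R) (hk : |k| ≤ R2) (hC2 : |C2| ≤ c * (3 * R * R1))
    (hom1 : |om1| ≤ c * (2 * R ^ 2)) (hl : |l| ≤ 2) (hP : 0 ≤ X + 2 * l * k + l ^ 2 * om)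
    (hK0 : 3 * R1 * R + (2 * R2 + 2 * R) ^ 2 + 9 * R * R1 + 4 * R ^ 2 ≤ K0)
    (h1 : C0 + 3 * l * C1 + 3 * l ^ 2 * C2 + l ^ 3 * om1 ≤
      2 * c * ((X + 2 * l * k + l ^ 2 * om) * √(X + 2 * l * k + l ^ 2 * om))) :
    3 * l * (C1 - 2 * c * √X * k) ≤ (2 * c * (X * √X) - C0) + c * K0 * l ^ 2 := by
  have hs0 : 0 ≤ √X := Real.sqrt_nonneg X
  have hsX : √X ≤ R1 := by
    have h2 : √X * √X = X := Real.mul_self_sqrt (by linarith)
    have h3 : 1 ≤ √X := by rw [Real.one_le_sqrt]; exact hX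
    nlinarith
  have h2 := rpow_up hX hP
  have e : X + 2 * l * k + l ^ 2 * om - X = 2 * l * k + l ^ 2 * om := by ring
  rw [e] at h2
  have h3 := mul_le_mul_of_nonneg_left h2 (by linarith : (0:ℝ) ≤ 2 * c)
  have h4 := le_trans h1 h3
  clear h1 h2 h3
  have h5 : √X * om ≤ R1 * R := mul_le_mul hsX homR hom0 (by linarith)
  have h6 : (2 * k + l * om) ^ 2 ≤ (2 * R2 + 2 * R) ^ 2 := by
    rw [← sq_abs (2 * k + l * om)]
    have h7 : |2 * k + l * om| ≤ 2 * R2 + 2 * R := by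
      refine le_trans (abs_add_le _ _) ?_
      rw [abs_mul, abs_mul, abs_of_pos (by norm_num : (0:ℝ) < 2), abs_of_nonneg hom0]
      have : |l| * om ≤ 2 * R := mul_le_mul hl homR hom0 (by norm_num)
      linarith
    exact pow_le_pow_left₀ (abs_nonneg _) h7 2
  have h8 : - (3 * C2) ≤ c * (9 * R * R1) := by
    have := (abs_le.1 hC2).1; linarith
  have h9 : - (l * om1) ≤ c * (4 * R ^ 2) := by
    have h10 : |l * om1| ≤ 2 * (c * (2 * R ^ 2)) := by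
      rw [abs_mul]; exact mul_le_mul hl hom1 (abs_nonneg _) (by norm_num)
    have := neg_abs_le (l * om1); linarith
  have h11 : c * (3 * (√X * om)) ≤ c * (3 * R1 * R) := mul_le_mul_of_nonneg_left (by linarith) hc
  have h12 : c * (2 * k + l * om) ^ 2 ≤ c * (2 * R2 + 2 * R) ^ 2 := mul_le_mul_of_nonneg_left h6 hc
  have h13 : c * (3 * R1 * R + (2 * R2 + 2 * R) ^ 2 + 9 * R * R1 + 4 * R ^ 2) ≤ c * K0 :=
    mul_le_mul_of_nonneg_left hK0 hc
  have h14 : c * (3 * (√X * om)) + c * (2 * k + l * om) ^ 2 - 3 * C2 - l * om1 ≤ c * K0 := by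
    linarith
  have h15 := mul_le_mul_of_nonneg_left h14 (sq_nonneg l)
  linear_combination h4 + h15

/-- discriminant -/
theorem disc {D Th K M : ℝ} (hK : 0 < K) (hTh : 0 ≤ Th) (hM : Th ≤ M)
    (h : ∀ l : ℝ, |l| ≤ 2 → 3 * l * D ≤ Th + K * l ^ 2) : D ^ 2 ≤ (K + M) * Th := by
  have ha : ∀ l : ℝ, 0 ≤ l → l ≤ 2 → 3 * l * |D| ≤ Th + K * l ^ 2 := by
    intro l h0 h2
    rcases le_total 0 D with hD0 | hD0
    · rw [abs_of_nonneg hD0]; exact h l (by rw [abs_of_nonneg h0]; exact h2)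
    · rw [abs_of_nonpos hD0]
      have := h (-l) (by rw [abs_neg, abs_of_nonneg h0]; exact h2)
      linear_combination this
  have hD0 := abs_nonneg D
  rw [← sq_abs D]
  rcases le_or_gt (3 * |D|) (4 * K) with hcase | hcase
  · have h1 := ha (3 * |D| / (2 * K)) (by positivity)
      (by rw [div_le_iff₀ (by positivity)]; linarith)
    have h2 : 3 * (3 * |D| / (2 * K)) * |D| = 2 * (9 * |D| ^ 2 / (4 * K)) := by
      field_simp; ring
    have h3 : K * (3 * |D| / (2 * K)) ^ 2 = 9 * |D| ^ 2 / (4 * K) := by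
      field_simp; ring
    rw [h2, h3] at h1
    have h5 : 9 * |D| ^ 2 / (4 * K) ≤ Th := by linarith
    rw [div_le_iff₀ (by positivity)] at h5
    have h6 : 0 ≤ K * Th := by positivity
    have h7 : 0 ≤ M * Th := mul_nonneg (by linarith) hTh
    linarith
  · have h1 := ha 2 (by norm_num) le_rfl
    have h2 : 3 * |D| ≤ Th := by linarith
    have h3 : (3 * |D|) ^ 2 ≤ Th ^ 2 := pow_le_pow_left₀ (by positivity) h2 2
    have h4 : Th ^ 2 ≤ M * Th := by rw [sq]; exact mul_le_mul_of_nonneg_right hM hTh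
    have h6 : 0 ≤ K * Th := by positivity
    have h7 := sq_nonneg |D|
    linarith

/-- bound for `D^3W(e,e,e)` -/
theorem pt0
    (hsc : ∀ α β : ℝ, |C3 * α ^ 3 + 3 * a1 * α ^ 2 * β + 3 * m1 * α * β ^ 2 + om1 * β ^ 3| ≤
      2 * c * ((a * α ^ 2 + 2 * m * α * β + om * β ^ 2) * √(a * α ^ 2 + 2 * m * α * β + om * β ^ 2))) :
    |om1| ≤ 2 * c * (om * √om) := by
  have h1 := hsc 0 1
  have e1 : C3 * 0 ^ 3 + 3 * a1 * 0 ^ 2 * 1 + 3 * m1 * 0 * 1 ^ 2 + om1 * 1 ^ 3 = om1 := by ring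
  have e2 : a * 0 ^ 2 + 2 * m * 0 * 1 + om * 1 ^ 2 = om := by ring
  rwa [e1, e2] at h1

/-- near extremality -/
theorem pt2 (hc : 0 < c) {R1 R2 K0 : ℝ}
    (hlo : ∀ α β : ℝ, α ^ 2 + β ^ 2 ≤ a * α ^ 2 + 2 * m * α * β + om * β ^ 2)
    (hsc : ∀ α β : ℝ, |C3 * α ^ 3 + 3 * a1 * α ^ 2 * β + 3 * m1 * α * β ^ 2 + om1 * β ^ 3| ≤
      2 * c * ((a * α ^ 2 + 2 * m * α * β + om * β ^ 2) * √(a * α ^ 2 + 2 * m * α * β + om * β ^ 2)))
    (hR : om ≤ R) (hX1 : a + 2 * b * m + b ^ 2 * om ≤ R1) (hk : |m + b * om| ≤ R2)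
    (hK0 : 3 * R1 * R + (2 * R2 + 2 * R) ^ 2 + 9 * R * R1 + 4 * R ^ 2 ≤ K0) :
    0 ≤ 2 * c * ((a + 2 * b * m + b ^ 2 * om) * √(a + 2 * b * m + b ^ 2 * om)) -
        (C3 + 3 * b * a1 + 3 * b ^ 2 * m1 + b ^ 3 * om1) ∧
    ((a1 + 2 * b * m1 + b ^ 2 * om1) - 2 * c * √(a + 2 * b * m + b ^ 2 * om) * (m + b * om)) ^ 2 ≤
      c * (K0 + 4 * R1 ^ 2) * (2 * c * ((a + 2 * b * m + b ^ 2 * om) * √(a + 2 * b * m + b ^ 2 * om)) -
        (C3 + 3 * b * a1 + 3 * b ^ 2 * m1 + b ^ 3 * om1)) := by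
  have hC2 := pt1 (b := b) hc.le hlo hsc
  have hO1 := pt0 hsc
  have hom : 1 ≤ om := by have := hlo 0 1; linarith
  have hXX : 1 ≤ a + 2 * b * m + b ^ 2 * om := by
    have h1 := hlo 1 b
    have h2 := sq_nonneg b
    linear_combination h1 + h2
  have hT0 := hsc 1 b
  have e0 : a * 1 ^ 2 + 2 * m * 1 * b + om * b ^ 2 = a + 2 * b * m + b ^ 2 * om := by ring
  have e1 : C3 * 1 ^ 3 + 3 * a1 * 1 ^ 2 * b + 3 * m1 * 1 * b ^ 2 + om1 * b ^ 3 =
    C3 + 3 * b * a1 + 3 * b ^ 2 * m1 + b ^ 3 * om1 := by ring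
  rw [e0, e1] at hT0
  have hT : ∀ l : ℝ, C3 + 3 * b * a1 + 3 * b ^ 2 * m1 + b ^ 3 * om1 +
      3 * l * (a1 + 2 * b * m1 + b ^ 2 * om1) + 3 * l ^ 2 * (m1 + b * om1) + l ^ 3 * om1 ≤
      2 * c * ((a + 2 * b * m + b ^ 2 * om + 2 * l * (m + b * om) + l ^ 2 * om) *
        √(a + 2 * b * m + b ^ 2 * om + 2 * l * (m + b * om) + l ^ 2 * om)) ∧
      0 ≤ a + 2 * b * m + b ^ 2 * om + 2 * l * (m + b * om) + l ^ 2 * om := by
    intro l
    have h1 := (abs_le.1 (hsc 1 (b + l))).2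
    have h2 := hlo 1 (b + l)
    have eP : a * 1 ^ 2 + 2 * m * 1 * (b + l) + om * (b + l) ^ 2 =
        a + 2 * b * m + b ^ 2 * om + 2 * l * (m + b * om) + l ^ 2 * om := by ring
    have eT : C3 * 1 ^ 3 + 3 * a1 * 1 ^ 2 * (b + l) + 3 * m1 * 1 * (b + l) ^ 2 + om1 * (b + l) ^ 3
        = C3 + 3 * b * a1 + 3 * b ^ 2 * m1 + b ^ 3 * om1 +
      3 * l * (a1 + 2 * b * m1 + b ^ 2 * om1) + 3 * l ^ 2 * (m1 + b * om1) + l ^ 3 * om1 := by ring
    rw [eP, eT] at h1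
    rw [eP] at h2
    exact ⟨h1, by nlinarith [sq_nonneg (b + l)]⟩
  clear hlo hsc
  generalize a + 2 * b * m + b ^ 2 * om = X at *
  generalize m + b * om = k at *
  generalize m1 + b * om1 = C2 at *
  generalize a1 + 2 * b * m1 + b ^ 2 * om1 = C1 at *
  generalize C3 + 3 * b * a1 + 3 * b ^ 2 * m1 + b ^ 3 * om1 = C0 at *
  have hR1 : 1 ≤ R1 := le_trans hXX hX1
  have hRR : 1 ≤ R := le_trans hom hR
  have hR2 : 0 ≤ R2 := le_trans (abs_nonneg _) hk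
  have hs0 : 0 ≤ √X := Real.sqrt_nonneg X
  have sle : ∀ y z : ℝ, 1 ≤ y → y ≤ z → √y ≤ z := by
    intro y z h1 h2
    have h3 : √y * √y = y := Real.mul_self_sqrt (by linarith)
    have h4 : 1 ≤ √y := by rw [Real.one_le_sqrt]; exact h1
    nlinarith
  have hsR : √X ≤ R1 := sle X R1 hXX hX1
  have hC2b : |C2| ≤ c * (3 * R * R1) := by
    refine le_trans hC2 ?_
    have h1 : om * √X ≤ R * R1 := mul_le_mul hR hsR hs0 (by linarith)
    have h2 : 0 ≤ om * √X := by positivity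
    have h3 := mul_le_mul_of_nonneg_left h1 hc.le
    have h4 := mul_nonneg hc.le (mul_nonneg (by linarith : (0:ℝ) ≤ R) (by linarith : (0:ℝ) ≤ R1))
    nlinarith
  have hom1 : |om1| ≤ c * (2 * R ^ 2) := by
    refine le_trans hO1 ?_
    have h2 : √om ≤ R := sle om R hom hR
    have h5 : om * √om ≤ R * R := mul_le_mul hR h2 (Real.sqrt_nonneg _) (by linarith)
    have h6 := mul_le_mul_of_nonneg_left h5 hc.le
    linarith
  have hTh0 : 0 ≤ 2 * c * (X * √X) - C0 := by linarith [(abs_le.1 hT0).2]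
  have hXR : X * √X ≤ R1 ^ 2 := by
    rw [sq]; exact mul_le_mul hX1 hsR hs0 (by linarith)
  have hTh4 : 2 * c * (X * √X) - C0 ≤ c * (4 * R1 ^ 2) := by
    have h1 := (abs_le.1 hT0).1
    have h2 := mul_le_mul_of_nonneg_left hXR hc.le
    linarith
  have hK0p : 0 < K0 := by
    have : 0 < 3 * R1 * R + (2 * R2 + 2 * R) ^ 2 + 9 * R * R1 + 4 * R ^ 2 := by positivity
    linarith
  refine ⟨hTh0, ?_⟩
  have hfin := disc (D := C1 - 2 * c * √X * k) (K := c * K0) (M := c * (4 * R1 ^ 2)) (by positivity) hTh0 hTh4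
    (fun l hl => tstep hc.le hXX hX1 (by linarith) hR hk hC2b hom1 hl (hT l).2 hK0 (hT l).1)
  refine le_trans hfin (le_of_eq (by ring))

end Vale.Agent.P227.M.Marg
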