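import Vale.Agent.P227.M.SC.Marg2

/-! Marginal lemma: the weighted energy identities. helper66. -/

open MeasureTheory Filter Topology Set

namespace Vale.Agent.P227.M.Marg

/-! ### calculus of the truncations -/

theorem dsq_max (s : ℝ) : HasDerivAt (fun s : ℝ => (max s 0) ^ 2) (2 * max s 0) s := by
  rcases lt_trichotomy s 0 with hs | hs | hs
  · rw [max_eq_right hs.le, mul_zero]
    have h1 : (fun s : ℝ => (max s 0) ^ 2) =ᶠ[𝓝 s] fun _ => 0 := by
      filter_upwards [Iio_mem_nhds hs] with y hy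
      rw [max_eq_right (le_of_lt hy)]; norm_num
    exact (hasDerivAt_const s (0:ℝ)).congr_of_eventuallyEq h1
  · subst hs
    rw [max_self, mul_zero, hasDerivAt_iff_isLittleO]
    have h1 : (fun x : ℝ => (max x 0) ^ 2 - (max 0 0) ^ 2 - (x - 0) • (0:ℝ)) =O[𝓝 0] fun x => x ^ 2 := by
      apply Asymptotics.IsBigO.of_bound 1
      refine Eventually.of_forall fun x => ?_
      simp only [max_self, smul_eq_mul, mul_zero, sub_zero, ne_eq, OfNat.ofNat_ne_zero, not_false_eq_true,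
        zero_pow, one_mul, Real.norm_eq_abs, abs_pow]
      rcases le_total x 0 with hx | hx
      · rw [max_eq_right hx]; simp; positivity
      · rw [max_eq_left hx]
    refine h1.trans_isLittleO ?_
    have h2 : (fun x : ℝ => x ^ 2) =o[𝓝 0] fun x : ℝ => x ^ 1 :=
      Asymptotics.isLittleO_pow_pow (by norm_num)
    simpa using h2
  · rw [max_eq_left hs.le]
    have h1 : (fun s : ℝ => (max s 0) ^ 2) =ᶠ[𝓝 s] fun s => s ^ 2 := by
      filter_upwards [Ioi_mem_nhds hs] with y hy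
      rw [max_eq_left (le_of_lt hy)]
    have h2 : HasDerivAt (fun s : ℝ => s ^ 2) (2 * s) s := by
      simpa using hasDerivAt_pow 2 s
    exact h2.congr_of_eventuallyEq h1

theorem dsqs_max (M s : ℝ) : HasDerivAt (fun s : ℝ => (max (s - M) 0) ^ 2) (2 * max (s - M) 0) s := by
  have h1 := (dsq_max (s - M)).comp s ((hasDerivAt_id s).sub_const M)
  exact h1.congr_deriv (by ring)

theorem dmulabs (s : ℝ) : HasDerivAt (fun s : ℝ => s * |s|) (2 * |s|) s := by
  have h1 : HasDerivAt (fun s : ℝ => (max s 0) ^ 2 - (max (-s) 0) ^ 2)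
      (2 * max s 0 - (2 * max (-s) 0) * (-1)) s := by
    apply (dsq_max s).sub
    exact (dsq_max (-s)).comp s ((hasDerivAt_id s).neg)
  have h2 : (fun s : ℝ => (max s 0) ^ 2 - (max (-s) 0) ^ 2) = fun s : ℝ => s * |s| := by
    ext s
    rcases le_total 0 s with hs | hs
    · rw [max_eq_left hs, max_eq_right (by linarith), abs_of_nonneg hs]; ring
    · rw [max_eq_right hs, max_eq_left (by linarith), abs_of_nonpos hs]; ring
  rw [h2] at h1
  refine h1.congr_deriv ?_
  rcases le_total 0 s with hs | hs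
  · rw [max_eq_left hs, max_eq_right (by linarith), abs_of_nonneg hs]; ring
  · rw [max_eq_right hs, max_eq_left (by linarith), abs_of_nonpos hs]; ring

/-! ### pointwise lower bound of the energy density -/

/-- `2 w q²/o - q w² o₁/o² ≥ -(c²/2) w³` -/
theorem pw {c o o1 q w : ℝ} (ho : 1 ≤ o) (ho1 : |o1| ≤ 2 * c * (o * √o)) (hw : 0 ≤ w) :
    -(c ^ 2 / 2 * w ^ 3) ≤ q ^ 2 * (2 * w) / o - |q| * w ^ 2 * |o1| / o ^ 2 := by
  have hs : 0 < √o := Real.sqrt_pos.2 (by linarith)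
  have hss : √o * √o = o := Real.mul_self_sqrt (by linarith)
  set s := √o
  have e1 : q ^ 2 * (2 * w) / o = 2 * w * (|q| / s) ^ 2 := by
    rw [div_pow, sq_abs, sq s, hss]; ring
  have e2 : |q| * w ^ 2 * |o1| / o ^ 2 ≤ 2 * c * w ^ 2 * (|q| / s) := by
    rw [div_le_iff₀ (by positivity)]
    have h1 : |q| * w ^ 2 * |o1| ≤ |q| * w ^ 2 * (2 * c * (o * s)) :=
      mul_le_mul_of_nonneg_left ho1 (by positivity)
    refine le_trans h1 (le_of_eq ?_)
    rw [← hss]; field_simp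
  rw [e1]
  have h3 : 0 ≤ 2 * w * (|q| / s - c * w / 2) ^ 2 := by positivity
  nlinarith

/-! ### the weak structure -/

/-- `t' = t h + k`, `k' = C2 + t om` -/
structure Fl0 (W h om om1 t k X C2 : ℝ → ℝ) (R R1 c : ℝ) : Prop where
  P : Pot W h om om1 R
  dt : ∀ z, HasDerivAt t (t z * h z + k z) z
  dk : ∀ z, HasDerivAt k (C2 z + t z * om z) z
  pt : PG t
  pk : PG k
  cX : Continuous X
  cC2 : Continuous C2
  X1 : ∀ z, 1 ≤ X z
  XR : ∀ z, X z ≤ R1
  C2b : ∀ z, |C2 z| ≤ 137 / 50 * c * om z * √(X z)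
  o1 : ∀ z, |om1 z| ≤ 2 * c * (om z * √(om z))
  c0 : 0 < c
  c1 : c ≤ 1

variable {W h om om1 t k X C2 : ℝ → ℝ} {R R1 c : ℝ}

namespace Fl0

theorem neg (F : Fl0 W h om om1 t k X C2 R R1 c) :
    Fl0 W h om om1 (fun z => - t z) (fun z => - k z) X (fun z => - C2 z) R R1 c where
  P := F.P
  dt z := ((F.dt z).neg).congr_deriv (by ring)
  dk z := ((F.dk z).neg).congr_deriv (by ring)
  pt := F.pt.neg
  pk := F.pk.neg
  cX := F.cX
  cC2 := F.cC2.neg
  X1 := F.X1
  XR := F.XR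
  C2b z := by rw [abs_neg]; exact F.C2b z
  o1 := F.o1
  c0 := F.c0
  c1 := F.c1

theorem R1ge (F : Fl0 W h om om1 t k X C2 R R1 c) : 1 ≤ R1 := le_trans (F.X1 0) (F.XR 0)

theorem ompos (F : Fl0 W h om om1 t k X C2 R R1 c) (z : ℝ) : 0 < om z := by
  have := F.P.lo z; linarith

theorem sX (F : Fl0 W h om om1 t k X C2 R R1 c) (z : ℝ) : 1 ≤ √(X z) ∧ √(X z) ≤ R1 := by
  have h1 := F.X1 z
  have h2 : 1 ≤ √(X z) := by rw [Real.one_le_sqrt]; exact h1
  have h3 : √(X z) * √(X z) = X z := Real.mul_self_sqrt (by linarith)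
  have h4 := F.XR z
  exact ⟨h2, by nlinarith⟩

theorem psX (F : Fl0 W h om om1 t k X C2 R R1 c) : PG (fun z => √(X z)) :=
  PG.bdd (F.cX.sqrt) (C := R1) (fun z => by
    rw [abs_of_nonneg (Real.sqrt_nonneg _)]; exact (F.sX z).2)

theorem pX (F : Fl0 W h om om1 t k X C2 R R1 c) : PG X :=
  PG.bdd F.cX (C := R1) (fun z => by
    rw [abs_of_nonneg (by linarith [F.X1 z])]; exact F.XR z)

theorem pio (F : Fl0 W h om om1 t k X C2 R R1 c) : PG (fun z => (om z)⁻¹) :=
  PG.bdd (F.P.contom.inv₀ (fun z => (F.ompos z).ne')) (C := 1) (fun z => by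
    rw [abs_of_pos (inv_pos.2 (F.ompos z))]
    exact inv_le_one_of_one_le₀ (F.P.lo z))

theorem sle {y z : ℝ} (h1 : 1 ≤ y) (h2 : y ≤ z) : √y ≤ z := by
  have h3 : √y * √y = y := Real.mul_self_sqrt (by linarith)
  have h4 : 1 ≤ √y := by rw [Real.one_le_sqrt]; exact h1
  nlinarith

theorem o1R (F : Fl0 W h om om1 t k X C2 R R1 c) (z : ℝ) : |om1 z| ≤ 2 * R ^ 2 := by
  have h1 := F.o1 z
  have h2 : om z * √(om z) ≤ R * R := mul_le_mul (F.P.hi z) (sle (F.P.lo z) (F.P.hi z))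
    (Real.sqrt_nonneg _) (by linarith [F.P.R_ge])
  have h3 : 0 ≤ om z * √(om z) := mul_nonneg (F.ompos z).le (Real.sqrt_nonneg _)
  nlinarith [F.c0, F.c1]

theorem po1 (F : Fl0 W h om om1 t k X C2 R R1 c) : PG om1 := PG.bdd F.P.com1 F.o1R

theorem C2R (F : Fl0 W h om om1 t k X C2 R R1 c) (z : ℝ) : |C2 z| ≤ 137 / 50 * (R * R1) := by
  have h1 := F.C2b z
  have h2 : om z * √(X z) ≤ R * R1 := mul_le_mul (F.P.hi z) (F.sX z).2
    (Real.sqrt_nonneg _) (by linarith [F.P.R_ge])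
  have h3 : 0 ≤ om z * √(X z) := mul_nonneg (F.ompos z).le (Real.sqrt_nonneg _)
  nlinarith [F.c0, F.c1]

theorem pC2 (F : Fl0 W h om om1 t k X C2 R R1 c) : PG C2 := PG.bdd F.cC2 F.C2R

theorem ptp (F : Fl0 W h om om1 t k X C2 R R1 c) : PG (fun z => t z * h z + k z) :=
  (F.pt.mul F.P.pgh).add F.pk

/-- the weighted energy identity -/
theorem energy (F : Fl0 W h om om1 t k X C2 R R1 c) {φ φ1 : ℝ → ℝ} (dφ : ∀ s, HasDerivAt φ (φ1 s) s)
    (pφ : PG (fun z => φ (t z))) (pφ1 : PG (fun z => φ1 (t z))) :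
    EE W (fun z => (2 * t z + C2 z / om z) * φ (t z) +
      ((t z * h z + k z) ^ 2 * φ1 (t z) / om z - (t z * h z + k z) * φ (t z) * om1 z / om z ^ 2)) = 0 := by
  have d1 : ∀ z, HasDerivAt (fun z => t z * h z + k z)
      ((t z * h z + k z) * h z + 2 * t z * om z + C2 z) z := fun z => by
    have := ((F.dt z).mul (F.P.dh z)).add (F.dk z)
    exact this.congr_deriv (by ring)
  have d2 : ∀ z, HasDerivAt (fun z => φ (t z)) (φ1 (t z) * (t z * h z + k z)) z := fun z =>
    (dφ (t z)).comp z (F.dt z)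
  have d3 : ∀ z, HasDerivAt (fun z => (om z)⁻¹) (-om1 z / om z ^ 2) z := fun z =>
    (F.P.dom z).inv (F.ompos z).ne'
  have e3 : ∀ z, -om1 z / om z ^ 2 = -om1 z * (om z)⁻¹ ^ 2 := fun z => by
    rw [inv_pow]; rfl
  have pd3 : PG (fun z => -om1 z / om z ^ 2) := by
    have := F.po1.neg.mul (F.pio.pow 2)
    rw [funext e3]; exact this
  have pd1 : PG (fun z => (t z * h z + k z) * h z + 2 * t z * om z + C2 z) :=
    ((F.ptp.mul F.P.pgh).add (((PG.const 2).mul F.pt).mul F.P.pgom)).add F.pC2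
  have h1 := F.P.ibp (F := fun z => (t z * h z + k z) * φ (t z) * (om z)⁻¹)
    (F1 := fun z => (((t z * h z + k z) * h z + 2 * t z * om z + C2 z) * φ (t z) +
      (t z * h z + k z) * (φ1 (t z) * (t z * h z + k z))) * (om z)⁻¹ +
      (t z * h z + k z) * φ (t z) * (-om1 z / om z ^ 2))
    (fun z => ((d1 z).mul (d2 z)).mul (d3 z)) ((F.ptp.mul pφ).mul F.pio)
    ((((pd1.mul pφ).add (F.ptp.mul (pφ1.mul F.ptp))).mul F.pio).add ((F.ptp.mul pφ).mul pd3))
  rw [← h1]
  apply Pot.E_congr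
  intro z
  have := (F.ompos z).ne'
  field_simp
  ring

/-- pointwise lower bound for nonnegative slope `w`, `|φ| = w²`, `φ1 = 2 w` -/
theorem pwf (F : Fl0 W h om om1 t k X C2 R R1 c) (z : ℝ) {q w f : ℝ} (hw : 0 ≤ w) (hf : |f| = w ^ 2) :
    -(c ^ 2 / 2 * w ^ 3) ≤ q ^ 2 * (2 * w) / om z - q * f * om1 z / om z ^ 2 := by
  have h1 := pw (q := q) (F.P.lo z) (F.o1 z) hw
  have h2 : q * f * om1 z / om z ^ 2 ≤ |q| * w ^ 2 * |om1 z| / om z ^ 2 := by
    apply div_le_div_of_nonneg_right _ (by positivity)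
    rw [← hf, ← abs_mul, ← abs_mul]; exact le_abs_self _
  linarith

/-- one-sided sup bound -/
theorem tle (F : Fl0 W h om om1 t k X C2 R R1 c) (z : ℝ) : t z ≤ 2 * c * R1 := by
  set M := 2 * c * R1 with hM
  have hR1 := F.R1ge
  have hc0 := F.c0
  have hc1 := F.c1
  have pw1 : PG (fun z => max (t z - M) 0) := (F.pt.sub (PG.const M)).max0
  have h1 := F.energy (φ := fun s => (max (s - M) 0) ^ 2) (φ1 := fun s => 2 * max (s - M) 0)
    (fun s => dsqs_max M s) (pw1.pow 2) ((PG.const 2).mul pw1)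
  have key : ∀ z, 13 / 50 * (c * R1) * (max (t z - M) 0) ^ 2 ≤
      (2 * t z + C2 z / om z) * (max (t z - M) 0) ^ 2 +
      ((t z * h z + k z) ^ 2 * (2 * max (t z - M) 0) / om z -
        (t z * h z + k z) * (max (t z - M) 0) ^ 2 * om1 z / om z ^ 2) := by
    intro z
    set w := max (t z - M) 0 with hw
    have hw0 : 0 ≤ w := le_max_right _ _
    have h2 := F.pwf z (q := t z * h z + k z) (w := w) (f := w ^ 2) hw0 (abs_of_nonneg (by positivity))
    have h3 : -(137 / 50 * c * R1) ≤ C2 z / om z := by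
      rw [le_div_iff₀ (F.ompos z)]
      have h4 := neg_abs_le (C2 z)
      have h5 := F.C2b z
      have h6 := mul_le_mul_of_nonneg_left (F.sX z).2
        (mul_nonneg (mul_nonneg (by norm_num : (0:ℝ) ≤ 137 / 50) hc0.le) (F.ompos z).le)
      linarith
    have h7 : w * w ^ 2 ≤ t z * w ^ 2 := by
      rcases le_total (t z - M) 0 with h8 | h8
      · have : w = 0 := max_eq_right h8
        rw [this]; norm_num
      · have h9 : w = t z - M := max_eq_left h8
        have : 0 ≤ M := by positivity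
        exact mul_le_mul_of_nonneg_right (by linarith) (by positivity)
    have h10 : M * w ^ 2 ≤ t z * w ^ 2 := by
      rcases le_total (t z - M) 0 with h8 | h8
      · have : w = 0 := max_eq_right h8
        rw [this]; norm_num
      · exact mul_le_mul_of_nonneg_right (by linarith) (by positivity)
    have h11 := mul_le_mul_of_nonneg_right h3 (by positivity : (0:ℝ) ≤ w ^ 2)
    have h12 : c ^ 2 / 2 * (w * w ^ 2) ≤ 1 / 2 * (t z * w ^ 2) := by
      have h13 : 0 ≤ w * w ^ 2 := by positivity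
      have h14 : c ^ 2 ≤ 1 := by nlinarith
      nlinarith
    have e1 : w ^ 3 = w * w ^ 2 := by ring
    rw [e1] at h2
    rw [hM] at h10
    nlinarith
  have pK : PG (fun z => 13 / 50 * (c * R1) * (max (t z - M) 0) ^ 2) :=
    (PG.const (13 / 50 * (c * R1))).mul (pw1.pow 2)
  have hz := F.P.E_eq_zero pK (fun z => by positivity) (by
    refine le_trans (F.P.E_mono pK ?_ key) (le_of_eq h1)
    have pfrac : PG (fun z => (2 * t z + C2 z * (om z)⁻¹) * (max (t z - M) 0) ^ 2 +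
      ((t z * h z + k z) ^ 2 * (2 * max (t z - M) 0) * (om z)⁻¹ -
        (t z * h z + k z) * (max (t z - M) 0) ^ 2 * om1 z * (om z)⁻¹ ^ 2)) :=
      ((((PG.const 2).mul F.pt).add (F.pC2.mul F.pio)).mul (pw1.pow 2)).add
        ((((F.ptp.pow 2).mul ((PG.const 2).mul pw1)).mul F.pio).sub
          (((F.ptp.mul (pw1.pow 2)).mul F.po1).mul (F.pio.pow 2)))
    have e : ∀ z, (2 * t z + C2 z / om z) * (max (t z - M) 0) ^ 2 +
      ((t z * h z + k z) ^ 2 * (2 * max (t z - M) 0) / om z -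
        (t z * h z + k z) * (max (t z - M) 0) ^ 2 * om1 z / om z ^ 2) =
      (2 * t z + C2 z * (om z)⁻¹) * (max (t z - M) 0) ^ 2 +
      ((t z * h z + k z) ^ 2 * (2 * max (t z - M) 0) * (om z)⁻¹ -
        (t z * h z + k z) * (max (t z - M) 0) ^ 2 * om1 z * (om z)⁻¹ ^ 2) := fun z => by
      rw [inv_pow]; simp only [div_eq_mul_inv]
    rw [funext e]; exact pfrac) z
  have h5 : (max (t z - M) 0) ^ 2 = 0 := by
    have : 0 < 13 / 50 * (c * R1) := by positivity
    rcases mul_eq_zero.1 hz with h6 | h6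
    · exact absurd h6 this.ne'
    · exact h6
  have h6 : max (t z - M) 0 = 0 := by simpa using h5
  have h7 := le_max_left (t z - M) 0
  rw [h6] at h7
  linarith

theorem tabs (F : Fl0 W h om om1 t k X C2 R R1 c) (z : ℝ) : |t z| ≤ 2 * c * R1 := by
  rw [abs_le]
  have h1 := F.tle z
  have h2 := F.neg.tle z
  constructor <;> linarith

/-- third absolute moment of `t` -/
theorem S3 (F : Fl0 W h om om1 t k X C2 R R1 c) (hc : c ≤ 1 / 10) :
    EE W (fun z => |t z| ^ 3) ≤ 69 / 50 * c * EE W (fun z => √(X z) * t z ^ 2) := by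
  have pa : PG (fun z => |t z|) := F.pt.abs
  have h1 := F.energy (φ := fun s => s * |s|) (φ1 := fun s => 2 * |s|)
    dmulabs (F.pt.mul pa) ((PG.const 2).mul pa)
  have hc0 := F.c0
  have key : ∀ z, 199 / 100 * |t z| ^ 3 - 137 / 50 * c * (√(X z) * t z ^ 2) ≤
      (2 * t z + C2 z / om z) * (t z * |t z|) +
      ((t z * h z + k z) ^ 2 * (2 * |t z|) / om z -
        (t z * h z + k z) * (t z * |t z|) * om1 z / om z ^ 2) := by
    intro z
    have ha : 0 ≤ |t z| := abs_nonneg _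
    have h2 := F.pwf z (q := t z * h z + k z) (w := |t z|) (f := t z * |t z|) ha
      (by rw [abs_mul, abs_abs, sq])
    have h3 : |C2 z / om z| ≤ 137 / 50 * c * √(X z) := by
      rw [abs_div, abs_of_pos (F.ompos z), div_le_iff₀ (F.ompos z)]
      have h5 := F.C2b z
      linarith
    have h4 : -(137 / 50 * c * √(X z) * t z ^ 2) ≤ C2 z / om z * (t z * |t z|) := by
      have h5 : |C2 z / om z * (t z * |t z|)| ≤ 137 / 50 * c * √(X z) * t z ^ 2 := by
        rw [abs_mul, abs_mul, abs_abs, ← sq, sq_abs]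
        exact mul_le_mul_of_nonneg_right h3 (sq_nonneg _)
      exact (abs_le.1 h5).1
    have h6 : c ^ 2 / 2 * |t z| ^ 3 ≤ 1 / 100 * |t z| ^ 3 := by
      apply mul_le_mul_of_nonneg_right _ (by positivity)
      nlinarith
    have e1 : t z * (t z * |t z|) = |t z| ^ 3 := by
      rw [← mul_assoc, ← sq, ← sq_abs]; ring
    nlinarith
  have pK : PG (fun z => 199 / 100 * |t z| ^ 3 - 137 / 50 * c * (√(X z) * t z ^ 2)) :=
    ((PG.const _).mul (pa.pow 3)).sub ((PG.const _).mul (F.psX.mul (F.pt.pow 2)))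
  have hz : EE W (fun z => 199 / 100 * |t z| ^ 3 - 137 / 50 * c * (√(X z) * t z ^ 2)) ≤ 0 := by
    rw [← h1]
    refine F.P.E_mono pK ?_ key
    have pfrac : PG (fun z => (2 * t z + C2 z * (om z)⁻¹) * (t z * |t z|) +
      ((t z * h z + k z) ^ 2 * (2 * |t z|) * (om z)⁻¹ -
        (t z * h z + k z) * (t z * |t z|) * om1 z * (om z)⁻¹ ^ 2)) :=
      ((((PG.const 2).mul F.pt).add (F.pC2.mul F.pio)).mul (F.pt.mul pa)).add
        ((((F.ptp.pow 2).mul ((PG.const 2).mul pa)).mul F.pio).sub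
          (((F.ptp.mul (F.pt.mul pa)).mul F.po1).mul (F.pio.pow 2)))
    have e : ∀ z, (2 * t z + C2 z / om z) * (t z * |t z|) +
      ((t z * h z + k z) ^ 2 * (2 * |t z|) / om z -
        (t z * h z + k z) * (t z * |t z|) * om1 z / om z ^ 2) =
      (2 * t z + C2 z * (om z)⁻¹) * (t z * |t z|) +
      ((t z * h z + k z) ^ 2 * (2 * |t z|) * (om z)⁻¹ -
        (t z * h z + k z) * (t z * |t z|) * om1 z * (om z)⁻¹ ^ 2) := fun z => by
      rw [inv_pow]; simp only [div_eq_mul_inv]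
    rw [funext e]; exact pfrac
  rw [F.P.E_sub ((PG.const _).mul (pa.pow 3)) ((PG.const _).mul (F.psX.mul (F.pt.pow 2))),
    Pot.E_mul, Pot.E_mul] at hz
  have h0 : 0 ≤ EE W (fun z => √(X z) * t z ^ 2) :=
    F.P.E_nonneg (F.psX.mul (F.pt.pow 2)) (fun z => mul_nonneg (Real.sqrt_nonneg _) (sq_nonneg _))
  have h2 : 0 ≤ c * EE W (fun z => √(X z) * t z ^ 2) := mul_nonneg hc0.le h0
  nlinarith

end Fl0

end Vale.Agent.P227.M.Marg
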