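import Vale.Agent.P227.M.SC.Marg3

/-! Marginal lemma: variance bound and the one-sided inequality. helper66. -/

open MeasureTheory Filter Topology Set

namespace Vale.Agent.P227.M.Marg

theorem ptmain {c R2 ρ G g t k Y X mu s2 D : ℝ} (hc : 0 < c) (hY : 1 ≤ Y) (hmu : 1 ≤ mu)
    (hYX : Y ^ 2 = X) (hX : X - mu ^ 2 = g - s2) (hk : |k| ≤ R2) (hcR : c * R2 ≤ 1 / 16) :
    -(ρ * D) - 2 * c * (Y - mu) * k * ρ + 2 * c * mu * t * G + 2 * t ^ 2 * G - t ^ 2 * g ≤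
      1 / 4 * G ^ 2 + 3 / 16 * ρ ^ 2 + 1 / 4 * g ^ 2 + 8 * c ^ 2 * mu ^ 2 * t ^ 2 + 2 * D ^ 2 +
        10 * t ^ 4 + 2 * c * R2 * s2 ^ 2 := by
  have h1 : 0 ≤ 1 / 8 * (ρ + 4 * D) ^ 2 := by positivity
  have h2 : 0 ≤ 1 / 8 * (G - 8 * c * mu * t) ^ 2 := by positivity
  have h3 : 0 ≤ 1 / 8 * (G - 8 * t ^ 2) ^ 2 := by positivity
  have h4 : 0 ≤ 1 / 8 * (g + 4 * t ^ 2) ^ 2 := by positivity
  have hR2 : 0 ≤ R2 := le_trans (abs_nonneg _) hk
  have h5 : |Y - mu| ≤ |g - s2| := by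
    rw [← hX, ← hYX]
    have e : Y ^ 2 - mu ^ 2 = (Y - mu) * (Y + mu) := by ring
    rw [e, abs_mul, abs_of_nonneg (by linarith : 0 ≤ Y + mu)]
    nlinarith [abs_nonneg (Y - mu)]
  have h6 : -(2 * c * (Y - mu) * k * ρ) ≤ c * R2 * ((g - s2) ^ 2 + ρ ^ 2) := by
    have h7 : |2 * c * (Y - mu) * k * ρ| ≤ 2 * (c * R2) * (|g - s2| * |ρ|) := by
      rw [abs_mul, abs_mul, abs_mul, abs_of_pos (by positivity : 0 < 2 * c)]
      have h8 : |Y - mu| * |k| ≤ |g - s2| * R2 := mul_le_mul h5 hk (abs_nonneg _) (abs_nonneg _)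
      have h9 := mul_le_mul_of_nonneg_right h8 (abs_nonneg ρ)
      nlinarith
    have h10 := neg_abs_le (2 * c * (Y - mu) * k * ρ)
    have h11 : 2 * (|g - s2| * |ρ|) ≤ (g - s2) ^ 2 + ρ ^ 2 := by
      have := sq_nonneg (|g - s2| - |ρ|)
      have e1 := sq_abs (g - s2)
      have e2 := sq_abs ρ
      nlinarith
    have h12 := mul_le_mul_of_nonneg_left h11 (by positivity : 0 ≤ c * R2)
    linarith
  have h13 : c * R2 * ((g - s2) ^ 2 + ρ ^ 2) ≤ c * R2 * (2 * g ^ 2 + 2 * s2 ^ 2 + ρ ^ 2) := by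
    apply mul_le_mul_of_nonneg_left _ (by positivity)
    nlinarith [sq_nonneg (g + s2)]
  have h14 : c * R2 * (2 * g ^ 2 + ρ ^ 2) ≤ 1 / 16 * (2 * g ^ 2 + ρ ^ 2) :=
    mul_le_mul_of_nonneg_right hcR (by positivity)
  nlinarith

theorem ptcube {Y mu : ℝ} (hY : 1 ≤ Y) (hmu : 1 ≤ mu) :
    2 * (Y ^ 2 * Y) ≤ (Y ^ 2 - mu ^ 2) ^ 2 + 3 * mu * Y ^ 2 - mu ^ 2 * mu := by
  have h1 : 0 ≤ (Y - mu) ^ 2 * ((Y + mu) ^ 2 - (2 * Y + mu)) := by
    apply mul_nonneg (sq_nonneg _)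
    nlinarith
  have e : (Y ^ 2 - mu ^ 2) ^ 2 + 3 * mu * Y ^ 2 - mu ^ 2 * mu - 2 * (Y ^ 2 * Y) =
      (Y - mu) ^ 2 * ((Y + mu) ^ 2 - (2 * Y + mu)) := by ring
  linarith

theorem pt4 {Y mu t c R1 : ℝ} (hY : 1 ≤ Y) (hmu : 1 ≤ mu) (ht : t ^ 2 ≤ 4 * c ^ 2 * R1 ^ 2) :
    Y * t ^ 2 ≤ mu * t ^ 2 + 1 / 2 * (Y ^ 2 - mu ^ 2) ^ 2 + 2 * c ^ 2 * R1 ^ 2 * t ^ 2 := by
  have h1 : Y - mu ≤ |Y ^ 2 - mu ^ 2| := by
    have e : Y ^ 2 - mu ^ 2 = (Y - mu) * (Y + mu) := by ring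
    rw [e, abs_mul, abs_of_nonneg (by linarith : 0 ≤ Y + mu)]
    have := le_abs_self (Y - mu)
    nlinarith [abs_nonneg (Y - mu)]
  have h2 := sq_nonneg (|Y ^ 2 - mu ^ 2| - t ^ 2)
  have h3 := sq_abs (Y ^ 2 - mu ^ 2)
  have h4 := mul_le_mul_of_nonneg_right h1 (sq_nonneg t)
  have h5 := mul_le_mul_of_nonneg_right ht (sq_nonneg t)
  nlinarith

structure Fl (W h om om1 t k X C0 C1 C2 : ℝ → ℝ) (R R1 R2 K3 B c : ℝ) : Prop where
  F : Fl0 W h om om1 t k X C2 R R1 c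
  dX : ∀ z, HasDerivAt X (C1 z + 2 * t z * k z) z
  k2 : ∀ z, |k z| ≤ R2
  cC0 : Continuous C0
  cC1 : Continuous C1
  C0b : ∀ z, |C0 z| ≤ B
  C1b : ∀ z, |C1 z| ≤ B
  th : ∀ z, 0 ≤ 2 * c * (X z * √(X z)) - C0 z
  D : ∀ z, (C1 z - 2 * c * √(X z) * k z) ^ 2 ≤ c * K3 * (2 * c * (X z * √(X z)) - C0 z)
  K3p : 0 ≤ K3
  c10 : c ≤ 1 / 10
  cR2 : c * R2 ≤ 1 / 16
  cR1 : c * R1 ≤ 1 / 35
  cK3 : c ^ 2 * K3 ≤ 1 / 10

variable {W h om om1 t k X C0 C1 C2 : ℝ → ℝ} {R R1 R2 K3 B c : ℝ}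

namespace Fl

theorem pC0 (G : Fl W h om om1 t k X C0 C1 C2 R R1 R2 K3 B c) : PG C0 := PG.bdd G.cC0 G.C0b
theorem pC1 (G : Fl W h om om1 t k X C0 C1 C2 R R1 R2 K3 B c) : PG C1 := PG.bdd G.cC1 G.C1b

theorem t2 (G : Fl W h om om1 t k X C0 C1 C2 R R1 R2 K3 B c) (z : ℝ) :
    t z ^ 2 ≤ 4 * c ^ 2 * R1 ^ 2 := by
  have h1 := G.F.tabs z
  have h2 := pow_le_pow_left₀ (abs_nonneg _) h1 2
  rw [sq_abs] at h2
  linarith [show (2 * c * R1) ^ 2 = 4 * c ^ 2 * R1 ^ 2 by ring]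

/-- `Θ` -/
theorem pth (G : Fl W h om om1 t k X C0 C1 C2 R R1 R2 K3 B c) :
    PG (fun z => 2 * c * (X z * √(X z)) - C0 z) :=
  ((PG.const (2 * c)).mul (G.F.pX.mul G.F.psX)).sub G.pC0

theorem varX (G : Fl W h om om1 t k X C0 C1 C2 R R1 R2 K3 B c) {mu : ℝ} (hmu : 1 ≤ mu)
    (hmu2 : mu ^ 2 = EE W X + EE W (fun z => t z ^ 2)) :
    EE W (fun z => (X z - EE W X) ^ 2) ≤ 113 * c ^ 2 * R1 ^ 2 * EE W (fun z => t z ^ 2) +
      4 * c * K3 * EE W (fun z => 2 * c * (X z * √(X z)) - C0 z) := by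
  have hc0 := G.F.c0
  have hR1 := G.F.R1ge
  have P := G.F.P
  have pt := G.F.pt
  have pk := G.F.pk
  have pX := G.F.pX
  set e := EE W X with he
  set s2 := EE W (fun z => t z ^ 2) with hs2
  have hs20 : 0 ≤ s2 := P.E_nonneg (pt.pow 2) (fun z => sq_nonneg _)
  have hs2M : s2 ≤ 4 * c ^ 2 * R1 ^ 2 := P.E_le_const (pt.pow 2) G.t2
  have heR : e ≤ R1 := P.E_le_const pX G.F.XR
  -- transport field of X
  have hXb : ∀ z, |C1 z + 2 * t z * k z| ≤ B + 2 * (2 * c * R1) * R2 := by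
    intro z
    refine le_trans (abs_add_le _ _) ?_
    rw [abs_mul, abs_mul, abs_of_pos (by norm_num : (0:ℝ) < 2)]
    have h1 : 2 * |t z| * |k z| ≤ 2 * (2 * c * R1) * R2 :=
      mul_le_mul (by linarith [G.F.tabs z]) (G.k2 z) (abs_nonneg _) (by positivity)
    linarith [G.C1b z]
  have cX1 : Continuous (fun z => C1 z + 2 * t z * k z) :=
    G.cC1.add ((continuous_const.mul pt.cont).mul pk.cont)
  obtain ⟨r, hr, hrL⟩ := P.exists_b G.dX hXb
  obtain ⟨e1, e2⟩ := P.transport G.dX cX1 hXb hr hrL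
  rw [← he] at hr e1 e2
  have cr : Continuous r := continuous_iff_continuousAt.2 fun z => (hr z).continuousAt
  have pr : PG r := PG.bdd cr hrL
  have pg : PG (fun z => X z - e) := pX.sub (PG.const e)
  have pG : PG (fun z => r z * h z + (X z - e)) := (pr.mul P.pgh).add pg
  have pX1 : PG (fun z => C1 z + 2 * t z * k z) := PG.bdd cX1 hXb
  -- (A)
  have iA := P.ibp (F := fun z => t z * r z)
    (F1 := fun z => (t z * h z + k z) * r z + t z * (r z * h z + (X z - e)))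
    (fun z => (G.F.dt z).mul (hr z)) (pt.mul pr) ((G.F.ptp.mul pr).add (pt.mul pG))
  -- (B)
  have dt2 : ∀ z, HasDerivAt (fun z => t z ^ 2) (2 * t z * (t z * h z + k z)) z := fun z => by
    have := (G.F.dt z).pow 2
    exact this.congr_deriv (by push_cast; ring)
  have iB := P.ibp (F := fun z => t z ^ 2 * r z)
    (F1 := fun z => 2 * t z * (t z * h z + k z) * r z + t z ^ 2 * (r z * h z + (X z - e)))
    (fun z => (dt2 z).mul (hr z)) ((pt.pow 2).mul pr)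
    (((((PG.const 2).mul pt).mul G.F.ptp).mul pr).add ((pt.pow 2).mul pG))
  have pA : PG (fun z => k z * r z + t z * (r z * h z + (X z - e))) := (pk.mul pr).add (pt.mul pG)
  have pB : PG (fun z => 2 * t z * k z * r z + 2 * t z ^ 2 * (r z * h z + (X z - e)) -
      t z ^ 2 * (X z - e)) :=
    (((((PG.const 2).mul pt).mul pk).mul pr).add (((PG.const 2).mul (pt.pow 2)).mul pG)).sub
      ((pt.pow 2).mul pg)
  have iA' : EE W (fun z => k z * r z + t z * (r z * h z + (X z - e))) = 0 := by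
    rw [← iA]; exact Pot.E_congr fun z => by ring
  have iB' : EE W (fun z => 2 * t z * k z * r z + 2 * t z ^ 2 * (r z * h z + (X z - e)) -
      t z ^ 2 * (X z - e)) = 0 := by
    rw [← iB]; exact Pot.E_congr fun z => by ring
  -- E g^2
  have pPhi : PG (fun z => (-1) * (r z * (C1 z + 2 * t z * k z)) +
      ((2 * t z * k z * r z + 2 * t z ^ 2 * (r z * h z + (X z - e)) - t z ^ 2 * (X z - e)) +
      2 * c * mu * (k z * r z + t z * (r z * h z + (X z - e))))) :=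
    ((PG.const _).mul (pr.mul pX1)).add (pB.add ((PG.const _).mul pA))
  have hPhi : EE W (fun z => (-1) * (r z * (C1 z + 2 * t z * k z)) +
      ((2 * t z * k z * r z + 2 * t z ^ 2 * (r z * h z + (X z - e)) - t z ^ 2 * (X z - e)) +
      2 * c * mu * (k z * r z + t z * (r z * h z + (X z - e))))) =
      EE W (fun z => (X z - e) ^ 2) := by
    rw [P.E_add ((PG.const _).mul (pr.mul pX1)) (pB.add ((PG.const _).mul pA)),
      P.E_add pB ((PG.const _).mul pA), Pot.E_mul, Pot.E_mul, iA', iB', e1]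
    ring
  -- the upper bound
  have pU : PG (fun z => 1 / 4 * (r z * h z + (X z - e)) ^ 2 + (3 / 16 * r z ^ 2 +
      (1 / 4 * (X z - e) ^ 2 + ((8 * c ^ 2 * mu ^ 2 + 40 * c ^ 2 * R1 ^ 2) * t z ^ 2 +
      (2 * (c * K3) * (2 * c * (X z * √(X z)) - C0 z) + 2 * c * R2 * s2 ^ 2))))) :=
    ((PG.const _).mul (pG.pow 2)).add (((PG.const _).mul (pr.pow 2)).add (((PG.const _).mul (pg.pow 2)).add
      (((PG.const _).mul (pt.pow 2)).add (((PG.const _).mul G.pth).add (PG.const _)))))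
  have hle := P.E_mono pPhi pU (fun z => by
    have h1 := ptmain (c := c) (R2 := R2) (ρ := r z) (G := r z * h z + (X z - e)) (g := X z - e) (t := t z)
      (k := k z) (Y := √(X z)) (X := X z) (mu := mu) (s2 := s2)
      (D := C1 z - 2 * c * √(X z) * k z) hc0 (G.F.sX z).1 hmu
      (Real.sq_sqrt (by linarith [G.F.X1 z])) (by rw [hmu2]; ring) (G.k2 z) G.cR2
    have h2 := G.D z
    have h3 := mul_le_mul_of_nonneg_right (G.t2 z) (sq_nonneg (t z))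
    have h4 : t z ^ 4 = t z ^ 2 * t z ^ 2 := by ring
    rw [h4] at h1
    linarith)
  rw [hPhi] at hle
  rw [P.E_add ((PG.const _).mul (pG.pow 2)) (((PG.const _).mul (pr.pow 2)).add (((PG.const _).mul (pg.pow 2)).add
      (((PG.const _).mul (pt.pow 2)).add (((PG.const _).mul G.pth).add (PG.const _))))),
    P.E_add ((PG.const _).mul (pr.pow 2)) (((PG.const _).mul (pg.pow 2)).add
      (((PG.const _).mul (pt.pow 2)).add (((PG.const _).mul G.pth).add (PG.const _)))),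
    P.E_add ((PG.const _).mul (pg.pow 2))
      (((PG.const _).mul (pt.pow 2)).add (((PG.const _).mul G.pth).add (PG.const _))),
    P.E_add ((PG.const _).mul (pt.pow 2)) (((PG.const _).mul G.pth).add (PG.const _)),
    P.E_add ((PG.const _).mul G.pth) (PG.const _), Pot.E_mul, Pot.E_mul, Pot.E_mul, Pot.E_mul, Pot.E_mul,
    P.E_const, ← hs2] at hle
  have h7 : EE W (fun z => r z ^ 2) ≤ EE W (fun z => r z ^ 2 * om z) := by
    apply P.E_mono (pr.pow 2) ((pr.pow 2).mul P.pgom)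
    intro z; nlinarith [P.lo z, sq_nonneg (r z)]
  have h8 : 0 ≤ EE W (fun z => r z ^ 2) := P.E_nonneg (pr.pow 2) (fun z => sq_nonneg _)
  have h9 : 0 ≤ EE W (fun z => (r z * h z + (X z - e)) ^ 2) := P.E_nonneg (pG.pow 2) (fun z => sq_nonneg _)
  rw [← e1] at e2
  have hmu3 : mu ^ 2 ≤ 2 * R1 ^ 2 := by
    have h10 := G.c10
    have h11 : c ^ 2 ≤ 1 / 100 := by nlinarith
    have h12 : c ^ 2 * R1 ^ 2 ≤ 1 / 100 * R1 ^ 2 := mul_le_mul_of_nonneg_right h11 (by positivity)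
    have h13 : R1 ≤ R1 ^ 2 := by nlinarith
    rw [hmu2]; nlinarith
  have h14 : 2 * c * R2 * s2 ^ 2 ≤ 1 / 8 * (4 * c ^ 2 * R1 ^ 2 * s2) := by
    have h15 : s2 ^ 2 ≤ 4 * c ^ 2 * R1 ^ 2 * s2 := by
      rw [sq]; exact mul_le_mul_of_nonneg_right hs2M hs20
    have h16 : 2 * (c * R2) * s2 ^ 2 ≤ 2 * (1 / 16) * s2 ^ 2 :=
      mul_le_mul_of_nonneg_right (by linarith [G.cR2]) (by positivity)
    linarith
  have h17 : 8 * c ^ 2 * mu ^ 2 * s2 ≤ 16 * c ^ 2 * R1 ^ 2 * s2 := by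
    have := mul_le_mul_of_nonneg_left hmu3 (by positivity : 0 ≤ 8 * c ^ 2 * s2)
    linarith
  set ET := EE W (fun z => 2 * c * (X z * √(X z)) - C0 z)
  set V := EE W (fun z => (X z - e) ^ 2)
  linarith

theorem one_side (G : Fl W h om om1 t k X C0 C1 C2 R R1 R2 K3 B c) {mu : ℝ} (hmu : 1 ≤ mu)
    (hmu2 : mu ^ 2 = EE W X + EE W (fun z => t z ^ 2)) :
    EE W C0 - 2 * EE W (fun z => t z ^ 3) ≤ 2 * c * (mu ^ 2 * mu) := by
  have hc0 := G.F.c0
  have hR1 := G.F.R1ge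
  have P := G.F.P
  have pt := G.F.pt
  have pX := G.F.pX
  have hV := G.varX hmu hmu2
  have h3 := G.F.S3 G.c10
  set e := EE W X with he
  set s2 := EE W (fun z => t z ^ 2) with hs2
  have hs20 : 0 ≤ s2 := P.E_nonneg (pt.pow 2) (fun z => sq_nonneg _)
  have hs2M : s2 ≤ 4 * c ^ 2 * R1 ^ 2 := P.E_le_const (pt.pow 2) G.t2
  have hs2s : s2 ^ 2 ≤ 4 * c ^ 2 * R1 ^ 2 * s2 := by
    rw [sq]; exact mul_le_mul_of_nonneg_right hs2M hs20
  have hET0 : 0 ≤ EE W (fun z => 2 * c * (X z * √(X z)) - C0 z) := P.E_nonneg G.pth G.th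
  -- V' = E (X - mu^2)^2 = V + s2^2
  have pg : PG (fun z => X z - e) := pX.sub (PG.const e)
  have pm : PG (fun z => X z - mu ^ 2) := pX.sub (PG.const _)
  have hEg : EE W (fun z => X z - e) = 0 := by
    rw [P.E_sub pX (PG.const e), P.E_const, ← he, sub_self]
  have hVV : EE W (fun z => (X z - mu ^ 2) ^ 2) = EE W (fun z => (X z - e) ^ 2) + s2 ^ 2 := by
    have h4 : EE W (fun z => (X z - mu ^ 2) ^ 2) =
        EE W (fun z => (X z - e) ^ 2 + (-(2 * s2) * (X z - e) + s2 ^ 2)) := by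
      apply Pot.E_congr; intro z; rw [hmu2]; ring
    rw [h4, P.E_add (pg.pow 2) (((PG.const _).mul pg).add (PG.const _)),
      P.E_add ((PG.const _).mul pg) (PG.const _), Pot.E_mul, P.E_const, hEg]
    ring
  -- E C0
  have pXs : PG (fun z => X z * √(X z)) := pX.mul G.F.psX
  have hC0 : EE W C0 = 2 * c * EE W (fun z => X z * √(X z)) -
      EE W (fun z => 2 * c * (X z * √(X z)) - C0 z) := by
    rw [P.E_sub ((PG.const _).mul pXs) G.pC0, Pot.E_mul]; ring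
  -- cube
  have hcube : 2 * EE W (fun z => X z * √(X z)) ≤ EE W (fun z => (X z - mu ^ 2) ^ 2) +
      (3 * mu * e - mu ^ 2 * mu) := by
    rw [← Pot.E_mul]
    have h5 : EE W (fun z => (X z - mu ^ 2) ^ 2) + (3 * mu * e - mu ^ 2 * mu) =
        EE W (fun z => (X z - mu ^ 2) ^ 2 + (3 * mu * X z + -(mu ^ 2 * mu))) := by
      rw [P.E_add (pm.pow 2) (((PG.const _).mul pX).add (PG.const _)),
        P.E_add ((PG.const _).mul pX) (PG.const _), Pot.E_mul, P.E_const]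
      ring
    rw [h5]
    apply P.E_mono ((PG.const _).mul pXs) ((pm.pow 2).add (((PG.const _).mul pX).add (PG.const _)))
    intro z
    have h6 := ptcube (Y := √(X z)) (mu := mu) (G.F.sX z).1 hmu
    rw [Real.sq_sqrt (by linarith [G.F.X1 z])] at h6
    linarith
  -- t^3
  have ht3 : -(2 * EE W (fun z => t z ^ 3)) ≤ 2 * EE W (fun z => |t z| ^ 3) := by
    have h7 : EE W (fun z => -1 * t z ^ 3) ≤ EE W (fun z => |t z| ^ 3) := by
      apply P.E_mono ((PG.const _).mul (pt.pow 3)) (pt.abs.pow 3)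
      intro z
      have := neg_abs_le (t z ^ 3)
      rw [abs_pow] at this
      linarith
    rw [Pot.E_mul] at h7
    linarith
  have h4 : EE W (fun z => √(X z) * t z ^ 2) ≤ mu * s2 + (1 / 2 * EE W (fun z => (X z - mu ^ 2) ^ 2) +
      2 * c ^ 2 * R1 ^ 2 * s2) := by
    have h5 : mu * s2 + (1 / 2 * EE W (fun z => (X z - mu ^ 2) ^ 2) + 2 * c ^ 2 * R1 ^ 2 * s2) =
        EE W (fun z => mu * t z ^ 2 + (1 / 2 * (X z - mu ^ 2) ^ 2 + 2 * c ^ 2 * R1 ^ 2 * t z ^ 2)) := by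
      rw [P.E_add ((PG.const _).mul (pt.pow 2)) (((PG.const _).mul (pm.pow 2)).add ((PG.const _).mul (pt.pow 2))),
        P.E_add ((PG.const _).mul (pm.pow 2)) ((PG.const _).mul (pt.pow 2)), Pot.E_mul, Pot.E_mul, Pot.E_mul]
    rw [h5]
    apply P.E_mono (G.F.psX.mul (pt.pow 2)) (((PG.const _).mul (pt.pow 2)).add
      (((PG.const _).mul (pm.pow 2)).add ((PG.const _).mul (pt.pow 2))))
    intro z
    have h6 := pt4 (Y := √(X z)) (mu := mu) (t := t z) (c := c) (R1 := R1) (G.F.sX z).1 hmu (G.t2 z)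
    rw [Real.sq_sqrt (by linarith [G.F.X1 z])] at h6
    linarith
  rw [hVV] at hcube h4
  set ET := EE W (fun z => 2 * c * (X z * √(X z)) - C0 z)
  set V := EE W (fun z => (X z - e) ^ 2)
  set XS := EE W (fun z => X z * √(X z))
  set T3 := EE W (fun z => |t z| ^ 3)
  set Q := EE W (fun z => √(X z) * t z ^ 2)
  set T := EE W (fun z => t z ^ 3)
  rw [hC0]
  -- arithmetic
  have k1 := mul_le_mul_of_nonneg_left hcube hc0.le
  have k2 := mul_le_mul_of_nonneg_left h4 (by positivity : 0 ≤ 69 / 25 * c)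
  have k3 := mul_le_mul_of_nonneg_left hV (by positivity : 0 ≤ 119 / 50 * c)
  have k4 := mul_le_mul_of_nonneg_left hs2s (by positivity : 0 ≤ 119 / 50 * c)
  have k5 : c ^ 2 * R1 ^ 2 ≤ 1 / 1225 := by
    have := pow_le_pow_left₀ (by positivity) G.cR1 2
    nlinarith
  have k6 := mul_le_mul_of_nonneg_left k5 (by positivity : 0 ≤ c * s2)
  have k7 := mul_le_mul_of_nonneg_right G.cK3 hET0
  have k8 : c * s2 ≤ c * mu * s2 := by
    have := mul_le_mul_of_nonneg_left hmu (by positivity : 0 ≤ c * s2)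
    linarith
  have e9 : e = mu ^ 2 - s2 := by rw [hmu2]; ring
  rw [e9] at k1
  nlinarith

end Fl

end Vale.Agent.P227.M.Marg
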