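import Vale.Agent.P227.M.SC.Marg4
import Vale.Agent.P227.M.SC.MargIfc

/-! Marginal lemma: conclusion. helper66. -/

open MeasureTheory Filter Topology Set

namespace Vale.Agent.P227.M.Marg

/-- the data of the marginal lemma on one line -/
structure Dat (W h om om1 g m m1 a a1 C3 : ℝ → ℝ) (R c : ℝ) : Prop where
  dW : ∀ z, HasDerivAt W (h z) z
  dh : ∀ z, HasDerivAt h (om z) z
  dom : ∀ z, HasDerivAt om (om1 z) z
  dg : ∀ z, HasDerivAt g (m z) z
  dm : ∀ z, HasDerivAt m (m1 z) z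
  da : ∀ z, HasDerivAt a (a1 z) z
  com1 : Continuous om1
  cm1 : Continuous m1
  ca1 : Continuous a1
  cC3 : Continuous C3
  lo : ∀ z x y : ℝ, x ^ 2 + y ^ 2 ≤ a z * x ^ 2 + 2 * m z * x * y + om z * y ^ 2
  hi : ∀ z x y : ℝ, a z * x ^ 2 + 2 * m z * x * y + om z * y ^ 2 ≤ R * (x ^ 2 + y ^ 2)
  sc : ∀ z x y : ℝ, |C3 z * x ^ 3 + 3 * a1 z * x ^ 2 * y + 3 * m1 z * x * y ^ 2 + om1 z * y ^ 3| ≤
    2 * c * ((a z * x ^ 2 + 2 * m z * x * y + om z * y ^ 2) *
      √(a z * x ^ 2 + 2 * m z * x * y + om z * y ^ 2))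
  c0 : 0 < c
  c1 : c ≤ 1

variable {W h om om1 g m m1 a a1 C3 : ℝ → ℝ} {R c : ℝ}

namespace Dat

theorem pot (D : Dat W h om om1 g m m1 a a1 C3 R c) : Pot W h om om1 R where
  dW := D.dW
  dh := D.dh
  dom := D.dom
  com1 := D.com1
  lo z := by have := D.lo z 0 1; linarith
  hi z := by have := D.hi z 0 1; linarith

theorem neg (D : Dat W h om om1 g m m1 a a1 C3 R c) :
    Dat W h om om1 (fun z => - g z) (fun z => - m z) (fun z => - m1 z) a a1 (fun z => - C3 z) R c where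
  dW := D.dW
  dh := D.dh
  dom := D.dom
  dg z := (D.dg z).neg
  dm z := (D.dm z).neg
  da := D.da
  com1 := D.com1
  cm1 := D.cm1.neg
  ca1 := D.ca1
  cC3 := D.cC3.neg
  lo z x y := by
    have := D.lo z (-x) y
    have e : a z * x ^ 2 + 2 * -m z * x * y + om z * y ^ 2 =
      a z * (-x) ^ 2 + 2 * m z * (-x) * y + om z * y ^ 2 := by ring
    rw [e]; linarith [neg_sq x]
  hi z x y := by
    have := D.hi z (-x) y
    have e : a z * x ^ 2 + 2 * -m z * x * y + om z * y ^ 2 =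
      a z * (-x) ^ 2 + 2 * m z * (-x) * y + om z * y ^ 2 := by ring
    rw [e]; rw [neg_sq] at this ⊢; exact this
  sc z x y := by
    have := D.sc z (-x) y
    have e : a z * x ^ 2 + 2 * -m z * x * y + om z * y ^ 2 =
      a z * (-x) ^ 2 + 2 * m z * (-x) * y + om z * y ^ 2 := by ring
    have e2 : -C3 z * x ^ 3 + 3 * a1 z * x ^ 2 * y + 3 * -m1 z * x * y ^ 2 + om1 z * y ^ 3 =
      C3 z * (-x) ^ 3 + 3 * a1 z * (-x) ^ 2 * y + 3 * m1 z * (-x) * y ^ 2 + om1 z * y ^ 3 := by ring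
    rw [e, e2]; exact this
  c0 := D.c0
  c1 := D.c1

theorem mb (D : Dat W h om om1 g m m1 a a1 C3 R c) (z : ℝ) : |m z| ≤ R := by
  have h1 := D.hi z 1 1
  have h2 := D.hi z 1 (-1)
  have h3 := D.lo z 1 0
  have h4 := D.lo z 0 1
  rw [abs_le]; constructor <;> nlinarith

theorem ab (D : Dat W h om om1 g m m1 a a1 C3 R c) (z : ℝ) : 1 ≤ a z ∧ a z ≤ R := by
  have h1 := D.hi z 1 0
  have h3 := D.lo z 1 0
  constructor <;> linarith

theorem R1 (D : Dat W h om om1 g m m1 a a1 C3 R c) : 1 ≤ R := D.pot.R_ge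

theorem cubic (D : Dat W h om om1 g m m1 a a1 C3 R c) (z : ℝ) {x y : ℝ} (h1 : 1 ≤ x ^ 2 + y ^ 2)
    (h2 : x ^ 2 + y ^ 2 ≤ 2) :
    |C3 z * x ^ 3 + 3 * a1 z * x ^ 2 * y + 3 * m1 z * x * y ^ 2 + om1 z * y ^ 3| ≤ 8 * R ^ 2 := by
  have h3 := D.sc z x y
  have h4 := D.lo z x y
  have h5 := D.hi z x y
  have hR := D.R1
  have h6 : a z * x ^ 2 + 2 * m z * x * y + om z * y ^ 2 ≤ 2 * R := by nlinarith
  generalize a z * x ^ 2 + 2 * m z * x * y + om z * y ^ 2 = Q at *
  have hQ : 1 ≤ Q := by linarith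
  have h7 : √Q ≤ 2 * R := Fl0.sle hQ h6
  have h8 : Q * √Q ≤ 2 * R * (2 * R) := mul_le_mul h6 h7 (Real.sqrt_nonneg _) (by linarith)
  have h9 : 0 ≤ Q * √Q := mul_nonneg (by linarith) (Real.sqrt_nonneg _)
  have h10 : 2 * c * (Q * √Q) ≤ 2 * 1 * (Q * √Q) :=
    mul_le_mul_of_nonneg_right (by linarith [D.c1]) h9
  nlinarith

theorem coef (D : Dat W h om om1 g m m1 a a1 C3 R c) (z : ℝ) :
    |C3 z| ≤ 8 * R ^ 2 ∧ |a1 z| ≤ 8 * R ^ 2 ∧ |m1 z| ≤ 8 * R ^ 2 ∧ |om1 z| ≤ 8 * R ^ 2 := by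
  have h1 := D.cubic z (x := 1) (y := 0) (by norm_num) (by norm_num)
  have h2 := D.cubic z (x := 0) (y := 1) (by norm_num) (by norm_num)
  have h3 := D.cubic z (x := 1) (y := 1) (by norm_num) (by norm_num)
  have h4 := D.cubic z (x := 1) (y := -1) (by norm_num) (by norm_num)
  have e1 : C3 z * 1 ^ 3 + 3 * a1 z * 1 ^ 2 * 0 + 3 * m1 z * 1 * 0 ^ 2 + om1 z * 0 ^ 3 = C3 z := by ring
  have e2 : C3 z * 0 ^ 3 + 3 * a1 z * 0 ^ 2 * 1 + 3 * m1 z * 0 * 1 ^ 2 + om1 z * 1 ^ 3 = om1 z := by ring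
  rw [e1] at h1
  rw [e2] at h2
  have h1' := abs_le.1 h1
  have h2' := abs_le.1 h2
  have h3' := abs_le.1 h3
  have h4' := abs_le.1 h4
  refine ⟨h1, ?_, ?_, h2⟩
  · rw [abs_le]; constructor <;> linarith
  · rw [abs_le]; constructor <;> linarith

/-- the main construction -/
theorem half (D : Dat W h om om1 g m m1 a a1 C3 R c) {K3 : ℝ}
    (hK3 : K3 = 3 * (R * (1 + R ^ 2)) * R + (2 * (R + R ^ 2) + 2 * R) ^ 2 + 9 * R * (R * (1 + R ^ 2)) +
      4 * R ^ 2 + 4 * (R * (1 + R ^ 2)) ^ 2)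
    (c10 : c ≤ 1 / 10) (cR2 : c * (R + R ^ 2) ≤ 1 / 16) (cR1 : c * (R * (1 + R ^ 2)) ≤ 1 / 35)
    (cK3 : c ^ 2 * K3 ≤ 1 / 10) :
    1 ≤ EE W a - (EE W (fun z => g z ^ 2) - EE W g ^ 2) ∧
    EE W a - (EE W (fun z => g z ^ 2) - EE W g ^ 2) ≤ R ∧
    EE W C3 - 3 * (EE W (fun z => a z * g z) - EE W a * EE W g)
      + (EE W (fun z => g z ^ 3) - 3 * EE W g * EE W (fun z => g z ^ 2)
        + 2 * EE W g ^ 3) ≤
    2 * c * ((EE W a - (EE W (fun z => g z ^ 2) - EE W g ^ 2)) *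
      √(EE W a - (EE W (fun z => g z ^ 2) - EE W g ^ 2))) := by
  have P := D.pot
  have hR := D.R1
  have hc0 := D.c0
  obtain ⟨b, hb, hbR⟩ := P.exists_b D.dg D.mb
  have cont : ∀ {f f1 : ℝ → ℝ}, (∀ z, HasDerivAt f (f1 z) z) → Continuous f := fun hf =>
    continuous_iff_continuousAt.2 fun z => (hf z).continuousAt
  have cm : Continuous m := cont D.dm
  have ca : Continuous a := cont D.da
  have cb : Continuous b := cont hb
  obtain ⟨e1, e2⟩ := P.transport D.dg cm D.mb hb hbR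
  have pg : PG g := PG.of_deriv D.dg D.mb
  have pm : PG m := PG.bdd cm D.mb
  have pb : PG b := PG.bdd cb hbR
  have pa : PG a := PG.bdd ca (C := R) (fun z => by
    rw [abs_of_nonneg (by linarith [(D.ab z).1])]; exact (D.ab z).2)
  have pC3 : PG C3 := PG.bdd D.cC3 (fun z => (D.coef z).1)
  have pa1 : PG a1 := PG.bdd D.ca1 (fun z => (D.coef z).2.1)
  have pm1 : PG m1 := PG.bdd D.cm1 (fun z => (D.coef z).2.2.1)
  have po1 : PG om1 := PG.bdd D.com1 (fun z => (D.coef z).2.2.2)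
  have po := P.pgom
  have ph := P.pgh
  set gb := EE W g with hgb
  have pgt : PG (fun z => g z - gb) := pg.sub (PG.const gb)
  have pt : PG (fun z => b z * h z + (g z - gb)) := (pb.mul ph).add pgt
  have dgt : ∀ z, HasDerivAt (fun z => g z - gb) (m z) z := fun z => (D.dg z).sub_const gb
  have dt : ∀ z, HasDerivAt (fun z => b z * h z + (g z - gb))
      ((b z * h z + (g z - gb)) * h z + (m z + b z * om z)) z := fun z => by
    have := ((hb z).mul (P.dh z)).add (dgt z)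
    exact this.congr_deriv (by ring)
  have dk : ∀ z, HasDerivAt (fun z => m z + b z * om z)
      ((m1 z + b z * om1 z) + (b z * h z + (g z - gb)) * om z) z := fun z => by
    have := (D.dm z).add ((hb z).mul (P.dom z))
    exact this.congr_deriv (by ring)
  have hb2 : ∀ z, b z ^ 2 ≤ R ^ 2 := fun z => by
    rw [← sq_abs]; exact pow_le_pow_left₀ (abs_nonneg _) (hbR z) 2
  have hX1 : ∀ z, 1 ≤ a z + 2 * b z * m z + b z ^ 2 * om z := fun z => by
    have h1 := D.lo z 1 (b z)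
    have h2 := sq_nonneg (b z)
    linear_combination h1 + h2
  have hXR : ∀ z, a z + 2 * b z * m z + b z ^ 2 * om z ≤ R * (1 + R ^ 2) := fun z => by
    have h1 := D.hi z 1 (b z)
    have h2 := mul_le_mul_of_nonneg_left (hb2 z) (by linarith : (0:ℝ) ≤ R)
    linear_combination h1 + h2
  have hk2 : ∀ z, |m z + b z * om z| ≤ R + R ^ 2 := fun z => by
    refine le_trans (abs_add_le _ _) ?_
    rw [abs_mul]
    have h1 := mul_le_mul (hbR z) (P.om_abs z) (abs_nonneg _) (by linarith)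
    have h2 := D.mb z
    rw [sq]; linarith
  have hp2 : ∀ z, _ := fun z => pt2 (b := b z) (R1 := R * (1 + R ^ 2)) (R2 := R + R ^ 2)
    (K0 := 3 * (R * (1 + R ^ 2)) * R + (2 * (R + R ^ 2) + 2 * R) ^ 2 + 9 * R * (R * (1 + R ^ 2)) + 4 * R ^ 2)
    hc0 (D.lo z) (D.sc z) (P.hi z) (hXR z) (hk2 z) le_rfl
  have pX : PG (fun z => a z + 2 * b z * m z + b z ^ 2 * om z) :=
    (pa.add (((PG.const 2).mul pb).mul pm)).add ((pb.pow 2).mul po)
  have pC2 : PG (fun z => m1 z + b z * om1 z) := pm1.add (pb.mul po1)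
  have pC1 : PG (fun z => a1 z + 2 * b z * m1 z + b z ^ 2 * om1 z) :=
    (pa1.add (((PG.const 2).mul pb).mul pm1)).add ((pb.pow 2).mul po1)
  have pC0 : PG (fun z => C3 z + 3 * b z * a1 z + 3 * b z ^ 2 * m1 z + b z ^ 3 * om1 z) :=
    ((pC3.add (((PG.const 3).mul pb).mul pa1)).add (((PG.const 3).mul (pb.pow 2)).mul pm1)).add
      ((pb.pow 3).mul po1)
  have G : Fl W h om om1 (fun z => b z * h z + (g z - gb)) (fun z => m z + b z * om z)
      (fun z => a z + 2 * b z * m z + b z ^ 2 * om z)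
      (fun z => C3 z + 3 * b z * a1 z + 3 * b z ^ 2 * m1 z + b z ^ 3 * om1 z)
      (fun z => a1 z + 2 * b z * m1 z + b z ^ 2 * om1 z)
      (fun z => m1 z + b z * om1 z) R (R * (1 + R ^ 2)) (R + R ^ 2) K3 (8 * R ^ 2 * (1 + R) ^ 3) c :=
    { F :=
        { P := P
          dt := dt
          dk := dk
          pt := pt
          pk := pm.add (pb.mul po)
          cX := pX.cont
          cC2 := pC2.cont
          X1 := hX1
          XR := hXR
          C2b := fun z => pt1 hc0.le (D.lo z) (D.sc z)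
          o1 := fun z => pt0 (D.sc z)
          c0 := hc0
          c1 := D.c1 }
      dX := fun z => by
        have h1 := ((D.da z).add (((hb z).const_mul 2).mul (D.dm z))).add (((hb z).pow 2).mul (P.dom z))
        exact h1.congr_deriv (by simp only [Pi.pow_apply]; push_cast; ring)
      k2 := hk2
      cC0 := pC0.cont
      cC1 := pC1.cont
      C0b := fun z => by
        obtain ⟨q1, q2, q3, q4⟩ := D.coef z
        have hb0 := abs_nonneg (b z)
        have hb1 := hbR z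
        have r1 : |3 * b z * a1 z| ≤ 3 * R * (8 * R ^ 2) := by
          rw [abs_mul, abs_mul, abs_of_pos (by norm_num : (0:ℝ) < 3)]
          exact mul_le_mul (by linarith) q2 (abs_nonneg _) (by positivity)
        have r2 : |3 * b z ^ 2 * m1 z| ≤ 3 * R ^ 2 * (8 * R ^ 2) := by
          rw [abs_mul, abs_mul, abs_of_pos (by norm_num : (0:ℝ) < 3), abs_pow, sq_abs]
          exact mul_le_mul (by linarith [hb2 z]) q3 (abs_nonneg _) (by positivity)
        have r3 : |b z ^ 3 * om1 z| ≤ R ^ 3 * (8 * R ^ 2) := by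
          rw [abs_mul, abs_pow]
          exact mul_le_mul (pow_le_pow_left₀ hb0 hb1 3) q4 (abs_nonneg _) (by positivity)
        have r4 := abs_add_le (C3 z + 3 * b z * a1 z + 3 * b z ^ 2 * m1 z) (b z ^ 3 * om1 z)
        have r5 := abs_add_le (C3 z + 3 * b z * a1 z) (3 * b z ^ 2 * m1 z)
        have r6 := abs_add_le (C3 z) (3 * b z * a1 z)
        have e : 8 * R ^ 2 * (1 + R) ^ 3 = 8 * R ^ 2 + 3 * R * (8 * R ^ 2) + 3 * R ^ 2 * (8 * R ^ 2) +
          R ^ 3 * (8 * R ^ 2) := by ring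
        rw [e]; linarith
      C1b := fun z => by
        obtain ⟨q1, q2, q3, q4⟩ := D.coef z
        have hb0 := abs_nonneg (b z)
        have hb1 := hbR z
        have r1 : |2 * b z * m1 z| ≤ 2 * R * (8 * R ^ 2) := by
          rw [abs_mul, abs_mul, abs_of_pos (by norm_num : (0:ℝ) < 2)]
          exact mul_le_mul (by linarith) q3 (abs_nonneg _) (by positivity)
        have r2 : |b z ^ 2 * om1 z| ≤ R ^ 2 * (8 * R ^ 2) := by
          rw [abs_mul, abs_pow, sq_abs]
          exact mul_le_mul (hb2 z) q4 (abs_nonneg _) (by positivity)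
        have r5 := abs_add_le (a1 z + 2 * b z * m1 z) (b z ^ 2 * om1 z)
        have r6 := abs_add_le (a1 z) (2 * b z * m1 z)
        have e : 8 * R ^ 2 * (1 + R) ^ 3 = (8 * R ^ 2 + 2 * R * (8 * R ^ 2) + R ^ 2 * (8 * R ^ 2)) * (1 + R) := by
          ring
        have e3 : 0 ≤ (8 * R ^ 2 + 2 * R * (8 * R ^ 2) + R ^ 2 * (8 * R ^ 2)) * R := by positivity
        rw [e]; linarith
      th := fun z => (hp2 z).1
      D := fun z => by
        have := (hp2 z).2
        rw [hK3]; exact this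
      K3p := by rw [hK3]; positivity
      c10 := c10
      cR2 := cR2
      cR1 := cR1
      cK3 := cK3 }
  -- second order
  have hEX : EE W (fun z => a z + 2 * b z * m z + b z ^ 2 * om z) =
      EE W a + 2 * EE W (fun z => b z * m z) + EE W (fun z => b z ^ 2 * om z) := by
    rw [P.E_add (pa.add (((PG.const 2).mul pb).mul pm)) ((pb.pow 2).mul po),
      P.E_add pa (((PG.const 2).mul pb).mul pm)]
    have : EE W (fun z => 2 * b z * m z) = 2 * EE W (fun z => b z * m z) := by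
      rw [← Pot.E_mul]; exact Pot.E_congr fun z => by ring
    rw [this]
  have hg2 : EE W (fun z => (g z - gb) ^ 2) = EE W (fun z => g z ^ 2) - gb ^ 2 := by
    have h1 : EE W (fun z => (g z - gb) ^ 2) = EE W (fun z => g z ^ 2 + (-(2 * gb) * g z + gb ^ 2)) :=
      Pot.E_congr fun z => by ring
    rw [h1, P.E_add (pg.pow 2) (((PG.const _).mul pg).add (PG.const _)),
      P.E_add ((PG.const _).mul pg) (PG.const _), Pot.E_mul, P.E_const, ← hgb]
    ring
  have hU2 : EE W (fun z => a z + 2 * b z * m z + b z ^ 2 * om z) +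
      EE W (fun z => (b z * h z + (g z - gb)) ^ 2) =
      EE W a - (EE W (fun z => g z ^ 2) - gb ^ 2) := by
    rw [hEX, ← hg2, e1]; linarith
  have hU1 : 1 ≤ EE W a - (EE W (fun z => g z ^ 2) - gb ^ 2) := by
    rw [← hU2]
    have h1 := P.E_ge_const pX hX1
    have h2 := P.E_nonneg (pt.pow 2) (fun z => sq_nonneg _)
    linarith
  refine ⟨hU1, ?_, ?_⟩
  · have h1 := P.E_le_const pa (fun z => (D.ab z).2)
    have h2 : 0 ≤ EE W (fun z => (g z - gb) ^ 2) := P.E_nonneg (pgt.pow 2) (fun z => sq_nonneg _)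
    rw [hg2] at h2
    linarith
  -- third order
  have i1 := P.ibp (F := fun z => a z * b z) (F1 := fun z => a1 z * b z + a z * (b z * h z + (g z - gb)))
    (fun z => (D.da z).mul (hb z)) (pa.mul pb) ((pa1.mul pb).add (pa.mul pt))
  have dgt2 : ∀ z, HasDerivAt (fun z => (g z - gb) ^ 2) (2 * (g z - gb) * m z) z := fun z => by
    have := (dgt z).pow 2
    exact this.congr_deriv (by push_cast; ring)
  have i2 := P.ibp (F := fun z => b z * (g z - gb) ^ 2)
    (F1 := fun z => (b z * h z + (g z - gb)) * (g z - gb) ^ 2 + b z * (2 * (g z - gb) * m z))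
    (fun z => (hb z).mul (dgt2 z)) (pb.mul (pgt.pow 2))
    ((pt.mul (pgt.pow 2)).add (pb.mul (((PG.const 2).mul pgt).mul pm)))
  have db2 : ∀ z, HasDerivAt (fun z => b z ^ 2) (2 * b z * (b z * h z + (g z - gb))) z := fun z => by
    have := (hb z).pow 2
    exact this.congr_deriv (by push_cast; ring)
  have db3 : ∀ z, HasDerivAt (fun z => b z ^ 3) (3 * b z ^ 2 * (b z * h z + (g z - gb))) z := fun z => by
    have := (hb z).pow 3
    exact this.congr_deriv (by push_cast; ring)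
  have dtt : ∀ z, HasDerivAt (fun z => (b z * h z + (g z - gb)) ^ 2)
      (2 * (b z * h z + (g z - gb)) * ((b z * h z + (g z - gb)) * h z + (m z + b z * om z))) z := fun z => by
    have := (dt z).pow 2
    exact this.congr_deriv (by push_cast; ring)
  have pk : PG (fun z => m z + b z * om z) := pm.add (pb.mul po)
  have ptp : PG (fun z => (b z * h z + (g z - gb)) * h z + (m z + b z * om z)) := (pt.mul ph).add pk
  have i3 := P.ibp (F := fun z => 3 * (b z ^ 2 * m z) + (b z ^ 3 * om z -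
      (b z * (b z * h z + (g z - gb)) ^ 2 + (b z * (g z - gb)) * (b z * h z + (g z - gb)))))
    (F1 := fun z => 3 * (2 * b z * (b z * h z + (g z - gb)) * m z + b z ^ 2 * m1 z) +
      ((3 * b z ^ 2 * (b z * h z + (g z - gb)) * om z + b z ^ 3 * om1 z) -
      (((b z * h z + (g z - gb)) * (b z * h z + (g z - gb)) ^ 2 +
        b z * (2 * (b z * h z + (g z - gb)) * ((b z * h z + (g z - gb)) * h z + (m z + b z * om z)))) +
      (((b z * h z + (g z - gb)) * (g z - gb) + b z * m z) * (b z * h z + (g z - gb)) +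
        (b z * (g z - gb)) * ((b z * h z + (g z - gb)) * h z + (m z + b z * om z))))))
    (fun z => (((db2 z).mul (D.dm z)).const_mul 3).add (((db3 z).mul (P.dom z)).sub
      (((hb z).mul (dtt z)).add (((hb z).mul (dgt z)).mul (dt z)))))
    (((PG.const 3).mul ((pb.pow 2).mul pm)).add (((pb.pow 3).mul po).sub
      ((pb.mul (pt.pow 2)).add ((pb.mul pgt).mul pt))))
    (((PG.const 3).mul (((((PG.const 2).mul pb).mul pt).mul pm).add ((pb.pow 2).mul pm1))).add
      ((((((PG.const 3).mul (pb.pow 2)).mul pt).mul po).add ((pb.pow 3).mul po1)).sub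
      (((pt.mul (pt.pow 2)).add (pb.mul (((PG.const 2).mul pt).mul ptp))).add
      ((((pt.mul pgt).add (pb.mul pm)).mul pt).add ((pb.mul pgt).mul ptp)))))
  have j1 : EE W (fun z => b z * a1 z) + (EE W (fun z => a z * g z) - gb * EE W a) = 0 := by
    have h1 : EE W (fun z => b z * a1 z + (a z * g z - gb * a z)) = 0 := by
      rw [← i1]; exact Pot.E_congr fun z => by ring
    rw [P.E_add (pb.mul pa1) ((pa.mul pg).sub ((PG.const gb).mul pa)),
      P.E_sub (pa.mul pg) ((PG.const gb).mul pa), Pot.E_mul] at h1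
    exact h1
  have j2 : EE W (fun z => (g z - gb) ^ 3) + 2 * EE W (fun z => b z * ((g z - gb) * m z)) = 0 := by
    have h1 : EE W (fun z => (g z - gb) ^ 3 + 2 * (b z * ((g z - gb) * m z))) = 0 := by
      rw [← i2]; exact Pot.E_congr fun z => by ring
    rw [P.E_add (pgt.pow 3) ((PG.const 2).mul (pb.mul (pgt.mul pm))), Pot.E_mul] at h1
    exact h1
  have j3 : 3 * EE W (fun z => b z ^ 2 * m1 z) + (EE W (fun z => b z ^ 3 * om1 z) +
      (-2 * EE W (fun z => (b z * h z + (g z - gb)) ^ 3) + 2 * EE W (fun z => b z * ((g z - gb) * m z)))) = 0 := by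
    have h1 : EE W (fun z => 3 * (b z ^ 2 * m1 z) + (b z ^ 3 * om1 z +
      (-2 * (b z * h z + (g z - gb)) ^ 3 + 2 * (b z * ((g z - gb) * m z))))) = 0 := by
      rw [← i3]; exact Pot.E_congr fun z => by ring
    rw [P.E_add ((PG.const 3).mul ((pb.pow 2).mul pm1)) (((pb.pow 3).mul po1).add
        (((PG.const _).mul (pt.pow 3)).add ((PG.const 2).mul (pb.mul (pgt.mul pm))))),
      P.E_add ((pb.pow 3).mul po1) (((PG.const _).mul (pt.pow 3)).add ((PG.const 2).mul (pb.mul (pgt.mul pm)))),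
      P.E_add ((PG.const _).mul (pt.pow 3)) ((PG.const 2).mul (pb.mul (pgt.mul pm))),
      Pot.E_mul, Pot.E_mul, Pot.E_mul] at h1
    exact h1
  have j0 : EE W (fun z => C3 z + 3 * b z * a1 z + 3 * b z ^ 2 * m1 z + b z ^ 3 * om1 z) =
      EE W C3 + (3 * EE W (fun z => b z * a1 z) + (3 * EE W (fun z => b z ^ 2 * m1 z) +
        EE W (fun z => b z ^ 3 * om1 z))) := by
    have h1 : EE W (fun z => C3 z + 3 * b z * a1 z + 3 * b z ^ 2 * m1 z + b z ^ 3 * om1 z) =
      EE W (fun z => C3 z + (3 * (b z * a1 z) + (3 * (b z ^ 2 * m1 z) + b z ^ 3 * om1 z))) :=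
      Pot.E_congr fun z => by ring
    rw [h1, P.E_add pC3 (((PG.const 3).mul (pb.mul pa1)).add (((PG.const 3).mul ((pb.pow 2).mul pm1)).add
        ((pb.pow 3).mul po1))),
      P.E_add ((PG.const 3).mul (pb.mul pa1)) (((PG.const 3).mul ((pb.pow 2).mul pm1)).add
        ((pb.pow 3).mul po1)),
      P.E_add ((PG.const 3).mul ((pb.pow 2).mul pm1)) ((pb.pow 3).mul po1), Pot.E_mul, Pot.E_mul]
  have hg3 : EE W (fun z => (g z - gb) ^ 3) = EE W (fun z => g z ^ 3) - 3 * gb * EE W (fun z => g z ^ 2) +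
      2 * gb ^ 3 := by
    have h1 : EE W (fun z => (g z - gb) ^ 3) =
        EE W (fun z => g z ^ 3 + (-(3 * gb) * g z ^ 2 + (3 * gb ^ 2 * g z + -gb ^ 3))) :=
      Pot.E_congr fun z => by ring
    rw [h1, P.E_add (pg.pow 3) (((PG.const _).mul (pg.pow 2)).add (((PG.const _).mul pg).add (PG.const _))),
      P.E_add ((PG.const _).mul (pg.pow 2)) (((PG.const _).mul pg).add (PG.const _)),
      P.E_add ((PG.const _).mul pg) (PG.const _), Pot.E_mul, Pot.E_mul, P.E_const, ← hgb]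
    ring
  have hmu0 : 0 ≤ EE W a - (EE W (fun z => g z ^ 2) - gb ^ 2) := by linarith
  have hmu1 : 1 ≤ √(EE W a - (EE W (fun z => g z ^ 2) - gb ^ 2)) := by
    rw [Real.one_le_sqrt]; exact hU1
  have hfin := G.one_side hmu1 (by rw [Real.sq_sqrt hmu0]; exact hU2.symm)
  rw [Real.sq_sqrt hmu0, j0] at hfin
  rw [hg3] at j2
  linarith

end Dat

end Vale.Agent.P227.M.Marg

namespace Vale.Agent.P227.M.SC

open Vale.Agent.P227.M.Marg

/-- **the static marginal lemma** -/
theorem marg1D : Marg1D := by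
  intro R hR
  set K3 := 3 * (R * (1 + R ^ 2)) * R + (2 * (R + R ^ 2) + 2 * R) ^ 2 + 9 * R * (R * (1 + R ^ 2)) +
      4 * R ^ 2 + 4 * (R * (1 + R ^ 2)) ^ 2 with hK3
  have hK3p : 0 ≤ K3 := by rw [hK3]; positivity
  set N := 100 + 16 * (R + R ^ 2) + 35 * (R * (1 + R ^ 2)) + K3 with hN
  have hNp : 0 < N := by
    have : 0 < 100 + 16 * (R + R ^ 2) + 35 * (R * (1 + R ^ 2)) := by positivity
    linarith
  -- the statement for positive c
  have main : ∀ c : ℝ, 0 < c → c ≤ 1 / N → ∀ (W h om om1 g m m1 a a1 C3 : ℝ → ℝ),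
      (∀ z, HasDerivAt W (h z) z) → (∀ z, HasDerivAt h (om z) z) → (∀ z, HasDerivAt om (om1 z) z) →
      (∀ z, HasDerivAt g (m z) z) → (∀ z, HasDerivAt m (m1 z) z) → (∀ z, HasDerivAt a (a1 z) z) →
      Continuous om1 → Continuous m1 → Continuous a1 → Continuous C3 →
      (∀ z x y, x ^ 2 + y ^ 2 ≤ a z * x ^ 2 + 2 * m z * x * y + om z * y ^ 2) →
      (∀ z x y, a z * x ^ 2 + 2 * m z * x * y + om z * y ^ 2 ≤ R * (x ^ 2 + y ^ 2)) →
      (∀ z x y, |C3 z * x ^ 3 + 3 * a1 z * x ^ 2 * y + 3 * m1 z * x * y ^ 2 + om1 z * y ^ 3| ≤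
        2 * c * ((a z * x ^ 2 + 2 * m z * x * y + om z * y ^ 2) *
          √(a z * x ^ 2 + 2 * m z * x * y + om z * y ^ 2))) →
      1 ≤ Marg.EE W a - (Marg.EE W (fun z => g z ^ 2) - Marg.EE W g ^ 2) ∧
      Marg.EE W a - (Marg.EE W (fun z => g z ^ 2) - Marg.EE W g ^ 2) ≤ R ∧
      |Marg.EE W C3 - 3 * (Marg.EE W (fun z => a z * g z) - Marg.EE W a * Marg.EE W g)
        + (Marg.EE W (fun z => g z ^ 3) - 3 * Marg.EE W g * Marg.EE W (fun z => g z ^ 2)
          + 2 * Marg.EE W g ^ 3)| ≤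
        2 * c * ((Marg.EE W a - (Marg.EE W (fun z => g z ^ 2) - Marg.EE W g ^ 2)) *
          √(Marg.EE W a - (Marg.EE W (fun z => g z ^ 2) - Marg.EE W g ^ 2))) := by
    intro c hc0 hcN W h om om1 g m m1 a a1 C3 dW dh dom dg dm da com1 cm1 ca1 cC3 lo hi sc
    have hcN' : c * N ≤ 1 := by rwa [le_div_iff₀ hNp] at hcN
    have hexp : c * N = c * 100 + 16 * (c * (R + R ^ 2)) + 35 * (c * (R * (1 + R ^ 2))) + c * K3 := by
      rw [hN]; ring
    have n1 : 0 ≤ c * (R + R ^ 2) := by positivity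
    have n2 : 0 ≤ c * (R * (1 + R ^ 2)) := by positivity
    have n3 : 0 ≤ c * K3 := by positivity
    have c100 : c ≤ 1 / 100 := by linarith
    have D : Dat W h om om1 g m m1 a a1 C3 R c :=
      ⟨dW, dh, dom, dg, dm, da, com1, cm1, ca1, cC3, lo, hi, sc, hc0, by linarith⟩
    have q1 : c ≤ 1 / 10 := by linarith
    have q2 : c * (R + R ^ 2) ≤ 1 / 16 := by linarith
    have q3 : c * (R * (1 + R ^ 2)) ≤ 1 / 35 := by linarith
    have q4 : c ^ 2 * K3 ≤ 1 / 10 := by nlinarith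
    obtain ⟨u1, u2, u3⟩ := D.half hK3 q1 q2 q3 q4
    obtain ⟨v1, v2, v3⟩ := D.neg.half hK3 q1 q2 q3 q4
    refine ⟨u1, u2, ?_⟩
    have f1 : EE W (fun z => (-g z) ^ 2) = EE W (fun z => g z ^ 2) := Pot.E_congr fun z => by ring
    have f2 : EE W (fun z => -g z) = - EE W g := by
      rw [← neg_one_mul, ← Pot.E_mul]; exact Pot.E_congr fun z => by ring
    have f3 : EE W (fun z => -C3 z) = - EE W C3 := by
      rw [← neg_one_mul, ← Pot.E_mul]; exact Pot.E_congr fun z => by ring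
    have f4 : EE W (fun z => a z * -g z) = - EE W (fun z => a z * g z) := by
      rw [← neg_one_mul, ← Pot.E_mul]; exact Pot.E_congr fun z => by ring
    have f5 : EE W (fun z => (-g z) ^ 3) = - EE W (fun z => g z ^ 3) := by
      rw [← neg_one_mul, ← Pot.E_mul]; exact Pot.E_congr fun z => by ring
    rw [f1, f2, f3, f4, f5, neg_sq] at v3
    rw [abs_le]
    constructor
    · linear_combination v3
    · exact u3
  refine ⟨1 / N, by positivity, ?_⟩
  intro W h om om1 g m m1 a a1 C3 c hc0 hcN dW dh dom dg dm da com1 cm1 ca1 cC3 lo hi sc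
  rcases hc0.lt_or_eq with hc | hc
  · exact main c hc hcN W h om om1 g m m1 a a1 C3 dW dh dom dg dm da com1 cm1 ca1 cC3 lo hi sc
  · subst hc
    have hlim : ∀ ε : ℝ, 0 < ε → ε ≤ 1 / N → _ := fun ε hε hεN =>
      main ε hε hεN W h om om1 g m m1 a a1 C3 dW dh dom dg dm da com1 cm1 ca1 cC3 lo hi
        (fun z x y => le_trans (sc z x y) (by
          have h1 := lo z x y
          have h2 : 0 ≤ a z * x ^ 2 + 2 * m z * x * y + om z * y ^ 2 := le_trans (by positivity) h1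
          have h3 := mul_nonneg h2 (Real.sqrt_nonneg (a z * x ^ 2 + 2 * m z * x * y + om z * y ^ 2))
          nlinarith))
    have hN1 : 0 < 1 / N := by positivity
    obtain ⟨u1, u2, _⟩ := hlim (1 / N) hN1 le_rfl
    refine ⟨u1, u2, ?_⟩
    set U2 := Marg.EE W a - (Marg.EE W (fun z => g z ^ 2) - Marg.EE W g ^ 2)
    set U3 := Marg.EE W C3 - 3 * (Marg.EE W (fun z => a z * g z) - Marg.EE W a * Marg.EE W g)
        + (Marg.EE W (fun z => g z ^ 3) - 3 * Marg.EE W g * Marg.EE W (fun z => g z ^ 2)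
          + 2 * Marg.EE W g ^ 3)
    have hS : 0 < U2 * √U2 := mul_pos (by linarith) (Real.sqrt_pos.2 (by linarith))
    have h0 : |U3| ≤ 0 := by
      apply le_of_forall_pos_le_add
      intro δ hδ
      have h1 : 0 < min (1 / N) (δ / (2 * (U2 * √U2))) := lt_min hN1 (by positivity)
      have h2 := (hlim _ h1 (min_le_left _ _)).2.2
      refine le_trans h2 ?_
      have h3 : min (1 / N) (δ / (2 * (U2 * √U2))) ≤ δ / (2 * (U2 * √U2)) := min_le_right _ _
      rw [le_div_iff₀ (by positivity)] at h3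
      linarith
    have e0 : 2 * (0:ℝ) * (U2 * √U2) = 0 := by ring
    rw [e0]; exact h0

end Vale.Agent.P227.M.SC
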