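import Vale.Agent.P227.M.SC.MargReg2
import Vale.Agent.P227.M.LK.Conv

/-! Prekopa: lower bound of the second derivative of a marginal. -/

open MeasureTheory Set Filter
open scoped Topology ContDiff

namespace Vale.Agent.P227.M.SC

section
variable {F : Type} [NormedAddCommGroup F] [NormedSpace ℝ F]

/-- a differentiable convex function on the line has a monotone derivative -/
theorem mono_of_convex {f f' : ℝ → ℝ} (hf : ConvexOn ℝ univ f) (hd : ∀ t, HasDerivAt f (f' t) t) :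
    Monotone f' := by
  intro a b hab
  rcases hab.eq_or_lt with rfl | hab
  · exact le_rfl
  have h1 := hf.le_slope_of_hasDerivAt (mem_univ a) (mem_univ b) hab (hd a)
  have h2 := hf.slope_le_of_hasDerivAt (mem_univ a) (mem_univ b) hab (hd b)
  exact h1.trans h2

theorem RegG.int_exp {W : F × ℝ → ℝ} {c : ℝ} (h : RegG W c) (x : F) :
    Integrable (fun z : ℝ => Real.exp (-W (x, z))) := by
  obtain ⟨z, hz⟩ := h.exists_crit x
  obtain ⟨B, hB⟩ := h.exists_B
  have hint := (dom_expcen h hB (x, z)).int (contDiff_expcen h (x, z)) 0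
  have h1 : (fun t : ℝ => Real.exp (-W (x, z + t))) =
      fun t => Real.exp (-W (x, z)) * Real.exp (-cen W (x, z) (0, t)) := by
    funext t
    rw [← Real.exp_add]
    congr 1
    have h2 : ((0, t) : F × ℝ) = t • ((0 : F), (1 : ℝ)) := by simp
    have h3 : fderiv ℝ W (x, z) (0, t) = 0 := by rw [h2, map_smul, hz, smul_zero]
    unfold cen
    rw [h3]
    have h4 : (x, z) + ((0, t) : F × ℝ) = (x, z + t) := by simp
    rw [h4]
    ring
  have h5 : Integrable (fun t : ℝ => Real.exp (-W (x, z + t))) := by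
    rw [h1]
    exact hint.const_mul _
  have h6 := h5.comp_add_left (-z)
  refine h6.congr (ae_of_all _ fun t => ?_)
  simp

theorem RegG.lower_marg {W : F × ℝ → ℝ} {c : ℝ} (h : RegG W c) (x v : F) :
    c * ‖v‖ ^ 2 ≤ Ld2 (marg W) x v := by
  have hc := h.c_pos
  set G : (Fin 1 → ℝ) → ℝ → ℝ := fun u t => W (x + t • v, u 0) - c / 2 * ‖v‖ ^ 2 * t ^ 2 with hG
  have hconv : ConvexOn ℝ univ (fun p : (Fin 1 → ℝ) × ℝ => G p.1 p.2) := by
    refine ⟨convex_univ, fun p _ q _ a b ha hb hab => ?_⟩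
    simp only [hG, Prod.fst_add, Prod.snd_add, Prod.smul_fst, Prod.smul_snd, Pi.add_apply,
      Pi.smul_apply, smul_eq_mul]
    set P : F × ℝ := (x + p.2 • v, p.1 0) with hP
    set Q : F × ℝ := (x + q.2 • v, q.1 0) with hQ
    set r : ℝ := a * p.2 + b * q.2 with hr
    set R : F × ℝ := (x + r • v, a * p.1 0 + b * q.1 0) with hR
    have hb' : b = 1 - a := by linarith
    have h1 := h.taylor_lower R (P - R)
    have h2 := h.taylor_lower R (Q - R)
    rw [add_sub_cancel] at h1 h2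
    have h3 : a • (P - R) + b • (Q - R) = 0 := by
      subst hb'
      simp only [hP, hQ, hR, hr]
      ext
      · simp only [Prod.fst_add, Prod.smul_fst, Prod.fst_sub, Prod.fst_zero]
        module
      · simp only [Prod.snd_add, Prod.smul_snd, Prod.snd_sub, Prod.snd_zero, smul_eq_mul]
        ring
    have h4 : a * fderiv ℝ W R (P - R) + b * fderiv ℝ W R (Q - R) = 0 := by
      have := congrArg (fderiv ℝ W R) h3
      rw [map_add, map_smul, map_smul, map_zero, smul_eq_mul, smul_eq_mul] at this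
      exact this
    have h5 : (p.2 - r) ^ 2 * ‖v‖ ^ 2 ≤ ‖P - R‖ ^ 2 := by
      have h6 : ‖(P - R).1‖ ≤ ‖P - R‖ := norm_fst_le _
      have h7 : (P - R).1 = (p.2 - r) • v := by
        simp only [hP, hR, Prod.fst_sub]
        module
      rw [h7, norm_smul, Real.norm_eq_abs] at h6
      calc (p.2 - r) ^ 2 * ‖v‖ ^ 2 = (|p.2 - r| * ‖v‖) ^ 2 := by rw [mul_pow, sq_abs]
        _ ≤ ‖P - R‖ ^ 2 := by gcongr
    have h5' : (q.2 - r) ^ 2 * ‖v‖ ^ 2 ≤ ‖Q - R‖ ^ 2 := by
      have h6 : ‖(Q - R).1‖ ≤ ‖Q - R‖ := norm_fst_le _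
      have h7 : (Q - R).1 = (q.2 - r) • v := by
        simp only [hQ, hR, Prod.fst_sub]
        module
      rw [h7, norm_smul, Real.norm_eq_abs] at h6
      calc (q.2 - r) ^ 2 * ‖v‖ ^ 2 = (|q.2 - r| * ‖v‖) ^ 2 := by rw [mul_pow, sq_abs]
        _ ≤ ‖Q - R‖ ^ 2 := by gcongr
    have h8 : a * (W R + fderiv ℝ W R (P - R) + c / 2 * ‖P - R‖ ^ 2) +
        b * (W R + fderiv ℝ W R (Q - R) + c / 2 * ‖Q - R‖ ^ 2) ≤ a * W P + b * W Q :=
      add_le_add (mul_le_mul_of_nonneg_left h1 ha) (mul_le_mul_of_nonneg_left h2 hb)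
    have h9 : a * (c / 2 * ((p.2 - r) ^ 2 * ‖v‖ ^ 2)) + b * (c / 2 * ((q.2 - r) ^ 2 * ‖v‖ ^ 2)) ≤
        a * (c / 2 * ‖P - R‖ ^ 2) + b * (c / 2 * ‖Q - R‖ ^ 2) := by
      gcongr
    have h10 : a * (p.2 - r) ^ 2 + b * (q.2 - r) ^ 2 = a * p.2 ^ 2 + b * q.2 ^ 2 - r ^ 2 := by
      rw [hr, hb']; ring
    have h11 : a * (c / 2 * ((p.2 - r) ^ 2 * ‖v‖ ^ 2)) + b * (c / 2 * ((q.2 - r) ^ 2 * ‖v‖ ^ 2)) =
        c / 2 * ‖v‖ ^ 2 * (a * p.2 ^ 2 + b * q.2 ^ 2 - r ^ 2) := by
      rw [← h10]; ring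
    have h12 : a * W R + b * W R = W R := by rw [hb']; ring
    nlinarith
  have hint : ∀ t : ℝ, Integrable (fun u : Fin 1 → ℝ => Real.exp (-G u t)) := by
    intro t
    have h1 : (fun u : Fin 1 → ℝ => Real.exp (-G u t)) =
        (fun z : ℝ => Real.exp (-W (x + t • v, z)) * Real.exp (c / 2 * ‖v‖ ^ 2 * t ^ 2)) ∘
          (MeasurableEquiv.funUnique (Fin 1) ℝ) := by
      funext u
      simp only [hG, Function.comp]
      rw [← Real.exp_add]
      congr 1
      have : (MeasurableEquiv.funUnique (Fin 1) ℝ) u = u 0 := rfl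
      rw [this]
      ring
    rw [h1]
    exact (volume_preserving_funUnique (Fin 1) ℝ).integrable_comp_of_integrable
      ((h.int_exp _).mul_const _)
  have h0 := LKHB.prekopa_convex G hconv hint
  have heq : (fun t => -Real.log (∫ u : Fin 1 → ℝ, Real.exp (-G u t))) =
      fun t => marg W (x + t • v) - c / 2 * ‖v‖ ^ 2 * t ^ 2 := by
    funext t
    have h1 : ∫ u : Fin 1 → ℝ, Real.exp (-G u t) =
        (∫ z : ℝ, Real.exp (-W (x + t • v, z))) * Real.exp (c / 2 * ‖v‖ ^ 2 * t ^ 2) := by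
      rw [← integral_mul_const,
        ← (volume_preserving_funUnique (Fin 1) ℝ).integral_comp'
          (g := fun z : ℝ => Real.exp (-W (x + t • v, z)) * Real.exp (c / 2 * ‖v‖ ^ 2 * t ^ 2))]
      congr 1
      funext u
      simp only [hG]
      rw [← Real.exp_add]
      congr 1
      have : (MeasurableEquiv.funUnique (Fin 1) ℝ) u = u 0 := rfl
      rw [this]
      ring
    have h2 : 0 < ∫ z : ℝ, Real.exp (-W (x + t • v, z)) := integral_exp_pos (h.int_exp _)
    rw [h1, Real.log_mul h2.ne' (Real.exp_pos _).ne', Real.log_exp]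
    unfold marg
    ring
  rw [heq] at h0
  have hd : ∀ t, HasDerivAt (fun t : ℝ => marg W (x + t • v) - c / 2 * ‖v‖ ^ 2 * t ^ 2)
      (fderiv ℝ (marg W) (x + t • v) v - c * ‖v‖ ^ 2 * t) t := by
    intro t
    have h1 := hasDerivAt_line0 h.contDiff_marg x v t
    have h2 := (hasDerivAt_pow 2 t).const_mul (c / 2 * ‖v‖ ^ 2)
    refine (h1.sub h2).congr_deriv ?_
    simp
    ring
  have hm := mono_of_convex h0 hd
  have hd2 : HasDerivAt (fun t : ℝ => fderiv ℝ (marg W) (x + t • v) v - c * ‖v‖ ^ 2 * t)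
      (Ld2 (marg W) (x + (0 : ℝ) • v) v - c * ‖v‖ ^ 2) 0 := by
    have h1 := D2_add h.contDiff_marg x v 0
    have h2 := (hasDerivAt_id (0 : ℝ)).const_mul (c * ‖v‖ ^ 2)
    refine (h1.sub h2).congr_deriv ?_
    simp
  have := hd2.nonneg_of_monotone hm
  rw [zero_smul, add_zero] at this
  linarith

/-- the marginal of a regular potential is regular -/
theorem RegG.marg {W : F × ℝ → ℝ} {c : ℝ} (h : RegG W c) : RegG (SC.marg W) c :=
  ⟨h.c_pos, h.contDiff_marg, h.lower_marg, h.bdd_marg⟩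

end

end Vale.Agent.P227.M.SC
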