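import Vale.Agent.P227.M.SC.PI
import Vale.Agent.P227.M.SC.Line

/-! The marginal of a regular potential is regular (smooth, all derivatives of order `≥ 2`
bounded). -/

open MeasureTheory Set Filter
open scoped Topology ContDiff

namespace Vale.Agent.P227.M.SC

section
variable {F : Type} [NormedAddCommGroup F] [NormedSpace ℝ F]

/-- marginal potential -/
noncomputable def marg (W : F × ℝ → ℝ) (x : F) : ℝ := -Real.log (∫ z : ℝ, Real.exp (-W (x, z)))

/-- minimiser in the last variable -/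
theorem RegG.exists_crit {W : F × ℝ → ℝ} {c : ℝ} (h : RegG W c) (x : F) :
    ∃ z : ℝ, fderiv ℝ W (x, z) (0, 1) = 0 := by
  have hc := h.c_pos
  -- along the line z ↦ (x, 0) + z (0,1)
  have hg1 : ∀ t, HasDerivAt (fun t : ℝ => fderiv ℝ W ((x, (0 : ℝ)) + t • ((0 : F), (1 : ℝ))) (0, 1)
      - c * t) (Ld2 W ((x, (0 : ℝ)) + t • ((0 : F), (1 : ℝ))) (0, 1) - c) t := by
    intro t
    have h1 := (D2_add h.smooth (x, (0 : ℝ)) ((0 : F), (1 : ℝ)) t)
    have h2 := (hasDerivAt_id t).const_mul c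
    refine (h1.sub h2).congr_deriv ?_
    simp
  have hm : Monotone (fun t : ℝ => fderiv ℝ W ((x, (0 : ℝ)) + t • ((0 : F), (1 : ℝ))) (0, 1)
      - c * t) := by
    refine monotone_of_deriv_nonneg (fun t => (hg1 t).differentiableAt) fun t => ?_
    rw [(hg1 t).deriv]
    have := h.lower ((x, (0 : ℝ)) + t • ((0 : F), (1 : ℝ))) (0, 1)
    have h5 : ‖((0 : F), (1 : ℝ))‖ = 1 := by simp [Prod.norm_def]
    rw [h5] at this
    linarith
  set g : ℝ → ℝ := fun t => fderiv ℝ W ((x, (0 : ℝ)) + t • ((0 : F), (1 : ℝ))) (0, 1) with hg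
  have hcont : Continuous g := by
    refine continuous_iff_continuousAt.2 fun t => ?_
    exact (D2_add h.smooth (x, (0 : ℝ)) ((0 : F), (1 : ℝ)) t).continuousAt
  have h0 : ∀ t, 0 ≤ t → g 0 + c * t ≤ g t := by
    intro t ht
    have := hm ht
    simp only [] at this
    simp only [hg]
    linarith
  have h0' : ∀ t, t ≤ 0 → g t ≤ g 0 + c * t := by
    intro t ht
    have := hm ht
    simp only [] at this
    simp only [hg]
    linarith
  set T : ℝ := |g 0| / c with hT
  have hT0 : 0 ≤ T := by positivity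
  have hcT : c * T = |g 0| := by rw [hT]; field_simp
  have h1 : 0 ≤ g T := by
    have := h0 T hT0
    rw [hcT] at this
    linarith [neg_abs_le (g 0)]
  have h2 : g (-T) ≤ 0 := by
    have := h0' (-T) (by linarith)
    have h3 : c * (-T) = -|g 0| := by rw [mul_neg, hcT]
    rw [h3] at this
    linarith [le_abs_self (g 0)]
  obtain ⟨z, -, hz⟩ := intermediate_value_Icc (by linarith : -T ≤ T) hcont.continuousOn ⟨h2, h1⟩
  refine ⟨z, ?_⟩
  simpa [hg] using hz

/-- centred potential -/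
noncomputable def cen (W : F × ℝ → ℝ) (p : F × ℝ) (q : F × ℝ) : ℝ :=
  W (p + q) - W p - fderiv ℝ W p q

theorem contDiff_cen {W : F × ℝ → ℝ} (hW : ContDiff ℝ ∞ W) (p : F × ℝ) : ContDiff ℝ ∞ (cen W p) := by
  unfold cen
  exact ((hW.comp (contDiff_const.add contDiff_id)).sub contDiff_const).sub
    (ContinuousLinearMap.contDiff _)

theorem fderiv_cen {W : F × ℝ → ℝ} (hW : ContDiff ℝ ∞ W) (p q : F × ℝ) :
    fderiv ℝ (cen W p) q = fderiv ℝ W (p + q) - fderiv ℝ W p := by
  have h1 : HasFDerivAt (fun q => W (p + q)) (fderiv ℝ W (p + q)) q := by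
    have h2 := (hW.differentiable (by simp) (p + q)).hasFDerivAt
    have h3 := h2.comp q ((hasFDerivAt_id q).const_add p)
    rw [ContinuousLinearMap.comp_id] at h3
    exact h3
  exact ((h1.sub_const (W p)).sub (fderiv ℝ W p).hasFDerivAt).fderiv

/-- norm bounds of the derivatives of the centred potential -/
theorem norm_iter_cen {W : F × ℝ → ℝ} (hW : ContDiff ℝ ∞ W) {B : ℕ → ℝ}
    (hB : ∀ k, 2 ≤ k → ∀ x, ‖iteratedFDeriv ℝ k W x‖ ≤ B k) (p q : F × ℝ) (k : ℕ) (hk : 1 ≤ k) :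
    ‖iteratedFDeriv ℝ k (cen W p) q‖ ≤ max (B k) 0 + B 2 * ‖q‖ := by
  have hB2 : 0 ≤ B 2 := (norm_nonneg _).trans (hB 2 le_rfl p)
  obtain ⟨j, rfl⟩ : ∃ j, k = j + 1 := ⟨k - 1, by omega⟩
  rw [← norm_iteratedFDeriv_fderiv]
  have hf : fderiv ℝ (cen W p) = fun q => fderiv ℝ W (p + q) - fderiv ℝ W p :=
    funext fun q => fderiv_cen hW p q
  rw [hf]
  rcases Nat.eq_zero_or_pos j with rfl | hj
  · rw [norm_iteratedFDeriv_zero]
    have := grad_lip hW (hB 2 le_rfl) p (p + q)
    rw [add_sub_cancel_left] at this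
    have h2 : 0 ≤ max (B (0 + 1)) 0 := le_max_right _ _
    linarith
  · have h1 : ContDiff ℝ ∞ (fderiv ℝ W) := (contDiff_infty_iff_fderiv.1 hW).2
    have h2 : iteratedFDeriv ℝ j (fun q => fderiv ℝ W (p + q) - fderiv ℝ W p) q =
        iteratedFDeriv ℝ j (fderiv ℝ W) (p + q) := by
      have h3 : (fun q => fderiv ℝ W (p + q) - fderiv ℝ W p) =
          (fun q => fderiv ℝ W (p + q)) - fun _ => fderiv ℝ W p := rfl
      rw [h3, iteratedFDeriv_sub_apply, iteratedFDeriv_comp_add_left,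
        iteratedFDeriv_const_of_ne (by omega : j ≠ 0)]
      · simp
      · exact ((h1.comp (contDiff_const.add contDiff_id)).of_le (by exact_mod_cast le_top)).contDiffAt
      · exact contDiff_const.contDiffAt
    rw [h2, norm_iteratedFDeriv_fderiv]
    have h4 := hB (j + 1) (by omega) (p + q)
    have h5 : B (j + 1) ≤ max (B (j + 1)) 0 := le_max_left _ _
    have h6 : 0 ≤ B 2 * ‖q‖ := by positivity
    linarith

theorem norm_iter_exp (k : ℕ) (t : ℝ) : ‖iteratedFDeriv ℝ k Real.exp t‖ = Real.exp t := by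
  rw [norm_iteratedFDeriv_eq_norm_iteratedDeriv, iteratedDeriv_eq_iterate, Real.iter_deriv_exp,
    Real.norm_eq_abs, Real.abs_exp]

/-- pointwise bound of the derivatives of `exp (-cen)` -/
theorem norm_iter_expcen {W : F × ℝ → ℝ} {c : ℝ} (h : RegG W c) {B : ℕ → ℝ}
    (hB : ∀ k, 2 ≤ k → ∀ x, ‖iteratedFDeriv ℝ k W x‖ ≤ B k) (p q : F × ℝ) (j : ℕ) :
    ‖iteratedFDeriv ℝ j (fun q => Real.exp (-cen W p q)) q‖ ≤
      j.factorial * Real.exp (-(c / 2 * ‖q‖ ^ 2)) *
        (1 + ∑ i ∈ Finset.range (j + 1), max (B i) 0 + B 2 * ‖q‖) ^ j := by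
  have hB2 : 0 ≤ B 2 := (norm_nonneg _).trans (hB 2 le_rfl p)
  have hlow : c / 2 * ‖q‖ ^ 2 ≤ cen W p q := by
    have := h.taylor_lower p q
    unfold cen
    linarith
  have hc1 : ContDiff ℝ ∞ (fun q => -cen W p q) := (contDiff_cen h.smooth p).neg
  have h1 := norm_iteratedFDeriv_comp_le (n := j) (N := ∞) (g := Real.exp)
    (f := fun q => -cen W p q) Real.contDiff_exp hc1 (by exact_mod_cast le_top) q
    (C := Real.exp (-cen W p q))
    (D := 1 + ∑ i ∈ Finset.range (j + 1), max (B i) 0 + B 2 * ‖q‖)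
    (fun i _ => (norm_iter_exp i _).le) ?_
  · refine h1.trans ?_
    have h2 : Real.exp (-cen W p q) ≤ Real.exp (-(c / 2 * ‖q‖ ^ 2)) :=
      Real.exp_le_exp.2 (by linarith)
    have hS : 0 ≤ ∑ i ∈ Finset.range (j + 1), max (B i) 0 :=
      Finset.sum_nonneg fun i _ => le_max_right _ _
    gcongr
  · intro i hi1 hij
    have h3 : ‖iteratedFDeriv ℝ i (fun q => -cen W p q) q‖ = ‖iteratedFDeriv ℝ i (cen W p) q‖ := by
      have h4 : (fun q => -cen W p q) = -cen W p := rfl
      rw [h4, iteratedFDeriv_neg_apply, norm_neg]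
    rw [h3]
    refine (norm_iter_cen h.smooth hB p q i hi1).trans ?_
    have hS : max (B i) 0 ≤ ∑ i ∈ Finset.range (j + 1), max (B i) 0 :=
      Finset.single_le_sum (f := fun i => max (B i) 0) (fun i _ => le_max_right _ _)
        (Finset.mem_range.2 (by omega))
    have hS0 : 0 ≤ max (B i) 0 := le_max_right _ _
    have hq : 0 ≤ B 2 * ‖q‖ := by positivity
    have hD : max (B i) 0 + B 2 * ‖q‖ ≤ 1 + ∑ i ∈ Finset.range (j + 1), max (B i) 0 + B 2 * ‖q‖ := by
      linarith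
    refine hD.trans (le_self_pow₀ (by linarith) (by omega))

/-- the gaussian bound -/
theorem poly_gauss {A B c R r : ℝ} (hA : 0 ≤ A) (hB : 0 ≤ B) (hc : 0 < c) (hR : 0 ≤ R) (hr : 0 ≤ r)
    (j : ℕ) :
    Real.exp (-(c / 2 * r ^ 2)) * (A + B * (R + r)) ^ j ≤
      j.factorial * Real.exp (A + B * R + B ^ 2 / c) * Real.exp (-(c / 4) * r ^ 2) := by
  have h1 : (A + B * (R + r)) ^ j ≤ j.factorial * Real.exp (A + B * (R + r)) := by
    have := Real.pow_div_factorial_le_exp (A + B * (R + r)) (by positivity) j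
    rw [div_le_iff₀ (by positivity)] at this
    linarith
  have h2 : Real.exp (-(c / 2 * r ^ 2)) * Real.exp (A + B * (R + r)) ≤
      Real.exp (A + B * R + B ^ 2 / c) * Real.exp (-(c / 4) * r ^ 2) := by
    rw [← Real.exp_add, ← Real.exp_add]
    apply Real.exp_le_exp.2
    have h3 : B * r ≤ B ^ 2 / c + c / 4 * r ^ 2 := by
      have h4 : 0 ≤ (B - c / 2 * r) ^ 2 / c := by positivity
      have h5 : (B - c / 2 * r) ^ 2 / c = B ^ 2 / c - B * r + c / 4 * r ^ 2 := by
        field_simp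
        ring
      linarith
    nlinarith
  calc _ ≤ Real.exp (-(c / 2 * r ^ 2)) * (j.factorial * Real.exp (A + B * (R + r))) := by gcongr
    _ = j.factorial * (Real.exp (-(c / 2 * r ^ 2)) * Real.exp (A + B * (R + r))) := by ring
    _ ≤ j.factorial * (Real.exp (A + B * R + B ^ 2 / c) * Real.exp (-(c / 4) * r ^ 2)) := by gcongr
    _ = _ := by ring

end

end Vale.Agent.P227.M.SC
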