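import Vale.Agent.P227.M.SC.MargReg

/-! The marginal of a regular potential is regular (smooth, all derivatives of order `≥ 2`
bounded): main statement. -/

open MeasureTheory Set Filter
open scoped Topology ContDiff

namespace Vale.Agent.P227.M.SC

section
variable {F : Type} [NormedAddCommGroup F] [NormedSpace ℝ F]

/-- gaussian majorant of the `j`-th derivative -/
noncomputable def maj (c : ℝ) (B : ℕ → ℝ) (j : ℕ) (R ζ : ℝ) : ℝ :=
  j.factorial * (j.factorial * Real.exp ((1 + ∑ i ∈ Finset.range (j + 1), max (B i) 0) + B 2 * R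
    + B 2 ^ 2 / c) * Real.exp (-(c / 4) * ζ ^ 2))

theorem maj_int {c : ℝ} (hc : 0 < c) (B : ℕ → ℝ) (j : ℕ) (R : ℝ) :
    Integrable (maj c B j R) := by
  unfold maj
  exact ((integrable_exp_neg_mul_sq (by positivity : 0 < c / 4)).const_mul _).const_mul _

theorem norm_le_maj {W : F × ℝ → ℝ} {c : ℝ} (h : RegG W c) {B : ℕ → ℝ}
    (hB : ∀ k, 2 ≤ k → ∀ x, ‖iteratedFDeriv ℝ k W x‖ ≤ B k) (p : F × ℝ) (j : ℕ) {R : ℝ}
    (hR : 0 ≤ R) (x : F) (ζ : ℝ) (hx : ‖x‖ ≤ R) :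
    ‖iteratedFDeriv ℝ j (fun q => Real.exp (-cen W p q)) (x, ζ)‖ ≤ maj c B j R ζ := by
  have hc := h.c_pos
  have hB2 : 0 ≤ B 2 := (norm_nonneg _).trans (hB 2 le_rfl p)
  refine (norm_iter_expcen h hB p (x, ζ) j).trans ?_
  have h1 : ‖((x, ζ) : F × ℝ)‖ ≤ R + |ζ| := by
    rw [Prod.norm_def]
    refine max_le (by have := abs_nonneg ζ; simp only []; linarith) ?_
    simp only [Real.norm_eq_abs]
    linarith
  have h2 : |ζ| ≤ ‖((x, ζ) : F × ℝ)‖ := by
    rw [Prod.norm_def, ← Real.norm_eq_abs]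
    exact le_max_right _ _
  have hS : 0 ≤ ∑ i ∈ Finset.range (j + 1), max (B i) 0 :=
    Finset.sum_nonneg fun i _ => le_max_right _ _
  have h3 : Real.exp (-(c / 2 * ‖((x, ζ) : F × ℝ)‖ ^ 2)) ≤ Real.exp (-(c / 2 * |ζ| ^ 2)) := by
    apply Real.exp_le_exp.2
    have : |ζ| ^ 2 ≤ ‖((x, ζ) : F × ℝ)‖ ^ 2 := by gcongr
    nlinarith
  have h4 := poly_gauss (A := 1 + ∑ i ∈ Finset.range (j + 1), max (B i) 0) (B := B 2) (c := c)
    (R := R) (r := |ζ|) (by positivity) hB2 hc hR (abs_nonneg _) j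
  rw [sq_abs] at h4
  rw [sq_abs] at h3
  unfold maj
  rw [mul_assoc]
  refine mul_le_mul_of_nonneg_left ?_ (by positivity)
  refine le_trans ?_ h4
  have h5 : (1 + ∑ i ∈ Finset.range (j + 1), max (B i) 0 + B 2 * ‖((x, ζ) : F × ℝ)‖) ^ j ≤
      (1 + ∑ i ∈ Finset.range (j + 1), max (B i) 0 + B 2 * (R + |ζ|)) ^ j := by gcongr
  exact mul_le_mul h3 h5 (by positivity) (by positivity)

theorem dom_expcen {W : F × ℝ → ℝ} {c : ℝ} (h : RegG W c) {B : ℕ → ℝ}
    (hB : ∀ k, 2 ≤ k → ∀ x, ‖iteratedFDeriv ℝ k W x‖ ≤ B k) (p : F × ℝ) :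
    Dom volume (fun q => Real.exp (-cen W p q)) := by
  intro j R
  refine ⟨maj c B j (max R 0), maj_int h.c_pos B j _, fun x z hx => ?_⟩
  exact norm_le_maj h hB p j (le_max_right _ _) x z (hx.trans (le_max_left _ _))

theorem contDiff_expcen {W : F × ℝ → ℝ} {c : ℝ} (h : RegG W c) (p : F × ℝ) :
    ContDiff ℝ ∞ (fun q => Real.exp (-cen W p q)) :=
  Real.contDiff_exp.comp (contDiff_cen h.smooth p).neg

theorem RegG.exists_B {W : F → ℝ} {c : ℝ} (h : RegG W c) :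
    ∃ B : ℕ → ℝ, ∀ k, 2 ≤ k → ∀ x, ‖iteratedFDeriv ℝ k W x‖ ≤ B k := by
  have h1 : ∀ k, ∃ b : ℝ, 2 ≤ k → ∀ x, ‖iteratedFDeriv ℝ k W x‖ ≤ b := by
    intro k
    by_cases hk : 2 ≤ k
    · obtain ⟨b, hb⟩ := h.bdd k hk
      exact ⟨b, fun _ => hb⟩
    · exact ⟨0, fun h => absurd h hk⟩
  choose B hB using h1
  exact ⟨B, hB⟩

/-- the marginal through the centred potential -/
theorem marg_eq {W : F × ℝ → ℝ} {c : ℝ} (h : RegG W c) (x : F) (z : ℝ)
    (hz : fderiv ℝ W (x, z) (0, 1) = 0) (y : F) :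
    0 < ∫ ζ : ℝ, Real.exp (-cen W (x, z) (y, ζ)) ∧
    marg W (x + y) = W (x, z) + fderiv ℝ W (x, z) (y, 0)
      - Real.log (∫ ζ : ℝ, Real.exp (-cen W (x, z) (y, ζ))) := by
  obtain ⟨B, hB⟩ := h.exists_B
  have hint := (dom_expcen h hB (x, z)).int (contDiff_expcen h (x, z)) y
  have hpos : 0 < ∫ ζ : ℝ, Real.exp (-cen W (x, z) (y, ζ)) := integral_exp_pos hint
  refine ⟨hpos, ?_⟩
  have h1 : ∫ t : ℝ, Real.exp (-W (x + y, t)) =
      Real.exp (-(W (x, z) + fderiv ℝ W (x, z) (y, 0))) *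
        ∫ ζ : ℝ, Real.exp (-cen W (x, z) (y, ζ)) := by
    rw [← integral_add_left_eq_self (fun t : ℝ => Real.exp (-W (x + y, t))) z,
      ← integral_const_mul]
    congr 1
    funext ζ
    rw [← Real.exp_add]
    congr 1
    have h2 : ((y, ζ) : F × ℝ) = (y, 0) + ζ • ((0 : F), (1 : ℝ)) := by simp
    have h3 : fderiv ℝ W (x, z) (y, ζ) = fderiv ℝ W (x, z) (y, 0) := by
      rw [h2, map_add, map_smul, hz, smul_zero, add_zero]
    unfold cen
    rw [h3]
    have h4 : (x, z) + ((y, ζ) : F × ℝ) = (x + y, z + ζ) := rfl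
    rw [h4]
    ring
  unfold marg
  rw [h1, Real.log_mul (Real.exp_pos _).ne' hpos.ne', Real.log_exp]
  ring

theorem RegG.contDiff_marg {W : F × ℝ → ℝ} {c : ℝ} (h : RegG W c) : ContDiff ℝ ∞ (marg W) := by
  obtain ⟨z, hz⟩ := h.exists_crit (0 : F)
  obtain ⟨B, hB⟩ := h.exists_B
  have h1 : marg W = fun y => W (0, z) + fderiv ℝ W (0, z) (y, 0)
      - Real.log (∫ ζ : ℝ, Real.exp (-cen W (0, z) (y, ζ))) := by
    funext y
    have := (marg_eq h 0 z hz y).2
    rwa [zero_add] at this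
  rw [h1]
  refine ContDiff.sub ?_ ?_
  · exact contDiff_const.add ((ContinuousLinearMap.contDiff _).comp
      (contDiff_id.prodMk contDiff_const))
  · exact (contDiff_par (contDiff_expcen h (0, z)) (dom_expcen h hB (0, z))).log
      fun y => (marg_eq h 0 z hz y).1.ne'

theorem RegG.bdd_marg {W : F × ℝ → ℝ} {c : ℝ} (h : RegG W c) (k : ℕ) (hk : 2 ≤ k) :
    ∃ C : ℝ, ∀ x, ‖iteratedFDeriv ℝ k (marg W) x‖ ≤ C := by
  have hc := h.c_pos
  obtain ⟨B, hB⟩ := h.exists_B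
  have hB2 : 0 ≤ B 2 := (norm_nonneg _).trans (hB 2 le_rfl (0, 0))
  set B' := B 2 + 1 with hB'
  set m : ℝ := ∫ ζ : ℝ, Real.exp (-(B' / 2) * ζ ^ 2) with hm
  set M : ℝ := ∫ ζ : ℝ, Real.exp (-(c / 2) * ζ ^ 2) with hM
  have hmi : Integrable (fun ζ : ℝ => Real.exp (-(B' / 2) * ζ ^ 2)) :=
    integrable_exp_neg_mul_sq (by positivity)
  have hMi : Integrable (fun ζ : ℝ => Real.exp (-(c / 2) * ζ ^ 2)) :=
    integrable_exp_neg_mul_sq (by positivity)
  have hmpos : 0 < m := integral_exp_pos hmi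
  -- bound of log
  have hlog : ∀ i : ℕ, ∃ C : ℝ, ∀ t ∈ Icc m M, ‖iteratedFDerivWithin ℝ i Real.log (Ioi 0) t‖ ≤ C := by
    intro i
    have h1 : ContDiffOn ℝ ∞ Real.log (Ioi 0) := fun t ht =>
      (Real.contDiffAt_log.2 (ne_of_gt ht)).contDiffWithinAt
    have h2 := h1.continuousOn_iteratedFDerivWithin (m := i) (by exact_mod_cast le_top)
      (uniqueDiffOn_Ioi 0)
    exact (isCompact_Icc).exists_bound_of_continuousOn
      (h2.mono fun t ht => lt_of_lt_of_le hmpos ht.1)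
  choose CL hCL using hlog
  set K : ℕ → ℝ := fun j => ∫ ζ : ℝ, maj c B j 0 ζ with hK
  have hK0 : ∀ j, 0 ≤ K j := fun j => integral_nonneg fun ζ => by unfold maj; positivity
  have hCL0 : ∀ i, 0 ≤ max (CL i) 0 := fun i => le_max_right _ _
  refine ⟨k.factorial * (∑ i ∈ Finset.range (k + 1), max (CL i) 0) *
    (1 + ∑ i ∈ Finset.range (k + 1), K i) ^ k, fun x => ?_⟩
  obtain ⟨z, hz⟩ := h.exists_crit x
  set N : F → ℝ := fun y => ∫ ζ : ℝ, Real.exp (-cen W (x, z) (y, ζ)) with hN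
  have hNpos : ∀ y, 0 < N y := fun y => (marg_eq h x z hz y).1
  have hNs : ContDiff ℝ ∞ N := contDiff_par (contDiff_expcen h (x, z)) (dom_expcen h hB (x, z))
  have hN0 : N 0 ∈ Icc m M := by
    have hint := (dom_expcen h hB (x, z)).int (contDiff_expcen h (x, z)) 0
    constructor
    · refine integral_mono hmi hint fun ζ => ?_
      apply Real.exp_le_exp.2
      have h1 := taylor_upper h.smooth (hB 2 le_rfl) (x, z) ((0 : F), ζ)
      have h2 : ‖((0 : F), ζ)‖ = |ζ| := by simp [Prod.norm_def]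
      rw [h2, sq_abs] at h1
      have h3 : cen W (x, z) (0, ζ) ≤ B 2 / 2 * ζ ^ 2 := by unfold cen; linarith
      have h4 : 0 ≤ ζ ^ 2 := sq_nonneg ζ
      simp only [hB']
      nlinarith
    · refine integral_mono hint hMi fun ζ => ?_
      apply Real.exp_le_exp.2
      have h1 := h.taylor_lower (x, z) ((0 : F), ζ)
      have h2 : ‖((0 : F), ζ)‖ = |ζ| := by simp [Prod.norm_def]
      rw [h2, sq_abs] at h1
      have h3 : c / 2 * ζ ^ 2 ≤ cen W (x, z) (0, ζ) := by unfold cen; linarith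
      linarith
  have hNd : ∀ i, ‖iteratedFDeriv ℝ i N 0‖ ≤ K i := by
    intro i
    refine ((par_main i (contDiff_expcen h (x, z)) (dom_expcen h hB (x, z))).2 0).trans ?_
    refine integral_mono ((dom_expcen h hB (x, z)).int_iter (contDiff_expcen h (x, z)) i 0)
      (maj_int hc B i 0) fun ζ => ?_
    exact norm_le_maj h hB (x, z) i le_rfl 0 ζ (by simp)
  have hcomp : ‖iteratedFDeriv ℝ k (Real.log ∘ N) 0‖ ≤
      k.factorial * (∑ i ∈ Finset.range (k + 1), max (CL i) 0) *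
        (1 + ∑ i ∈ Finset.range (k + 1), K i) ^ k := by
    refine norm_iteratedFDeriv_comp_le' (N := ∞) (t := Ioi 0) ?_ (uniqueDiffOn_Ioi 0) ?_ hNs
      (by exact_mod_cast le_top) 0 ?_ ?_
    · rintro _ ⟨y, rfl⟩
      exact hNpos y
    · exact fun t ht => (Real.contDiffAt_log.2 (ne_of_gt ht)).contDiffWithinAt
    · intro i hi
      refine (hCL i _ hN0).trans ((le_max_left (CL i) 0).trans ?_)
      exact Finset.single_le_sum (f := fun i => max (CL i) 0) (fun i _ => hCL0 i)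
        (Finset.mem_range.2 (by omega))
    · intro i hi1 hik
      refine (hNd i).trans ?_
      have h1 : K i ≤ ∑ i ∈ Finset.range (k + 1), K i :=
        Finset.single_le_sum (f := K) (fun i _ => hK0 i) (Finset.mem_range.2 (by omega))
      have h2 : 0 ≤ ∑ i ∈ Finset.range (k + 1), K i := Finset.sum_nonneg fun i _ => hK0 i
      exact (by linarith : K i ≤ 1 + ∑ i ∈ Finset.range (k + 1), K i).trans
        (le_self_pow₀ (by linarith) (by omega))
  have h1 : iteratedFDeriv ℝ k (marg W) x = iteratedFDeriv ℝ k (fun y => marg W (x + y)) 0 := by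
    rw [iteratedFDeriv_comp_add_left, add_zero]
  have h2 : (fun y => marg W (x + y)) =
      (fun y => W (x, z) + fderiv ℝ W (x, z) (y, 0)) - (Real.log ∘ N) :=
    funext fun y => (marg_eq h x z hz y).2
  set A : F → ℝ := fun y => W (x, z) + fderiv ℝ W (x, z) (y, 0) with hA
  have hAs : ContDiff ℝ ∞ A := contDiff_const.add ((ContinuousLinearMap.contDiff _).comp
      (contDiff_id.prodMk contDiff_const))
  have hlogs : ContDiff ℝ ∞ (Real.log ∘ N) := hNs.log fun y => (hNpos y).ne'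
  have hA0 : iteratedFDeriv ℝ k A 0 = 0 := by
    obtain ⟨j, rfl⟩ : ∃ j, k = j + 1 := ⟨k - 1, by omega⟩
    rw [← norm_eq_zero, ← norm_iteratedFDeriv_fderiv]
    have hf : fderiv ℝ A = fun _ => (fderiv ℝ W (x, z)).comp (ContinuousLinearMap.inl ℝ F ℝ) := by
      funext y
      have h3 : HasFDerivAt A ((fderiv ℝ W (x, z)).comp (ContinuousLinearMap.inl ℝ F ℝ)) y := by
        have h4 := ((fderiv ℝ W (x, z)).comp (ContinuousLinearMap.inl ℝ F ℝ)).hasFDerivAt (x := y)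
        exact h4.const_add (W (x, z))
      exact h3.fderiv
    rw [hf, iteratedFDeriv_const_of_ne (by omega : j ≠ 0)]
    simp
  rw [h1, h2, iteratedFDeriv_sub_apply ((hAs.of_le (by exact_mod_cast le_top)).contDiffAt)
    ((hlogs.of_le (by exact_mod_cast le_top)).contDiffAt), hA0, zero_sub, norm_neg]
  exact hcomp

end

end Vale.Agent.P227.M.SC
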