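import Mathlib

namespace Vale.Agent.P227.M.SC

open Set Filter Topology

/-- second order condition at a minimum -/
lemma second_nonneg {f g : ℝ → ℝ} {x d : ℝ} (hf : ∀ y, HasDerivAt f (g y) y)
    (hg : HasDerivAt g d x) (hmin : ∀ y, f x ≤ f y) : 0 ≤ d := by
  by_contra hd
  push Not at hd
  have h0 : g x = 0 := by
    have hl : IsLocalMin f x := Filter.Eventually.of_forall hmin
    exact hl.hasDerivAt_eq_zero (hf x)
  have hslope : Tendsto (slope g x) (𝓝[≠] x) (𝓝 d) := hg.tendsto_slope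
  have hev : ∀ᶠ y in 𝓝[>] x, slope g x y < 0 :=
    (hslope.mono_left (nhdsWithin_mono x (fun y hy => ne_of_gt hy))).eventually_lt_const hd
  obtain ⟨u, hu, hIoo⟩ := mem_nhdsGT_iff_exists_Ioo_subset.1 hev
  have hxu : x < u := hu
  have hneg : ∀ y ∈ Ioo x u, g y < 0 := by
    intro y hy
    have h1 : slope g x y < 0 := hIoo hy
    rw [slope_def_field, h0, sub_zero, div_neg_iff] at h1
    rcases h1 with h1 | h1
    · exact absurd h1.2 (not_lt.2 (sub_nonneg.2 hy.1.le))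
    · exact h1.1
  have hanti : StrictAntiOn f (Icc x ((x + u) / 2)) := by
    apply strictAntiOn_of_deriv_neg (convex_Icc _ _)
    · exact fun y _ => (hf y).continuousAt.continuousWithinAt
    · intro y hy
      rw [interior_Icc] at hy
      rw [(hf y).deriv]
      exact hneg y ⟨hy.1, by linarith [hy.2]⟩
  have h2 : f ((x + u) / 2) < f x :=
    hanti (left_mem_Icc.2 (by linarith)) (right_mem_Icc.2 (by linarith)) (by linarith)
  exact absurd (hmin ((x + u) / 2)) (not_le.2 h2)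

/-- the time derivative at the first touching time -/
lemma first_nonpos {f : ℝ → ℝ} {s d : ℝ} (hf : HasDerivWithinAt f d (Iic s) s) (hs : 0 < s)
    (h0 : f s = 0) (hpos : ∀ r ∈ Ico 0 s, 0 < f r) : d ≤ 0 := by
  by_contra hd
  push Not at hd
  have hslope : Tendsto (slope f s) (𝓝[Iio s] s) (𝓝 d) := by
    have h1 := hasDerivWithinAt_iff_tendsto_slope.1 hf
    refine h1.mono_left (nhdsWithin_mono s ?_)
    intro y hy
    have hy' : y < s := hy
    exact ⟨hy'.le, hy'.ne⟩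
  have hev : ∀ᶠ y in 𝓝[<] s, 0 < slope f s y := hslope.eventually_const_lt hd
  have hev2 : ∀ᶠ y in 𝓝[<] s, y ∈ Ioo 0 s := Ioo_mem_nhdsLT hs
  obtain ⟨y, hy1, hy2⟩ := (hev.and hev2).exists
  rw [slope_def_field, h0, sub_zero] at hy1
  have h3 := hpos y ⟨hy2.1.le, hy2.2⟩
  have h4 : f y / (y - s) < 0 := div_neg_of_pos_of_neg h3 (by linarith [hy2.2])
  linarith

/-- **Maximum principle** on `[0,S] × ℝ × (ℝ / 2π)` with a drift of linear growth in `z`. -/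
theorem maxP {S K M : ℝ} {G Gs Gz Gzz Gt B R C : ℝ → ℝ → ℝ → ℝ}
    (hcont : ContinuousOn (fun q : ℝ × ℝ × ℝ => G q.1 q.2.1 q.2.2) (Icc 0 S ×ˢ univ))
    (hbdd : ∀ s ∈ Icc 0 S, ∀ z t, -M ≤ G s z t)
    (hper : ∀ s z, Function.Periodic (G s z) (2 * Real.pi))
    (h0 : ∀ z t, 0 ≤ G 0 z t)
    (hs : ∀ s ∈ Ioc 0 S, ∀ z t, HasDerivWithinAt (fun r => G r z t) (Gs s z t) (Iic s) s)
    (hz : ∀ s ∈ Ioc 0 S, ∀ z t, HasDerivAt (fun y => G s y t) (Gz s z t) z)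
    (hzz : ∀ s ∈ Ioc 0 S, ∀ z t, HasDerivAt (fun y => Gz s y t) (Gzz s z t) z)
    (ht : ∀ s ∈ Ioc 0 S, ∀ z t, HasDerivAt (fun y => G s z y) (Gt s z t) t)
    (hineq : ∀ s ∈ Ioc 0 S, ∀ z t, G s z t < 0 →
      1 / 2 * Gzz s z t - B s z t * Gz s z t + R s z t * Gt s z t + C s z t * G s z t ≤ Gs s z t)
    (hB : ∀ s ∈ Ioc 0 S, ∀ z t, |B s z t| ≤ K * (1 + |z|))
    (hC : ∀ s ∈ Ioc 0 S, ∀ z t, |C s z t| ≤ K) :
    ∀ s ∈ Icc 0 S, ∀ z t, 0 ≤ G s z t := by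
  intro s₁ hs₁ z₁ t₁
  by_contra hneg
  push Not at hneg
  have hS0 : 0 < S := by
    rcases eq_or_lt_of_le hs₁.1 with h | h
    · rw [← h] at hneg
      exact absurd (h0 z₁ t₁) (not_le.2 hneg)
    · exact h.trans_le hs₁.2
  have hK : 0 ≤ K := (abs_nonneg _).trans (hC S ⟨hS0, le_rfl⟩ 0 0)
  set lam : ℝ := 2 + 4 * K with hlam
  -- the barrier
  set N : ℝ → ℝ → ℝ := fun s z => (1 + z ^ 2) * Real.exp (lam * s) with hN
  have hNpos : ∀ s z, 0 < N s z := fun s z => by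
    rw [hN]; positivity
  obtain ⟨η, hη, hηneg⟩ : ∃ η : ℝ, 0 < η ∧ G s₁ z₁ t₁ + η * N s₁ z₁ < 0 := by
    refine ⟨-(G s₁ z₁ t₁) / (2 * N s₁ z₁), ?_, ?_⟩
    · exact div_pos (by linarith) (by linarith [hNpos s₁ z₁])
    · have h1 := (hNpos s₁ z₁).ne'
      have : -(G s₁ z₁ t₁) / (2 * N s₁ z₁) * N s₁ z₁ = -(G s₁ z₁ t₁) / 2 := by
        field_simp
      rw [this]; linarith
  set H : ℝ → ℝ → ℝ → ℝ := fun s z t => G s z t + η * N s z with hH
  have hNc : Continuous fun q : ℝ × ℝ × ℝ => N q.1 q.2.1 := by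
    rw [hN]; fun_prop
  have hHc : ContinuousOn (fun q : ℝ × ℝ × ℝ => H q.1 q.2.1 q.2.2) (Icc 0 S ×ˢ univ) :=
    hcont.add (continuousOn_const.mul hNc.continuousOn)
  -- far away `H` is positive
  set Z : ℝ := |M| / η + 1 with hZ
  have hZ1 : 1 ≤ Z := by
    rw [hZ]; linarith [div_nonneg (abs_nonneg M) hη.le]
  have hfar : ∀ s ∈ Icc 0 S, ∀ z t, Z ≤ |z| → 0 < H s z t := by
    intro s hs' z t hz'
    have h1 := hbdd s hs' z t
    have h2 : Z ≤ N s z := by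
      have h3 : Z * 1 ≤ |z| * |z| := mul_le_mul hz' (hZ1.trans hz') zero_le_one (abs_nonneg z)
      have h4 : |z| * |z| = z ^ 2 := by rw [← sq, sq_abs]
      have h5 : (1 : ℝ) ≤ Real.exp (lam * s) :=
        Real.one_le_exp (mul_nonneg (by linarith) hs'.1)
      have h6 : 1 + z ^ 2 ≤ N s z := by
        rw [hN]
        exact le_mul_of_one_le_right (by positivity) h5
      linarith
    have h7 : η * Z = |M| + η := by
      rw [hZ]; field_simp
    have h8 : η * Z ≤ η * N s z := mul_le_mul_of_nonneg_left h2 hη.le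
    have h9 := le_abs_self M
    simp only [hH]
    linarith
  have hHper : ∀ s z, Function.Periodic (H s z) (2 * Real.pi) := by
    intro s z t
    simp only [hH]
    rw [hper s z t]
  have h2pi : 0 < 2 * Real.pi := by positivity
  -- the compact set where `H ≤ 0`
  set A : Set (ℝ × ℝ × ℝ) := {q | q ∈ Icc 0 S ×ˢ (Icc (-Z) Z ×ˢ Icc 0 (2 * Real.pi)) ∧
    H q.1 q.2.1 q.2.2 ≤ 0} with hA
  have hAc : IsCompact A := by
    have hk : IsCompact (Icc (0 : ℝ) S ×ˢ (Icc (-Z) Z ×ˢ Icc 0 (2 * Real.pi))) :=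
      isCompact_Icc.prod (isCompact_Icc.prod isCompact_Icc)
    have hcl : IsClosed A := by
      have h1 : ContinuousOn (fun q : ℝ × ℝ × ℝ => H q.1 q.2.1 q.2.2)
          (Icc (0 : ℝ) S ×ˢ (Icc (-Z) Z ×ˢ Icc 0 (2 * Real.pi))) :=
        hHc.mono (prod_mono_right (subset_univ _))
      exact h1.preimage_isClosed_of_isClosed hk.isClosed (isClosed_Iic (a := (0 : ℝ)))
    exact hk.of_isClosed_subset hcl (fun q hq => hq.1)
  have hmemA : ∀ s ∈ Icc 0 S, ∀ z t, H s z t ≤ 0 → ∃ t', (s, z, t') ∈ A := by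
    intro s hs' z t hle
    obtain ⟨t', ht', he⟩ := (hHper s z).exists_mem_Ico₀ h2pi t
    refine ⟨t', ⟨⟨hs', ⟨?_, ⟨ht'.1, ht'.2.le⟩⟩⟩, ?_⟩⟩
    · by_contra hcon
      have h1 : Z ≤ |z| := by
        rw [← not_lt]
        intro h2
        exact hcon ⟨(abs_lt.1 h2).1.le, (abs_lt.1 h2).2.le⟩
      exact absurd (hfar s hs' z t h1) (not_lt.2 hle)
    · change H s z t' ≤ 0
      rw [← he]; exact hle
  have hAne : A.Nonempty := by
    obtain ⟨t', ht'⟩ := hmemA s₁ hs₁ z₁ t₁ hηneg.le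
    exact ⟨_, ht'⟩
  obtain ⟨q, hqA, hqmin⟩ := hAc.exists_isMinOn hAne continuous_fst.continuousOn
  obtain ⟨s₀, z₀, t₀⟩ := q
  have hs₀ : s₀ ∈ Icc 0 S := hqA.1.1
  have hHle : H s₀ z₀ t₀ ≤ 0 := hqA.2
  have hbefore : ∀ s ∈ Ico 0 s₀, ∀ z t, 0 < H s z t := by
    intro s hs' z t
    by_contra hcon
    push Not at hcon
    obtain ⟨t', ht'⟩ := hmemA s ⟨hs'.1, hs'.2.le.trans hs₀.2⟩ z t hcon
    have h1 : s₀ ≤ s := hqmin ht'
    exact absurd h1 (not_le.2 hs'.2)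
  have hs₀pos : 0 < s₀ := by
    rcases eq_or_lt_of_le hs₀.1 with h | h
    · exfalso
      have h1 : 0 < H 0 z₀ t₀ := by
        have h2 := h0 z₀ t₀
        have h3 := mul_pos hη (hNpos 0 z₀)
        simp only [hH]; linarith
      rw [← h] at hHle
      exact absurd hHle (not_le.2 h1)
    · exact h
  have hs₀' : s₀ ∈ Ioc 0 S := ⟨hs₀pos, hs₀.2⟩
  have hat : ∀ z t, 0 ≤ H s₀ z t := by
    intro z t
    have hc : ContinuousWithinAt (fun r => H r z t) (Ico 0 s₀) s₀ := by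
      have h1 : ContinuousOn (fun r : ℝ => H r z t) (Icc 0 S) :=
        hHc.comp (f := fun r : ℝ => (r, z, t)) (by fun_prop) (fun r hr => ⟨hr, mem_univ _⟩)
      exact (h1 s₀ hs₀).mono (fun r hr => ⟨hr.1, hr.2.le.trans hs₀.2⟩)
    have hne : (𝓝[Ico 0 s₀] s₀).NeBot := by
      rw [← mem_closure_iff_nhdsWithin_neBot, closure_Ico hs₀pos.ne]
      exact right_mem_Icc.2 hs₀pos.le
    refine ge_of_tendsto hc ?_
    exact eventually_nhdsWithin_of_forall fun r hr => (hbefore r hr z t).le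
  have hzero : H s₀ z₀ t₀ = 0 := le_antisymm hHle (hat z₀ t₀)
  have hminH : ∀ z t, H s₀ z₀ t₀ ≤ H s₀ z t := by
    intro z t; rw [hzero]; exact hat z t
  -- derivatives of the barrier
  set E : ℝ := η * Real.exp (lam * s₀) with hE
  have hEpos : 0 < E := by positivity
  have hNz : ∀ y, HasDerivAt (fun y => η * N s₀ y) (2 * E * y) y := by
    intro y
    have h1 : HasDerivAt (fun y : ℝ => 1 + y ^ 2) (2 * y) y := by
      simpa using (hasDerivAt_pow 2 y).const_add 1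
    have h2 := (h1.mul_const (Real.exp (lam * s₀))).const_mul η
    refine h2.congr_deriv ?_
    rw [hE]; ring
  have hNs : HasDerivAt (fun r => η * N r z₀) (lam * E * (1 + z₀ ^ 2)) s₀ := by
    have h1 : HasDerivAt (fun r : ℝ => Real.exp (lam * r)) (Real.exp (lam * s₀) * lam) s₀ := by
      have h2 : HasDerivAt (fun r : ℝ => lam * r) lam s₀ := by
        simpa using (hasDerivAt_id s₀).const_mul lam
      exact h2.exp
    have h2 := (h1.const_mul (1 + z₀ ^ 2)).const_mul η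
    refine h2.congr_deriv ?_
    rw [hE]; ring
  -- conditions at the touching point
  have hGt : Gt s₀ z₀ t₀ = 0 := by
    have h1 : HasDerivAt (fun y => H s₀ z₀ y) (Gt s₀ z₀ t₀) t₀ := by
      simpa [hH] using (ht s₀ hs₀' z₀ t₀).add_const (η * N s₀ z₀)
    have hl : IsLocalMin (fun y => H s₀ z₀ y) t₀ :=
      Filter.Eventually.of_forall fun y => hminH z₀ y
    exact hl.hasDerivAt_eq_zero h1
  have hHz : ∀ y, HasDerivAt (fun y => H s₀ y t₀) (Gz s₀ y t₀ + 2 * E * y) y :=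
    fun y => (hz s₀ hs₀' y t₀).add (hNz y)
  have hGz : Gz s₀ z₀ t₀ = -(2 * E * z₀) := by
    have hl : IsLocalMin (fun y => H s₀ y t₀) z₀ :=
      Filter.Eventually.of_forall fun y => hminH y t₀
    have := hl.hasDerivAt_eq_zero (hHz z₀)
    linarith
  have hGzz : 0 ≤ Gzz s₀ z₀ t₀ + 2 * E := by
    refine second_nonneg hHz ?_ (fun y => hminH y t₀)
    have h1 : HasDerivAt (fun y : ℝ => 2 * E * y) (2 * E) z₀ := by
      simpa using (hasDerivAt_id z₀).const_mul (2 * E)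
    exact (hzz s₀ hs₀' z₀ t₀).add h1
  have hGs : Gs s₀ z₀ t₀ + lam * E * (1 + z₀ ^ 2) ≤ 0 :=
    first_nonpos (f := fun r => H r z₀ t₀)
      ((hs s₀ hs₀' z₀ t₀).add hNs.hasDerivWithinAt) hs₀pos hzero
      (fun r hr => hbefore r hr z₀ t₀)
  have hGval : G s₀ z₀ t₀ = -(E * (1 + z₀ ^ 2)) := by
    have h1 : G s₀ z₀ t₀ + η * N s₀ z₀ = 0 := hzero
    have h2 : η * N s₀ z₀ = E * (1 + z₀ ^ 2) := by
      rw [hE, hN]; ring
    linarith
  have hGneg : G s₀ z₀ t₀ < 0 := by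
    rw [hGval]
    have : 0 < E * (1 + z₀ ^ 2) := by positivity
    linarith
  have hmain := hineq s₀ hs₀' z₀ t₀ hGneg
  have hb := hB s₀ hs₀' z₀ t₀
  have hc := hC s₀ hs₀' z₀ t₀
  rw [hGt, hGz, hGval] at hmain
  have hb2 : -(K * (1 + |z₀|) * |z₀|) ≤ B s₀ z₀ t₀ * z₀ := by
    have h1 : |B s₀ z₀ t₀ * z₀| ≤ K * (1 + |z₀|) * |z₀| := by
      rw [abs_mul]
      exact mul_le_mul_of_nonneg_right hb (abs_nonneg _)
    exact (abs_le.1 h1).1
  have hc2 : C s₀ z₀ t₀ ≤ K := (abs_le.1 hc).2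
  have hz2 : (1 + |z₀|) * |z₀| ≤ 3 / 2 * (1 + z₀ ^ 2) := by
    have h1 := sq_abs z₀
    nlinarith [sq_nonneg (|z₀| - 1), abs_nonneg z₀]
  have hz3 : K * ((1 + |z₀|) * |z₀|) ≤ K * (3 / 2 * (1 + z₀ ^ 2)) :=
    mul_le_mul_of_nonneg_left hz2 hK
  have h5 : -(K * (3 / 2 * (1 + z₀ ^ 2))) ≤ B s₀ z₀ t₀ * z₀ := by
    have : K * (1 + |z₀|) * |z₀| = K * ((1 + |z₀|) * |z₀|) := by ring
    linarith
  have h6 : E * -(K * (3 / 2 * (1 + z₀ ^ 2))) ≤ E * (B s₀ z₀ t₀ * z₀) :=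
    mul_le_mul_of_nonneg_left h5 hEpos.le
  have h7 : C s₀ z₀ t₀ * (E * (1 + z₀ ^ 2)) ≤ K * (E * (1 + z₀ ^ 2)) :=
    mul_le_mul_of_nonneg_right hc2 (by positivity)
  have h8 : 0 < E * (1 + z₀ ^ 2) := by positivity
  have h9 : 0 ≤ E * z₀ ^ 2 := by positivity
  rw [hlam] at hGs
  nlinarith [mul_nonneg hK h8.le]

end Vale.Agent.P227.M.SC
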