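import Mathlib

/-!
# P227, block SC: an abstract parabolic maximum principle

`[0,S] × ℝ × ℝ`, second order in `z`, pure transport in `w`, coefficients of linear growth,
`u` bounded below by a cubic.
-/

open Filter Topology Set

namespace P227.M.SC

/-- necessary second order condition at a local minimum -/
lemma second_nonneg_of_isLocalMin {f f' : ℝ → ℝ} {f2 x : ℝ}
    (hf : ∀ y, HasDerivAt f (f' y) y) (hf2 : HasDerivAt f' f2 x)
    (hmin : IsLocalMin f x) : 0 ≤ f2 := by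
  by_contra hneg
  push Not at hneg
  have hd : deriv f = f' := by ext y; exact (hf y).deriv
  have h0 : f' x = 0 := by
    have := hmin.deriv_eq_zero
    rwa [hd] at this
  have hdneg : deriv (fun y => -f y) = fun y => -f' y := by
    ext y; exact (hf y).neg.deriv
  have hmax : IsLocalMin (fun y => -f y) x := by
    apply isLocalMin_of_deriv_deriv_pos
    · rw [hdneg]
      have : HasDerivAt (fun y => -f' y) (-f2) x := hf2.neg
      rw [this.deriv]; linarith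
    · rw [hdneg]; simp [h0]
    · exact (hf x).neg.continuousAt
  have hconst : f =ᶠ[𝓝 x] fun _ => f x := by
    filter_upwards [hmin, hmax] with y h1 h2
    have h2' : -f x ≤ -f y := h2
    linarith
  have hder0 : f' =ᶠ[𝓝 x] fun _ => 0 := by
    have := hconst.eventuallyEq_nhds
    filter_upwards [this] with y hy
    have h3 : HasDerivAt (fun _ : ℝ => f x) (f' y) y := (hf y).congr_of_eventuallyEq hy.symm
    have h4 : HasDerivAt (fun _ : ℝ => f x) 0 y := hasDerivAt_const y (f x)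
    exact h3.unique h4
  have h5 : HasDerivAt (fun _ : ℝ => (0:ℝ)) f2 x := hf2.congr_of_eventuallyEq hder0.symm
  have h6 : HasDerivAt (fun _ : ℝ => (0:ℝ)) 0 x := hasDerivAt_const x 0
  have := h5.unique h6
  linarith

/-- time derivative at a minimum over the past -/
lemma time_nonpos_of_min {f : ℝ → ℝ} {f1 s : ℝ} (hs : 0 < s)
    (hf : HasDerivAt f f1 s) (hmin : ∀ s' ∈ Icc 0 s, f s ≤ f s') : f1 ≤ 0 := by
  by_contra hpos
  push Not at hpos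
  have h1 : ∀ᶠ y in 𝓝[<] s, f y < f s := by
    have h2 : ∀ᶠ y in 𝓝[<] s, 0 < slope f s y := by
      have h3 : Tendsto (slope f s) (𝓝[<] s) (𝓝 f1) :=
        (hasDerivAt_iff_tendsto_slope.1 hf).mono_left
          (nhdsWithin_mono s (fun y hy => ne_of_lt hy))
      exact h3.eventually (lt_mem_nhds hpos)
    filter_upwards [h2, self_mem_nhdsWithin] with y hy hlt
    have hlt' : y - s < 0 := by simpa using hlt
    rw [slope_def_field] at hy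
    by_contra hcon
    push Not at hcon
    have : (f y - f s) / (y - s) ≤ 0 := div_nonpos_of_nonneg_of_nonpos (by linarith) hlt'.le
    linarith
  have h4 : ∀ᶠ y in 𝓝[<] s, y ∈ Icc 0 s := by
    have : Ioo 0 s ∈ 𝓝[<] s := Ioo_mem_nhdsLT hs
    filter_upwards [this] with y hy
    exact ⟨hy.1.le, hy.2.le⟩
  obtain ⟨y, hy1, hy2⟩ := (h1.and h4).exists
  exact absurd (hmin y hy2) (not_le.2 hy1)

/-- elementary bound for the drift term on the barrier -/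
lemma drift_bound {C x b : ℝ} (hC : 0 ≤ C) (hb : |b| ≤ C * (1 + |x|)) :
    -(3 * C * (1 + x ^ 2)) ≤ 2 * x * b := by
  have h1 : |2 * x * b| = 2 * (|x| * |b|) := by
    rw [abs_mul, abs_mul]; simp; ring
  have h2 : |x| * |b| ≤ |x| * (C * (1 + |x|)) := mul_le_mul_of_nonneg_left hb (abs_nonneg x)
  have h3 : |x| * (C * (1 + |x|)) = C * (|x| + |x| ^ 2) := by ring
  have h4 : |x| + |x| ^ 2 ≤ 3 / 2 * (1 + x ^ 2) := by
    have : |x| ^ 2 = x ^ 2 := sq_abs x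
    nlinarith [sq_nonneg (|x| - 1)]
  have h5 : C * (|x| + |x| ^ 2) ≤ C * (3 / 2 * (1 + x ^ 2)) := mul_le_mul_of_nonneg_left h4 hC
  have h6 : |2 * x * b| ≤ 3 * C * (1 + x ^ 2) := by
    rw [h1]; linarith
  exact (abs_le.1 h6).1

lemma drift_bound' {C x b : ℝ} (hC : 0 ≤ C) (hb : |b| ≤ C * (1 + |x|)) :
    2 * x * b ≤ 3 * C * (1 + x ^ 2) := by
  have hb' : |-b| ≤ C * (1 + |x|) := by rw [abs_neg]; exact hb
  have h := drift_bound hC hb'
  have h2 : 2 * x * -b = -(2 * x * b) := by ring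
  rw [h2] at h
  linarith

/-- positivity of the parabolic operator on the barrier -/
lemma barrier_pos {C z w b ρ : ℝ} (hC : 0 ≤ C) (hb : |b| ≤ C * (1 + |z|))
    (hρ : |ρ| ≤ C * (1 + |w|)) :
    0 < (2 + 6 * C) * ((1 + z ^ 2) + (1 + w ^ 2) ^ 2) - 1 + 2 * z * b
        - 4 * w * (1 + w ^ 2) * ρ := by
  have h1 := drift_bound hC hb
  have h2 := drift_bound' hC hρ
  have h3 : 4 * w * (1 + w ^ 2) * ρ ≤ 6 * C * (1 + w ^ 2) ^ 2 := by
    have h4 : 4 * w * (1 + w ^ 2) * ρ = (2 * w * ρ) * (2 * (1 + w ^ 2)) := by ring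
    have h5 : 6 * C * (1 + w ^ 2) ^ 2 = (3 * C * (1 + w ^ 2)) * (2 * (1 + w ^ 2)) := by ring
    rw [h4, h5]
    exact mul_le_mul_of_nonneg_right h2 (by positivity)
  have h6 : 0 ≤ 3 * C * (1 + z ^ 2) := by positivity
  have h7 : 0 ≤ z ^ 2 := sq_nonneg z
  have h8 : 0 < (1 + w ^ 2) ^ 2 := by positivity
  have h9 : (2 + 6 * C) * ((1 + z ^ 2) + (1 + w ^ 2) ^ 2)
      = 2 + 2 * z ^ 2 + 2 * (1 + w ^ 2) ^ 2 + 2 * (3 * C * (1 + z ^ 2))
        + 6 * C * (1 + w ^ 2) ^ 2 := by ring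
  rw [h9]
  linarith

/-- positivity for large `w` -/
lemma box_w {C ε R a w : ℝ} (hC : 0 ≤ C) (hε : 0 < ε) (hR1 : 1 ≤ R) (hεR : 2 * C < ε * R)
    (hw : R ≤ |w|) (ha : -(C * (1 + |w| ^ 3)) ≤ a) (z H : ℝ)
    (hH : (1 + z ^ 2) + (1 + w ^ 2) ^ 2 ≤ H) : 0 < a + ε * H := by
  have hw1 : 1 ≤ |w| := hR1.trans hw
  have h3 : w ^ 4 = |w| ^ 4 := by
    rw [← abs_pow]; rw [abs_of_nonneg (by positivity)]
  have h4 : |w| ^ 4 ≤ (1 + w ^ 2) ^ 2 := by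
    rw [← h3]
    have : (1 + w ^ 2) ^ 2 = 1 + 2 * w ^ 2 + w ^ 4 := by ring
    rw [this]
    have := sq_nonneg w
    linarith
  have h1 : 1 ≤ |w| ^ 3 := one_le_pow₀ hw1
  have h5 : C * (1 + |w| ^ 3) ≤ C * (2 * |w| ^ 3) := mul_le_mul_of_nonneg_left (by linarith) hC
  have h6 : 2 * C * |w| ^ 3 < ε * R * |w| ^ 3 :=
    mul_lt_mul_of_pos_right hεR (by linarith)
  have h7 : R * |w| ^ 3 ≤ |w| ^ 4 := by
    have : |w| ^ 4 = |w| * |w| ^ 3 := by ring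
    rw [this]
    exact mul_le_mul_of_nonneg_right hw (by positivity)
  have h8 : ε * (R * |w| ^ 3) ≤ ε * |w| ^ 4 := mul_le_mul_of_nonneg_left h7 hε.le
  have h9 : ε * |w| ^ 4 ≤ ε * H := by
    apply mul_le_mul_of_nonneg_left _ hε.le
    have := sq_nonneg z
    linarith
  have h10 : C * (2 * |w| ^ 3) = 2 * C * |w| ^ 3 := by ring
  have h11 : ε * R * |w| ^ 3 = ε * (R * |w| ^ 3) := by ring
  linarith

/-- positivity for large `z` -/
lemma box_z {C ε R R' a w z : ℝ} (hC : 0 ≤ C) (hε : 0 < ε) (hR'1 : 1 ≤ R')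
    (hεR' : C * (1 + R ^ 3) < ε * R') (hw : |w| ≤ R) (hz : R' ≤ |z|)
    (ha : -(C * (1 + |w| ^ 3)) ≤ a) (H : ℝ)
    (hH : (1 + z ^ 2) + (1 + w ^ 2) ^ 2 ≤ H) : 0 < a + ε * H := by
  have h3 : |w| ^ 3 ≤ R ^ 3 := pow_le_pow_left₀ (abs_nonneg w) hw 3
  have h4 : C * (1 + |w| ^ 3) ≤ C * (1 + R ^ 3) := by
    apply mul_le_mul_of_nonneg_left _ hC; linarith
  have h5 : R' ≤ z ^ 2 := by
    have h1 : |z| ≤ |z| * |z| := le_mul_of_one_le_right (abs_nonneg z) (hR'1.trans hz)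
    have h2 : |z| * |z| = z ^ 2 := by rw [← sq, sq_abs]
    linarith
  have h6 : ε * R' ≤ ε * H := by
    apply mul_le_mul_of_nonneg_left _ hε.le
    have : 0 ≤ (1 + w ^ 2) ^ 2 := by positivity
    linarith
  linarith

/-- the barrier -/
noncomputable def bar (K s z w : ℝ) : ℝ := Real.exp (K * s) * ((1 + z ^ 2) + (1 + w ^ 2) ^ 2)

lemma bar_low {K s : ℝ} (hK : 0 ≤ K) (hs : 0 ≤ s) (z w : ℝ) :
    (1 + z ^ 2) + (1 + w ^ 2) ^ 2 ≤ bar K s z w := by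
  have h1 : 1 ≤ Real.exp (K * s) := Real.one_le_exp (mul_nonneg hK hs)
  have h2 : 0 ≤ (1 + z ^ 2) + (1 + w ^ 2) ^ 2 := by positivity
  exact le_mul_of_one_le_left h2 h1

lemma bar_s (K s z w : ℝ) : HasDerivAt (fun s' => bar K s' z w)
    (K * Real.exp (K * s) * ((1 + z ^ 2) + (1 + w ^ 2) ^ 2)) s := by
  have h1 : HasDerivAt (fun s' : ℝ => Real.exp (K * s')) (Real.exp (K * s) * (K * 1)) s :=
    ((hasDerivAt_id s).const_mul K).exp
  have h2 := h1.mul_const ((1 + z ^ 2) + (1 + w ^ 2) ^ 2)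
  exact h2.congr_deriv (by ring)

lemma bar_z (K s z w : ℝ) : HasDerivAt (fun z' => bar K s z' w)
    (Real.exp (K * s) * (2 * z)) z := by
  have h1 : HasDerivAt (fun z' : ℝ => (1 + z' ^ 2) + (1 + w ^ 2) ^ 2) (2 * z) z := by
    have := ((hasDerivAt_pow 2 z).const_add 1).add_const ((1 + w ^ 2) ^ 2)
    simpa using this
  exact h1.const_mul _

lemma bar_zz (K s z : ℝ) : HasDerivAt (fun z' => Real.exp (K * s) * (2 * z'))
    (Real.exp (K * s) * 2) z := by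
  have := ((hasDerivAt_id z).const_mul 2).const_mul (Real.exp (K * s))
  simpa using this

lemma bar_w (K s z w : ℝ) : HasDerivAt (fun w' => bar K s z w')
    (Real.exp (K * s) * (4 * w * (1 + w ^ 2))) w := by
  have h1 : HasDerivAt (fun w' : ℝ => 1 + w' ^ 2) (2 * w) w := by
    have := (hasDerivAt_pow 2 w).const_add 1
    simpa using this
  have h2 : HasDerivAt (fun w' : ℝ => (1 + z ^ 2) + (1 + w' ^ 2) ^ 2)
      (4 * w * (1 + w ^ 2)) w := by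
    have h3 : HasDerivAt (fun w' : ℝ => (1 + w' ^ 2) * (1 + w' ^ 2))
        (2 * w * (1 + w ^ 2) + (1 + w ^ 2) * (2 * w)) w := h1.mul h1
    have h4 := h3.const_add (1 + z ^ 2)
    have h5 : (fun w' : ℝ => (1 + z ^ 2) + (1 + w' ^ 2) ^ 2)
        = fun w' : ℝ => (1 + z ^ 2) + (1 + w' ^ 2) * (1 + w' ^ 2) := by
      ext w'; ring
    rw [h5]
    exact h4.congr_deriv (by ring)
  exact h2.const_mul _

lemma bar_cont (K : ℝ) : Continuous (fun p : ℝ × ℝ × ℝ => bar K p.1 p.2.1 p.2.2) := by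
  unfold bar
  fun_prop

/-- The differential inequality is violated at an interior negative minimum. -/
lemma interior_step {S C ε : ℝ} (hC : 0 ≤ C) (hε : 0 < ε)
    (u us uz uzz uw β r : ℝ → ℝ → ℝ → ℝ)
    (hus : ∀ s ∈ Ioc 0 S, ∀ z w, HasDerivAt (fun s' => u s' z w) (us s z w) s)
    (huz : ∀ s ∈ Ioc 0 S, ∀ z w, HasDerivAt (fun z' => u s z' w) (uz s z w) z)
    (huzz : ∀ s ∈ Ioc 0 S, ∀ z w, HasDerivAt (fun z' => uz s z' w) (uzz s z w) z)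
    (huw : ∀ s ∈ Ioc 0 S, ∀ z w, HasDerivAt (fun w' => u s z w') (uw s z w) w)
    (hβ : ∀ s ∈ Ioc 0 S, ∀ z w, |β s z w| ≤ C * (1 + |z|))
    (hr : ∀ s ∈ Ioc 0 S, ∀ z w, |r s z w| ≤ C * (1 + |w|))
    (hL : ∀ s ∈ Ioc 0 S, ∀ z w,
      0 ≤ us s z w - 1 / 2 * uzz s z w + β s z w * uz s z w - r s z w * uw s z w)
    {s₀ z₀ w₀ : ℝ} (hs₀' : s₀ ∈ Ioc 0 S)
    (hglob : ∀ s ∈ Icc 0 S, ∀ z w,
        u s₀ z₀ w₀ + ε * bar (2 + 6 * C) s₀ z₀ w₀ ≤ u s z w + ε * bar (2 + 6 * C) s z w) :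
    False := by
  have hE : 0 < Real.exp ((2 + 6 * C) * s₀) := Real.exp_pos _
  have hs₀ : s₀ ∈ Icc 0 S := ⟨hs₀'.1.le, hs₀'.2⟩
  have e_s : us s₀ z₀ w₀ + ε * ((2 + 6 * C) * Real.exp ((2 + 6 * C) * s₀)
      * ((1 + z₀ ^ 2) + (1 + w₀ ^ 2) ^ 2)) ≤ 0 := by
    apply time_nonpos_of_min (f := fun s' => u s' z₀ w₀ + ε * bar (2 + 6 * C) s' z₀ w₀) hs₀'.1
    · exact (hus s₀ hs₀' z₀ w₀).add ((bar_s _ _ _ _).const_mul ε)
    · intro s' hs'
      exact hglob s' ⟨hs'.1, hs'.2.trans hs₀.2⟩ z₀ w₀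
  have hzder : ∀ z, HasDerivAt (fun z' => u s₀ z' w₀ + ε * bar (2 + 6 * C) s₀ z' w₀)
      (uz s₀ z w₀ + ε * (Real.exp ((2 + 6 * C) * s₀) * (2 * z))) z := fun z =>
    (huz s₀ hs₀' z w₀).add ((bar_z _ _ _ _).const_mul ε)
  have hzmin : IsLocalMin (fun z' => u s₀ z' w₀ + ε * bar (2 + 6 * C) s₀ z' w₀) z₀ :=
    Filter.Eventually.of_forall (fun z => hglob s₀ hs₀ z w₀)
  have e_z : uz s₀ z₀ w₀ + ε * (Real.exp ((2 + 6 * C) * s₀) * (2 * z₀)) = 0 :=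
    hzmin.hasDerivAt_eq_zero (hzder z₀)
  have e_zz : 0 ≤ uzz s₀ z₀ w₀ + ε * (Real.exp ((2 + 6 * C) * s₀) * 2) :=
    second_nonneg_of_isLocalMin (f := fun z' => u s₀ z' w₀ + ε * bar (2 + 6 * C) s₀ z' w₀)
      (f' := fun z => uz s₀ z w₀ + ε * (Real.exp ((2 + 6 * C) * s₀) * (2 * z))) (x := z₀) hzder
      ((huzz s₀ hs₀' z₀ w₀).add ((bar_zz _ _ _).const_mul ε)) hzmin
  have e_w : uw s₀ z₀ w₀ + ε * (Real.exp ((2 + 6 * C) * s₀) * (4 * w₀ * (1 + w₀ ^ 2))) = 0 := by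
    have hwmin : IsLocalMin (fun w' => u s₀ z₀ w' + ε * bar (2 + 6 * C) s₀ z₀ w') w₀ :=
      Filter.Eventually.of_forall (fun w => hglob s₀ hs₀ z₀ w)
    exact hwmin.hasDerivAt_eq_zero ((huw s₀ hs₀' z₀ w₀).add ((bar_w _ _ _ _).const_mul ε))
  have hL₀ := hL s₀ hs₀' z₀ w₀
  have hLh := barrier_pos hC (hβ s₀ hs₀' z₀ w₀) (hr s₀ hs₀' z₀ w₀)
  have hprod := mul_pos (mul_pos hε hE) hLh
  have huz' : uz s₀ z₀ w₀ = -(ε * (Real.exp ((2 + 6 * C) * s₀) * (2 * z₀))) := by linarith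
  have huw' : uw s₀ z₀ w₀
      = -(ε * (Real.exp ((2 + 6 * C) * s₀) * (4 * w₀ * (1 + w₀ ^ 2)))) := by linarith
  rw [huz', huw'] at hL₀
  generalize Real.exp ((2 + 6 * C) * s₀) = E at *
  generalize β s₀ z₀ w₀ = b at *
  generalize r s₀ z₀ w₀ = ρ at *
  generalize us s₀ z₀ w₀ = a1 at *
  generalize uzz s₀ z₀ w₀ = a2 at *
  have hid : ε * E * ((2 + 6 * C) * (1 + z₀ ^ 2 + (1 + w₀ ^ 2) ^ 2) - 1 + 2 * z₀ * b
        - 4 * w₀ * (1 + w₀ ^ 2) * ρ)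
      = ε * ((2 + 6 * C) * E * (1 + z₀ ^ 2 + (1 + w₀ ^ 2) ^ 2)) - 1 / 2 * (ε * (E * 2))
        - b * -(ε * (E * (2 * z₀))) + ρ * -(ε * (E * (4 * w₀ * (1 + w₀ ^ 2)))) := by ring
  rw [hid] at hprod
  linarith

/-- Abstract maximum principle on `[0,S] × ℝ × ℝ` (second order in `z`, transport in `w`). -/
theorem maxPrinciple {S C : ℝ} (hC : 0 ≤ C)
    (u us uz uzz uw β r : ℝ → ℝ → ℝ → ℝ)
    (hcont : ContinuousOn (fun p : ℝ × ℝ × ℝ => u p.1 p.2.1 p.2.2) (Icc 0 S ×ˢ univ))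
    (hus : ∀ s ∈ Ioc 0 S, ∀ z w, HasDerivAt (fun s' => u s' z w) (us s z w) s)
    (huz : ∀ s ∈ Ioc 0 S, ∀ z w, HasDerivAt (fun z' => u s z' w) (uz s z w) z)
    (huzz : ∀ s ∈ Ioc 0 S, ∀ z w, HasDerivAt (fun z' => uz s z' w) (uzz s z w) z)
    (huw : ∀ s ∈ Ioc 0 S, ∀ z w, HasDerivAt (fun w' => u s z w') (uw s z w) w)
    (hβ : ∀ s ∈ Ioc 0 S, ∀ z w, |β s z w| ≤ C * (1 + |z|))
    (hr : ∀ s ∈ Ioc 0 S, ∀ z w, |r s z w| ≤ C * (1 + |w|))
    (hgrow : ∀ s ∈ Icc 0 S, ∀ z w, -(C * (1 + |w| ^ 3)) ≤ u s z w)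
    (h0 : ∀ z w, 0 ≤ u 0 z w)
    (hL : ∀ s ∈ Ioc 0 S, ∀ z w,
      0 ≤ us s z w - 1 / 2 * uzz s z w + β s z w * uz s z w - r s z w * uw s z w) :
    ∀ s ∈ Icc 0 S, ∀ z w, 0 ≤ u s z w := by
  -- main claim with epsilon
  have hK0 : 0 ≤ 2 + 6 * C := by positivity
  have key : ∀ ε : ℝ, 0 < ε → ∀ s ∈ Icc 0 S, ∀ z w, 0 ≤ u s z w + ε * bar (2 + 6 * C) s z w := by
    intro ε hε s₁ hs₁ z₁ w₁
    by_contra hneg
    push Not at hneg
    have hS0 : 0 ≤ S := hs₁.1.trans hs₁.2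
    -- radii
    obtain ⟨R, hR1, hεR⟩ : ∃ R : ℝ, 1 ≤ R ∧ 2 * C < ε * R := by
      refine ⟨2 * C / ε + 1, ?_, ?_⟩
      · have : 0 ≤ 2 * C / ε := by positivity
        linarith
      · have : ε * (2 * C / ε + 1) = 2 * C + ε := by field_simp
        linarith
    obtain ⟨R', hR'1, hεR'⟩ : ∃ R' : ℝ, 1 ≤ R' ∧ C * (1 + R ^ 3) < ε * R' := by
      have hR0 : 0 ≤ R := by linarith
      refine ⟨C * (1 + R ^ 3) / ε + 1, ?_, ?_⟩
      · have : 0 ≤ C * (1 + R ^ 3) / ε := by positivity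
        linarith
      · have : ε * (C * (1 + R ^ 3) / ε + 1) = C * (1 + R ^ 3) + ε := by field_simp
        linarith
    -- positivity outside the box
    have hout_w : ∀ s ∈ Icc 0 S, ∀ z w, R ≤ |w| → 0 < u s z w + ε * bar (2 + 6 * C) s z w :=
      fun s hs z w hw => box_w hC hε hR1 hεR hw (hgrow s hs z w) z _ (bar_low hK0 hs.1 z w)
    have hout_z : ∀ s ∈ Icc 0 S, ∀ z w, |w| ≤ R → R' ≤ |z| →
        0 < u s z w + ε * bar (2 + 6 * C) s z w :=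
      fun s hs z w hw hz => box_z hC hε hR'1 hεR' hw hz (hgrow s hs z w) _ (bar_low hK0 hs.1 z w)
    -- compact box
    have hcomp : IsCompact (Icc (0:ℝ) S ×ˢ (Icc (-R') R' ×ˢ Icc (-R) R)) :=
      isCompact_Icc.prod (isCompact_Icc.prod isCompact_Icc)
    have hcontφ : ContinuousOn
        (fun p : ℝ × ℝ × ℝ => u p.1 p.2.1 p.2.2 + ε * bar (2 + 6 * C) p.1 p.2.1 p.2.2)
        (Icc (0:ℝ) S ×ˢ (Icc (-R') R' ×ˢ Icc (-R) R)) :=
      (hcont.mono (prod_mono_right (subset_univ _))).add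
        ((bar_cont (2 + 6 * C)).const_mul ε |>.continuousOn)
    have hw₁ : |w₁| < R := by
      by_contra hcon; push Not at hcon
      exact absurd (hout_w s₁ hs₁ z₁ w₁ hcon) (not_lt.2 hneg.le)
    have hz₁ : |z₁| < R' := by
      by_contra hcon; push Not at hcon
      exact absurd (hout_z s₁ hs₁ z₁ w₁ hw₁.le hcon) (not_lt.2 hneg.le)
    have hmem₁ : (s₁, z₁, w₁) ∈ (Icc (0:ℝ) S ×ˢ (Icc (-R') R' ×ˢ Icc (-R) R)) :=
      ⟨hs₁, ⟨abs_le.1 hz₁.le, abs_le.1 hw₁.le⟩⟩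
    obtain ⟨⟨s₀, z₀, w₀⟩, hmem₀, hmin₀⟩ := hcomp.exists_isMinOn ⟨_, hmem₁⟩ hcontφ
    have hs₀ : s₀ ∈ Icc 0 S := hmem₀.1
    have hval : u s₀ z₀ w₀ + ε * bar (2 + 6 * C) s₀ z₀ w₀ < 0 :=
      lt_of_le_of_lt (hmin₀ hmem₁ :
        u s₀ z₀ w₀ + ε * bar (2 + 6 * C) s₀ z₀ w₀ ≤ u s₁ z₁ w₁ + ε * bar (2 + 6 * C) s₁ z₁ w₁) hneg
    -- global minimum
    have hglob : ∀ s ∈ Icc 0 S, ∀ z w,
        u s₀ z₀ w₀ + ε * bar (2 + 6 * C) s₀ z₀ w₀ ≤ u s z w + ε * bar (2 + 6 * C) s z w := by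
      intro s hs z w
      by_cases hw : |w| < R
      · by_cases hz : |z| < R'
        · have hm : (s, z, w) ∈ (Icc (0:ℝ) S ×ˢ (Icc (-R') R' ×ˢ Icc (-R) R)) :=
            ⟨hs, ⟨abs_le.1 hz.le, abs_le.1 hw.le⟩⟩
          exact hmin₀ hm
        · push Not at hz
          exact (hval.trans (hout_z s hs z w hw.le hz)).le
      · push Not at hw
        exact (hval.trans (hout_w s hs z w hw)).le
    have hs₀pos : 0 < s₀ := by
      rcases lt_or_eq_of_le hs₀.1 with h1 | h1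
      · exact h1
      · exfalso
        rw [← h1] at hval
        have h2 := h0 z₀ w₀
        have h3 := bar_low hK0 le_rfl z₀ w₀
        have h4 : 0 < bar (2 + 6 * C) 0 z₀ w₀ := lt_of_lt_of_le (by positivity) h3
        have h5 := mul_pos hε h4
        linarith
    exact interior_step hC hε u us uz uzz uw β r hus huz huzz huw hβ hr hL
      ⟨hs₀pos, hs₀.2⟩ hglob
  intro s hs z w
  by_contra hneg
  push Not at hneg
  have hhpos : 0 < bar (2 + 6 * C) s z w :=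
    lt_of_lt_of_le (by positivity) (bar_low hK0 hs.1 z w)
  have h1 := key (-(u s z w) / (2 * bar (2 + 6 * C) s z w)) (by apply div_pos <;> linarith) s hs z w
  have h2 : -(u s z w) / (2 * bar (2 + 6 * C) s z w) * bar (2 + 6 * C) s z w
      = -(u s z w) / 2 := by
    field_simp
  rw [h2] at h1
  linarith

end P227.M.SC
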