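import Mathlib

/-! P227, block SC-2: abstract maximum principle in the variables `(z,p)` for the
linear parabolic inequality `G_s ≥ (1/2) G_zz - β G_z + r G_p` with a cubic lower bound. -/

namespace P227.M.MaxPar

open Set Filter Topology

/-- second derivative test, necessary condition -/
theorem second_deriv_nonneg {f f' : ℝ → ℝ} {z0 f2 : ℝ}
    (h1 : ∀ z, HasDerivAt f (f' z) z) (h2 : HasDerivAt f' f2 z0)
    (hmin : IsLocalMin f z0) : 0 ≤ f2 := by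
  by_contra hneg
  push Not at hneg
  have h0 : f' z0 = 0 := hmin.hasDerivAt_eq_zero (h1 z0)
  have ht : Tendsto (slope f' z0) (𝓝[>] z0) (𝓝 f2) :=
    (hasDerivAt_iff_tendsto_slope.1 h2).mono_left
      (nhdsWithin_mono _ (fun x hx => ne_of_gt hx))
  have hev : ∀ᶠ z in 𝓝[>] z0, slope f' z0 z < 0 := ht.eventually (gt_mem_nhds hneg)
  have hmin' : ∀ᶠ z in 𝓝[>] z0, f z0 ≤ f z := hmin.filter_mono nhdsWithin_le_nhds
  obtain ⟨u, hu, hu2⟩ := (mem_nhdsGT_iff_exists_Ioo_subset.1 (hev.and hmin'))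
  have hu' : z0 < u := hu
  have hneg' : ∀ z ∈ Ioo z0 u, f' z < 0 := by
    intro z hz
    have := (hu2 hz).1
    rw [slope_def_field, h0, sub_zero] at this
    have hpos : 0 < z - z0 := by linarith [hz.1]
    by_contra hge
    push Not at hge
    exact absurd this (not_lt.2 (div_nonneg hge hpos.le))
  have hanti : StrictAntiOn f (Icc z0 ((z0 + u) / 2)) := by
    apply strictAntiOn_of_deriv_neg (convex_Icc _ _)
    · exact fun z _ => (h1 z).continuousAt.continuousWithinAt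
    · intro z hz
      rw [interior_Icc] at hz
      rw [(h1 z).deriv]
      exact hneg' z ⟨hz.1, by linarith [hz.2]⟩
  have hlt := hanti (left_mem_Icc.2 (by linarith)) (right_mem_Icc.2 (by linarith))
    (by linarith : z0 < (z0 + u) / 2)
  have hle := (hu2 (⟨by linarith, by linarith⟩ : (z0 + u) / 2 ∈ Ioo z0 u)).2
  linarith

/-- one-sided first derivative test in time -/
theorem deriv_nonpos_of_min_left {f : ℝ → ℝ} {s0 f1 : ℝ} (hs0 : 0 < s0)
    (h1 : HasDerivAt f f1 s0) (hmin : ∀ s ∈ Icc 0 s0, f s0 ≤ f s) : f1 ≤ 0 := by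
  by_contra hpos
  push Not at hpos
  have ht : Tendsto (slope f s0) (𝓝[<] s0) (𝓝 f1) :=
    (hasDerivAt_iff_tendsto_slope.1 h1).mono_left
      (nhdsWithin_mono _ (fun x hx => ne_of_lt hx))
  have hev : ∀ᶠ s in 𝓝[<] s0, 0 < slope f s0 s := ht.eventually (lt_mem_nhds hpos)
  have hev2 : ∀ᶠ s in 𝓝[<] s0, s ∈ Ioo 0 s0 := Ioo_mem_nhdsLT hs0
  obtain ⟨s, hs, hs2⟩ := (hev.and hev2).exists
  have h3 := hmin s ⟨hs2.1.le, hs2.2.le⟩
  rw [slope_def_field] at hs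
  have : (f s - f s0) / (s - s0) ≤ 0 :=
    div_nonpos_of_nonneg_of_nonpos (by linarith) (by linarith [hs2.2])
  linarith

theorem comb {a1 a2 Q X Y Gs Gzz A B : ℝ} (e4 : Gs + A ≤ 0) (g5 : A = 7 * a1 + a2 + Q)
    (e5 : (1 / 2) * Gzz + X - Y ≤ Gs) (e3 : 0 ≤ Gzz + B) (g3 : B ≤ 2 * a2)
    (g1 : 0 ≤ 3 * a1 + X) (g2 : 0 ≤ 4 * a1 - Y) (hQ : 0 < Q) : False := by
  linarith

theorem bd3 {C n P h β z : ℝ} (hC : 0 ≤ C) (hn : 0 ≤ n) (hP : 0 ≤ P) (hh : 0 ≤ h)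
    (b1 : |β| ≤ C * (1 + |z|)) (hz : (1 + |z|) * |z| ≤ (3 / 2) * h) :
    |β * (n * (P * h) * (2 * z))| ≤ 3 * C * n * (P * h * h) := by
  have hA : 0 ≤ n * (P * h) := by positivity
  rw [abs_mul, abs_mul, abs_mul 2 z, abs_of_pos (by norm_num : (0 : ℝ) < 2), abs_of_nonneg hA]
  have hB : 0 ≤ n * (P * h) * (2 * |z|) := by positivity
  have hD : 0 ≤ 2 * C * n * (P * h) := by positivity
  calc |β| * (n * (P * h) * (2 * |z|)) ≤ (C * (1 + |z|)) * (n * (P * h) * (2 * |z|)) :=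
        mul_le_mul_of_nonneg_right b1 hB
    _ = 2 * C * n * (P * h) * ((1 + |z|) * |z|) := by ring
    _ ≤ 2 * C * n * (P * h) * ((3 / 2) * h) := mul_le_mul_of_nonneg_left hz hD
    _ = 3 * C * n * (P * h * h) := by ring

theorem bd4 {C n P h r z p : ℝ} (hC : 0 ≤ C) (hn : 0 ≤ n) (hP : 0 ≤ P) (hh : 0 ≤ h)
    (b1 : |r| ≤ C * (1 + |z| + |p|)) (hz : (1 + |z| + |p|) * |p| ≤ 2 * h) :
    |r * (n * (P * h) * (2 * p))| ≤ 4 * C * n * (P * h * h) := by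
  have hA : 0 ≤ n * (P * h) := by positivity
  rw [abs_mul, abs_mul, abs_mul 2 p, abs_of_pos (by norm_num : (0 : ℝ) < 2), abs_of_nonneg hA]
  have hB : 0 ≤ n * (P * h) * (2 * |p|) := by positivity
  have hD : 0 ≤ 2 * C * n * (P * h) := by positivity
  calc |r| * (n * (P * h) * (2 * |p|)) ≤ (C * (1 + |z| + |p|)) * (n * (P * h) * (2 * |p|)) :=
        mul_le_mul_of_nonneg_right b1 hB
    _ = 2 * C * n * (P * h) * ((1 + |z| + |p|) * |p|) := by ring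
    _ ≤ 2 * C * n * (P * h) * (2 * h) := mul_le_mul_of_nonneg_left hz hD
    _ = 4 * C * n * (P * h * h) := by ring

theorem bd5 {e n k P h z Q : ℝ} (he : 0 ≤ e) (hn : 0 ≤ n) (hk : 0 ≤ k)
    (hPz : P * z ^ 2 ≤ Q) (hPh : P * h ≤ Q) :
    e * (n * ((k + 1) * P * (2 * z)) * (2 * z) + n * (P * h) * 2) ≤
      2 * (n * (2 * k + 3) * (e * Q)) := by
  have t1 : n * ((k + 1) * P * (2 * z)) * (2 * z) ≤ n * (k + 1) * 4 * Q := by
    have hD : 0 ≤ n * (k + 1) * 4 := by positivity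
    calc n * ((k + 1) * P * (2 * z)) * (2 * z) = n * (k + 1) * 4 * (P * z ^ 2) := by ring
      _ ≤ _ := mul_le_mul_of_nonneg_left hPz hD
  have t4 : n * (P * h) * 2 ≤ n * Q * 2 := by
    have := mul_le_mul_of_nonneg_left hPh hn
    linarith
  calc _ ≤ e * (n * (k + 1) * 4 * Q + n * Q * 2) :=
        mul_le_mul_of_nonneg_left (add_le_add t1 t4) he
    _ = _ := by ring

/-- the algebra at the minimum point, abstract -/
theorem final_alg' {C e lam β r z0 p0 Gs Gz Gzz Gp n k P h : ℝ} (hepos : 0 < e)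
    (hn : 0 ≤ n) (hk : 0 ≤ k) (hP : 0 < P) (hh1 : 1 ≤ h) (hzh : z0 ^ 2 ≤ h)
    (hlam : lam = 7 * C * n + n * (2 * k + 3) + 1)
    (b3 : |β * (n * (P * h) * (2 * z0))| ≤ 3 * C * n * (P * h * h))
    (b4 : |r * (n * (P * h) * (2 * p0))| ≤ 4 * C * n * (P * h * h))
    (e1 : Gz + e * (n * (P * h) * (2 * z0)) = 0)
    (e2 : Gp + e * (n * (P * h) * (2 * p0)) = 0)
    (e3 : 0 ≤ Gzz + e * (n * ((k + 1) * P * (2 * z0)) * (2 * z0) + n * (P * h) * 2))
    (e4 : Gs + lam * e * (P * h * h) ≤ 0)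
    (e5 : (1 / 2) * Gzz - β * Gz + r * Gp ≤ Gs) : False := by
  obtain ⟨Q, hQ⟩ : ∃ Q : ℝ, Q = P * h * h := ⟨_, rfl⟩
  have hQ0 : 0 < Q := by rw [hQ]; positivity
  rw [← hQ] at b3 b4 e4
  have hPh0 : 0 ≤ P * h := by positivity
  have t2 : P * h ≤ Q := by
    rw [hQ]
    nlinarith
  have hPz : P * z0 ^ 2 ≤ Q := (mul_le_mul_of_nonneg_left hzh hP.le).trans t2
  have g3 := bd5 (e := e) (n := n) (k := k) (P := P) (h := h) (z := z0) (Q := Q)
    hepos.le hn hk hPz t2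
  obtain ⟨U, hU⟩ : ∃ U : ℝ, U = n * (P * h) * (2 * z0) := ⟨_, rfl⟩
  obtain ⟨V, hV⟩ : ∃ V : ℝ, V = n * (P * h) * (2 * p0) := ⟨_, rfl⟩
  rw [← hU] at b3 e1
  rw [← hV] at b4 e2
  have b3' := (abs_le.1 b3).1
  have b4' := (abs_le.1 b4).2
  have f1 : Gz = -(e * U) := by linarith
  have f2 : Gp = -(e * V) := by linarith
  rw [f1, f2] at e5
  have h1 : 0 ≤ e * (3 * C * n * Q + β * U) := mul_nonneg hepos.le (by linarith)
  have h2 : 0 ≤ e * (4 * C * n * Q - r * V) := mul_nonneg hepos.le (by linarith)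
  have hQe : 0 < e * Q := mul_pos hepos hQ0
  have h1' : 0 ≤ 3 * (C * n * (e * Q)) + β * (e * U) := by
    calc 0 ≤ _ := h1
      _ = _ := by ring
  have h2' : 0 ≤ 4 * (C * n * (e * Q)) - r * (e * V) := by
    calc 0 ≤ _ := h2
      _ = _ := by ring
  have e5' : (1 / 2) * Gzz + β * (e * U) - r * (e * V) ≤ Gs := by
    calc _ = (1 / 2) * Gzz - β * -(e * U) + r * -(e * V) := by ring
      _ ≤ _ := e5
  have h3 : lam * e * Q = 7 * (C * n * (e * Q)) + n * (2 * k + 3) * (e * Q) + e * Q := by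
    rw [hlam]; ring
  exact comb e4 h3 e5' e3 g3 h1' h2' hQe

/-- the algebra at the minimum point -/
theorem final_alg {C e lam β r z0 p0 Gs Gz Gzz Gp : ℝ} (k : ℕ) (hC : 0 ≤ C) (hepos : 0 < e)
    (hlam : lam = 7 * C * (k + 2) + (k + 2) * (2 * k + 3) + 1)
    (b1 : |β| ≤ C * (1 + |z0|)) (b2 : |r| ≤ C * (1 + |z0| + |p0|))
    (e1 : Gz + e * ((k + 2) * (1 + z0 ^ 2 + p0 ^ 2) ^ (k + 1) * (2 * z0)) = 0)
    (e2 : Gp + e * ((k + 2) * (1 + z0 ^ 2 + p0 ^ 2) ^ (k + 1) * (2 * p0)) = 0)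
    (e3 : 0 ≤ Gzz + e * ((k + 2) * ((k + 1) * (1 + z0 ^ 2 + p0 ^ 2) ^ k * (2 * z0)) * (2 * z0) +
      (k + 2) * (1 + z0 ^ 2 + p0 ^ 2) ^ (k + 1) * 2))
    (e4 : Gs + lam * e * (1 + z0 ^ 2 + p0 ^ 2) ^ (k + 2) ≤ 0)
    (e5 : (1 / 2) * Gzz - β * Gz + r * Gp ≤ Gs) : False := by
  have hzsq : z0 ^ 2 = |z0| ^ 2 := (sq_abs z0).symm
  have hpsq : p0 ^ 2 = |p0| ^ 2 := (sq_abs p0).symm
  have hz0 := abs_nonneg z0
  have hp0 := abs_nonneg p0
  obtain ⟨h, hh⟩ : ∃ h, h = 1 + z0 ^ 2 + p0 ^ 2 := ⟨_, rfl⟩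
  rw [← hh] at e1 e2 e3 e4
  have hh1 : 1 ≤ h := by rw [hh]; nlinarith [sq_nonneg z0, sq_nonneg p0]
  have hz1 : (1 + |z0|) * |z0| ≤ (3 / 2) * h := by
    rw [hh, hzsq]
    nlinarith [sq_nonneg (|z0| - 1), sq_nonneg p0]
  have hz2 : (1 + |z0| + |p0|) * |p0| ≤ 2 * h := by
    rw [hh, hzsq, hpsq]
    nlinarith [sq_nonneg (|p0| - 1), sq_nonneg (|z0| - |p0|), sq_nonneg (|z0|)]
  have hhpos : 0 ≤ h := by linarith
  have hk0 : (0 : ℝ) ≤ k := Nat.cast_nonneg k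
  have hn0 : (0 : ℝ) ≤ (k : ℝ) + 2 := by linarith
  have hP0 : 0 < h ^ k := by positivity
  have hP1 : h ^ (k + 1) = h ^ k * h := pow_succ h k
  have hP2 : h ^ (k + 2) = h ^ k * h * h := by rw [pow_succ, pow_succ]
  rw [hP1] at e1 e2 e3
  rw [hP2] at e4
  have hz02 : z0 ^ 2 ≤ h := by rw [hh]; nlinarith [sq_nonneg p0]
  exact final_alg' hepos hn0 hk0 hP0 hh1 hz02 hlam (bd3 hC hn0 hP0.le hhpos b1 hz1)
    (bd4 hC hn0 hP0.le hhpos b2 hz2) e1 e2 e3 e4 e5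

/-- The maximum principle. -/
theorem max_principle' (k : ℕ) {S C : ℝ} (hC : 0 ≤ C)
    (G Gs Gz Gzz Gp : ℝ → ℝ → ℝ → ℝ) (β : ℝ → ℝ → ℝ) (r : ℝ → ℝ → ℝ → ℝ)
    (hcont : ContinuousOn (fun q : ℝ × ℝ × ℝ => G q.1 q.2.1 q.2.2) (Icc 0 S ×ˢ univ))
    (hs : ∀ s ∈ Ioc 0 S, ∀ z p, HasDerivAt (fun s => G s z p) (Gs s z p) s)
    (hz : ∀ s ∈ Ioc 0 S, ∀ z p, HasDerivAt (fun z => G s z p) (Gz s z p) z)
    (hzz : ∀ s ∈ Ioc 0 S, ∀ z p, HasDerivAt (fun z => Gz s z p) (Gzz s z p) z)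
    (hp : ∀ s ∈ Ioc 0 S, ∀ z p, HasDerivAt (fun p => G s z p) (Gp s z p) p)
    (hβ : ∀ s ∈ Ioc 0 S, ∀ z, |β s z| ≤ C * (1 + |z|))
    (hr : ∀ s ∈ Ioc 0 S, ∀ z p, |r s z p| ≤ C * (1 + |z| + |p|))
    (hgrow : ∀ s ∈ Icc 0 S, ∀ z p, -(C * (1 + |z| + |p|) ^ (2 * k + 3)) ≤ G s z p)
    (hineq : ∀ s ∈ Ioc 0 S, ∀ z p,
      (1 / 2) * Gzz s z p - β s z * Gz s z p + r s z p * Gp s z p ≤ Gs s z p)
    (h0 : ∀ z p, 0 ≤ G 0 z p) :
    ∀ s ∈ Icc 0 S, ∀ z p, 0 ≤ G s z p := by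
  -- it suffices to show `0 ≤ G + δ e^{λ s} H` for all `δ > 0`
  set lam : ℝ := 7 * C * (k + 2) + (k + 2) * (2 * k + 3) + 1 with hlam
  set H : ℝ → ℝ → ℝ := fun z p => (1 + z ^ 2 + p ^ 2) ^ (k + 2) with hH
  have key : ∀ δ > 0, ∀ s ∈ Icc 0 S, ∀ z p, 0 ≤ G s z p + δ * Real.exp (lam * s) * H z p := by
    intro δ hδ
    by_contra hcon
    push Not at hcon
    obtain ⟨s1, hs1, z1, p1, hneg⟩ := hcon
    set M : ℝ × ℝ × ℝ → ℝ := fun q =>
      G q.1 q.2.1 q.2.2 + δ * Real.exp (lam * q.1) * H q.2.1 q.2.2 with hM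
    have hMcont : ContinuousOn M (Icc 0 S ×ˢ univ) := by
      apply hcont.add
      apply Continuous.continuousOn
      simp only [hH]
      fun_prop
    -- positivity outside a box
    have hS : 0 ≤ S := hs1.1.trans hs1.2
    set T : ℝ := 3 ^ (k + 2) * C / δ with hT
    set R : ℝ := T + 1 + |z1| + |p1| with hR
    have hRpos : T < R := by
      have := abs_nonneg z1
      have := abs_nonneg p1
      rw [hR]; linarith
    have hCδ : 0 ≤ T := by positivity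
    have hout : ∀ s ∈ Icc 0 S, ∀ z p, (R ≤ |z| ∨ R ≤ |p|) → 0 < M (s, z, p) := by
      intro s hs' z p hzp
      have hg := hgrow s hs' z p
      have hexp : 1 ≤ Real.exp (lam * s) := by
        apply Real.one_le_exp
        have := hs'.1
        positivity
      set ρ : ℝ := 1 + |z| + |p| with hρ
      have hρR : T < ρ := by
        have := abs_nonneg z
        have := abs_nonneg p
        rcases hzp with h | h <;> rw [hρ] <;> linarith
      have hρ0 : 0 < ρ := by linarith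
      have h3pos : (0 : ℝ) < 3 ^ (k + 2) := by positivity
      have hρC : C < δ * ρ / 3 ^ (k + 2) := by
        rw [hT, div_lt_iff₀ hδ] at hρR
        rw [lt_div_iff₀ h3pos]
        linarith
      have hh : ρ ^ 2 / 3 ≤ 1 + z ^ 2 + p ^ 2 := by
        rw [hρ, ← sq_abs z, ← sq_abs p]
        nlinarith [sq_nonneg (|z| - |p|), sq_nonneg (|z| - 1), sq_nonneg (|p| - 1)]
      have hH4 : ρ ^ (2 * k + 4) / 3 ^ (k + 2) ≤ H z p := by
        have : (ρ ^ 2 / 3) ^ (k + 2) ≤ (1 + z ^ 2 + p ^ 2) ^ (k + 2) := by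
          apply pow_le_pow_left₀ (by positivity) hh
        simp only [hH]
        calc ρ ^ (2 * k + 4) / 3 ^ (k + 2) = (ρ ^ 2 / 3) ^ (k + 2) := by
              rw [div_pow, ← pow_mul]; congr 2
          _ ≤ _ := this
      have hHpos : 0 ≤ H z p := by simp only [hH]; positivity
      have h1 : δ * (ρ ^ (2 * k + 4) / 3 ^ (k + 2)) ≤ δ * Real.exp (lam * s) * H z p := by
        have : δ * (ρ ^ (2 * k + 4) / 3 ^ (k + 2)) ≤ δ * H z p := by gcongr
        have h2 : δ * H z p ≤ δ * Real.exp (lam * s) * H z p := by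
          have : δ * 1 * H z p ≤ δ * Real.exp (lam * s) * H z p := by gcongr
          linarith
        linarith
      have h3 : C * ρ ^ (2 * k + 3) < δ * (ρ ^ (2 * k + 4) / 3 ^ (k + 2)) := by
        have : C * ρ ^ (2 * k + 3) < (δ * ρ / 3 ^ (k + 2)) * ρ ^ (2 * k + 3) := by
          apply mul_lt_mul_of_pos_right hρC (by positivity)
        calc C * ρ ^ (2 * k + 3) < (δ * ρ / 3 ^ (k + 2)) * ρ ^ (2 * k + 3) := this
          _ = δ * (ρ ^ (2 * k + 4) / 3 ^ (k + 2)) := by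
            have : ρ ^ (2 * k + 4) = ρ * ρ ^ (2 * k + 3) := by ring
            rw [this]; ring
      simp only [hM]
      linarith
    -- minimum on the compact box
    have hcomp : IsCompact (Icc (0 : ℝ) S ×ˢ (Icc (-R) R ×ˢ Icc (-R) R)) :=
      isCompact_Icc.prod (isCompact_Icc.prod isCompact_Icc)
    have hR0 : 0 ≤ R := by linarith
    have hne : (Icc (0 : ℝ) S ×ˢ (Icc (-R) R ×ˢ Icc (-R) R)).Nonempty :=
      ⟨(0, 0, 0), ⟨⟨le_refl _, hS⟩, ⟨by simpa using hR0, hR0⟩, ⟨by simpa using hR0, hR0⟩⟩⟩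
    obtain ⟨q0, hq0, hmin⟩ := hcomp.exists_isMinOn hne
      (hMcont.mono (fun q hq => ⟨hq.1, mem_univ _⟩))
    obtain ⟨s0, z0, p0⟩ := q0
    obtain ⟨hs0, hz0, hp0⟩ := hq0
    simp only at hs0 hz0 hp0
    have hz1R : |z1| ≤ R := by have := abs_nonneg p1; rw [hR]; linarith
    have hp1R : |p1| ≤ R := by have := abs_nonneg z1; rw [hR]; linarith
    have hval : M (s0, z0, p0) < 0 := by
      have := hmin (show (s1, z1, p1) ∈ (Icc (0 : ℝ) S ×ˢ (Icc (-R) R ×ˢ Icc (-R) R)) from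
        ⟨hs1, abs_le.1 hz1R, abs_le.1 hp1R⟩)
      have h2 : M (s0, z0, p0) ≤ M (s1, z1, p1) := this
      have h3 : M (s1, z1, p1) < 0 := hneg
      linarith
    -- interior point
    have hz0' : |z0| < R := by
      by_contra h
      push Not at h
      exact absurd (hout s0 hs0 z0 p0 (Or.inl h)) (not_lt.2 hval.le)
    have hp0' : |p0| < R := by
      by_contra h
      push Not at h
      exact absurd (hout s0 hs0 z0 p0 (Or.inr h)) (not_lt.2 hval.le)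
    have hs0' : 0 < s0 := by
      rcases hs0.1.lt_or_eq with h | h
      · exact h
      · exfalso
        have h2 := h0 z0 p0
        have h4 : 0 < δ * Real.exp (lam * s0) * H z0 p0 := by
          simp only [hH]; positivity
        have h3 : M (s0, z0, p0) = G s0 z0 p0 + δ * Real.exp (lam * s0) * H z0 p0 := rfl
        rw [h3, ← h] at hval
        rw [← h] at h4
        linarith
    have hsI : s0 ∈ Ioc 0 S := ⟨hs0', hs0.2⟩
    set e : ℝ := δ * Real.exp (lam * s0) with he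
    have hepos : 0 < e := by rw [he]; positivity
    -- derivatives of M
    have hcast : ((k + 2 : ℕ) : ℝ) = (k : ℝ) + 2 := by push_cast; ring
    have hcast1 : ((k + 1 : ℕ) : ℝ) = (k : ℝ) + 1 := by push_cast; ring
    have hq : ∀ z : ℝ, HasDerivAt (fun z : ℝ => 1 + z ^ 2 + p0 ^ 2) (2 * z) z := by
      intro z
      have := ((hasDerivAt_pow 2 z).const_add 1).add_const (p0 ^ 2)
      simpa using this
    have hMz : ∀ z, HasDerivAt (fun z => G s0 z p0 + e * H z p0)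
        (Gz s0 z p0 + e * ((k + 2) * (1 + z ^ 2 + p0 ^ 2) ^ (k + 1) * (2 * z))) z := by
      intro z
      apply (hz s0 hsI z p0).add
      have h : HasDerivAt (fun z : ℝ => (1 + z ^ 2 + p0 ^ 2) ^ (k + 2))
          ((k + 2) * (1 + z ^ 2 + p0 ^ 2) ^ (k + 1) * (2 * z)) z := by
        exact ((hq z).pow (k + 2)).congr_deriv (by rw [hcast]; rfl)
      exact h.const_mul e
    have hMzz : HasDerivAt (fun z => Gz s0 z p0 +
          e * ((k + 2) * (1 + z ^ 2 + p0 ^ 2) ^ (k + 1) * (2 * z)))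
        (Gzz s0 z0 p0 + e * ((k + 2) * ((k + 1) * (1 + z0 ^ 2 + p0 ^ 2) ^ k * (2 * z0)) * (2 * z0) +
          (k + 2) * (1 + z0 ^ 2 + p0 ^ 2) ^ (k + 1) * 2)) z0 := by
      apply (hzz s0 hsI z0 p0).add
      have h1 : HasDerivAt (fun z : ℝ => (1 + z ^ 2 + p0 ^ 2) ^ (k + 1))
          ((k + 1) * (1 + z0 ^ 2 + p0 ^ 2) ^ k * (2 * z0)) z0 := by
        exact ((hq z0).pow (k + 1)).congr_deriv (by rw [hcast1]; rfl)
      have h2 : HasDerivAt (fun z : ℝ => 2 * z) 2 z0 := by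
        simpa using (hasDerivAt_id z0).const_mul 2
      exact ((h1.const_mul ((k : ℝ) + 2)).mul h2).const_mul e
    have hMp : ∀ p, HasDerivAt (fun p => G s0 z0 p + e * H z0 p)
        (Gp s0 z0 p + e * ((k + 2) * (1 + z0 ^ 2 + p ^ 2) ^ (k + 1) * (2 * p))) p := by
      intro p
      apply (hp s0 hsI z0 p).add
      have h : HasDerivAt (fun p : ℝ => (1 + z0 ^ 2 + p ^ 2) ^ (k + 2))
          ((k + 2) * (1 + z0 ^ 2 + p ^ 2) ^ (k + 1) * (2 * p)) p := by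
        have h1 : HasDerivAt (fun p : ℝ => 1 + z0 ^ 2 + p ^ 2) (2 * p) p := by
          have := ((hasDerivAt_pow 2 p).const_add (1 + z0 ^ 2))
          simpa using this
        exact (h1.pow (k + 2)).congr_deriv (by rw [hcast]; rfl)
      exact h.const_mul e
    have hMs : HasDerivAt (fun s => G s z0 p0 + δ * Real.exp (lam * s) * H z0 p0)
        (Gs s0 z0 p0 + lam * e * H z0 p0) s0 := by
      apply (hs s0 hsI z0 p0).add
      have h : HasDerivAt (fun s : ℝ => Real.exp (lam * s)) (Real.exp (lam * s0) * lam) s0 := by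
        have h1 : HasDerivAt (fun s : ℝ => lam * s) lam s0 := by
          simpa using (hasDerivAt_id s0).const_mul lam
        exact h1.exp
      exact ((h.const_mul δ).mul_const (H z0 p0)).congr_deriv (by rw [he]; ring)
    -- min properties
    have hminz : IsLocalMin (fun z => G s0 z p0 + e * H z p0) z0 := by
      have hnb : Ioo (-R) R ∈ 𝓝 z0 := Ioo_mem_nhds (abs_lt.1 hz0').1 (abs_lt.1 hz0').2
      filter_upwards [hnb] with z hz'
      have := hmin (show (s0, z, p0) ∈ (Icc (0 : ℝ) S ×ˢ (Icc (-R) R ×ˢ Icc (-R) R)) from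
        ⟨hs0, ⟨hz'.1.le, hz'.2.le⟩, hp0⟩)
      exact this
    have hminp : IsLocalMin (fun p => G s0 z0 p + e * H z0 p) p0 := by
      have hnb : Ioo (-R) R ∈ 𝓝 p0 := Ioo_mem_nhds (abs_lt.1 hp0').1 (abs_lt.1 hp0').2
      filter_upwards [hnb] with p hp'
      have := hmin (show (s0, z0, p) ∈ (Icc (0 : ℝ) S ×ˢ (Icc (-R) R ×ˢ Icc (-R) R)) from
        ⟨hs0, hz0, ⟨hp'.1.le, hp'.2.le⟩⟩)
      exact this
    have hmins : ∀ s ∈ Icc 0 s0, G s0 z0 p0 + δ * Real.exp (lam * s0) * H z0 p0 ≤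
        G s z0 p0 + δ * Real.exp (lam * s) * H z0 p0 := by
      intro s hs'
      have := hmin (show (s, z0, p0) ∈ (Icc (0 : ℝ) S ×ˢ (Icc (-R) R ×ˢ Icc (-R) R)) from
        ⟨⟨hs'.1, hs'.2.trans hs0.2⟩, hz0, hp0⟩)
      exact this
    have e1 := hminz.hasDerivAt_eq_zero (hMz z0)
    have e2 := hminp.hasDerivAt_eq_zero (hMp p0)
    have e3 := second_deriv_nonneg hMz hMzz hminz
    have e4 : Gs s0 z0 p0 + lam * e * H z0 p0 ≤ 0 := deriv_nonpos_of_min_left hs0' hMs hmins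
    have e5 := hineq s0 hsI z0 p0
    have b1 := hβ s0 hsI z0
    have b2 := hr s0 hsI z0 p0
    exact final_alg k hC hepos hlam b1 b2 e1 e2 e3 e4 e5
  intro s hs' z p
  -- let δ → 0
  have hlim : Tendsto (fun δ : ℝ => G s z p + δ * Real.exp (lam * s) * H z p) (𝓝[>] 0)
      (𝓝 (G s z p + 0 * Real.exp (lam * s) * H z p)) := by
    apply Tendsto.mono_left _ nhdsWithin_le_nhds
    apply Continuous.tendsto
    fun_prop
  have := ge_of_tendsto hlim (by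
    filter_upwards [self_mem_nhdsWithin] with δ hδ
    exact key δ hδ s hs' z p)
  simpa using this

/-- cubic growth version -/
theorem max_principle {S C : ℝ} (hC : 0 ≤ C)
    (G Gs Gz Gzz Gp : ℝ → ℝ → ℝ → ℝ) (β : ℝ → ℝ → ℝ) (r : ℝ → ℝ → ℝ → ℝ)
    (hcont : ContinuousOn (fun q : ℝ × ℝ × ℝ => G q.1 q.2.1 q.2.2) (Icc 0 S ×ˢ univ))
    (hs : ∀ s ∈ Ioc 0 S, ∀ z p, HasDerivAt (fun s => G s z p) (Gs s z p) s)
    (hz : ∀ s ∈ Ioc 0 S, ∀ z p, HasDerivAt (fun z => G s z p) (Gz s z p) z)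
    (hzz : ∀ s ∈ Ioc 0 S, ∀ z p, HasDerivAt (fun z => Gz s z p) (Gzz s z p) z)
    (hp : ∀ s ∈ Ioc 0 S, ∀ z p, HasDerivAt (fun p => G s z p) (Gp s z p) p)
    (hβ : ∀ s ∈ Ioc 0 S, ∀ z, |β s z| ≤ C * (1 + |z|))
    (hr : ∀ s ∈ Ioc 0 S, ∀ z p, |r s z p| ≤ C * (1 + |z| + |p|))
    (hgrow : ∀ s ∈ Icc 0 S, ∀ z p, -(C * (1 + |z| + |p|) ^ 3) ≤ G s z p)
    (hineq : ∀ s ∈ Ioc 0 S, ∀ z p,
      (1 / 2) * Gzz s z p - β s z * Gz s z p + r s z p * Gp s z p ≤ Gs s z p)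
    (h0 : ∀ z p, 0 ≤ G 0 z p) :
    ∀ s ∈ Icc 0 S, ∀ z p, 0 ≤ G s z p :=
  max_principle' 0 hC G Gs Gz Gzz Gp β r hcont hs hz hzz hp hβ hr (by simpa using hgrow) hineq h0

end P227.M.MaxPar
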