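import Mathlib

/-!
# Parabolic minimum principle with one diffusion variable and one transport variable

`G t z q` on `[0,T] x R x R`, `G_t >= G_zz / 2 - a G_z + r G_q`, with `a` of linear growth in `z`,
`r` of linear growth in `q`, `G` bounded below by `- C (1+|q|)^3`, `G 0 >= 0`.  Then `G >= 0`.
The barrier is `exp (K t) (1+z^2) (1+q^2)^2`.
-/

open Set Filter Topology

namespace Vale.Agent.P227.M.SC

/-- First order necessary condition from the left. -/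
theorem left_deriv_nonpos {f : ℝ → ℝ} {f' t : ℝ} (hd : HasDerivWithinAt f f' (Iic t) t)
    {s : ℝ} (hs : s < t) (hmin : ∀ u ∈ Icc s t, f t ≤ f u) : f' ≤ 0 := by
  have h1 : HasDerivWithinAt f f' (Iio t) t := hd.mono Iio_subset_Iic_self
  rw [hasDerivWithinAt_iff_tendsto_slope' (by simp)] at h1
  refine le_of_tendsto h1 ?_
  have h2 : Ioo s t ∈ 𝓝[<] t := Ioo_mem_nhdsLT hs
  filter_upwards [h2] with u hu
  rw [slope_def_field]
  exact div_nonpos_of_nonneg_of_nonpos (by linarith [hmin u ⟨hu.1.le, hu.2.le⟩])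
    (by linarith [hu.2])

/-- Second order necessary condition at a global minimum. -/
theorem second_deriv_nonneg {f g : ℝ → ℝ} {c z : ℝ} (hf : ∀ y, HasDerivAt f (g y) y)
    (hg : HasDerivAt g c z) (hmin : ∀ y, f z ≤ f y) : g z = 0 ∧ 0 ≤ c := by
  have h0 : g z = 0 := by
    have hm : IsLocalMin f z := Filter.Eventually.of_forall hmin
    exact hm.hasDerivAt_eq_zero (hf z)
  refine ⟨h0, ?_⟩
  by_contra hc
  push Not at hc
  have h1 := hg
  rw [hasDerivAt_iff_tendsto_slope] at h1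
  have h2 : ∀ᶠ y in 𝓝[≠] z, slope g z y < 0 := h1.eventually (gt_mem_nhds hc)
  have h3 : ∀ᶠ y in 𝓝[>] z, slope g z y < 0 :=
    h2.filter_mono (nhdsWithin_mono z (fun y hy => ne_of_gt hy))
  obtain ⟨u, hu, hsub⟩ := (mem_nhdsGT_iff_exists_Ioo_subset).1 h3
  have hu' : z < u := hu
  set y := (z + u) / 2 with hy
  have hzy : z < y := by rw [hy]; linarith
  have hyu : y < u := by rw [hy]; linarith
  obtain ⟨ξ, hξ, hξe⟩ := exists_hasDerivAt_eq_slope f g hzy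
    (fun x _ => (hf x).continuousAt.continuousWithinAt) (fun x _ => hf x)
  have h4 : slope g z ξ < 0 := hsub ⟨hξ.1, hξ.2.trans hyu⟩
  rw [slope_def_field, h0, sub_zero] at h4
  have h5 : g ξ < 0 := by
    by_contra hge
    push Not at hge
    exact absurd h4 (not_lt.2 (div_nonneg hge (by linarith [hξ.1])))
  rw [hξe] at h5
  have h6 : (f y - f z) / (y - z) < 0 := h5
  have h7 : 0 ≤ (f y - f z) / (y - z) := div_nonneg (by linarith [hmin y]) (by linarith)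
  linarith

/-- Coercivity of the barrier. -/
theorem coercive {C ε E z q g : ℝ} (hC : 0 ≤ C) (hε : 0 < ε) (hE : 1 ≤ E)
    (hlow : -(C * (1 + |q|) ^ 3) ≤ g) (hzq : 4 * C / ε + 1 < |z| ∨ 4 * C / ε + 1 < |q|) :
    0 < g + ε * (E * (1 + z ^ 2) * (1 + q ^ 2) ^ 2) := by
  have e2 : (1 + |q|) ^ 2 ≤ 2 * (1 + q ^ 2) := by
    nlinarith [sq_nonneg (1 - |q|), sq_abs q]
  have e3 : 1 + |q| ≤ 2 * (1 + q ^ 2) := by
    nlinarith [abs_nonneg q]
  have e4 : C * (1 + |q|) ^ 3 ≤ 2 * C * (1 + |q|) * (1 + q ^ 2) := by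
    have : C * (1 + |q|) ^ 3 = (C * (1 + |q|)) * (1 + |q|) ^ 2 := by ring
    rw [this]
    calc (C * (1 + |q|)) * (1 + |q|) ^ 2 ≤ (C * (1 + |q|)) * (2 * (1 + q ^ 2)) :=
          mul_le_mul_of_nonneg_left e2 (by positivity)
      _ = _ := by ring
  have e5 : ε * ((1 + z ^ 2) * (1 + q ^ 2) ^ 2) ≤ ε * (E * (1 + z ^ 2) * (1 + q ^ 2) ^ 2) := by
    apply mul_le_mul_of_nonneg_left _ hε.le
    calc (1 + z ^ 2) * (1 + q ^ 2) ^ 2 = 1 * ((1 + z ^ 2) * (1 + q ^ 2) ^ 2) := by ring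
      _ ≤ E * ((1 + z ^ 2) * (1 + q ^ 2) ^ 2) :=
          mul_le_mul_of_nonneg_right hE (by positivity)
      _ = _ := by ring
  have e6 : 2 * C * (1 + |q|) < ε * ((1 + z ^ 2) * (1 + q ^ 2)) := by
    have hR0 : 0 ≤ 4 * C / ε := by positivity
    rcases hzq with hz1 | hq1
    · have hz2 : 4 * C / ε < 1 + z ^ 2 := by
        have h1 : 1 ≤ |z| := by linarith
        nlinarith [sq_abs z]
      have hz3 : 4 * C < (1 + z ^ 2) * ε := (div_lt_iff₀ hε).1 hz2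
      have hq3 : 0 < 1 + q ^ 2 := by positivity
      have h4 := mul_lt_mul_of_pos_right hz3 hq3
      have h5 : 2 * C * (1 + |q|) ≤ 2 * C * (2 * (1 + q ^ 2)) :=
        mul_le_mul_of_nonneg_left e3 (by positivity)
      linarith
    · have hq2 : 4 * C / ε < 1 + |q| := by linarith
      have hq3 : 4 * C < (1 + |q|) * ε := (div_lt_iff₀ hε).1 hq2
      have hq4 : 0 < 1 + |q| := by positivity
      have h4 := mul_lt_mul_of_pos_right hq3 hq4
      have h5 : ε * (1 + |q|) ^ 2 ≤ ε * (2 * (1 + q ^ 2)) := mul_le_mul_of_nonneg_left e2 hε.le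
      have h6 : 0 ≤ ε * (z ^ 2 * (1 + q ^ 2)) := by positivity
      nlinarith
  have hq5 : 0 < 1 + q ^ 2 := by positivity
  have e8 := mul_lt_mul_of_pos_right e6 hq5
  nlinarith

/-- The barrier is a strict supersolution. -/
theorem barrier_strict {C E z q a r : ℝ} (hC : 0 ≤ C) (hE : 0 < E)
    (ha : |a| ≤ C * (1 + |z|)) (hr : |r| ≤ C * (1 + |q|)) :
    0 < (9 * C + 2) * (E * (1 + z ^ 2) * (1 + q ^ 2) ^ 2) - (E * 2 * (1 + q ^ 2) ^ 2) / 2
      + a * (E * (2 * z) * (1 + q ^ 2) ^ 2)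
      - r * (E * (1 + z ^ 2) * (2 * (1 + q ^ 2) * (2 * q))) := by
  have k1 : -(3 * C * (1 + z ^ 2)) ≤ a * (2 * z) := by
    have h1 : |a * (2 * z)| ≤ 3 * C * (1 + z ^ 2) := by
      rw [abs_mul, abs_mul, abs_two]
      have h3 : (1 + |z|) * (2 * |z|) ≤ 3 * (1 + z ^ 2) := by
        nlinarith [sq_nonneg (1 - |z|), sq_abs z]
      calc |a| * (2 * |z|) ≤ (C * (1 + |z|)) * (2 * |z|) :=
            mul_le_mul_of_nonneg_right ha (by positivity)
        _ = C * ((1 + |z|) * (2 * |z|)) := by ring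
        _ ≤ C * (3 * (1 + z ^ 2)) := mul_le_mul_of_nonneg_left h3 hC
        _ = _ := by ring
    exact (abs_le.1 h1).1
  have k2 : r * (4 * q) ≤ 6 * C * (1 + q ^ 2) := by
    refine (le_abs_self _).trans ?_
    rw [abs_mul, abs_mul]
    have h4 : |(4:ℝ)| = 4 := by norm_num
    rw [h4]
    have h3 : (1 + |q|) * (4 * |q|) ≤ 6 * (1 + q ^ 2) := by
      nlinarith [sq_nonneg (1 - |q|), sq_abs q]
    calc |r| * (4 * |q|) ≤ (C * (1 + |q|)) * (4 * |q|) :=
          mul_le_mul_of_nonneg_right hr (by positivity)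
      _ = C * ((1 + |q|) * (4 * |q|)) := by ring
      _ ≤ C * (6 * (1 + q ^ 2)) := mul_le_mul_of_nonneg_left h3 hC
      _ = _ := by ring
  have hZ : 0 < 1 + z ^ 2 := by positivity
  have hQ : 0 < 1 + q ^ 2 := by positivity
  have m1 := mul_le_mul_of_nonneg_left k1 (by positivity : 0 ≤ E * (1 + q ^ 2) ^ 2)
  have m2 := mul_le_mul_of_nonneg_left k2 (by positivity : 0 ≤ E * (1 + z ^ 2) * (1 + q ^ 2))
  have m3 : 0 < E * (1 + z ^ 2) * (1 + q ^ 2) ^ 2 := by positivity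
  have m4 : 0 ≤ E * z ^ 2 * (1 + q ^ 2) ^ 2 := by positivity
  nlinarith

/-- Parabolic minimum principle. -/
theorem parabolic_min {T : ℝ} (hT : 0 < T) (G Gt Gz Gzz Gq a r : ℝ → ℝ → ℝ → ℝ)
    (hc : ContinuousOn (fun p : ℝ × ℝ × ℝ => G p.1 p.2.1 p.2.2) (Icc 0 T ×ˢ univ))
    (h0 : ∀ z q, 0 ≤ G 0 z q)
    (ht : ∀ t ∈ Ioc 0 T, ∀ z q, HasDerivWithinAt (fun s => G s z q) (Gt t z q) (Iic t) t)
    (hz : ∀ t ∈ Ioc 0 T, ∀ z q, HasDerivAt (fun y => G t y q) (Gz t z q) z)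
    (hzz : ∀ t ∈ Ioc 0 T, ∀ z q, HasDerivAt (fun y => Gz t y q) (Gzz t z q) z)
    (hq : ∀ t ∈ Ioc 0 T, ∀ z q, HasDerivAt (fun y => G t z y) (Gq t z q) q)
    (C : ℝ) (hlow : ∀ t ∈ Icc 0 T, ∀ z q, -(C * (1 + |q|) ^ 3) ≤ G t z q)
    (ha : ∀ t ∈ Ioc 0 T, ∀ z q, |a t z q| ≤ C * (1 + |z|))
    (hr : ∀ t ∈ Ioc 0 T, ∀ z q, |r t z q| ≤ C * (1 + |q|))
    (hpde : ∀ t ∈ Ioc 0 T, ∀ z q,
      Gzz t z q / 2 - a t z q * Gz t z q + r t z q * Gq t z q ≤ Gt t z q) :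
    ∀ t ∈ Icc 0 T, ∀ z q, 0 ≤ G t z q := by
  intro t1 ht1 z1 q1
  by_contra hneg
  push Not at hneg
  have hC : 0 ≤ C := by
    have := ha T ⟨hT, le_refl T⟩ 0 0
    simp at this
    exact (abs_nonneg _).trans this
  set K : ℝ := 9 * C + 2 with hK
  set Ψ : ℝ → ℝ → ℝ → ℝ := fun t z q => Real.exp (K * t) * (1 + z ^ 2) * (1 + q ^ 2) ^ 2 with hΨ
  have hΨpos : ∀ t z q, 0 < Ψ t z q := fun t z q => by
    simp only [hΨ]
    positivity
  obtain ⟨ε, hε, hεlt⟩ : ∃ ε : ℝ, 0 < ε ∧ G t1 z1 q1 + ε * Ψ t1 z1 q1 < 0 := by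
    refine ⟨-(G t1 z1 q1) / (2 * Ψ t1 z1 q1), div_pos (by linarith) (by linarith [hΨpos t1 z1 q1]), ?_⟩
    have hp := hΨpos t1 z1 q1
    have : -(G t1 z1 q1) / (2 * Ψ t1 z1 q1) * Ψ t1 z1 q1 = -(G t1 z1 q1) / 2 := by
      field_simp
    rw [this]
    linarith
  set H : ℝ × ℝ × ℝ → ℝ := fun p => G p.1 p.2.1 p.2.2 + ε * Ψ p.1 p.2.1 p.2.2 with hH
  have hHc : ContinuousOn H (Icc 0 T ×ˢ univ) := by
    refine hc.add (Continuous.continuousOn ?_)
    simp only [hΨ]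
    fun_prop
  -- coercivity
  set R : ℝ := 4 * C / ε + 1 with hR
  have hcoer : ∀ t ∈ Icc 0 T, ∀ z q, (R < |z| ∨ R < |q|) → 0 < H (t, z, q) := by
    intro t htt z q hzq
    have e1 : 1 ≤ Real.exp (K * t) :=
      Real.one_le_exp (mul_nonneg (by rw [hK]; positivity) htt.1)
    exact coercive hC hε e1 (hlow t htt z q) hzq
  -- the compact set
  set S : Set (ℝ × ℝ × ℝ) := Icc 0 T ×ˢ (Icc (-R) R ×ˢ Icc (-R) R) with hS
  have hScomp : IsCompact S := isCompact_Icc.prod (isCompact_Icc.prod isCompact_Icc)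
  have hp1 : (t1, z1, q1) ∈ S := by
    refine ⟨ht1, ?_, ?_⟩
    · by_contra h
      have : R < |z1| := by
        by_contra h'
        exact h (abs_le.1 (not_lt.1 h'))
      have := hcoer t1 ht1 z1 q1 (Or.inl this)
      simp only [hH] at this
      linarith
    · by_contra h
      have : R < |q1| := by
        by_contra h'
        exact h (abs_le.1 (not_lt.1 h'))
      have := hcoer t1 ht1 z1 q1 (Or.inr this)
      simp only [hH] at this
      linarith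
  obtain ⟨p0, hp0, hmin⟩ := hScomp.exists_isMinOn ⟨_, hp1⟩
    (hHc.mono (prod_mono (subset_refl _) (subset_univ _)))
  obtain ⟨t0, z0, q0⟩ := p0
  have hneg0 : H (t0, z0, q0) < 0 := by
    refine lt_of_le_of_lt (hmin hp1) ?_
    simp only [hH]
    exact hεlt
  have hmin' : ∀ t ∈ Icc 0 T, ∀ z q, H (t0, z0, q0) ≤ H (t, z, q) := by
    intro t htt z q
    by_cases hin : |z| ≤ R ∧ |q| ≤ R
    · exact hmin (show (t, z, q) ∈ S from ⟨htt, abs_le.1 hin.1, abs_le.1 hin.2⟩)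
    · have : R < |z| ∨ R < |q| := by
        by_contra hcon
        push Not at hcon
        exact hin hcon
      exact hneg0.le.trans (hcoer t htt z q this).le
  have ht0 : t0 ∈ Ioc 0 T := by
    refine ⟨lt_of_le_of_ne hp0.1.1 ?_, hp0.1.2⟩
    intro h
    have h1 := h0 z0 q0
    have h2 := mul_pos hε (hΨpos 0 z0 q0)
    rw [← h] at hneg0
    simp only [hH] at hneg0
    linarith
  -- derivatives of the barrier
  have hΨt : HasDerivAt (fun s => Ψ s z0 q0) (K * Ψ t0 z0 q0) t0 := by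
    simp only [hΨ]
    have h1 : HasDerivAt (fun s : ℝ => Real.exp (K * s)) (Real.exp (K * t0) * K) t0 := by
      have := (hasDerivAt_id t0).const_mul K
      simpa using this.exp
    have h2 := (h1.mul_const (1 + z0 ^ 2)).mul_const ((1 + q0 ^ 2) ^ 2)
    exact h2.congr_deriv (by ring)
  set Ψz : ℝ → ℝ := fun z => Real.exp (K * t0) * (2 * z) * (1 + q0 ^ 2) ^ 2 with hΨzdef
  have hΨz : ∀ z, HasDerivAt (fun y => Ψ t0 y q0) (Ψz z) z := by
    intro z
    simp only [hΨ, hΨzdef]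
    have h1 : HasDerivAt (fun y : ℝ => 1 + y ^ 2) (2 * z) z := by
      simpa using ((hasDerivAt_id z).pow 2).const_add 1
    exact (h1.const_mul (Real.exp (K * t0))).mul_const _
  set Ψzz : ℝ := Real.exp (K * t0) * 2 * (1 + q0 ^ 2) ^ 2 with hΨzzdef
  have hΨzz : HasDerivAt Ψz Ψzz z0 := by
    simp only [hΨzdef, hΨzzdef]
    have h1 : HasDerivAt (fun y : ℝ => 2 * y) 2 z0 := by
      simpa using (hasDerivAt_id z0).const_mul 2
    exact (h1.const_mul (Real.exp (K * t0))).mul_const _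
  set Ψq : ℝ := Real.exp (K * t0) * (1 + z0 ^ 2) * (2 * (1 + q0 ^ 2) * (2 * q0)) with hΨqdef
  have hΨq : HasDerivAt (fun y => Ψ t0 z0 y) Ψq q0 := by
    simp only [hΨ, hΨqdef]
    have h1 : HasDerivAt (fun y : ℝ => 1 + y ^ 2) (2 * q0) q0 := by
      simpa using ((hasDerivAt_id q0).pow 2).const_add 1
    have h2 : HasDerivAt (fun y : ℝ => (1 + y ^ 2) ^ 2) (2 * (1 + q0 ^ 2) * (2 * q0)) q0 := by
      simpa using h1.fun_pow 2
    exact h2.const_mul _
  -- conditions at the minimum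
  have c1 : Gt t0 z0 q0 + ε * (K * Ψ t0 z0 q0) ≤ 0 := by
    have hd : HasDerivWithinAt (fun s => G s z0 q0 + ε * Ψ s z0 q0)
        (Gt t0 z0 q0 + ε * (K * Ψ t0 z0 q0)) (Iic t0) t0 :=
      (ht t0 ht0 z0 q0).add ((hΨt.const_mul ε).hasDerivWithinAt)
    refine left_deriv_nonpos hd ht0.1 ?_
    intro u hu
    exact hmin' u ⟨hu.1, hu.2.trans ht0.2⟩ z0 q0
  have c2 := second_deriv_nonneg (f := fun y => G t0 y q0 + ε * Ψ t0 y q0)
    (g := fun y => Gz t0 y q0 + ε * Ψz y) (c := Gzz t0 z0 q0 + ε * Ψzz) (z := z0)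
    (fun y => (hz t0 ht0 y q0).add ((hΨz y).const_mul ε))
    ((hzz t0 ht0 z0 q0).add (hΨzz.const_mul ε))
    (fun y => hmin' t0 (Ioc_subset_Icc_self ht0) y q0)
  have c3 : Gq t0 z0 q0 + ε * Ψq = 0 := by
    have hm : IsLocalMin (fun y => G t0 z0 y + ε * Ψ t0 z0 y) q0 :=
      Filter.Eventually.of_forall (fun y => hmin' t0 (Ioc_subset_Icc_self ht0) z0 y)
    exact hm.hasDerivAt_eq_zero ((hq t0 ht0 z0 q0).add (hΨq.const_mul ε))
  obtain ⟨c2a, c2b⟩ := c2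
  have c4 := hpde t0 ht0 z0 q0
  have key := barrier_strict (E := Real.exp (K * t0)) hC (Real.exp_pos _) (ha t0 ht0 z0 q0)
    (hr t0 ht0 z0 q0)
  have key2 := mul_pos hε key
  have d1 : Gz t0 z0 q0 = -(ε * Ψz z0) := by linarith
  have d2 : Gq t0 z0 q0 = -(ε * Ψq) := by linarith
  rw [d1, d2] at c4
  simp only [hΨ, hΨzdef, hΨzzdef, hΨqdef] at c1 c2b c4
  linarith

end Vale.Agent.P227.M.SC
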