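import Mathlib

/-!
Generic parabolic minimum principle on `[0,S] x R^3` with one diffusing variable `z`,
a parameter `t`, and one transported variable `v`.
-/

namespace P227M.SC

open Set Filter Topology

/-- left derivative at a minimum over `[0,s1]` is nonpositive. -/
lemma deriv_nonpos_of_left_min {f : ℝ → ℝ} {f' s1 : ℝ} (hs1 : 0 < s1)
    (h : HasDerivAt f f' s1) (hmin : ∀ s ∈ Ico 0 s1, f s1 ≤ f s) : f' ≤ 0 := by
  have h1 : Tendsto (slope f s1) (𝓝[<] s1) (𝓝 f') :=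
    (hasDerivAt_iff_tendsto_slope.mp h).mono_left
      (nhdsWithin_mono _ (fun x hx => ne_of_lt hx))
  refine le_of_tendsto h1 ?_
  have h2 : ∀ᶠ s in 𝓝[<] s1, s ∈ Ico 0 s1 := Ico_mem_nhdsLT hs1
  filter_upwards [h2] with s hs
  rw [slope_def_field]
  exact div_nonpos_of_nonneg_of_nonpos (by linarith [hmin s hs]) (by linarith [hs.2])

/-- second derivative at a global minimum is nonnegative. -/
lemma second_nonneg_of_min {g g1 : ℝ → ℝ} {g2 z1 : ℝ}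
    (h : ∀ z, HasDerivAt g (g1 z) z) (h2 : HasDerivAt g1 g2 z1)
    (hmin : ∀ z, g z1 ≤ g z) : g1 z1 = 0 ∧ 0 ≤ g2 := by
  have hlm : IsLocalMin g z1 := Filter.Eventually.of_forall hmin
  have h0 : g1 z1 = 0 := hlm.hasDerivAt_eq_zero (h z1)
  refine ⟨h0, ?_⟩
  by_contra hneg
  push Not at hneg
  have hd : deriv g = g1 := by
    funext z; exact (h z).deriv
  have hdd : deriv (deriv g) z1 = g2 := by rw [hd]; exact h2.deriv
  have hmax : IsLocalMax g z1 :=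
    isLocalMax_of_deriv_deriv_neg (by rw [hdd]; exact hneg) (by rw [hd]; exact h0)
      (h z1).continuousAt
  have heq : g =ᶠ[𝓝 z1] fun _ => g z1 := by
    filter_upwards [hmax] with z hz
    exact le_antisymm hz (hmin z)
  have h3 : deriv g =ᶠ[𝓝 z1] deriv (fun _ => g z1) := heq.deriv
  have h4 : deriv (deriv g) z1 = deriv (deriv (fun _ : ℝ => g z1)) z1 := h3.deriv_eq
  rw [hdd] at h4
  simp at h4
  linarith

lemma four_bound (v : ℝ) : (1 + |v|) ^ 3 ≤ 4 * (1 + v ^ 2) ^ 2 ∧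
    (1 + |v|) ^ 4 ≤ 4 * (1 + v ^ 2) ^ 2 := by
  have ha : 0 ≤ |v| := abs_nonneg v
  have hv2 : |v| ^ 2 = v ^ 2 := sq_abs v
  have h5 : (1 + |v|) ^ 2 ≤ 2 * (1 + v ^ 2) := by
    have := sq_nonneg (1 - |v|)
    have e : (1 - |v|) ^ 2 = 1 - 2 * |v| + |v| ^ 2 := by ring
    have e2 : (1 + |v|) ^ 2 = 1 + 2 * |v| + |v| ^ 2 := by ring
    rw [e2]; rw [e] at this; linarith
  have h6 : 0 ≤ (1 + |v|) ^ 2 := by positivity
  have h4 : (1 + |v|) ^ 4 ≤ 4 * (1 + v ^ 2) ^ 2 := by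
    have := mul_self_le_mul_self h6 h5
    calc (1 + |v|) ^ 4 = (1 + |v|) ^ 2 * (1 + |v|) ^ 2 := by ring
      _ ≤ 2 * (1 + v ^ 2) * (2 * (1 + v ^ 2)) := this
      _ = 4 * (1 + v ^ 2) ^ 2 := by ring
  refine ⟨?_, h4⟩
  have h7 : 0 ≤ (1 + |v|) ^ 3 := by positivity
  have h8 : (1 + |v|) ^ 3 ≤ (1 + |v|) ^ 4 := by
    calc (1 + |v|) ^ 3 = (1 + |v|) ^ 3 * 1 := by ring
      _ ≤ (1 + |v|) ^ 3 * (1 + |v|) := mul_le_mul_of_nonneg_left (by linarith) h7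
      _ = (1 + |v|) ^ 4 := by ring
  exact h8.trans h4

lemma outside_bound {C ε R t z v : ℝ} (hC : 0 ≤ C) (hε : 0 < ε) (hR1 : 1 ≤ R)
    (hR4 : 4 * C ≤ ε * R) (hor : R ≤ |t| ∨ R ≤ |z| ∨ R ≤ |v|) :
    C * (1 + |v|) ^ 3 ≤ ε * ((1 + t ^ 2 + z ^ 2) * (1 + v ^ 2) ^ 2) := by
  obtain ⟨h3, h4⟩ := four_bound v
  have ha : 0 ≤ |v| := abs_nonneg v
  have hR42 : 4 * C ≤ ε * R ^ 2 := by
    have : R ≤ R ^ 2 := by
      calc R = R * 1 := by ring
        _ ≤ R * R := mul_le_mul_of_nonneg_left hR1 (by linarith)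
        _ = R ^ 2 := by ring
    exact hR4.trans (mul_le_mul_of_nonneg_left this hε.le)
  have h10 : 0 ≤ (1 + v ^ 2) ^ 2 := by positivity
  have main : ∀ A : ℝ, 4 * C ≤ ε * A → A ≤ 1 + t ^ 2 + z ^ 2 →
      C * (1 + |v|) ^ 3 ≤ ε * ((1 + t ^ 2 + z ^ 2) * (1 + v ^ 2) ^ 2) := by
    intro A hA hA2
    have h9 : C * (1 + |v|) ^ 3 ≤ C * (4 * (1 + v ^ 2) ^ 2) :=
      mul_le_mul_of_nonneg_left h3 hC
    have h11 : 4 * C ≤ ε * (1 + t ^ 2 + z ^ 2) :=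
      hA.trans (mul_le_mul_of_nonneg_left hA2 hε.le)
    have h12 := mul_le_mul_of_nonneg_right h11 h10
    calc C * (1 + |v|) ^ 3 ≤ C * (4 * (1 + v ^ 2) ^ 2) := h9
      _ = 4 * C * (1 + v ^ 2) ^ 2 := by ring
      _ ≤ ε * (1 + t ^ 2 + z ^ 2) * (1 + v ^ 2) ^ 2 := h12
      _ = ε * ((1 + t ^ 2 + z ^ 2) * (1 + v ^ 2) ^ 2) := by ring
  rcases hor with h | h | h
  · have ht2 : R ^ 2 ≤ t ^ 2 := by
      rw [← sq_abs t]; exact pow_le_pow_left₀ (by linarith) h 2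
    exact main (R ^ 2) hR42 (by linarith [sq_nonneg z])
  · have ht2 : R ^ 2 ≤ z ^ 2 := by
      rw [← sq_abs z]; exact pow_le_pow_left₀ (by linarith) h 2
    exact main (R ^ 2) hR42 (by linarith [sq_nonneg t])
  · have h8 : 4 * C ≤ ε * (1 + |v|) :=
      hR4.trans (mul_le_mul_of_nonneg_left (by linarith) hε.le)
    have h7 : 0 ≤ (1 + |v|) ^ 3 := by positivity
    have h9 : 4 * C * (1 + |v|) ^ 3 ≤ ε * (1 + |v|) ^ 4 := by
      have := mul_le_mul_of_nonneg_right h8 h7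
      calc 4 * C * (1 + |v|) ^ 3 ≤ ε * (1 + |v|) * (1 + |v|) ^ 3 := this
        _ = ε * (1 + |v|) ^ 4 := by ring
    have h10' : ε * (1 + |v|) ^ 4 ≤ ε * (4 * (1 + v ^ 2) ^ 2) :=
      mul_le_mul_of_nonneg_left h4 hε.le
    have h11 : 1 * (1 + v ^ 2) ^ 2 ≤ (1 + t ^ 2 + z ^ 2) * (1 + v ^ 2) ^ 2 :=
      mul_le_mul_of_nonneg_right (by linarith [sq_nonneg t, sq_nonneg z]) h10
    have h12 := mul_le_mul_of_nonneg_left h11 hε.le
    linarith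

lemma final_alg {C K ε E t z v bb rr T Q xs xzz xz xv : ℝ} (hC : 0 ≤ C) (hK : K = 2 + 12 * C)
    (hεE : 0 < ε * E) (hT : T = 1 + t ^ 2 + z ^ 2) (hQ : Q = 1 + v ^ 2)
    (e1 : xs + ε * (K * (E * (T * Q ^ 2))) ≤ 0)
    (e2 : xz + ε * (E * (2 * z * Q ^ 2)) = 0)
    (e3 : 0 ≤ xzz + ε * (E * (2 * Q ^ 2)))
    (e4 : xv + ε * (E * (T * (4 * v * Q))) = 0)
    (e6 : |bb| ≤ C * (1 + |t| + |z|)) (e7 : |rr| ≤ C * (1 + |v|)) :
    xs - xzz / 2 + bb * xz - rr * xv < 0 := by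
  have hT1 : 1 ≤ T := by rw [hT]; linarith [sq_nonneg t, sq_nonneg z]
  have hQ1 : 1 ≤ Q := by rw [hQ]; linarith [sq_nonneg v]
  have f1 : -(2 * C * T) ≤ bb * z := by
    have g1 : |bb * z| ≤ 2 * C * T := by
      rw [abs_mul]
      have g2 : |bb| * |z| ≤ C * (1 + |t| + |z|) * |z| :=
        mul_le_mul_of_nonneg_right e6 (abs_nonneg _)
      have g3 : (1 + |t| + |z|) * |z| ≤ 2 * T := by
        have q1 : |t| ^ 2 = t ^ 2 := sq_abs _
        have q2 : |z| ^ 2 = z ^ 2 := sq_abs _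
        rw [hT]
        nlinarith [sq_nonneg (1 - |z|), sq_nonneg (|t| - |z|), sq_nonneg (|t|)]
      calc |bb| * |z| ≤ C * ((1 + |t| + |z|) * |z|) := by linarith
        _ ≤ C * (2 * T) := mul_le_mul_of_nonneg_left g3 hC
        _ = 2 * C * T := by ring
    exact (abs_le.mp g1).1
  have f2 : rr * v ≤ 2 * C * Q := by
    have g1 : |rr * v| ≤ 2 * C * Q := by
      rw [abs_mul]
      have g2 : |rr| * |v| ≤ C * (1 + |v|) * |v| :=
        mul_le_mul_of_nonneg_right e7 (abs_nonneg _)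
      have g3 : (1 + |v|) * |v| ≤ 2 * Q := by
        have q1 : |v| ^ 2 = v ^ 2 := sq_abs _
        rw [hQ]
        nlinarith [sq_nonneg (1 - |v|)]
      calc |rr| * |v| ≤ C * ((1 + |v|) * |v|) := by linarith
        _ ≤ C * (2 * Q) := mul_le_mul_of_nonneg_left g3 hC
        _ = 2 * C * Q := by ring
    exact (abs_le.mp g1).2
  have hQ0 : 0 < Q := by linarith
  have hT0 : 0 < T := by linarith
  have hTQ : 0 < T * Q ^ 2 := by positivity
  have k6 : 0 < K * (T * Q ^ 2) - Q ^ 2 + 2 * (bb * z) * Q ^ 2 - 4 * (rr * v) * Q * T := by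
    have m1 : -(2 * C * T) * (2 * Q ^ 2) ≤ (bb * z) * (2 * Q ^ 2) :=
      mul_le_mul_of_nonneg_right f1 (by positivity)
    have m2 : (rr * v) * (4 * Q * T) ≤ (2 * C * Q) * (4 * Q * T) :=
      mul_le_mul_of_nonneg_right f2 (by positivity)
    have m3 : 1 * Q ^ 2 ≤ T * Q ^ 2 := mul_le_mul_of_nonneg_right hT1 (by positivity)
    have m5 : K * (T * Q ^ 2) = 2 * (T * Q ^ 2) + 12 * (C * T * Q ^ 2) := by rw [hK]; ring
    have m6 : -(2 * C * T) * (2 * Q ^ 2) = -4 * (C * T * Q ^ 2) := by ring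
    have m7 : (2 * C * Q) * (4 * Q * T) = 8 * (C * T * Q ^ 2) := by ring
    have m8 : (bb * z) * (2 * Q ^ 2) = 2 * (bb * z) * Q ^ 2 := by ring
    have m9 : (rr * v) * (4 * Q * T) = 4 * (rr * v) * Q * T := by ring
    rw [m6, m8] at m1; rw [m7, m9] at m2
    linarith
  have k7 := mul_pos hεE k6
  have x2 : xz = -(ε * E) * (2 * z * Q ^ 2) := by linarith
  have x4 : xv = -(ε * E) * (T * (4 * v * Q)) := by linarith
  have e : (ε * E) * (K * (T * Q ^ 2) - Q ^ 2 + 2 * (bb * z) * Q ^ 2 - 4 * (rr * v) * Q * T)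
      = ε * (K * (E * (T * Q ^ 2))) - ε * (E * (2 * Q ^ 2)) / 2
        - bb * (-(ε * E) * (2 * z * Q ^ 2)) + rr * (-(ε * E) * (T * (4 * v * Q))) := by ring
  rw [e] at k7
  rw [x2, x4]
  linarith

theorem min_prin {S C : ℝ} (hC : 0 ≤ C)
    (u us uz uzz uv b r : ℝ → ℝ → ℝ → ℝ → ℝ)
    (hcont : ContinuousOn (fun p : ℝ × ℝ × ℝ × ℝ => u p.1 p.2.1 p.2.2.1 p.2.2.2)
      (Icc 0 S ×ˢ univ))
    (hus : ∀ s ∈ Ioc 0 S, ∀ t z v, HasDerivAt (fun s' => u s' t z v) (us s t z v) s)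
    (huz : ∀ s ∈ Ioc 0 S, ∀ t z v, HasDerivAt (fun z' => u s t z' v) (uz s t z v) z)
    (huzz : ∀ s ∈ Ioc 0 S, ∀ t z v, HasDerivAt (fun z' => uz s t z' v) (uzz s t z v) z)
    (huv : ∀ s ∈ Ioc 0 S, ∀ t z v, HasDerivAt (fun v' => u s t z v') (uv s t z v) v)
    (hgrow : ∀ s ∈ Icc 0 S, ∀ t z v, -(C * (1 + |v|) ^ 3) ≤ u s t z v)
    (hb : ∀ s ∈ Ioc 0 S, ∀ t z v, |b s t z v| ≤ C * (1 + |t| + |z|))
    (hr : ∀ s ∈ Ioc 0 S, ∀ t z v, |r s t z v| ≤ C * (1 + |v|))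
    (hineq : ∀ s ∈ Ioc 0 S, ∀ t z v,
      0 ≤ us s t z v - uzz s t z v / 2 + b s t z v * uz s t z v - r s t z v * uv s t z v)
    (hinit : ∀ t z v, 0 ≤ u 0 t z v) :
    ∀ s ∈ Icc 0 S, ∀ t z v, 0 ≤ u s t z v := by
  intro s0 hs0 t0 z0 v0
  by_contra hneg
  push Not at hneg
  set K : ℝ := 2 + 12 * C with hK
  set P : ℝ → ℝ → ℝ → ℝ → ℝ := fun s t z v =>
    Real.exp (K * s) * ((1 + t ^ 2 + z ^ 2) * (1 + v ^ 2) ^ 2) with hP
  have hPpos : ∀ s t z v, 0 < P s t z v := by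
    intro s t z v; simp only [hP]; positivity
  -- choice of ε
  obtain ⟨ε, hε, hεneg⟩ : ∃ ε : ℝ, 0 < ε ∧ u s0 t0 z0 v0 + ε * P s0 t0 z0 v0 < 0 := by
    refine ⟨-(u s0 t0 z0 v0) / (2 * P s0 t0 z0 v0), ?_, ?_⟩
    · apply div_pos (by linarith); linarith [hPpos s0 t0 z0 v0]
    · have hp := hPpos s0 t0 z0 v0
      have : -(u s0 t0 z0 v0) / (2 * P s0 t0 z0 v0) * P s0 t0 z0 v0 = -(u s0 t0 z0 v0) / 2 := by
        field_simp
      rw [this]; linarith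
  set U : ℝ → ℝ → ℝ → ℝ → ℝ := fun s t z v => u s t z v + ε * P s t z v with hU
  set R : ℝ := 4 * C / ε + |t0| + |z0| + |v0| + 1 with hR
  have hCe : 0 ≤ 4 * C / ε := by positivity
  have hR1 : 1 ≤ R := by
    have := abs_nonneg t0; have := abs_nonneg z0; have := abs_nonneg v0; linarith
  have hR4 : 4 * C ≤ ε * R := by
    have h1 : 4 * C / ε ≤ R := by
      have := abs_nonneg t0; have := abs_nonneg z0; have := abs_nonneg v0; linarith
    have := (div_le_iff₀ hε).mp h1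
    linarith
  -- lower bound on P
  have hPlow : ∀ s ∈ Icc 0 S, ∀ t z v, (1 + t ^ 2 + z ^ 2) * (1 + v ^ 2) ^ 2 ≤ P s t z v := by
    intro s hs t z v
    simp only [hP]
    have h1 : (1:ℝ) ≤ Real.exp (K * s) := by
      apply Real.one_le_exp
      exact mul_nonneg (by rw [hK]; linarith) hs.1
    have h2 : 0 ≤ (1 + t ^ 2 + z ^ 2) * (1 + v ^ 2) ^ 2 := by positivity
    nlinarith
  -- outside the box U is nonneg
  have hout : ∀ s ∈ Icc 0 S, ∀ t z v, (R ≤ |t| ∨ R ≤ |z| ∨ R ≤ |v|) → 0 ≤ U s t z v := by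
    intro s hs t z v hor
    have hp := hPlow s hs t z v
    have hg := hgrow s hs t z v
    have hkey := outside_bound (t := t) (z := z) (v := v) hC hε hR1 hR4 hor
    have h13 := mul_le_mul_of_nonneg_left hp hε.le
    simp only [hU]
    linarith
  -- minimiser
  set B : Set (ℝ × ℝ × ℝ × ℝ) := Icc 0 S ×ˢ (Icc (-R) R ×ˢ (Icc (-R) R ×ˢ Icc (-R) R)) with hB
  have hBc : IsCompact B :=
    isCompact_Icc.prod (isCompact_Icc.prod (isCompact_Icc.prod isCompact_Icc))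
  have hmem0 : (s0, t0, z0, v0) ∈ B := by
    have a1 := abs_nonneg t0; have a2 := abs_nonneg z0; have a3 := abs_nonneg v0
    have b1 := abs_le.mp (le_refl |t0|); have b2 := abs_le.mp (le_refl |z0|)
    have b3 := abs_le.mp (le_refl |v0|)
    simp only [hB, mem_prod, mem_Icc]
    refine ⟨⟨hs0.1, hs0.2⟩, ⟨by linarith [b1.1], by linarith [b1.2]⟩,
      ⟨by linarith [b2.1], by linarith [b2.2]⟩, ⟨by linarith [b3.1], by linarith [b3.2]⟩⟩
  have hUcont : ContinuousOn (fun p : ℝ × ℝ × ℝ × ℝ => U p.1 p.2.1 p.2.2.1 p.2.2.2) B := by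
    have h1 : ContinuousOn (fun p : ℝ × ℝ × ℝ × ℝ => u p.1 p.2.1 p.2.2.1 p.2.2.2) B :=
      hcont.mono (fun p hp => ⟨hp.1, mem_univ _⟩)
    have h2 : Continuous (fun p : ℝ × ℝ × ℝ × ℝ => ε * P p.1 p.2.1 p.2.2.1 p.2.2.2) := by
      simp only [hP]; fun_prop
    exact h1.add h2.continuousOn
  obtain ⟨⟨s1, t1, z1, v1⟩, hp1, hmin⟩ := hBc.exists_isMinOn ⟨_, hmem0⟩ hUcont
  have hs1 : s1 ∈ Icc 0 S := hp1.1
  have hU1 : U s1 t1 z1 v1 < 0 := lt_of_le_of_lt (hmin hmem0) hεneg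
  have hglob : ∀ s ∈ Icc 0 S, ∀ t z v, U s1 t1 z1 v1 ≤ U s t z v := by
    intro s hs t z v
    by_cases hin : (s, t, z, v) ∈ B
    · exact hmin hin
    · have : R ≤ |t| ∨ R ≤ |z| ∨ R ≤ |v| := by
        by_contra hcon
        push Not at hcon
        apply hin
        simp only [hB, mem_prod, mem_Icc]
        obtain ⟨c1, c2, c3⟩ := hcon
        have d1 := abs_lt.mp c1; have d2 := abs_lt.mp c2; have d3 := abs_lt.mp c3
        exact ⟨⟨hs.1, hs.2⟩, ⟨d1.1.le, d1.2.le⟩, ⟨d2.1.le, d2.2.le⟩, ⟨d3.1.le, d3.2.le⟩⟩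
      exact hU1.le.trans (hout s hs t z v this)
  have hs1pos : 0 < s1 := by
    rcases eq_or_lt_of_le hs1.1 with h | h
    · exfalso
      have h1 := hinit t1 z1 v1
      have h2 : 0 < ε * P s1 t1 z1 v1 := mul_pos hε (hPpos _ _ _ _)
      simp only [hU] at hU1
      rw [← h] at hU1 h2
      linarith
    · exact h
  have hs1' : s1 ∈ Ioc 0 S := ⟨hs1pos, hs1.2⟩
  -- derivatives of P
  set E : ℝ := Real.exp (K * s1) with hE
  have hEpos : 0 < E := Real.exp_pos _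
  have dPs : HasDerivAt (fun s => P s t1 z1 v1)
      (K * (E * ((1 + t1 ^ 2 + z1 ^ 2) * (1 + v1 ^ 2) ^ 2))) s1 := by
    have h1 : HasDerivAt (fun s : ℝ => Real.exp (K * s)) (Real.exp (K * s1) * (K * 1)) s1 :=
      ((hasDerivAt_id s1).const_mul K).exp
    have h2 := h1.mul_const ((1 + t1 ^ 2 + z1 ^ 2) * (1 + v1 ^ 2) ^ 2)
    refine h2.congr_deriv ?_
    ring
  have dPz : ∀ z, HasDerivAt (fun z => P s1 t1 z v1) (E * (2 * z * (1 + v1 ^ 2) ^ 2)) z := by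
    intro z
    have h1 : HasDerivAt (fun z : ℝ => 1 + t1 ^ 2 + z ^ 2) (2 * z) z := by
      have := (hasDerivAt_pow 2 z).const_add (1 + t1 ^ 2)
      refine this.congr_deriv ?_
      norm_num
    exact ((h1.mul_const ((1 + v1 ^ 2) ^ 2)).const_mul E)
  have dPzz : HasDerivAt (fun z => E * (2 * z * (1 + v1 ^ 2) ^ 2))
      (E * (2 * (1 + v1 ^ 2) ^ 2)) z1 := by
    have h1 : HasDerivAt (fun z : ℝ => 2 * z) (2 * 1) z1 := (hasDerivAt_id z1).const_mul 2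
    have h2 := (h1.mul_const ((1 + v1 ^ 2) ^ 2)).const_mul E
    refine h2.congr_deriv ?_
    ring
  have dPv : HasDerivAt (fun v => P s1 t1 z1 v)
      (E * ((1 + t1 ^ 2 + z1 ^ 2) * (4 * v1 * (1 + v1 ^ 2)))) v1 := by
    have h1 : HasDerivAt (fun v : ℝ => 1 + v ^ 2) (2 * v1) v1 := by
      have := (hasDerivAt_pow 2 v1).const_add 1
      refine this.congr_deriv ?_
      norm_num
    have h2 : HasDerivAt (fun v : ℝ => (1 + v ^ 2) ^ 2) (4 * v1 * (1 + v1 ^ 2)) v1 := by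
      have := h1.fun_pow 2
      refine this.congr_deriv ?_
      norm_num; ring
    exact ((h2.const_mul (1 + t1 ^ 2 + z1 ^ 2)).const_mul E)
  -- derivatives of U
  have dUs : HasDerivAt (fun s => U s t1 z1 v1)
      (us s1 t1 z1 v1 + ε * (K * (E * ((1 + t1 ^ 2 + z1 ^ 2) * (1 + v1 ^ 2) ^ 2)))) s1 :=
    (hus s1 hs1' t1 z1 v1).add (dPs.const_mul ε)
  have dUz : ∀ z, HasDerivAt (fun z => U s1 t1 z v1)
      (uz s1 t1 z v1 + ε * (E * (2 * z * (1 + v1 ^ 2) ^ 2))) z := fun z =>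
    (huz s1 hs1' t1 z v1).add ((dPz z).const_mul ε)
  have dUzz : HasDerivAt (fun z => uz s1 t1 z v1 + ε * (E * (2 * z * (1 + v1 ^ 2) ^ 2)))
      (uzz s1 t1 z1 v1 + ε * (E * (2 * (1 + v1 ^ 2) ^ 2))) z1 :=
    (huzz s1 hs1' t1 z1 v1).add (dPzz.const_mul ε)
  have dUv : HasDerivAt (fun v => U s1 t1 z1 v)
      (uv s1 t1 z1 v1 + ε * (E * ((1 + t1 ^ 2 + z1 ^ 2) * (4 * v1 * (1 + v1 ^ 2))))) v1 :=
    (huv s1 hs1' t1 z1 v1).add (dPv.const_mul ε)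
  have e1 := deriv_nonpos_of_left_min hs1pos dUs
    (fun s hs => hglob s ⟨hs.1, hs.2.le.trans hs1.2⟩ t1 z1 v1)
  obtain ⟨e2, e3⟩ := second_nonneg_of_min dUz dUzz (fun z => hglob s1 hs1 t1 z v1)
  have e4 : uv s1 t1 z1 v1 + ε * (E * ((1 + t1 ^ 2 + z1 ^ 2) * (4 * v1 * (1 + v1 ^ 2)))) = 0 := by
    have hlm : IsLocalMin (fun v => U s1 t1 z1 v) v1 :=
      Filter.Eventually.of_forall (fun v => hglob s1 hs1 t1 z1 v)
    exact hlm.hasDerivAt_eq_zero dUv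
  have e5 := hineq s1 hs1' t1 z1 v1
  have e6 := hb s1 hs1' t1 z1 v1
  have e7 := hr s1 hs1' t1 z1 v1
  have hfin := final_alg hC hK (mul_pos hε hEpos) rfl rfl e1 e2 e3 e4 e6 e7
  linarith

end P227M.SC
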