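import Vale.Agent.P227.M.SC.Bd

/-! # P227/M/SC: the mode of `W (x + A y) + |y|²/2` -/

open MeasureTheory Real Filter
open scoped Topology

namespace Vale.P227SC.Bd

/-- two-sided first order Taylor control -/
structure Tay {E : Type*} [NormedAddCommGroup E] [NormedSpace ℝ E] (W : E → ℝ)
    (p : E → E →L[ℝ] ℝ) (C : ℝ) : Prop where
  hC : 0 ≤ C
  cont : Continuous W
  lo : ∀ x y, W x + p x (y - x) ≤ W y
  hi : ∀ x y, W y ≤ W x + p x (y - x) + (C / 2) * ‖y - x‖ ^ 2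

variable {E : Type*} [NormedAddCommGroup E] [NormedSpace ℝ E]
variable {Y : Type*} [NormedAddCommGroup Y] [InnerProductSpace ℝ Y] [FiniteDimensional ℝ Y]

lemma expand (y0 y : Y) : (1 / 2 : ℝ) * ‖y‖ ^ 2 =
    (1 / 2) * ‖y0‖ ^ 2 + inner ℝ y0 (y - y0) + (1 / 2) * ‖y - y0‖ ^ 2 := by
  have h : y = y0 + (y - y0) := by abel
  conv_lhs => rw [h]
  rw [norm_add_sq_real]
  ring

theorem exists_mode {W : E → ℝ} {p : E → E →L[ℝ] ℝ} {C : ℝ} (T : Tay W p C) (A : Y →L[ℝ] E)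
    (x : E) : ∃ y0 : Y, Pin (fun y => W (x + A y) + (1 / 2) * ‖y‖ ^ 2) y0 (1 + C * ‖A‖ ^ 2) ∧
      ‖y0‖ ≤ ‖A‖ * ‖p x‖ := by
  have hcont : Continuous (fun y : Y => W (x + A y) + (1 / 2) * ‖y‖ ^ 2) := by
    have := T.cont
    fun_prop
  obtain ⟨y0, hy0⟩ : ∃ y0 : Y, ∀ y, W (x + A y0) + (1 / 2) * ‖y0‖ ^ 2 ≤
      W (x + A y) + (1 / 2) * ‖y‖ ^ 2 := by
    apply hcont.exists_forall_le' 0
    rw [Filter.eventually_iff_exists_mem]
    refine ⟨(Metric.closedBall (0 : Y) (2 * (‖p x‖ * ‖A‖)))ᶜ,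
      (isCompact_closedBall (0 : Y) _).compl_mem_cocompact, fun y hy => ?_⟩
    have hy' : 2 * (‖p x‖ * ‖A‖) < ‖y‖ := by simpa using hy
    have h1 := T.lo x (x + A y)
    have h2 : |p x (A y)| ≤ ‖p x‖ * ‖A‖ * ‖y‖ := by
      rw [← Real.norm_eq_abs]
      calc ‖p x (A y)‖ ≤ ‖p x‖ * ‖A y‖ := (p x).le_opNorm _
        _ ≤ ‖p x‖ * (‖A‖ * ‖y‖) := mul_le_mul_of_nonneg_left (A.le_opNorm _) (norm_nonneg _)
        _ = _ := by ring
    rw [add_sub_cancel_left] at h1
    have h3 := (_root_.abs_le.mp h2).1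
    simp only [map_zero, add_zero, norm_zero]
    nlinarith [norm_nonneg y]
  have hl : ∀ h : Y, p (x + A y0) (A h) + inner ℝ y0 h = 0 := by
    intro h
    set l := p (x + A y0) (A h) + inner ℝ y0 h with hl
    set N := (C / 2) * ‖A h‖ ^ 2 + (1 / 2) * ‖h‖ ^ 2 with hN
    have hN0 : 0 ≤ N := by have := T.hC; positivity
    have key : ∀ t : ℝ, 0 ≤ t * l + t ^ 2 * N := by
      intro t
      have h1 := hy0 (y0 + t • h)
      have h2 := T.hi (x + A y0) (x + A (y0 + t • h))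
      have h3 : x + A (y0 + t • h) - (x + A y0) = t • A h := by
        rw [map_add, map_smul]; abel
      rw [h3, map_smul, norm_smul, mul_pow, Real.norm_eq_abs, sq_abs, smul_eq_mul] at h2
      have h4 := expand y0 (y0 + t • h)
      rw [add_sub_cancel_left, inner_smul_right, norm_smul, mul_pow, Real.norm_eq_abs, sq_abs] at h4
      rw [hl, hN]
      nlinarith
    have h5 := key (-l / (N + 1))
    have h6 : -l / (N + 1) * l + (-l / (N + 1)) ^ 2 * N = -(l / (N + 1)) ^ 2 := by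
      field_simp
      ring
    rw [h6] at h5
    have h7 : (l / (N + 1)) ^ 2 = 0 := le_antisymm (by linarith) (sq_nonneg _)
    have h8 : l / (N + 1) = 0 := by simpa using h7
    have h9 : N + 1 ≠ 0 := by positivity
    exact (div_eq_zero_iff.mp h8).resolve_right h9
  refine ⟨y0, ⟨hcont, fun y => ?_, fun y => ?_⟩, ?_⟩
  · have h1 := T.lo (x + A y0) (x + A y)
    have h3 : x + A y - (x + A y0) = A (y - y0) := by rw [map_sub]; abel
    rw [h3] at h1
    have h4 := expand y0 y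
    have h5 := hl (y - y0)
    linarith
  · have h1 := T.hi (x + A y0) (x + A y)
    have h3 : x + A y - (x + A y0) = A (y - y0) := by rw [map_sub]; abel
    rw [h3] at h1
    have h4 := expand y0 y
    have h5 := hl (y - y0)
    have h6 : ‖A (y - y0)‖ ^ 2 ≤ ‖A‖ ^ 2 * ‖y - y0‖ ^ 2 := by
      rw [← mul_pow]
      exact pow_le_pow_left₀ (norm_nonneg _) (A.le_opNorm _) 2
    have h7 := mul_le_mul_of_nonneg_left h6 (by have := T.hC; positivity : (0:ℝ) ≤ C / 2)
    linarith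
  · have h1 := T.lo x (x + A y0)
    have h2 := T.lo (x + A y0) x
    rw [add_sub_cancel_left] at h1
    have h3 : x - (x + A y0) = -(A y0) := by abel
    rw [h3, map_neg] at h2
    have h4 := hl y0
    rw [real_inner_self_eq_norm_sq] at h4
    have h5 : |p x (A y0)| ≤ ‖p x‖ * ‖A‖ * ‖y0‖ := by
      rw [← Real.norm_eq_abs]
      calc ‖p x (A y0)‖ ≤ ‖p x‖ * ‖A y0‖ := (p x).le_opNorm _
        _ ≤ ‖p x‖ * (‖A‖ * ‖y0‖) := mul_le_mul_of_nonneg_left (A.le_opNorm _) (norm_nonneg _)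
        _ = _ := by ring
    have h6 := (_root_.abs_le.mp h5).1
    by_contra hcon
    push_neg at hcon
    have h7 : 0 < ‖y0‖ := lt_of_le_of_lt (by positivity) hcon
    nlinarith

end Vale.P227SC.Bd
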