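import Mathlib

/-! # P227/M/SC: finite averages, binomial weights, the one-dimensional step function identity. -/

open MeasureTheory Filter
open scoped Topology

namespace Vale.Agent.P227.M.SC.ML

/-- two point average -/
noncomputable def A {E : Type*} [AddCommGroup E] [Module ℝ E] (d : ℝ) (e : E) (f : E → ℝ) (x : E) : ℝ :=
  (f (x + d • e) + f (x - d • e)) / 2

theorem A_iter {E : Type*} [AddCommGroup E] [Module ℝ E] (d : ℝ) (e : E) (N : ℕ) :
    ∀ (f : E → ℝ) (x : E), ((A d e)^[N] f) x =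
      (1 / 2 : ℝ) ^ N * ∑ ij ∈ Finset.HasAntidiagonal.antidiagonal N, (N.choose ij.1 : ℝ) *
        f (x + (((ij.1 : ℝ) - ij.2) * d) • e) := by
  induction N with
  | zero => intro f x; simp
  | succ N ih =>
    intro f x
    rw [Function.iterate_succ_apply, ih]
    have h := Finset.sum_antidiagonal_choose_succ_mul
      (fun i j => f (x + (((i : ℝ) - j) * d) • e)) N
    rw [h, pow_succ]
    have h1 : ∀ ij ∈ Finset.HasAntidiagonal.antidiagonal N, (N.choose ij.1 : ℝ) *
        A d e f (x + (((ij.1 : ℝ) - ij.2) * d) • e) =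
        (1 / 2) * ((N.choose ij.1 : ℝ) * f (x + (((ij.1 : ℝ) - ((ij.2 + 1 : ℕ) : ℝ)) * d) • e) +
          (N.choose ij.2 : ℝ) * f (x + ((((ij.1 + 1 : ℕ) : ℝ) - ij.2) * d) • e)) := by
      intro ij hij
      have h2 : N.choose ij.2 = N.choose ij.1 := by
        rw [Finset.HasAntidiagonal.mem_antidiagonal] at hij
        rw [← hij]
        exact Nat.choose_symm_add.symm
      rw [h2, A]
      have e1 : x + (((ij.1 : ℝ) - ij.2) * d) • e + d • e =
          x + ((((ij.1 + 1 : ℕ) : ℝ) - ij.2) * d) • e := by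
        push_cast; module
      have e2 : x + (((ij.1 : ℝ) - ij.2) * d) • e - d • e =
          x + (((ij.1 : ℝ) - ((ij.2 + 1 : ℕ) : ℝ)) * d) • e := by
        push_cast; module
      rw [e1, e2]; ring
    rw [Finset.sum_congr rfl h1, ← Finset.mul_sum, Finset.sum_add_distrib]
    ring

/-- the weights, normalised by the central one -/
noncomputable def rho (K : ℕ) (i : ℤ) : ℝ :=
  if 0 ≤ (K : ℤ) + i then (((2 * K).choose ((K : ℤ) + i).toNat : ℕ) : ℝ) / ((2 * K).choose K : ℝ) else 0

theorem cb_pos (K : ℕ) : (0 : ℝ) < ((2 * K).choose K : ℝ) := by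
  exact_mod_cast Nat.choose_pos (by omega)

theorem rho_nonneg (K : ℕ) (i : ℤ) : 0 ≤ rho K i := by
  unfold rho; split_ifs
  · positivity
  · exact le_rfl

theorem rho_le_one (K : ℕ) (i : ℤ) : rho K i ≤ 1 := by
  unfold rho; split_ifs with h
  · rw [div_le_one (cb_pos K)]
    have := Nat.choose_le_centralBinom ((K : ℤ) + i).toNat K
    rw [Nat.centralBinom] at this
    exact_mod_cast this
  · exact zero_le_one

theorem rho_eq_zero {K : ℕ} {i : ℤ} (h : (K : ℤ) < |i|) : rho K i = 0 := by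
  unfold rho; split_ifs with h1
  · rw [div_eq_zero_iff]; left
    have h2 : 2 * K < ((K : ℤ) + i).toNat := by
      rcases lt_abs.1 h with h3 | h3 <;> omega
    rw [Nat.choose_eq_zero_of_lt h2]; simp
  · rfl

theorem rho_neg (K : ℕ) (i : ℤ) : rho K (-i) = rho K i := by
  by_cases h : (K : ℤ) < |i|
  · rw [rho_eq_zero h, rho_eq_zero (by rwa [abs_neg])]
  · have h1 : -(K : ℤ) ≤ i ∧ i ≤ K := abs_le.1 (not_lt.1 h)
    unfold rho
    rw [if_pos (by omega), if_pos (by omega)]
    congr 2
    rw [← Nat.choose_symm_of_eq_add]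
    omega

/-- lower bound of the weights for natural numbers -/
theorem choose_lower (K i : ℕ) (hi : i ≤ K) (hK : 0 < K) :
    (1 - (i : ℝ) ^ 2 / K) * ((2 * K).choose K : ℝ) ≤ ((2 * K).choose (K + i) : ℝ) := by
  have hKr : (0 : ℝ) < K := by exact_mod_cast hK
  induction i with
  | zero => simp
  | succ i ih =>
    have ih' := ih (by omega)
    by_cases hneg : (K : ℝ) ≤ ((i + 1 : ℕ) : ℝ) ^ 2
    · have h1 : (1 - ((i + 1 : ℕ) : ℝ) ^ 2 / K) ≤ 0 := by
        rw [sub_nonpos, one_le_div hKr]; exact hneg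
      exact (mul_nonpos_of_nonpos_of_nonneg h1 (by positivity)).trans (by positivity)
    · rw [not_le] at hneg
      have h2 : ((2 * K).choose (K + i + 1) : ℝ) * ((K : ℝ) + i + 1) =
          ((2 * K).choose (K + i) : ℝ) * ((K : ℝ) - i) := by
        have := Nat.choose_succ_right_eq (2 * K) (K + i)
        have h3 : 2 * K - (K + i) = K - i := by omega
        rw [h3] at this
        have h4 := congrArg (fun n : ℕ => (n : ℝ)) this
        simp only [Nat.cast_mul, Nat.cast_add, Nat.cast_one] at h4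
        rw [Nat.cast_sub (by omega)] at h4
        exact h4
      have h5 : (0 : ℝ) < (K : ℝ) + i + 1 := by positivity
      have h6 : ((2 * K).choose (K + i + 1) : ℝ) =
          ((2 * K).choose (K + i) : ℝ) * (((K : ℝ) - i) / ((K : ℝ) + i + 1)) := by
        rw [← mul_div_assoc, ← h2]; field_simp
      have h7 : 1 - (2 * (i : ℝ) + 1) / K ≤ ((K : ℝ) - i) / ((K : ℝ) + i + 1) := by
        rw [le_div_iff₀ h5, sub_mul, one_mul, div_mul_eq_mul_div]
        rw [sub_le_iff_le_add, ← sub_le_iff_le_add']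
        have : (K : ℝ) + i + 1 - (K - i) = 2 * i + 1 := by ring
        rw [this, le_div_iff₀ hKr]
        have : (0 : ℝ) ≤ i := by positivity
        nlinarith
      have hi0 : (0 : ℝ) ≤ i := by positivity
      have hcast : ((i + 1 : ℕ) : ℝ) = (i : ℝ) + 1 := by push_cast; ring
      rw [hcast] at hneg ⊢
      have h8 : 0 ≤ 1 - (i : ℝ) ^ 2 / K := by
        rw [sub_nonneg, div_le_one hKr]; nlinarith
      have h9 : 0 ≤ 1 - (2 * (i : ℝ) + 1) / K := by
        rw [sub_nonneg, div_le_one hKr]; nlinarith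
      have hc : (0 : ℝ) < ((2 * K).choose K : ℝ) := cb_pos K
      have : K + (i + 1) = K + i + 1 := by ring
      rw [this, h6]
      calc (1 - ((i : ℝ) + 1) ^ 2 / K) * ((2 * K).choose K : ℝ)
          ≤ ((1 - (i : ℝ) ^ 2 / K) * (1 - (2 * (i : ℝ) + 1) / K)) * ((2 * K).choose K : ℝ) := by
            apply mul_le_mul_of_nonneg_right _ hc.le
            have e1 : (1 - (i : ℝ) ^ 2 / K) * (1 - (2 * (i : ℝ) + 1) / K) -
                (1 - ((i : ℝ) + 1) ^ 2 / K) = ((i : ℝ) ^ 2 / K) * ((2 * (i : ℝ) + 1) / K) := by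
              field_simp; ring
            have e2 : 0 ≤ ((i : ℝ) ^ 2 / K) * ((2 * (i : ℝ) + 1) / K) := by positivity
            linarith
        _ = ((1 - (i : ℝ) ^ 2 / K) * ((2 * K).choose K : ℝ)) * (1 - (2 * (i : ℝ) + 1) / K) := by ring
        _ ≤ ((2 * K).choose (K + i) : ℝ) * (1 - (2 * (i : ℝ) + 1) / K) :=
            mul_le_mul_of_nonneg_right ih' h9
        _ ≤ _ := mul_le_mul_of_nonneg_left h7 (by positivity)

theorem rho_lower (K : ℕ) (hK : 0 < K) (i : ℤ) : 1 - (i : ℝ) ^ 2 / K ≤ rho K i := by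
  have hKr : (0 : ℝ) < K := by exact_mod_cast hK
  have key : ∀ j : ℕ, 1 - ((j : ℤ) : ℝ) ^ 2 / K ≤ rho K (j : ℤ) := by
    intro j
    by_cases h : j ≤ K
    · unfold rho
      rw [if_pos (by omega), le_div_iff₀ (cb_pos K)]
      have h1 : ((K : ℤ) + (j : ℤ)).toNat = K + j := by omega
      rw [h1, Int.cast_natCast]
      exact choose_lower K j h hK
    · rw [not_le] at h
      have h1 : (K : ℝ) < j := by exact_mod_cast h
      have h2 : 1 - ((j : ℤ) : ℝ) ^ 2 / K ≤ 0 := by
        rw [sub_nonpos, one_le_div hKr]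
        push_cast
        have : (1 : ℝ) ≤ K := by exact_mod_cast hK
        nlinarith
      exact h2.trans (rho_nonneg _ _)
  rcases le_total 0 i with h | h
  · obtain ⟨j, rfl⟩ := Int.eq_ofNat_of_zero_le h
    exact key j
  · obtain ⟨j, hj⟩ := Int.eq_ofNat_of_zero_le (neg_nonneg.2 h)
    have := key j
    rw [← hj, rho_neg] at this
    push_cast at this
    rwa [neg_sq] at this

end Vale.Agent.P227.M.SC.ML
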