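import Vale.Agent.P227.M.SC.MomLimA

/-! # P227/M/SC: the finite average as an integral of a step function, iterated. -/

open MeasureTheory Filter
open scoped Topology

namespace Vale.Agent.P227.M.SC.ML

/-- step point -/
noncomputable def qd (d z : ℝ) : ℝ := 2 * d * (⌊z / (2 * d)⌋ : ℤ)

/-- step weight -/
noncomputable def ph (K : ℕ) (d z : ℝ) : ℝ := rho K ⌊z / (2 * d)⌋

/-- the normalisation -/
noncomputable def nrm (K : ℕ) (d : ℝ) : ℝ := 2 * d * 4 ^ K / ((2 * K).choose K : ℝ)

theorem step_int {d : ℝ} (hd : 0 < d) (K : ℕ) (h : ℤ → ℝ) (hh : ∀ i : ℤ, (K : ℤ) < |i| → h i = 0) :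
    ∫ z : ℝ, h ⌊z / (2 * d)⌋ = 2 * d * ∑ l ∈ Finset.Icc (-(K : ℤ)) K, h l := by
  have h2d : 0 < 2 * d := by positivity
  have e1 : (fun z : ℝ => h ⌊z / (2 * d)⌋) = fun z => ∑ l ∈ Finset.Icc (-(K : ℤ)) K,
      (Set.Ico (2 * d * (l : ℝ)) (2 * d * ((l : ℝ) + 1))).indicator (fun _ => h l) z := by
    funext z
    have hmem : ∀ l : ℤ, z ∈ Set.Ico (2 * d * (l : ℝ)) (2 * d * ((l : ℝ) + 1)) ↔ ⌊z / (2 * d)⌋ = l := by
      intro l
      rw [Int.floor_eq_iff, Set.mem_Ico, le_div_iff₀ h2d, div_lt_iff₀ h2d, mul_comm (2 * d),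
        mul_comm (2 * d)]
    by_cases hz : ⌊z / (2 * d)⌋ ∈ Finset.Icc (-(K : ℤ)) K
    · rw [Finset.sum_eq_single_of_mem _ hz]
      · rw [Set.indicator_of_mem ((hmem _).2 rfl)]
      · intro l _ hl
        rw [Set.indicator_of_notMem]
        intro h3
        exact hl ((hmem l).1 h3).symm
    · rw [Finset.sum_eq_zero]
      · apply hh
        rw [Finset.mem_Icc, not_and_or, not_le, not_le] at hz
        rw [lt_abs]
        rcases hz with hz | hz
        · right; omega
        · left; exact hz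
      · intro l hl
        rw [Set.indicator_of_notMem]
        intro h3
        rw [(hmem l).1 h3] at hz
        exact hz hl
  rw [e1, integral_finsetSum]
  · rw [Finset.mul_sum]
    refine Finset.sum_congr rfl fun l _ => ?_
    rw [integral_indicator measurableSet_Ico, setIntegral_const, Measure.real, Real.volume_Ico,
      ENNReal.toReal_ofReal (by nlinarith)]
    simp only [smul_eq_mul]; ring
  · intro l _
    rw [integrable_indicator_iff measurableSet_Ico]
    exact integrableOn_const (by rw [Real.volume_Ico]; exact ENNReal.ofReal_ne_top)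

theorem one_dim {E : Type*} [AddCommGroup E] [Module ℝ E] {d : ℝ} (hd : 0 < d) (e : E) (K : ℕ)
    (f : E → ℝ) (x : E) :
    nrm K d * ((A d e)^[2 * K] f) x = ∫ z : ℝ, ph K d z * f (x + qd d z • e) := by
  have h1 : ∫ z : ℝ, ph K d z * f (x + qd d z • e) =
      2 * d * ∑ l ∈ Finset.Icc (-(K : ℤ)) K, rho K l * f (x + (2 * d * (l : ℝ)) • e) :=
    step_int hd K (fun l => rho K l * f (x + (2 * d * (l : ℝ)) • e))
      (fun i hi => by rw [rho_eq_zero hi, zero_mul])
  rw [h1, A_iter, nrm]
  have hc := (cb_pos K).ne'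
  have h2 : ((1 : ℝ) / 2) ^ (2 * K) = 1 / 4 ^ K := by
    rw [pow_mul, show ((1 : ℝ) / 2) ^ 2 = 1 / 4 by norm_num, one_div, inv_pow, one_div]
  rw [h2]
  have h3 : ∑ ij ∈ Finset.HasAntidiagonal.antidiagonal (2 * K), ((2 * K).choose ij.1 : ℝ) *
      f (x + (((ij.1 : ℝ) - ij.2) * d) • e) =
      ((2 * K).choose K : ℝ) * ∑ l ∈ Finset.Icc (-(K : ℤ)) K, rho K l * f (x + (2 * d * (l : ℝ)) • e) := by
    rw [Finset.mul_sum]
    refine Finset.sum_bij' (fun ij _ => (ij.1 : ℤ) - K)
      (fun l _ => (((K : ℤ) + l).toNat, ((K : ℤ) - l).toNat)) ?_ ?_ ?_ ?_ ?_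
    · intro ij hij
      rw [Finset.HasAntidiagonal.mem_antidiagonal] at hij
      rw [Finset.mem_Icc]; omega
    · intro l hl
      rw [Finset.mem_Icc] at hl
      rw [Finset.HasAntidiagonal.mem_antidiagonal]
      show ((K : ℤ) + l).toNat + ((K : ℤ) - l).toNat = 2 * K
      omega
    · intro ij hij
      rw [Finset.HasAntidiagonal.mem_antidiagonal] at hij
      ext
      · show ((K : ℤ) + ((ij.1 : ℤ) - K)).toNat = ij.1
        omega
      · show ((K : ℤ) - ((ij.1 : ℤ) - K)).toNat = ij.2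
        omega
    · intro l hl
      rw [Finset.mem_Icc] at hl
      show ((((K : ℤ) + l).toNat : ℕ) : ℤ) - K = l
      omega
    · intro ij hij
      rw [Finset.HasAntidiagonal.mem_antidiagonal] at hij
      unfold rho
      rw [if_pos (by omega)]
      have e1 : ((K : ℤ) + ((ij.1 : ℤ) - K)).toNat = ij.1 := by omega
      rw [e1]
      have e2 : ((ij.1 : ℝ) - ij.2) * d = 2 * d * (((ij.1 : ℤ) - (K : ℤ) : ℤ) : ℝ) := by
        have : (ij.2 : ℝ) = 2 * K - ij.1 := by
          have h5 : ((ij.1 + ij.2 : ℕ) : ℝ) = ((2 * K : ℕ) : ℝ) := by rw [hij]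
          push_cast at h5; linarith
        rw [this]; push_cast; ring
      rw [e2]
      field_simp
  rw [h3]
  have h4 : (4 : ℝ) ^ K ≠ 0 := by positivity
  field_simp

theorem measurable_ph (K : ℕ) (d : ℝ) : Measurable (ph K d) := by
  unfold ph
  exact (measurable_from_top (f := rho K)).comp (Int.measurable_floor.comp (measurable_id.div_const _))

theorem measurable_qd (d : ℝ) : Measurable (qd d) := by
  unfold qd
  exact ((measurable_from_top (f := fun i : ℤ => (i : ℝ))).comp
    (Int.measurable_floor.comp (measurable_id.div_const _))).const_mul _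

theorem ph_nonneg (K : ℕ) (d z : ℝ) : 0 ≤ ph K d z := rho_nonneg _ _

theorem ph_le_one (K : ℕ) (d z : ℝ) : ph K d z ≤ 1 := rho_le_one _ _

theorem abs_qd_sub {d : ℝ} (hd : 0 < d) (z : ℝ) : |qd d z - z| ≤ 2 * d := by
  have h2d : 0 < 2 * d := by positivity
  have h1 := Int.floor_le (z / (2 * d))
  have h2 := Int.lt_floor_add_one (z / (2 * d))
  rw [le_div_iff₀ h2d] at h1
  rw [div_lt_iff₀ h2d] at h2
  rw [abs_le, qd]
  constructor <;> nlinarith

theorem ph_lower {K : ℕ} (hK : 0 < K) {d : ℝ} (hd : 0 < d) (z : ℝ) :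
    1 - (|z| + 2 * d) ^ 2 / (4 * (K * d ^ 2)) ≤ ph K d z := by
  have h2d : 0 < 2 * d := by positivity
  have hKr : (0 : ℝ) < K := by exact_mod_cast hK
  refine le_trans ?_ (rho_lower K hK _)
  have h1 := abs_qd_sub hd z
  have h2 : |qd d z| ≤ |z| + 2 * d := by
    have := abs_add_le z (qd d z - z)
    have e : z + (qd d z - z) = qd d z := by ring
    rw [e] at this; linarith
  have h3 : (qd d z) ^ 2 ≤ (|z| + 2 * d) ^ 2 := by
    rw [← sq_abs]; exact pow_le_pow_left₀ (abs_nonneg _) h2 2
  have h4 : (⌊z / (2 * d)⌋ : ℝ) ^ 2 / K = (qd d z) ^ 2 / (4 * (K * d ^ 2)) := by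
    rw [qd]; field_simp; ring
  rw [h4]
  have : (qd d z) ^ 2 / (4 * (K * d ^ 2)) ≤ (|z| + 2 * d) ^ 2 / (4 * (K * d ^ 2)) := by gcongr
  linarith

theorem integrable_ph (K : ℕ) {d : ℝ} (hd : 0 < d) : Integrable (ph K d) := by
  have h2d : 0 < 2 * d := by positivity
  have hsub : ∀ z, z ∉ Set.Icc (-(2 * d * (K + 1))) (2 * d * (K + 1)) → ph K d z = 0 := by
    intro z hz
    apply rho_eq_zero
    rw [Set.mem_Icc, not_and_or, not_le, not_le] at hz
    rcases hz with hz | hz
    · have h1 : z / (2 * d) < -((K : ℝ) + 1) := by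
        rw [div_lt_iff₀ h2d]; linarith
      have h2 : ⌊z / (2 * d)⌋ < -(K : ℤ) := by
        rw [Int.floor_lt]; push_cast; linarith
      rw [lt_abs]; right; omega
    · have h1 : (K : ℝ) + 1 < z / (2 * d) := by
        rw [lt_div_iff₀ h2d]; linarith
      have h2 : (K : ℤ) + 1 ≤ ⌊z / (2 * d)⌋ := by
        rw [Int.le_floor]; push_cast; linarith
      rw [lt_abs]; left; omega
  have : ph K d = (Set.Icc (-(2 * d * (K + 1))) (2 * d * (K + 1))).indicator (ph K d) := by
    funext z
    by_cases hz : z ∈ Set.Icc (-(2 * d * (K + 1))) (2 * d * (K + 1))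
    · rw [Set.indicator_of_mem hz]
    · rw [Set.indicator_of_notMem hz, hsub z hz]
  rw [this, integrable_indicator_iff measurableSet_Icc]
  refine Measure.integrableOn_of_bounded (M := 1) ?_ (measurable_ph K d).aestronglyMeasurable ?_
  · rw [Real.volume_Icc]; exact ENNReal.ofReal_ne_top
  · exact Eventually.of_forall fun z => by
      rw [Real.norm_eq_abs, abs_of_nonneg (ph_nonneg _ _ _)]; exact ph_le_one _ _ _

/-- iterated averages, `N` times in each of the directions `e 0, ..., e (m-1)` -/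
noncomputable def itn {E : Type*} [AddCommGroup E] [Module ℝ E] (N : ℕ) (d : ℝ) :
    (m : ℕ) → (Fin m → E) → (E → ℝ) → E → ℝ
  | 0, _, f => f
  | m + 1, e, f => (A d (e 0))^[N] (itn N d m (fun j => e j.succ) f)

theorem itn_repr {E : Type*} [NormedAddCommGroup E] [NormedSpace ℝ E] [MeasurableSpace E]
    [BorelSpace E] [SecondCountableTopology E] {d : ℝ} (hd : 0 < d)
    (K : ℕ) (f : E → ℝ) (hf : Continuous f) (B : ℝ) (hB : ∀ x, |f x| ≤ B) (m : ℕ) :
    ∀ (e : Fin m → E) (x : E),
      nrm K d ^ m * itn (2 * K) d m e f x =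
        ∫ z : Fin m → ℝ, (∏ j, ph K d (z j)) * f (x + ∑ j, qd d (z j) • e j) := by
  induction m with
  | zero =>
    intro e x
    have h0 : (volume : Measure (Fin 0 → ℝ)) = Measure.dirac (fun i => i.elim0) :=
      Measure.volume_pi_eq_dirac _
    rw [h0, integral_dirac]
    simp [itn]
  | succ m ih =>
    intro e x
    rw [itn, pow_succ, mul_assoc, one_dim hd (e 0) K, ← integral_const_mul]
    have hmp := volume_preserving_piFinSuccAbove (fun _ : Fin (m + 1) => ℝ) 0
    have h1 : ∫ z : Fin (m + 1) → ℝ, (∏ j, ph K d (z j)) * f (x + ∑ j, qd d (z j) • e j) =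
        ∫ p : ℝ × (Fin m → ℝ), (ph K d p.1 * ∏ j, ph K d (p.2 j)) *
          f (x + qd d p.1 • e 0 + ∑ j, qd d (p.2 j) • e j.succ) := by
      rw [← hmp.symm.integral_comp (MeasurableEquiv.measurableEmbedding _)]
      refine integral_congr_ae (Eventually.of_forall fun p => ?_)
      simp only [MeasurableEquiv.piFinSuccAbove_symm_apply, Fin.insertNthEquiv, Fin.insertNth_zero,
        Equiv.coe_fn_mk, Fin.prod_univ_succ, Fin.sum_univ_succ, Fin.cons_zero, Fin.cons_succ,
        Fin.zero_succAbove, add_assoc, cast_eq]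
    rw [h1]
    have hmeas : Measurable (fun p : ℝ × (Fin m → ℝ) =>
        f (x + qd d p.1 • e 0 + ∑ j, qd d (p.2 j) • e j.succ)) := by
      refine hf.measurable.comp ?_
      refine ((measurable_const.add (((measurable_qd d).comp measurable_fst).smul_const _))).add ?_
      refine Finset.measurable_sum _ fun j _ => ?_
      exact ((measurable_qd d).comp ((measurable_pi_apply j).comp measurable_snd)).smul_const _
    have hint0 : Integrable (fun p : ℝ × (Fin m → ℝ) => ph K d p.1 * ∏ j, ph K d (p.2 j)) := by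
      refine Integrable.mul_prod (f := ph K d) (g := fun z : Fin m → ℝ => ∏ j, ph K d (z j))
        (integrable_ph K hd) ?_
      exact Integrable.fintype_prod (fun _ => integrable_ph K hd)
    have hint : Integrable (fun p : ℝ × (Fin m → ℝ) => (ph K d p.1 * ∏ j, ph K d (p.2 j)) *
          f (x + qd d p.1 • e 0 + ∑ j, qd d (p.2 j) • e j.succ)) := by
      refine Integrable.mul_bdd (c := B) hint0 hmeas.aestronglyMeasurable ?_
      exact Eventually.of_forall fun p => by rw [Real.norm_eq_abs]; exact hB _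
    rw [show (volume : Measure (ℝ × (Fin m → ℝ))) = (volume : Measure ℝ).prod volume from rfl,
      integral_prod _ hint]
    refine integral_congr_ae (Eventually.of_forall fun z => ?_)
    simp only
    have h2 := ih (fun j => e j.succ) (x + qd d z • e 0)
    rw [mul_left_comm, h2, ← integral_const_mul]
    refine integral_congr_ae (Eventually.of_forall fun w => ?_)
    simp only
    ring

end Vale.Agent.P227.M.SC.ML
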