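import Vale.Agent.P227.M.SC.MomLimB

/-! # P227/M/SC: the moment limit. -/

open MeasureTheory Filter
open scoped Topology

namespace Vale.Agent.P227.M.SC.ML

set_option linter.unusedSectionVars false

variable {E : Type*} [NormedAddCommGroup E] [InnerProductSpace ℝ E] [FiniteDimensional ℝ E]
  [MeasurableSpace E] [BorelSpace E]

/-- coordinates to points -/
noncomputable def Pt {m : ℕ} (b : OrthonormalBasis (Fin (m + 1)) ℝ E) (c : Fin (m + 1) → ℝ) : E :=
  b.repr.symm (WithLp.toLp 2 c)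

theorem Pt_eq {m : ℕ} (b : OrthonormalBasis (Fin (m + 1)) ℝ E) (c : Fin (m + 1) → ℝ) :
    Pt b c = c 0 • b 0 + ∑ j : Fin m, c j.succ • b j.succ := by
  rw [Pt, ← b.sum_repr_symm, Fin.sum_univ_succ]

theorem norm_Pt {m : ℕ} (b : OrthonormalBasis (Fin (m + 1)) ℝ E) (c : Fin (m + 1) → ℝ) :
    ‖Pt b c‖ ^ 2 = c 0 ^ 2 + ∑ j : Fin m, c j.succ ^ 2 := by
  rw [Pt, LinearIsometryEquiv.norm_map, EuclideanSpace.norm_sq_eq, Fin.sum_univ_succ]
  simp [Real.norm_eq_abs, sq_abs]

theorem inner_Pt {m : ℕ} (b : OrthonormalBasis (Fin (m + 1)) ℝ E) (c : Fin (m + 1) → ℝ) :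
    inner ℝ (b 0) (Pt b c) = c 0 := by
  rw [← b.repr_apply_apply, Pt, LinearIsometryEquiv.apply_symm_apply]

theorem continuous_Pt {m : ℕ} (b : OrthonormalBasis (Fin (m + 1)) ℝ E) : Continuous (Pt b) := by
  unfold Pt
  exact b.repr.symm.continuous.comp (PiLp.continuous_toLp 2 _)

theorem measurePreserving_Pt {m : ℕ} (b : OrthonormalBasis (Fin (m + 1)) ℝ E) :
    MeasurePreserving (Pt b) :=
  b.measurePreserving_repr_symm.comp (PiLp.volume_preserving_toLp _)

theorem integral_Pt {m : ℕ} (b : OrthonormalBasis (Fin (m + 1)) ℝ E) (g : E → ℝ) :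
    ∫ c, g (Pt b c) = ∫ y, g y := by
  have h1 := b.measurePreserving_repr_symm
  have h2 := PiLp.volume_preserving_toLp (Fin (m + 1))
  have h3 : ∫ c : Fin (m + 1) → ℝ, (fun v => g (b.repr.symm v)) (WithLp.toLp 2 c) =
      ∫ v, g (b.repr.symm v) :=
    h2.integral_comp (MeasurableEquiv.toLp 2 (Fin (m + 1) → ℝ)).measurableEmbedding
      (fun v => g (b.repr.symm v))
  have h4 : ∫ v, g (b.repr.symm v) = ∫ y, g y :=
    h1.integral_comp b.measurableEquiv.symm.measurableEmbedding _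
  exact h3.trans h4

theorem int_pow_gauss (k : ℕ) {a : ℝ} (ha : 0 < a) :
    Integrable fun t : ℝ => |t| ^ k * Real.exp (-a * t ^ 2) := by
  have h := (integrable_rpow_mul_exp_neg_mul_sq ha (s := k)
    (by have : (0 : ℝ) ≤ k := Nat.cast_nonneg k
        linarith)).norm
  refine h.congr (Eventually.of_forall fun t => ?_)
  simp only [norm_mul, Real.norm_eq_abs, Real.rpow_natCast, abs_pow, abs_of_pos (Real.exp_pos _)]

variable {m : ℕ} (b : OrthonormalBasis (Fin (m + 1)) ℝ E) {f : E → ℝ} {A a : ℝ}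

/-- the integrand -/
noncomputable def FF (b : OrthonormalBasis (Fin (m + 1)) ℝ E) (f : E → ℝ) (k K : ℕ) (d : ℝ)
    (x : Fin (m + 1) → ℝ) : ℝ :=
  x 0 ^ k * ((∏ j : Fin m, ph K d (x j.succ)) *
    f (Pt b (Fin.cons (x 0) (fun j : Fin m => qd d (x j.succ)))))

theorem mom_repr (hf : Continuous f) (hA : ∀ x, |f x| ≤ A * Real.exp (-a * ‖x‖ ^ 2)) (ha : 0 < a)
    (k K : ℕ) {d : ℝ} (hd : 0 < d) :
    ∫ t : ℝ, t ^ k * (nrm K d ^ m * itn (2 * K) d m (fun j => b j.succ) f (t • b 0)) =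
      ∫ x : Fin (m + 1) → ℝ, FF b f k K d x := by
  have hA0 : 0 ≤ A := by
    have := (abs_nonneg _).trans (hA 0)
    simpa using this
  have hB : ∀ x, |f x| ≤ A := fun x => (hA x).trans (by
    have : Real.exp (-a * ‖x‖ ^ 2) ≤ 1 := by
      rw [Real.exp_le_one_iff]
      have : 0 ≤ a * ‖x‖ ^ 2 := by positivity
      linarith
    exact mul_le_of_le_one_right hA0 this)
  have hmp := volume_preserving_piFinSuccAbove (fun _ : Fin (m + 1) => ℝ) 0
  have h1 : ∫ x : Fin (m + 1) → ℝ, FF b f k K d x =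
      ∫ p : ℝ × (Fin m → ℝ), p.1 ^ k * ((∏ j, ph K d (p.2 j)) *
        f (p.1 • b 0 + ∑ j, qd d (p.2 j) • b j.succ)) := by
    rw [← hmp.symm.integral_comp (MeasurableEquiv.measurableEmbedding _)]
    refine integral_congr_ae (Eventually.of_forall fun p => ?_)
    simp only [FF, Pt_eq, MeasurableEquiv.piFinSuccAbove_symm_apply, Fin.insertNthEquiv, Fin.insertNth_zero,
      Equiv.coe_fn_mk, Fin.cons_zero, Fin.cons_succ, Fin.zero_succAbove, cast_eq]
  rw [h1]
  have hmeas : Measurable (fun p : ℝ × (Fin m → ℝ) =>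
      p.1 ^ k * ((∏ j, ph K d (p.2 j)) * f (p.1 • b 0 + ∑ j, qd d (p.2 j) • b j.succ))) := by
    refine (measurable_fst.pow_const k).mul (Measurable.mul ?_ (hf.measurable.comp ?_))
    · exact Finset.measurable_prod _ fun j _ => (measurable_ph K d).comp
        ((measurable_pi_apply j).comp measurable_snd)
    · refine (measurable_fst.smul_const _).add ?_
      refine Finset.measurable_sum _ fun j _ => ?_
      exact ((measurable_qd d).comp ((measurable_pi_apply j).comp measurable_snd)).smul_const _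
  have hbd : Integrable (fun p : ℝ × (Fin m → ℝ) =>
      (|p.1| ^ k * Real.exp (-a * p.1 ^ 2)) * (A * ∏ j, ph K d (p.2 j))) := by
    refine Integrable.mul_prod (f := fun t : ℝ => |t| ^ k * Real.exp (-a * t ^ 2))
      (g := fun z : Fin m → ℝ => A * ∏ j, ph K d (z j)) (int_pow_gauss k ha) ?_
    exact (Integrable.fintype_prod (fun _ => integrable_ph K hd)).const_mul A
  have hint : Integrable (fun p : ℝ × (Fin m → ℝ) =>
      p.1 ^ k * ((∏ j, ph K d (p.2 j)) * f (p.1 • b 0 + ∑ j, qd d (p.2 j) • b j.succ))) := by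
    refine hbd.mono' hmeas.aestronglyMeasurable (Eventually.of_forall fun p => ?_)
    have hp : 0 ≤ ∏ j, ph K d (p.2 j) := Finset.prod_nonneg fun j _ => ph_nonneg _ _ _
    rw [norm_mul, norm_mul, norm_pow, Real.norm_eq_abs, Real.norm_eq_abs, Real.norm_eq_abs,
      abs_of_nonneg hp]
    have h2 : |f (p.1 • b 0 + ∑ j, qd d (p.2 j) • b j.succ)| ≤ A * Real.exp (-a * p.1 ^ 2) := by
      refine (hA _).trans (mul_le_mul_of_nonneg_left (Real.exp_le_exp.2 ?_) hA0)
      have h3 : p.1 • b 0 + ∑ j, qd d (p.2 j) • b j.succ =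
          Pt b (Fin.cons p.1 (fun j => qd d (p.2 j))) := by
        rw [Pt_eq]; simp
      rw [h3, norm_Pt]
      simp only [Fin.cons_zero, Fin.cons_succ]
      have : 0 ≤ ∑ j, qd d (p.2 j) ^ 2 := Finset.sum_nonneg fun j _ => sq_nonneg _
      nlinarith
    calc |p.1| ^ k * ((∏ j, ph K d (p.2 j)) * |f (p.1 • b 0 + ∑ j, qd d (p.2 j) • b j.succ)|)
        ≤ |p.1| ^ k * ((∏ j, ph K d (p.2 j)) * (A * Real.exp (-a * p.1 ^ 2))) := by gcongr
      _ = _ := by ring
  rw [show (volume : Measure (ℝ × (Fin m → ℝ))) = (volume : Measure ℝ).prod volume from rfl,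
    integral_prod _ hint]
  refine integral_congr_ae (Eventually.of_forall fun t => ?_)
  simp only
  rw [itn_repr hd K f hf A hB m, ← integral_const_mul]

theorem tendsto_qd {d : ℕ → ℝ} (hd : ∀ i, 0 < d i) (hd0 : Tendsto d atTop (𝓝 0)) (z : ℝ) :
    Tendsto (fun i => qd (d i) z) atTop (𝓝 z) := by
  rw [tendsto_iff_dist_tendsto_zero]
  have h : Tendsto (fun i => 2 * d i) atTop (𝓝 0) := by
    simpa using hd0.const_mul 2
  exact squeeze_zero (fun _ => dist_nonneg)
    (fun i => by rw [Real.dist_eq]; exact abs_qd_sub (hd i) z) h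

theorem tendsto_ph {d : ℕ → ℝ} (hd : ∀ i, 0 < d i) (hd0 : Tendsto d atTop (𝓝 0)) {K : ℕ → ℕ}
    (hK : ∀ i, 0 < K i) (hKd : Tendsto (fun i => (K i : ℝ) * d i ^ 2) atTop atTop) (z : ℝ) :
    Tendsto (fun i => ph (K i) (d i) z) atTop (𝓝 1) := by
  have h1 : Tendsto (fun i => (|z| + 2 * d i) ^ 2) atTop (𝓝 ((|z| + 2 * 0) ^ 2)) :=
    ((hd0.const_mul 2).const_add _).pow 2
  have h2 : Tendsto (fun i => (4 * ((K i : ℝ) * d i ^ 2))) atTop atTop :=
    hKd.const_mul_atTop (by norm_num)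
  have h3 := h1.div_atTop h2
  have h4 : Tendsto (fun i => 1 - (|z| + 2 * d i) ^ 2 / (4 * ((K i : ℝ) * d i ^ 2))) atTop (𝓝 1) := by
    simpa using h3.const_sub 1
  exact tendsto_of_tendsto_of_tendsto_of_le_of_le h4 tendsto_const_nhds
    (fun i => ph_lower (hK i) (hd i) z) (fun i => ph_le_one _ _ _)

theorem mom_lim (hf : Continuous f) (hA : ∀ x, |f x| ≤ A * Real.exp (-a * ‖x‖ ^ 2)) (ha : 0 < a)
    {d : ℕ → ℝ} (hd : ∀ i, 0 < d i) (hd0 : Tendsto d atTop (𝓝 0)) {K : ℕ → ℕ}
    (hK : ∀ i, 0 < K i) (hKd : Tendsto (fun i => (K i : ℝ) * d i ^ 2) atTop atTop) (k : ℕ) :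
    Tendsto (fun i => ∫ t : ℝ, t ^ k *
        (nrm (K i) (d i) ^ m * itn (2 * K i) (d i) m (fun j => b j.succ) f (t • b 0)))
      atTop (𝓝 (∫ y : E, (inner ℝ (b 0) y) ^ k * f y)) := by
  have hA0 : 0 ≤ A := by
    have := (abs_nonneg _).trans (hA 0)
    simpa using this
  simp_rw [mom_repr b hf hA ha k _ (hd _)]
  have hlim : ∫ y : E, (inner ℝ (b 0) y) ^ k * f y = ∫ x : Fin (m + 1) → ℝ, x 0 ^ k * f (Pt b x) := by
    rw [← integral_Pt b (fun y => (inner ℝ (b 0) y) ^ k * f y)]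
    simp_rw [inner_Pt]
  rw [hlim]
  -- the dominating function
  let G : Fin (m + 1) → ℝ → ℝ := Fin.cons (fun t => A * (|t| ^ k * Real.exp (-a * t ^ 2)))
    (fun _ : Fin m => fun t => Real.exp a * Real.exp (-(a / 2) * t ^ 2))
  have hG : ∀ i, Integrable (G i) := by
    intro i
    refine Fin.cases ?_ (fun j => ?_) i
    · simp only [G, Fin.cons_zero]
      exact (int_pow_gauss k ha).const_mul A
    · simp only [G, Fin.cons_succ]
      exact (integrable_exp_neg_mul_sq (by positivity)).const_mul _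
  have hGi : Integrable (fun x : Fin (m + 1) → ℝ => ∏ i, G i (x i)) :=
    Integrable.fintype_prod hG
  refine tendsto_integral_filter_of_dominated_convergence _ ?_ ?_ hGi ?_
  · refine Eventually.of_forall fun i => Measurable.aestronglyMeasurable ?_
    unfold FF
    refine ((measurable_pi_apply 0).pow_const k).mul (Measurable.mul ?_ (hf.measurable.comp
      ((continuous_Pt b).measurable.comp ?_)))
    · exact Finset.measurable_prod _ fun j _ => (measurable_ph _ _).comp (measurable_pi_apply _)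
    · rw [measurable_pi_iff]
      intro l
      refine Fin.cases ?_ (fun j => ?_) l
      · simp only [Fin.cons_zero]; exact measurable_pi_apply 0
      · simp only [Fin.cons_succ]; exact (measurable_qd _).comp (measurable_pi_apply _)
  · have hev : ∀ᶠ i in atTop, d i < 1 / 2 := hd0.eventually_lt_const (by norm_num)
    filter_upwards [hev] with i hi
    refine Eventually.of_forall fun x => ?_
    have hp0 : 0 ≤ ∏ j : Fin m, ph (K i) (d i) (x j.succ) :=
      Finset.prod_nonneg fun j _ => ph_nonneg _ _ _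
    have hp1 : ∏ j : Fin m, ph (K i) (d i) (x j.succ) ≤ 1 :=
      Finset.prod_le_one (fun j _ => ph_nonneg _ _ _) (fun j _ => ph_le_one _ _ _)
    rw [FF, norm_mul, norm_mul, norm_pow, Real.norm_eq_abs, Real.norm_eq_abs, Real.norm_eq_abs,
      abs_of_nonneg hp0]
    have h2 : |f (Pt b (Fin.cons (x 0) (fun j : Fin m => qd (d i) (x j.succ))))| ≤
        A * (Real.exp (-a * x 0 ^ 2) * ∏ j : Fin m, (Real.exp a * Real.exp (-(a / 2) * x j.succ ^ 2))) := by
      refine (hA _).trans (mul_le_mul_of_nonneg_left ?_ hA0)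
      rw [norm_Pt]
      simp only [Fin.cons_zero, Fin.cons_succ]
      have e1 : -a * (x 0 ^ 2 + ∑ j : Fin m, qd (d i) (x j.succ) ^ 2) =
          -a * x 0 ^ 2 + ∑ j : Fin m, (-a * qd (d i) (x j.succ) ^ 2) := by
        rw [mul_add, Finset.mul_sum]
      rw [e1, Real.exp_add, Real.exp_sum]
      refine mul_le_mul_of_nonneg_left ?_ (Real.exp_pos _).le
      refine Finset.prod_le_prod (fun j _ => (Real.exp_pos _).le) (fun j _ => ?_)
      rw [← Real.exp_add, Real.exp_le_exp]
      have h3 := abs_qd_sub (hd i) (x j.succ)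
      have h4 : (qd (d i) (x j.succ) - x j.succ) ^ 2 ≤ 1 := by
        rw [← sq_abs]
        have : |qd (d i) (x j.succ) - x j.succ| ≤ 1 := by linarith
        have h0 := abs_nonneg (qd (d i) (x j.succ) - x j.succ)
        nlinarith
      nlinarith [sq_nonneg (2 * qd (d i) (x j.succ) - x j.succ)]
    have h5 : ∏ l, G l (x l) = A * (|x 0| ^ k * Real.exp (-a * x 0 ^ 2)) *
        ∏ j : Fin m, (Real.exp a * Real.exp (-(a / 2) * x j.succ ^ 2)) := by
      rw [Fin.prod_univ_succ]
      simp only [G, Fin.cons_zero, Fin.cons_succ]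
    rw [h5]
    calc |x 0| ^ k * ((∏ j : Fin m, ph (K i) (d i) (x j.succ)) *
          |f (Pt b (Fin.cons (x 0) (fun j : Fin m => qd (d i) (x j.succ))))|)
        ≤ |x 0| ^ k * (1 * (A * (Real.exp (-a * x 0 ^ 2) *
          ∏ j : Fin m, (Real.exp a * Real.exp (-(a / 2) * x j.succ ^ 2))))) := by
          refine mul_le_mul_of_nonneg_left ?_ (by positivity)
          exact mul_le_mul hp1 h2 (abs_nonneg _) zero_le_one
      _ = _ := by ring
  · refine Eventually.of_forall fun x => ?_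
    unfold FF
    have hprod : Tendsto (fun i => ∏ j : Fin m, ph (K i) (d i) (x j.succ)) atTop (𝓝 1) := by
      have := tendsto_finsetProd (Finset.univ : Finset (Fin m))
        (fun j _ => tendsto_ph hd hd0 hK hKd (x j.succ))
      simpa using this
    have harg : Tendsto (fun i => Pt b (Fin.cons (x 0) (fun j : Fin m => qd (d i) (x j.succ)))) atTop
        (𝓝 (Pt b x)) := by
      refine (continuous_Pt b).continuousAt.tendsto.comp ?_
      rw [tendsto_pi_nhds]
      intro l
      refine Fin.cases ?_ (fun j => ?_) l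
      · simp only [Fin.cons_zero]; exact tendsto_const_nhds
      · simp only [Fin.cons_succ]; exact tendsto_qd hd hd0 _
    have := (hprod.mul (hf.continuousAt.tendsto.comp harg)).const_mul (x 0 ^ k)
    simpa using this

end Vale.Agent.P227.M.SC.ML
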