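import Mathlib

/-! # P227, block SC (ii): the third central moment of a one dimensional self-concordant measure -/

namespace Vale.Agent.P227.M.SC.H943

open MeasureTheory Set Filter Topology

/-! ### sign pattern -/

theorem exists_ends {N : Set ℝ} (hne : N.Nonempty) (hb : BddBelow N) (ha : BddAbove N)
    (hoc : N.OrdConnected) : ∃ a b, a ≤ b ∧ (∀ y, a < y → y < b → y ∈ N) ∧
      (∀ y ∈ N, a ≤ y ∧ y ≤ b) ∧ (∀ δ, (∀ y ∈ N, δ ≤ y) → δ ≤ a) ∧
      (∀ δ, (∀ y ∈ N, y ≤ δ) → b ≤ δ) := by
  refine ⟨sInf N, sSup N, Real.sInf_le_sSup N hb ha, fun y h1 h2 => ?_, fun y hy =>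
    ⟨csInf_le hb hy, le_csSup ha hy⟩, fun δ h => le_csInf hne h, fun δ h => csSup_le hne h⟩
  obtain ⟨z1, hz1, h1'⟩ := exists_lt_of_csInf_lt hne h1
  obtain ⟨z2, hz2, h2'⟩ := exists_lt_of_lt_csSup hne h2
  exact hoc.out hz1 hz2 ⟨h1'.le, h2'.le⟩

theorem sign_pattern {u : ℝ → ℝ} {ξ : ℝ} (hξ : 0 < ξ) (hcvx : ConvexOn ℝ (Ioc 0 ξ) u)
    (hccv : ConcaveOn ℝ (Ici ξ) u) (h0 : ∃ δ > 0, ∀ y, 0 < y → y < δ → 0 < u y)
    (h1 : ∃ R, ∀ y, R < y → u y < 0) (hcont : ContinuousOn u (Ici ξ)) :
    ∃ a b c : ℝ, 0 < a ∧ 0 < b ∧ 0 < c ∧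
      ∀ y, 0 < y → u y * ((y - a) * (y - b) * (y - c)) ≤ 0 := by
  obtain ⟨δ, hδ, hδu⟩ := h0
  obtain ⟨R, hR⟩ := h1
  let N : Set ℝ := {y | y ∈ Ioc 0 ξ ∧ u y < 0}
  have hNoc : N.OrdConnected := by
    refine ⟨fun y1 h1 y2 h2 y hy => ?_⟩
    have hmem : y ∈ Ioc 0 ξ := ⟨h1.1.1.trans_le hy.1, hy.2.trans h2.1.2⟩
    refine ⟨hmem, ?_⟩
    have hseg : y ∈ segment ℝ y1 y2 := by
      rw [segment_eq_Icc (hy.1.trans hy.2)]
      exact hy
    exact (hcvx.le_max_of_mem_segment h1.1 h2.1 hseg).trans_lt (max_lt h1.2 h2.2)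
  have hNb : ∀ y ∈ N, δ ≤ y := fun y hy => by
    by_contra h
    exact absurd (hδu y hy.1.1 (not_le.1 h)) (not_lt.2 hy.2.le)
  have hNbb : BddBelow N := ⟨δ, fun y hy => hNb y hy⟩
  have hNba : BddAbove N := ⟨ξ, fun y hy => hy.1.2⟩
  rcases le_or_gt 0 (u ξ) with hu | hu
  · -- case `0 ≤ u ξ`
    let Q : Set ℝ := {y | ξ ≤ y ∧ 0 ≤ u y}
    have hQne : Q.Nonempty := ⟨ξ, le_rfl, hu⟩
    have hQa : BddAbove Q := ⟨R, fun y hy => by
      by_contra h
      exact absurd (hR y (not_le.1 h)) (not_lt.2 hy.2)⟩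
    have hQoc : Q.OrdConnected := by
      refine ⟨fun y1 h1 y2 h2 y hy => ?_⟩
      refine ⟨h1.1.trans hy.1, ?_⟩
      have hseg : y ∈ segment ℝ y1 y2 := by
        rw [segment_eq_Icc (hy.1.trans hy.2)]
        exact hy
      exact (le_min h1.2 h2.2).trans (hccv.min_le_of_mem_segment h1.1 h2.1 hseg)
    obtain ⟨ξ', c, hc0, hc1, hc2, hc3, hc4⟩ := exists_ends hQne ⟨ξ, fun y hy => hy.1⟩ hQa hQoc
    have hξ' : ξ' = ξ := le_antisymm (hc2 ξ ⟨le_rfl, hu⟩).1 (hc3 ξ fun y hy => hy.1)
    subst hξ'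
    have hc : 0 < c := hξ.trans_le hc0
    have hpos : ∀ y, ξ' ≤ y → y < c → 0 ≤ u y := by
      intro y h1 h2
      rcases h1.lt_or_eq with h1 | h1
      · exact (hc1 y h1 h2).2
      · rw [← h1]; exact hu
    have hneg : ∀ y, c < y → u y ≤ 0 := by
      intro y hy
      by_contra h
      exact absurd (hc2 y ⟨hc0.trans hy.le, (not_le.1 h).le⟩).2 (not_le.2 hy)
    rcases N.eq_empty_or_nonempty with hN | hN
    · refine ⟨c, c, c, hc, hc, hc, fun y hy => ?_⟩
      rcases lt_trichotomy y c with h | h | h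
      · have hu0 : 0 ≤ u y := by
          rcases le_or_gt y ξ' with h2 | h2
          · by_contra h3
            have : y ∈ N := ⟨⟨hy, h2⟩, not_le.1 h3⟩
            rw [hN] at this
            exact this
          · exact hpos y h2.le h
        have h5 : (y - c) * (y - c) * (y - c) ≤ 0 := by
          have h6 : y - c < 0 := sub_neg.2 h
          have := mul_pos_of_neg_of_neg h6 h6
          nlinarith
        exact mul_nonpos_of_nonneg_of_nonpos hu0 h5
      · simp [h]
      · have h6 : 0 < y - c := sub_pos.2 h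
        exact mul_nonpos_of_nonpos_of_nonneg (hneg y h) (by positivity)
    · obtain ⟨a, b, hab, hN1, hN2, hN3, hN4⟩ := exists_ends hN hNbb hNba hNoc
      have ha : 0 < a := hδ.trans_le (hN3 δ hNb)
      have hbξ : b ≤ ξ' := hN4 ξ' fun y hy => hy.1.2
      refine ⟨a, b, c, ha, ha.trans_le hab, hc, fun y hy => ?_⟩
      have hout : ∀ y, 0 < y → y ≤ ξ' → (y < a ∨ b < y) → 0 ≤ u y := by
        intro y h1 h2 h3
        by_contra h4
        have h5 := hN2 y ⟨⟨h1, h2⟩, not_le.1 h4⟩
        rcases h3 with h3 | h3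
        · exact absurd h5.1 (not_le.2 h3)
        · exact absurd h5.2 (not_le.2 h3)
      rcases lt_trichotomy y a with h | h | h
      · have hu0 := hout y hy (h.le.trans (hab.trans hbξ)) (Or.inl h)
        have h1 : y - a < 0 := sub_neg.2 h
        have h2 : y - b < 0 := sub_neg.2 (h.trans_le hab)
        have h3 : y - c < 0 := sub_neg.2 (h.trans_le (hab.trans (hbξ.trans hc0)))
        exact mul_nonpos_of_nonneg_of_nonpos hu0
          (mul_neg_of_pos_of_neg (mul_pos_of_neg_of_neg h1 h2) h3).le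
      · simp [h]
      · rcases lt_trichotomy y b with h' | h' | h'
        · have hu0 := (hN1 y h h').2
          have h1 : 0 < y - a := sub_pos.2 h
          have h2 : y - b < 0 := sub_neg.2 h'
          have h3 : y - c < 0 := sub_neg.2 (h'.trans_le (hbξ.trans hc0))
          exact mul_nonpos_of_nonpos_of_nonneg hu0.le
            (mul_pos_of_neg_of_neg (mul_neg_of_pos_of_neg h1 h2) h3).le
        · simp [h']
        · rcases lt_trichotomy y c with h'' | h'' | h''
          · have hu0 : 0 ≤ u y := by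
              rcases le_or_gt y ξ' with h2 | h2
              · exact hout y hy h2 (Or.inr h')
              · exact hpos y h2.le h''
            have h1 : 0 < y - a := sub_pos.2 h
            have h2 : 0 < y - b := sub_pos.2 h'
            have h3 : y - c < 0 := sub_neg.2 h''
            exact mul_nonpos_of_nonneg_of_nonpos hu0
              (mul_neg_of_pos_of_neg (mul_pos h1 h2) h3).le
          · simp [h'']
          · have h1 : 0 < y - a := sub_pos.2 h
            have h2 : 0 < y - b := sub_pos.2 h'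
            have h3 : 0 < y - c := sub_pos.2 h''
            exact mul_nonpos_of_nonpos_of_nonneg (hneg y h'') (by positivity)
  · -- case `u ξ < 0`
    have hξN : ξ ∈ N := ⟨⟨hξ, le_rfl⟩, hu⟩
    obtain ⟨a, ξ', hab, hN1, hN2, hN3, hN4⟩ := exists_ends ⟨ξ, hξN⟩ hNbb hNba hNoc
    have hξ' : ξ' = ξ := le_antisymm (hN4 ξ fun y hy => hy.1.2) (hN2 ξ hξN).2
    subst hξ'
    have ha : 0 < a := hδ.trans_le (hN3 δ hNb)
    have hneg : ∀ y, a < y → y ≤ ξ' → u y ≤ 0 := by
      intro y h1 h2
      rcases h2.lt_or_eq with h2 | h2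
      · exact (hN1 y h1 h2).2.le
      · rw [h2]; exact hu.le
    have hpos : ∀ y, 0 < y → y < a → 0 ≤ u y := by
      intro y h1 h2
      by_contra h4
      exact absurd (hN2 y ⟨⟨h1, h2.le.trans hab⟩, not_le.1 h4⟩).1 (not_le.2 h2)
    let Q : Set ℝ := {y | ξ' ≤ y ∧ 0 < u y}
    have hQa : BddAbove Q := ⟨R, fun y hy => by
      by_contra h
      exact absurd (hR y (not_le.1 h)) (not_lt.2 hy.2.le)⟩
    have hQoc : Q.OrdConnected := by
      refine ⟨fun y1 h1 y2 h2 y hy => ?_⟩
      refine ⟨h1.1.trans hy.1, ?_⟩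
      have hseg : y ∈ segment ℝ y1 y2 := by
        rw [segment_eq_Icc (hy.1.trans hy.2)]
        exact hy
      exact (lt_min h1.2 h2.2).trans_le (hccv.min_le_of_mem_segment h1.1 h2.1 hseg)
    rcases Q.eq_empty_or_nonempty with hQ | hQ
    · refine ⟨a, a, a, ha, ha, ha, fun y hy => ?_⟩
      rcases lt_trichotomy y a with h | h | h
      · have h5 : (y - a) * (y - a) * (y - a) ≤ 0 := by
          have h6 : y - a < 0 := sub_neg.2 h
          have := mul_pos_of_neg_of_neg h6 h6
          nlinarith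
        exact mul_nonpos_of_nonneg_of_nonpos (hpos y hy h) h5
      · simp [h]
      · have hu0 : u y ≤ 0 := by
          rcases le_or_gt y ξ' with h2 | h2
          · exact hneg y h h2
          · by_contra h3
            have : y ∈ Q := ⟨h2.le, not_le.1 h3⟩
            rw [hQ] at this
            exact this
        have h6 : 0 < y - a := sub_pos.2 h
        exact mul_nonpos_of_nonpos_of_nonneg hu0 (by positivity)
    · obtain ⟨b, c, hbc, hQ1, hQ2, hQ3, hQ4⟩ := exists_ends hQ ⟨ξ', fun y hy => hy.1⟩ hQa hQoc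
      have hξb : ξ' ≤ b := hQ3 ξ' fun y hy => hy.1
      have hout : ∀ y, ξ' ≤ y → (y < b ∨ c < y) → u y ≤ 0 := by
        intro y h1 h3
        by_contra h4
        have h5 := hQ2 y ⟨h1, not_le.1 h4⟩
        rcases h3 with h3 | h3
        · exact absurd h5.1 (not_le.2 h3)
        · exact absurd h5.2 (not_le.2 h3)
      have hb : 0 < b := hξ.trans_le hξb
      refine ⟨a, b, c, ha, hb, hb.trans_le hbc, fun y hy => ?_⟩
      rcases lt_trichotomy y a with h | h | h
      · have hu0 := hpos y hy h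
        have h1 : y - a < 0 := sub_neg.2 h
        have h2 : y - b < 0 := sub_neg.2 (h.trans_le (hab.trans hξb))
        have h3 : y - c < 0 := sub_neg.2 (h.trans_le (hab.trans (hξb.trans hbc)))
        exact mul_nonpos_of_nonneg_of_nonpos hu0
          (mul_neg_of_pos_of_neg (mul_pos_of_neg_of_neg h1 h2) h3).le
      · simp [h]
      · rcases lt_trichotomy y b with h' | h' | h'
        · have hu0 : u y ≤ 0 := by
            rcases le_or_gt y ξ' with h2 | h2
            · exact hneg y h h2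
            · exact hout y h2.le (Or.inl h')
          have h1 : 0 < y - a := sub_pos.2 h
          have h2 : y - b < 0 := sub_neg.2 h'
          have h3 : y - c < 0 := sub_neg.2 (h'.trans_le hbc)
          exact mul_nonpos_of_nonpos_of_nonneg hu0
            (mul_pos_of_neg_of_neg (mul_neg_of_pos_of_neg h1 h2) h3).le
        · simp [h']
        · rcases lt_trichotomy y c with h'' | h'' | h''
          · have hu0 := (hQ1 y h' h'').2.le
            have h1 : 0 < y - a := sub_pos.2 h
            have h2 : 0 < y - b := sub_pos.2 h'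
            have h3 : y - c < 0 := sub_neg.2 h''
            exact mul_nonpos_of_nonneg_of_nonpos hu0
              (mul_neg_of_pos_of_neg (mul_pos h1 h2) h3).le
          · simp [h'']
          · have hu0 := hout y (hξb.trans h'.le) (Or.inr h'')
            have h1 : 0 < y - a := sub_pos.2 h
            have h2 : 0 < y - b := sub_pos.2 h'
            have h3 : 0 < y - c := sub_pos.2 h''
            exact mul_nonpos_of_nonpos_of_nonneg hu0 (by positivity)

end Vale.Agent.P227.M.SC.H943
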