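import Vale.Agent.P227.M.SC.OneD

/-! # P227, block SC (ii): comparison with the Gamma density -/

namespace Vale.Agent.P227.M.SC.H943

open MeasureTheory Set Filter Topology Real

/-! ### moments of the Gamma density -/

theorem gamma_moment {k β : ℝ} (hk : 0 < k) (hβ : 0 < β) (j : ℕ) :
    IntegrableOn (fun y : ℝ => y ^ j * (β ^ (k + 1) / Real.Gamma (k + 1) *
      (y ^ k * Real.exp (-(β * y))))) (Ioi 0) ∧
    ∫ y in Ioi (0 : ℝ), y ^ j * (β ^ (k + 1) / Real.Gamma (k + 1) *
      (y ^ k * Real.exp (-(β * y)))) =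
        Real.Gamma (k + 1 + j) / (Real.Gamma (k + 1) * β ^ j) := by
  have hG : 0 < Real.Gamma (k + 1) := Real.Gamma_pos_of_pos (by linarith)
  have hcongr : ∀ y ∈ Ioi (0 : ℝ), y ^ j * (β ^ (k + 1) / Real.Gamma (k + 1) *
      (y ^ k * Real.exp (-(β * y)))) = β ^ (k + 1) / Real.Gamma (k + 1) *
        (y ^ (k + 1 + j - 1) * Real.exp (-(β * y))) := by
    intro y hy
    have hy' : 0 < y := hy
    have h1 : y ^ (k + 1 + j - 1) = y ^ k * y ^ j := by
      rw [show k + 1 + (j : ℝ) - 1 = k + j by ring, Real.rpow_add hy', Real.rpow_natCast]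
    rw [h1]
    ring
  constructor
  · have h2 : IntegrableOn (fun y : ℝ => β ^ (k + 1) / Real.Gamma (k + 1) *
        (y ^ (k + 1 + j - 1) * Real.exp (-(β * y)))) (Ioi 0) := by
      refine Integrable.const_mul ?_ _
      have h3 := integrableOn_rpow_mul_exp_neg_mul_rpow (p := 1) (s := k + 1 + j - 1) (b := β)
        (by have : (0 : ℝ) ≤ j := Nat.cast_nonneg j
            linarith) one_pos hβ
      refine h3.congr_fun (fun y _ => ?_) measurableSet_Ioi
      simp only [Real.rpow_one, neg_mul]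
    exact h2.congr_fun (fun y hy => (hcongr y hy).symm) measurableSet_Ioi
  · rw [setIntegral_congr_fun measurableSet_Ioi hcongr, integral_const_mul,
      Real.integral_rpow_mul_exp_neg_mul_Ioi (a := k + 1 + j) (by positivity) hβ]
    have h4 : (1 / β) ^ (k + 1 + (j : ℝ)) = (β ^ (k + 1) * β ^ j)⁻¹ := by
      rw [one_div, Real.inv_rpow hβ.le, Real.rpow_add hβ, Real.rpow_natCast]
    rw [h4]
    have h5 : β ^ (k + 1) ≠ 0 := (Real.rpow_pos_of_pos hβ _).ne'
    field_simp

/-! ### bounds for the potential -/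

theorem lower_bound {w w1 w2 : ℝ → ℝ} (h1 : ∀ x, HasDerivAt w (w1 x) x)
    (h2 : ∀ x, HasDerivAt w1 (w2 x) x) {a : ℝ} (hw2 : ∀ x, a ≤ w2 x) (x : ℝ) :
    w 0 + w1 0 * x + a / 2 * x ^ 2 ≤ w x := by
  let h : ℝ → ℝ := fun x => w x - w1 0 * x - a / 2 * x ^ 2
  let h' : ℝ → ℝ := fun x => w1 x - w1 0 - a * x
  have hd : ∀ x, HasDerivAt h (h' x) x := by
    intro x
    have := ((h1 x).sub ((hasDerivAt_id x).const_mul (w1 0))).sub
      (((hasDerivAt_id x).pow 2).const_mul (a / 2))
    refine HasDerivAt.congr_deriv this ?_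
    simp [h']
    ring
  have hd' : ∀ x, HasDerivAt h' (w2 x - a) x := by
    intro x
    have := ((h2 x).sub_const (w1 0)).sub ((hasDerivAt_id x).const_mul a)
    exact HasDerivAt.congr_deriv this (by simp)
  have hmono : Monotone h' := by
    refine monotone_of_deriv_nonneg (fun x => (hd' x).differentiableAt) fun x => ?_
    rw [(hd' x).deriv]
    exact sub_nonneg.2 (hw2 x)
  have h0 : h' 0 = 0 := by simp [h']
  have key : h 0 ≤ h x := by
    rcases le_total 0 x with hx | hx
    · have hm : MonotoneOn h (Ici 0) := by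
        refine monotoneOn_of_deriv_nonneg (convex_Ici 0)
          (fun x _ => (hd x).continuousAt.continuousWithinAt)
          (fun x _ => (hd x).differentiableAt.differentiableWithinAt) fun y hy => ?_
        rw [interior_Ici] at hy
        rw [(hd y).deriv, ← h0]
        exact hmono (le_of_lt hy)
      exact hm self_mem_Ici hx hx
    · have hm : AntitoneOn h (Iic 0) := by
        refine antitoneOn_of_deriv_nonpos (convex_Iic 0)
          (fun x _ => (hd x).continuousAt.continuousWithinAt)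
          (fun x _ => (hd x).differentiableAt.differentiableWithinAt) fun y hy => ?_
        rw [interior_Iic] at hy
        rw [(hd y).deriv, ← h0]
        exact hmono (le_of_lt hy)
      exact hm hx self_mem_Iic hx
  simp only [h] at key
  linarith [key]

theorem integrable_moment {w w1 w2 : ℝ → ℝ} (h1 : ∀ x, HasDerivAt w (w1 x) x)
    (h2 : ∀ x, HasDerivAt w1 (w2 x) x) {a : ℝ} (ha : 0 < a) (hw2 : ∀ x, a ≤ w2 x) (j : ℕ) :
    Integrable (fun x => x ^ j * Real.exp (-w x)) := by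
  have hw : Continuous w := continuous_iff_continuousAt.2 fun x => (h1 x).continuousAt
  have hg : Integrable (fun x : ℝ => x ^ j * Real.exp (-(a / 4) * x ^ 2)) := by
    have h3 := integrable_rpow_mul_exp_neg_mul_sq (b := a / 4) (by positivity) (s := j)
      (by have : (0 : ℝ) ≤ j := Nat.cast_nonneg j
          linarith)
    refine h3.congr (Filter.Eventually.of_forall fun x => ?_)
    simp only [Real.rpow_natCast]
  refine (hg.norm.const_mul (Real.exp (-w 0 + (w1 0) ^ 2 / a))).mono'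
    (by fun_prop) (Filter.Eventually.of_forall fun x => ?_)
  rw [norm_mul, norm_mul, Real.norm_eq_abs (Real.exp (-w x)), Real.abs_exp,
    Real.norm_eq_abs (Real.exp _), Real.abs_exp, mul_left_comm]
  refine mul_le_mul_of_nonneg_left ?_ (norm_nonneg _)
  rw [← Real.exp_add]
  refine Real.exp_le_exp.2 ?_
  have h3 := lower_bound h1 h2 hw2 x
  have h4 : -(w1 0 * x) ≤ a / 4 * x ^ 2 + (w1 0) ^ 2 / a := by
    have h5 : 0 ≤ (a / 2 * x + w1 0) ^ 2 / a := by positivity
    have h6 : (a / 2 * x + w1 0) ^ 2 / a = a / 4 * x ^ 2 + w1 0 * x + (w1 0) ^ 2 / a := by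
      field_simp
      ring
    linarith
  nlinarith

/-! ### the crossing -/

theorem exists_cubic {w w1 w2 w3 : ℝ → ℝ} (h1 : ∀ x, HasDerivAt w (w1 x) x)
    (h2 : ∀ x, HasDerivAt w1 (w2 x) x) (h3 : ∀ x, HasDerivAt w2 (w3 x) x) {a c : ℝ} (ha : 0 < a)
    (hw2 : ∀ x, a ≤ w2 x) (hc : 0 < c)
    (hsc : ∀ x, -(w3 x) ≤ 2 * c * (w2 x * Real.sqrt (w2 x))) (x0 β γ : ℝ) :
    ∃ a1 a2 a3 : ℝ, 0 < a1 ∧ 0 < a2 ∧ 0 < a3 ∧ ∀ y, 0 < y →
      (-w (x0 + y) - (1 / c ^ 2) * Real.log y + β * y - γ) *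
        ((y - a1) * (y - a2) * (y - a3)) ≤ 0 := by
  set k := 1 / c ^ 2 with hk
  have hk0 : 0 < k := by positivity
  have hw2p : ∀ x, 0 < w2 x := fun x => ha.trans_le (hw2 x)
  -- the function `D`
  let D : ℝ → ℝ := fun y => (Real.sqrt (w2 (x0 + y)))⁻¹ - c * y
  have hdD : ∀ y, HasDerivAt D (-(w3 (x0 + y) / (2 * Real.sqrt (w2 (x0 + y)))) /
      (Real.sqrt (w2 (x0 + y))) ^ 2 - c) y := by
    intro y
    have e1 : HasDerivAt (fun y => w2 (x0 + y)) (w3 (x0 + y)) y :=
      (h3 (x0 + y)).comp_const_add x0 y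
    have e2 := (e1.sqrt (hw2p _).ne').inv (Real.sqrt_pos.2 (hw2p _)).ne'
    have e3 := e2.sub ((hasDerivAt_id y).const_mul c)
    exact HasDerivAt.congr_deriv e3 (by simp)
  have hDanti : Antitone D := by
    refine antitone_of_deriv_nonpos (fun y => (hdD y).differentiableAt) fun y => ?_
    rw [(hdD y).deriv]
    have hs := Real.sqrt_pos.2 (hw2p (x0 + y))
    have hss := Real.sq_sqrt (hw2p (x0 + y)).le
    have h9 : -(w3 (x0 + y) / (2 * Real.sqrt (w2 (x0 + y)))) =
        (-(w3 (x0 + y))) / (2 * Real.sqrt (w2 (x0 + y))) := by ring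
    rw [sub_nonpos, h9, div_div, div_le_iff₀ (by positivity), hss]
    have := hsc (x0 + y)
    linarith
  have hDcont : Continuous D := continuous_iff_continuousAt.2 fun y => (hdD y).continuousAt
  have hD0 : 0 < D 0 := by
    simp only [D, mul_zero, sub_zero]
    exact inv_pos.2 (Real.sqrt_pos.2 (hw2p _))
  have hDle : ∀ y, D y ≤ (Real.sqrt a)⁻¹ - c * y := fun y =>
    sub_le_sub_right (inv_anti₀ (Real.sqrt_pos.2 ha) (Real.sqrt_le_sqrt (hw2 _))) _
  have hD1 : D ((Real.sqrt a)⁻¹ / c + 1) ≤ 0 := by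
    refine (hDle _).trans ?_
    rw [mul_add, mul_div_cancel₀ _ hc.ne']
    linarith
  obtain ⟨ξ, hξm, hξ⟩ := intermediate_value_Icc' (a := (0 : ℝ)) (b := (Real.sqrt a)⁻¹ / c + 1)
    (by positivity) hDcont.continuousOn ⟨hD1, hD0.le⟩
  have hξ0 : 0 < ξ := by
    rcases hξm.1.lt_or_eq with h | h
    · exact h
    · rw [← h] at hξ
      exact absurd hξ hD0.ne'
  have hlow : ∀ y, 0 < y → y ≤ ξ → w2 (x0 + y) ≤ k / y ^ 2 := by
    intro y hy hyξ
    have h5 : 0 ≤ D y := by rw [← hξ]; exact hDanti hyξ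
    have h6 : c * y ≤ (Real.sqrt (w2 (x0 + y)))⁻¹ := by
      simp only [D] at h5
      linarith
    have hs := Real.sqrt_pos.2 (hw2p (x0 + y))
    have h7 : c * y * Real.sqrt (w2 (x0 + y)) ≤ 1 := by
      rwa [← le_div_iff₀ hs, one_div]
    have h8 : (c * y * Real.sqrt (w2 (x0 + y))) ^ 2 ≤ 1 := pow_le_one₀ (by positivity) h7
    rw [mul_pow, mul_pow, Real.sq_sqrt (hw2p _).le] at h8
    rw [hk, div_div, le_div_iff₀ (by positivity)]
    linarith
  have hhigh : ∀ y, ξ ≤ y → k / y ^ 2 ≤ w2 (x0 + y) := by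
    intro y hyξ
    have hy : 0 < y := hξ0.trans_le hyξ
    have h5 : D y ≤ 0 := by rw [← hξ]; exact hDanti hyξ
    have h6 : (Real.sqrt (w2 (x0 + y)))⁻¹ ≤ c * y := by
      simp only [D] at h5
      linarith
    have hs := Real.sqrt_pos.2 (hw2p (x0 + y))
    have h7 : 1 ≤ c * y * Real.sqrt (w2 (x0 + y)) := by
      rwa [← div_le_iff₀ hs, one_div]
    have h8 : 1 ≤ (c * y * Real.sqrt (w2 (x0 + y))) ^ 2 := one_le_pow₀ h7
    rw [mul_pow, mul_pow, Real.sq_sqrt (hw2p _).le] at h8
    rw [hk, div_div, div_le_iff₀ (by positivity)]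
    linarith
  -- the function `u`
  let u : ℝ → ℝ := fun y => -w (x0 + y) - k * Real.log y + β * y - γ
  have hdu : ∀ y, 0 < y → HasDerivAt u (-w1 (x0 + y) - k / y + β) y := by
    intro y hy
    have e1 : HasDerivAt (fun y => w (x0 + y)) (w1 (x0 + y)) y :=
      (h1 (x0 + y)).comp_const_add x0 y
    have e2 := (((e1.neg).sub ((Real.hasDerivAt_log hy.ne').const_mul k)).add
      ((hasDerivAt_id y).const_mul β)).sub_const γ
    exact HasDerivAt.congr_deriv e2 (by simp [div_eq_mul_inv])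
  have hdu' : ∀ y, 0 < y → HasDerivAt (fun y => -w1 (x0 + y) - k / y + β)
      (-w2 (x0 + y) + k / y ^ 2) y := by
    intro y hy
    have e1 : HasDerivAt (fun y => w1 (x0 + y)) (w2 (x0 + y)) y :=
      (h2 (x0 + y)).comp_const_add x0 y
    have e2 := ((e1.neg).sub ((hasDerivAt_inv hy.ne').const_mul k)).add_const β
    have e3 : (fun y => -w1 (x0 + y) - k / y + β) =
        fun y => -w1 (x0 + y) - k * y⁻¹ + β := by
      funext y
      rw [div_eq_mul_inv]
    rw [e3]
    refine HasDerivAt.congr_deriv e2 ?_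
    rw [div_eq_mul_inv]
    ring
  have hucont : ∀ s : Set ℝ, s ⊆ Ioi 0 → ContinuousOn u s := fun s hs y hy =>
    (hdu y (hs hy)).continuousAt.continuousWithinAt
  have hcvx : ConvexOn ℝ (Ioc 0 ξ) u := by
    refine convexOn_of_hasDerivWithinAt2_nonneg (convex_Ioc 0 ξ)
      (hucont _ fun y hy => hy.1) (f' := fun y => -w1 (x0 + y) - k / y + β)
      (f'' := fun y => -w2 (x0 + y) + k / y ^ 2) ?_ ?_ ?_
    · intro y hy
      rw [interior_Ioc] at hy
      exact (hdu y hy.1).hasDerivWithinAt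
    · intro y hy
      rw [interior_Ioc] at hy
      exact (hdu' y hy.1).hasDerivWithinAt
    · intro y hy
      rw [interior_Ioc] at hy
      linarith [hlow y hy.1 hy.2.le]
  have hccv : ConcaveOn ℝ (Ici ξ) u := by
    refine concaveOn_of_hasDerivWithinAt2_nonpos (convex_Ici ξ)
      (hucont _ fun y hy => hξ0.trans_le hy) (f' := fun y => -w1 (x0 + y) - k / y + β)
      (f'' := fun y => -w2 (x0 + y) + k / y ^ 2) ?_ ?_ ?_
    · intro y hy
      rw [interior_Ici] at hy
      exact (hdu y (hξ0.trans hy)).hasDerivWithinAt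
    · intro y hy
      rw [interior_Ici] at hy
      exact (hdu' y (hξ0.trans hy)).hasDerivWithinAt
    · intro y hy
      rw [interior_Ici] at hy
      linarith [hhigh y (le_of_lt hy)]
  have hw : Continuous w := continuous_iff_continuousAt.2 fun x => (h1 x).continuousAt
  have hzero : ∃ δ > 0, ∀ y, 0 < y → y < δ → 0 < u y := by
    have e1 : Tendsto (fun y : ℝ => -w (x0 + y) + β * y - γ) (𝓝[>] 0)
        (𝓝 (-w (x0 + 0) + β * 0 - γ)) := by
      have : Continuous fun y : ℝ => -w (x0 + y) + β * y - γ := by fun_prop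
      exact (this.tendsto 0).mono_left nhdsWithin_le_nhds
    have e2 : Tendsto (fun y : ℝ => -(k * Real.log y)) (𝓝[>] 0) atTop := by
      have := Real.tendsto_log_nhdsGT_zero.const_mul_atBot hk0
      exact tendsto_neg_atBot_atTop.comp this
    have e3 := e1.add_atTop e2
    have e4 := e3.eventually (eventually_gt_atTop 0)
    rw [eventually_nhdsWithin_iff] at e4
    obtain ⟨δ, hδ, h5⟩ := Metric.eventually_nhds_iff.1 e4
    refine ⟨δ, hδ, fun y hy hyδ => ?_⟩
    have h6 := h5 (y := y) (by rw [Real.dist_eq, sub_zero, abs_of_pos hy]; exact hyδ) hy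
    simp only [u]
    linarith
  have hinf : ∃ R, ∀ y, R < y → u y < 0 := by
    have e1 : Tendsto (fun y : ℝ => (a / 8) * (x0 + y) ^ 2) atTop atTop := by
      refine Tendsto.const_mul_atTop (by positivity) ?_
      exact (tendsto_pow_atTop two_ne_zero).comp (tendsto_const_nhds.add_atTop tendsto_id)
    have e2 := e1.eventually (eventually_gt_atTop
      (-w 0 + (w1 0) ^ 2 / a - β * x0 + 2 * β ^ 2 / a - γ))
    obtain ⟨R, hR⟩ := (e2.and (eventually_ge_atTop 1)).exists_forall_of_atTop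
    refine ⟨R, fun y hy => ?_⟩
    obtain ⟨h5, h6⟩ := hR y hy.le
    have h7 := lower_bound h1 h2 hw2 (x0 + y)
    have h8 : 0 ≤ k * Real.log y := mul_nonneg hk0.le (Real.log_nonneg h6)
    have h9 : -(w1 0 * (x0 + y)) ≤ a / 4 * (x0 + y) ^ 2 + (w1 0) ^ 2 / a := by
      have h10 : 0 ≤ (a / 2 * (x0 + y) + w1 0) ^ 2 / a := by positivity
      have h11 : (a / 2 * (x0 + y) + w1 0) ^ 2 / a =
          a / 4 * (x0 + y) ^ 2 + w1 0 * (x0 + y) + (w1 0) ^ 2 / a := by
        field_simp
        ring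
      linarith
    have h12 : β * (x0 + y) ≤ a / 8 * (x0 + y) ^ 2 + 2 * β ^ 2 / a := by
      have h10 : 0 ≤ (a / 4 * (x0 + y) - β) ^ 2 * 2 / a := by positivity
      have h11 : (a / 4 * (x0 + y) - β) ^ 2 * 2 / a =
          a / 8 * (x0 + y) ^ 2 - β * (x0 + y) + 2 * β ^ 2 / a := by
        field_simp
        ring
      linarith
    simp only [u]
    nlinarith
  exact sign_pattern hξ0 hcvx hccv hzero hinf (hucont _ fun y hy => hξ0.trans_le hy)

end Vale.Agent.P227.M.SC.H943
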