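import Vale.Agent.P227.M.SC.OneD2

/-! # P227, block SC (ii): the third central moment -/

namespace Vale.Agent.P227.M.SC.H943

open MeasureTheory Set Filter Topology Real

theorem integral_cubic {μ : Measure ℝ} {P : ℝ → ℝ}
    (hP : ∀ j : ℕ, Integrable (fun y => y ^ j * P y) μ) (c0 c1 c2 c3 : ℝ) :
    Integrable (fun y => (c3 * y ^ 3 + c2 * y ^ 2 + c1 * y + c0) * P y) μ ∧
      ∫ y, (c3 * y ^ 3 + c2 * y ^ 2 + c1 * y + c0) * P y ∂μ =
        c3 * ∫ y, y ^ 3 * P y ∂μ + c2 * ∫ y, y ^ 2 * P y ∂μ + c1 * ∫ y, y ^ 1 * P y ∂μ +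
          c0 * ∫ y, y ^ 0 * P y ∂μ := by
  have i3 := (hP 3).const_mul c3
  have i2 := (hP 2).const_mul c2
  have i1 := (hP 1).const_mul c1
  have i0 := (hP 0).const_mul c0
  have i32 : Integrable (fun y => c3 * (y ^ 3 * P y) + c2 * (y ^ 2 * P y)) μ := i3.add i2
  have i321 : Integrable (fun y => c3 * (y ^ 3 * P y) + c2 * (y ^ 2 * P y) +
    c1 * (y ^ 1 * P y)) μ := i32.add i1
  have i3210 : Integrable (fun y => c3 * (y ^ 3 * P y) + c2 * (y ^ 2 * P y) +
    c1 * (y ^ 1 * P y) + c0 * (y ^ 0 * P y)) μ := i321.add i0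
  have he : (fun y => (c3 * y ^ 3 + c2 * y ^ 2 + c1 * y + c0) * P y) =
      fun y => c3 * (y ^ 3 * P y) + c2 * (y ^ 2 * P y) + c1 * (y ^ 1 * P y) +
        c0 * (y ^ 0 * P y) := by
    funext y
    ring
  rw [he]
  refine ⟨i3210, ?_⟩
  rw [integral_add i321 i0, integral_add i32 i1, integral_add i3 i2, integral_const_mul,
    integral_const_mul, integral_const_mul, integral_const_mul]

theorem third_moment_norm {w w1 w2 w3 : ℝ → ℝ} (h1 : ∀ x, HasDerivAt w (w1 x) x)
    (h2 : ∀ x, HasDerivAt w1 (w2 x) x) (h3 : ∀ x, HasDerivAt w2 (w3 x) x) {a c : ℝ} (ha : 0 < a)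
    (hw2 : ∀ x, a ≤ w2 x) (hc : 0 < c)
    (hsc : ∀ x, -(w3 x) ≤ 2 * c * (w2 x * Real.sqrt (w2 x))) {m s : ℝ}
    (hZ : ∫ x, Real.exp (-w x) = 1) (hm : ∫ x, x * Real.exp (-w x) = m)
    (hs : ∫ x, (x - m) ^ 2 * Real.exp (-w x) = s) :
    ∫ x, (x - m) ^ 3 * Real.exp (-w x) ≤ 2 * c * (s * Real.sqrt s) := by
  have hwc : Continuous w := continuous_iff_continuousAt.2 fun x => (h1 x).continuousAt
  have hW : ∀ x0, ∀ j : ℕ, Integrable (fun y : ℝ => y ^ j * Real.exp (-w (x0 + y))) := fun x0 j =>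
    integrable_moment (w := fun y => w (x0 + y)) (w1 := fun y => w1 (x0 + y))
      (w2 := fun y => w2 (x0 + y)) (fun y => (h1 (x0 + y)).comp_const_add x0 y)
      (fun y => (h2 (x0 + y)).comp_const_add x0 y) ha (fun y => hw2 _) j
  -- positivity of the variance
  have hs0 : 0 < s := by
    rw [← hs]
    refine integral_pos_of_integrable_nonneg_nonzero (x := m + 1) (by fun_prop) ?_ ?_ ?_
    · have := (integral_cubic (P := fun y => Real.exp (-w y))
        (fun j => by simpa using hW 0 j) (m ^ 2) (-2 * m) 1 0).1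
      refine this.congr (Filter.Eventually.of_forall fun y => ?_)
      simp only
      ring
    · intro x
      positivity
    · simp
  set k := 1 / c ^ 2 with hk
  have hk0 : 0 < k := by positivity
  set σ := Real.sqrt s with hσ
  have hσ0 : 0 < σ := Real.sqrt_pos.2 hs0
  have hσ2 : σ ^ 2 = s := Real.sq_sqrt hs0.le
  set ρ := Real.sqrt (k + 1) with hρ
  have hρ0 : 0 < ρ := Real.sqrt_pos.2 (by linarith)
  have hρ2 : ρ ^ 2 = k + 1 := Real.sq_sqrt (by linarith)
  set β := ρ / σ with hβ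
  have hβ0 : 0 < β := div_pos hρ0 hσ0
  set d := (k + 1) / β with hd
  set x0 := m - d with hx0
  set P : ℝ → ℝ := fun y => Real.exp (-w (x0 + y)) with hP
  have hPi : ∀ j : ℕ, Integrable (fun y => y ^ j * P y) := hW x0
  -- the moments
  have e0 : ∫ y, y ^ 0 * P y = 1 := by
    have := integral_add_left_eq_self (μ := (volume : Measure ℝ)) (fun x => Real.exp (-w x)) x0
    rw [← hZ, ← this]
    simp [hP]
  have e1 : ∫ y, y ^ 1 * P y = d := by
    have h5 := integral_add_left_eq_self (μ := (volume : Measure ℝ))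
      (fun x => x * Real.exp (-w x)) x0
    rw [hm] at h5
    have h6 := (integral_cubic hPi x0 1 0 0).2
    have h7 : ∫ y, (0 * y ^ 3 + 0 * y ^ 2 + 1 * y + x0) * P y = m := by
      rw [← h5]
      refine integral_congr_ae (Filter.Eventually.of_forall fun y => ?_)
      simp only [hP]
      ring
    rw [h7, e0] at h6
    linarith
  have e2 : ∫ y, y ^ 2 * P y = s + d ^ 2 := by
    have h5 := integral_add_left_eq_self (μ := (volume : Measure ℝ))
      (fun x => (x - m) ^ 2 * Real.exp (-w x)) x0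
    rw [hs] at h5
    have h6 := (integral_cubic hPi (d ^ 2) (-2 * d) 1 0).2
    have h7 : ∫ y, (0 * y ^ 3 + 1 * y ^ 2 + -2 * d * y + d ^ 2) * P y = s := by
      rw [← h5]
      refine integral_congr_ae (Filter.Eventually.of_forall fun y => ?_)
      simp only [hP, hx0]
      ring
    rw [h7, e0, e1] at h6
    linarith
  have e3 : ∫ x, (x - m) ^ 3 * Real.exp (-w x) = (∫ y, y ^ 3 * P y) - 3 * d * s - d ^ 3 := by
    have h5 := integral_add_left_eq_self (μ := (volume : Measure ℝ))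
      (fun x => (x - m) ^ 3 * Real.exp (-w x)) x0
    have h6 := (integral_cubic hPi (-(d ^ 3)) (3 * d ^ 2) (-3 * d) 1).2
    have h7 : ∫ y, (1 * y ^ 3 + -3 * d * y ^ 2 + 3 * d ^ 2 * y + -(d ^ 3)) * P y =
        ∫ x, (x - m) ^ 3 * Real.exp (-w x) := by
      rw [← h5]
      refine integral_congr_ae (Filter.Eventually.of_forall fun y => ?_)
      simp only [hP, hx0]
      ring
    rw [h7, e0, e1, e2] at h6
    rw [h6]
    ring
  -- the Gamma density
  set G := Real.Gamma (k + 1) with hG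
  have hG0 : 0 < G := Real.Gamma_pos_of_pos (by linarith)
  set q : ℝ → ℝ := fun y => β ^ (k + 1) / G * (y ^ k * Real.exp (-(β * y))) with hq
  have hqi : ∀ j : ℕ, Integrable (fun y => y ^ j * q y) (volume.restrict (Ioi 0)) := fun j =>
    (gamma_moment hk0 hβ0 j).1
  have hqm : ∀ j : ℕ, ∫ y in Ioi (0 : ℝ), y ^ j * q y =
      Real.Gamma (k + 1 + j) / (G * β ^ j) := fun j => (gamma_moment hk0 hβ0 j).2
  have g1 : Real.Gamma (k + 1 + 1) = (k + 1) * G := Real.Gamma_add_one (by linarith)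
  have g2 : Real.Gamma (k + 1 + 1 + 1) = (k + 2) * ((k + 1) * G) := by
    rw [Real.Gamma_add_one (by linarith), g1]
    ring
  have g3 : Real.Gamma (k + 1 + 1 + 1 + 1) = (k + 3) * ((k + 2) * ((k + 1) * G)) := by
    rw [Real.Gamma_add_one (by linarith), g2]
    ring
  have q0 : ∫ y in Ioi (0 : ℝ), y ^ 0 * q y = 1 := by
    rw [hqm 0, Nat.cast_zero, add_zero, pow_zero, mul_one, ← hG, div_self hG0.ne']
  have q1 : ∫ y in Ioi (0 : ℝ), y ^ 1 * q y = d := by
    rw [hqm 1, Nat.cast_one, g1, hd]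
    field_simp
  have hds : d ^ 2 = (k + 1) * s := by
    rw [hd, hβ, div_pow, div_pow, hρ2, hσ2]
    field_simp
  have hdβ : d * β = k + 1 := by rw [hd]; field_simp
  have hsβ : s * β ^ 2 = k + 1 := by
    rw [hβ, div_pow, hρ2, hσ2]
    field_simp
  have q2 : ∫ y in Ioi (0 : ℝ), y ^ 2 * q y = s + d ^ 2 := by
    rw [hqm 2, show k + 1 + ((2 : ℕ) : ℝ) = k + 1 + 1 + 1 by push_cast; ring, g2, hds,
      div_eq_iff (by positivity)]
    have : (s + (k + 1) * s) * (G * β ^ 2) = (k + 2) * G * (s * β ^ 2) := by ring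
    rw [this, hsβ]
    ring
  have q3 : ∫ y in Ioi (0 : ℝ), y ^ 3 * q y = d * s * (k + 2) * (k + 3) / (k + 1) := by
    rw [hqm 3, show k + 1 + ((3 : ℕ) : ℝ) = k + 1 + 1 + 1 + 1 by push_cast; ring, g3,
      div_eq_div_iff (by positivity) (by positivity)]
    have : d * s * (k + 2) * (k + 3) * (G * β ^ 3) =
      (k + 2) * (k + 3) * G * ((d * β) * (s * β ^ 2)) := by ring
    rw [this, hsβ, hdβ]
    ring
  -- comparison
  obtain ⟨a1, a2, a3, ha1, ha2, ha3, hK⟩ := exists_cubic h1 h2 h3 ha hw2 hc hsc x0 β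
    (Real.log (β ^ (k + 1) / G))
  have hcmp : ∀ y, 0 < y → (P y - q y) * ((y - a1) * (y - a2) * (y - a3)) ≤ 0 := by
    intro y hy
    have h5 := hK y hy
    have h6 : q y = Real.exp (Real.log (β ^ (k + 1) / G) + k * Real.log y - β * y) := by
      rw [Real.exp_sub, Real.exp_add, Real.exp_log (by positivity), hq]
      simp only
      rw [mul_comm k, ← Real.rpow_def_of_pos hy, Real.exp_neg]
      field_simp
    set D := -w (x0 + y) - 1 / c ^ 2 * Real.log y + β * y - Real.log (β ^ (k + 1) / G) with hD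
    rcases lt_trichotomy D 0 with h7 | h7 | h7
    · have h8 : P y - q y < 0 := by
        rw [h6, sub_neg]
        refine Real.exp_lt_exp.2 ?_
        rw [hD, ← hk] at h7
        linarith
      have h9 : 0 ≤ (y - a1) * (y - a2) * (y - a3) := by
        by_contra h10
        exact absurd h5 (not_le.2 (mul_pos_of_neg_of_neg h7 (not_le.1 h10)))
      exact mul_nonpos_of_nonpos_of_nonneg h8.le h9
    · have h8 : P y - q y = 0 := by
        rw [h6, sub_eq_zero]
        rw [hD, ← hk] at h7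
        simp only [hP]
        congr 1
        linarith
      rw [h8, zero_mul]
    · have h8 : 0 < P y - q y := by
        rw [h6, sub_pos]
        refine Real.exp_lt_exp.2 ?_
        rw [hD, ← hk] at h7
        linarith
      have h9 : (y - a1) * (y - a2) * (y - a3) ≤ 0 := by
        by_contra h10
        exact absurd h5 (not_le.2 (mul_pos h7 (not_le.1 h10)))
      exact mul_nonpos_of_nonneg_of_nonpos h8.le h9
  have hneg : ∀ y, y ≤ 0 → P y * ((y - a1) * (y - a2) * (y - a3)) ≤ 0 := by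
    intro y hy
    have h5 : y - a1 ≤ 0 := by linarith
    have h6 : y - a2 ≤ 0 := by linarith
    have h7 : y - a3 ≤ 0 := by linarith
    exact mul_nonpos_of_nonneg_of_nonpos (Real.exp_pos _).le
      (mul_nonpos_of_nonneg_of_nonpos (mul_nonneg_of_nonpos_of_nonpos h5 h6) h7)
  -- the cubic as a polynomial
  set A2 := -(a1 + a2 + a3) with hA2
  set A1 := a1 * a2 + a2 * a3 + a1 * a3 with hA1
  set A0 := -(a1 * a2 * a3) with hA0
  have hpoly : ∀ y : ℝ, (y - a1) * (y - a2) * (y - a3) = 1 * y ^ 3 + A2 * y ^ 2 + A1 * y + A0 := by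
    intro y
    rw [hA2, hA1, hA0]
    ring
  have c1 := integral_cubic hPi A0 A1 A2 1
  have c2 := integral_cubic (fun j => (hPi j).integrableOn (s := Ioi 0)) A0 A1 A2 1
  have c4 := integral_cubic hqi A0 A1 A2 1
  have hsplit := integral_add_compl (μ := (volume : Measure ℝ)) (measurableSet_Ioi (a := (0 : ℝ)))
    c1.1
  rw [compl_Ioi] at hsplit
  have hle1 : ∫ y in Iic (0 : ℝ), (1 * y ^ 3 + A2 * y ^ 2 + A1 * y + A0) * P y ≤ 0 := by
    refine setIntegral_nonpos measurableSet_Iic fun y hy => ?_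
    rw [← hpoly, mul_comm]
    exact hneg y hy
  have hle2 : ∫ y in Ioi (0 : ℝ), (1 * y ^ 3 + A2 * y ^ 2 + A1 * y + A0) * P y ≤
      ∫ y in Ioi (0 : ℝ), (1 * y ^ 3 + A2 * y ^ 2 + A1 * y + A0) * q y := by
    refine setIntegral_mono_on c2.1 c4.1 measurableSet_Ioi fun y hy => ?_
    rw [← hpoly]
    have := hcmp y hy
    linarith
  have hM3 : ∫ y, y ^ 3 * P y ≤ d * s * (k + 2) * (k + 3) / (k + 1) := by
    have h5 := c1.2
    have h6 := c4.2
    rw [e0, e1, e2] at h5
    rw [q0, q1, q2, q3] at h6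
    linarith
  rw [e3]
  have h8 : d * s * (k + 2) * (k + 3) / (k + 1) - 3 * d * s - d ^ 3 = 2 * (d * s) / (k + 1) := by
    have h9 : d ^ 3 = d * s * (k + 1) := by
      rw [pow_succ, hds]
      ring
    rw [h9]
    field_simp
    ring
  have h9 : d = ρ * σ := by
    rw [hd, hβ, ← hρ2]
    field_simp
  have h10 : 1 / ρ ≤ c := by
    have h11 : 1 / c ≤ ρ := by
      rw [hρ]
      refine Real.le_sqrt_of_sq_le ?_
      rw [div_pow, one_pow, ← hk]
      linarith
    rw [div_le_iff₀ hρ0]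
    rwa [div_le_iff₀ hc, mul_comm] at h11
  calc (∫ y, y ^ 3 * P y) - 3 * d * s - d ^ 3
      ≤ d * s * (k + 2) * (k + 3) / (k + 1) - 3 * d * s - d ^ 3 := by linarith
    _ = 2 * (d * s) / (k + 1) := h8
    _ = 2 * (1 / ρ) * (s * σ) := by
        rw [h9, ← hρ2]
        field_simp
    _ ≤ 2 * c * (s * σ) := by
        refine mul_le_mul_of_nonneg_right (by linarith) (by positivity)

theorem third_moment_le {w w1 w2 w3 : ℝ → ℝ} (h1 : ∀ x, HasDerivAt w (w1 x) x)
    (h2 : ∀ x, HasDerivAt w1 (w2 x) x) (h3 : ∀ x, HasDerivAt w2 (w3 x) x) {a c : ℝ} (ha : 0 < a)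
    (hw2 : ∀ x, a ≤ w2 x) (hc : 0 ≤ c)
    (hsc : ∀ x, -(w3 x) ≤ 2 * c * (w2 x * Real.sqrt (w2 x))) {Z m s : ℝ}
    (hZ : ∫ x, Real.exp (-w x) = Z) (hm : (∫ x, x * Real.exp (-w x)) / Z = m)
    (hs : (∫ x, (x - m) ^ 2 * Real.exp (-w x)) / Z = s) :
    (∫ x, (x - m) ^ 3 * Real.exp (-w x)) / Z ≤ 2 * c * (s * Real.sqrt s) := by
  have hZ0 : 0 < Z := by
    rw [← hZ]
    have := integrable_moment h1 h2 ha hw2 0
    simp only [pow_zero, one_mul] at this
    exact integral_exp_pos this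
  have hshift : ∀ x, Real.exp (-(w x + Real.log Z)) = Real.exp (-w x) / Z := by
    intro x
    rw [neg_add, Real.exp_add, Real.exp_neg (Real.log Z), Real.exp_log hZ0, div_eq_mul_inv]
  have hmul : ∀ f : ℝ → ℝ, ∫ x, f x * Real.exp (-(w x + Real.log Z)) =
      (∫ x, f x * Real.exp (-w x)) / Z := by
    intro f
    rw [← integral_div]
    refine integral_congr_ae (Filter.Eventually.of_forall fun x => ?_)
    simp only [hshift]
    ring
  have main : ∀ c', 0 < c' → c ≤ c' →
      (∫ x, (x - m) ^ 3 * Real.exp (-w x)) / Z ≤ 2 * c' * (s * Real.sqrt s) := by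
    intro c' hc' hcc
    have := third_moment_norm (w := fun x => w x + Real.log Z) (w1 := w1) (w2 := w2) (w3 := w3)
      (fun x => (h1 x).add_const _) h2 h3 ha hw2 hc'
      (fun x => (hsc x).trans (mul_le_mul_of_nonneg_right (by linarith)
        (mul_nonneg (ha.le.trans (hw2 x)) (Real.sqrt_nonneg _)))) (m := m) (s := s)
      (by
        have := hmul fun _ => 1
        simp only [one_mul] at this
        rw [this, hZ, div_self hZ0.ne']) (by rw [hmul (fun x => x), hm])
      (by rw [hmul (fun x => (x - m) ^ 2), hs])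
    rwa [hmul (fun x => (x - m) ^ 3)] at this
  have hlim : Tendsto (fun c' : ℝ => 2 * c' * (s * Real.sqrt s)) (𝓝[>] c)
      (𝓝 (2 * c * (s * Real.sqrt s))) :=
    (Continuous.tendsto (by fun_prop) c).mono_left nhdsWithin_le_nhds
  refine ge_of_tendsto hlim ?_
  filter_upwards [self_mem_nhdsWithin] with c' hc'
  exact main c' (hc.trans_lt hc') (le_of_lt hc')

/-- two-sided version -/
theorem third_moment_abs {w w1 w2 w3 : ℝ → ℝ} (h1 : ∀ x, HasDerivAt w (w1 x) x)
    (h2 : ∀ x, HasDerivAt w1 (w2 x) x) (h3 : ∀ x, HasDerivAt w2 (w3 x) x) {a c : ℝ} (ha : 0 < a)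
    (hw2 : ∀ x, a ≤ w2 x) (hc : 0 ≤ c)
    (hsc : ∀ x, |w3 x| ≤ 2 * c * (w2 x) ^ ((3 : ℝ) / 2)) {Z m s : ℝ}
    (hZ : ∫ x, Real.exp (-w x) = Z) (hm : (∫ x, x * Real.exp (-w x)) / Z = m)
    (hs : (∫ x, (x - m) ^ 2 * Real.exp (-w x)) / Z = s) :
    |(∫ x, (x - m) ^ 3 * Real.exp (-w x)) / Z| ≤ 2 * c * s ^ ((3 : ℝ) / 2) := by
  have hpow : ∀ t : ℝ, 0 ≤ t → t ^ ((3 : ℝ) / 2) = t * Real.sqrt t := by
    intro t ht
    rcases ht.lt_or_eq with h | h
    · rw [show (3 : ℝ) / 2 = 1 + 1 / 2 by norm_num, Real.rpow_add h, Real.rpow_one,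
        Real.sqrt_eq_rpow]
    · rw [← h, Real.zero_rpow (by norm_num), zero_mul]
  have hZ0 : 0 < Z := by
    rw [← hZ]
    have := integrable_moment h1 h2 ha hw2 0
    simp only [pow_zero, one_mul] at this
    exact integral_exp_pos this
  have hs0 : 0 ≤ s := by
    rw [← hs]
    exact div_nonneg (integral_nonneg fun x => by positivity) hZ0.le
  have hsc' : ∀ x, |w3 x| ≤ 2 * c * (w2 x * Real.sqrt (w2 x)) := fun x => by
    rw [← hpow _ (ha.le.trans (hw2 x))]
    exact hsc x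
  rw [hpow s hs0, abs_le]
  constructor
  · have hd : ∀ (f f' : ℝ → ℝ), (∀ x, HasDerivAt f (f' x) x) → ∀ x,
        HasDerivAt (fun x => f (-x)) (-(f' (-x))) x := by
      intro f f' hf x
      have := (hf (-x)).comp x (hasDerivAt_neg x)
      exact HasDerivAt.congr_deriv this (by ring)
    have hneg : ∀ f : ℝ → ℝ, ∫ x, f (-x) * Real.exp (-w (-x)) = ∫ x, f x * Real.exp (-w x) :=
      fun f => integral_neg_eq_self (fun x => f x * Real.exp (-w x)) volume
    have hm' : (∫ x, x * Real.exp (-w (-x))) / Z = -m := by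
      have h5 := hneg fun x => -x
      simp only [neg_neg, neg_mul] at h5
      rw [h5, integral_neg, neg_div, hm]
    have hs' : (∫ x, (x - -m) ^ 2 * Real.exp (-w (-x))) / Z = s := by
      have h5 := hneg fun x => (x - m) ^ 2
      rw [← hs, ← h5]
      congr 1
      refine integral_congr_ae (Filter.Eventually.of_forall fun x => ?_)
      simp only
      ring
    have h4 : ∀ x, HasDerivAt (fun x => -(w1 (-x))) (w2 (-x)) x := fun x =>
      HasDerivAt.congr_deriv (hd _ _ h2 x).neg (by ring)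
    have := third_moment_le (w := fun x => w (-x)) (w1 := fun x => -(w1 (-x)))
      (w2 := fun x => w2 (-x)) (w3 := fun x => -(w3 (-x))) (hd _ _ h1) h4 (hd _ _ h3) ha
      (fun x => hw2 _) hc (fun x => by
        have := hsc' (-x)
        rw [neg_neg]
        exact (le_abs_self _).trans this) (Z := Z) (m := -m) (s := s)
      (by
        have h5 := hneg fun _ => 1
        simp only [one_mul] at h5
        rw [h5, hZ]) hm' hs'
    have h6 : (∫ x, (x - -m) ^ 3 * Real.exp (-w (-x))) / Z =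
        -((∫ x, (x - m) ^ 3 * Real.exp (-w x)) / Z) := by
      have h5 := hneg fun x => (x - m) ^ 3
      rw [← h5, ← neg_div, ← integral_neg]
      congr 1
      refine integral_congr_ae (Filter.Eventually.of_forall fun x => ?_)
      simp only
      ring
    rw [h6] at this
    linarith
  · exact third_moment_le h1 h2 h3 ha hw2 hc (fun x => (neg_le_abs _).trans (hsc' x)) hZ hm hs

end Vale.Agent.P227.M.SC.H943
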