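import Mathlib

/-! Smoothness of parametric integrals `h ↦ ∫ Φ (h, z) dν z` for smooth `Φ` with locally uniformly
dominated derivatives, and the bound of the iterated derivatives by the integral of the norms. -/

open MeasureTheory Set Filter
open scoped Topology ContDiff

namespace Vale.Agent.P227.M.SC

/-- domination: every iterated derivative is dominated, locally uniformly in the parameter -/
def Dom {F Z G : Type} [NormedAddCommGroup F] [NormedSpace ℝ F] [NormedAddCommGroup Z]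
    [NormedSpace ℝ Z] [MeasurableSpace Z] [NormedAddCommGroup G] [NormedSpace ℝ G]
    (ν : Measure Z) (Φ : F × Z → G) : Prop :=
  ∀ (j : ℕ) (R : ℝ), ∃ g : Z → ℝ, Integrable g ν ∧
    ∀ h z, ‖h‖ ≤ R → ‖iteratedFDeriv ℝ j Φ (h, z)‖ ≤ g z

section
variable {F Z : Type} [NormedAddCommGroup F] [NormedSpace ℝ F] [NormedAddCommGroup Z]
    [NormedSpace ℝ Z] [MeasurableSpace Z] [BorelSpace Z] [SecondCountableTopology Z]
    {ν : Measure Z}

/-- partial derivative in the parameter -/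
noncomputable def dx {G : Type} [NormedAddCommGroup G] [NormedSpace ℝ G] (Φ : F × Z → G) :
    F × Z → (F →L[ℝ] G) :=
  fun p => (fderiv ℝ Φ p).comp (ContinuousLinearMap.inl ℝ F Z)

theorem dx_eq {G : Type} [NormedAddCommGroup G] [NormedSpace ℝ G] (Φ : F × Z → G) :
    dx Φ = ((ContinuousLinearMap.compL ℝ F (F × Z) G).flip (ContinuousLinearMap.inl ℝ F Z)) ∘
      fderiv ℝ Φ := rfl

theorem norm_inl_le : ‖ContinuousLinearMap.inl ℝ F Z‖ ≤ 1 := by
  refine ContinuousLinearMap.opNorm_le_bound _ zero_le_one fun x => ?_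
  simp [Prod.norm_def]

theorem contDiff_dx {G : Type} [NormedAddCommGroup G] [NormedSpace ℝ G] {Φ : F × Z → G}
    (hΦ : ContDiff ℝ ∞ Φ) : ContDiff ℝ ∞ (dx Φ) := by
  rw [dx_eq]
  exact (ContinuousLinearMap.contDiff _).comp (contDiff_infty_iff_fderiv.1 hΦ).2

theorem norm_dx_le {G : Type} [NormedAddCommGroup G] [NormedSpace ℝ G] {Φ : F × Z → G}
    (hΦ : ContDiff ℝ ∞ Φ) (j : ℕ) (p : F × Z) :
    ‖iteratedFDeriv ℝ j (dx Φ) p‖ ≤ ‖iteratedFDeriv ℝ (j + 1) Φ p‖ := by
  rw [dx_eq, ← norm_iteratedFDeriv_fderiv]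
  have h1 := ((ContinuousLinearMap.compL ℝ F (F × Z) G).flip
    (ContinuousLinearMap.inl ℝ F Z)).norm_iteratedFDeriv_comp_left (n := j) (x := p)
    (N := ∞) (contDiff_infty_iff_fderiv.1 hΦ).2.contDiffAt (by exact_mod_cast le_top)
  refine h1.trans ?_
  have h2 : ‖(ContinuousLinearMap.compL ℝ F (F × Z) G).flip (ContinuousLinearMap.inl ℝ F Z)‖ ≤ 1 := by
    refine ContinuousLinearMap.opNorm_le_bound _ zero_le_one fun x => ?_
    simp only [ContinuousLinearMap.flip_apply, ContinuousLinearMap.compL_apply, one_mul]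
    refine (ContinuousLinearMap.opNorm_comp_le _ _).trans ?_
    exact mul_le_of_le_one_right (norm_nonneg _) norm_inl_le
  exact mul_le_of_le_one_left (norm_nonneg _) h2

theorem Dom.dx {G : Type} [NormedAddCommGroup G] [NormedSpace ℝ G] {Φ : F × Z → G}
    (hΦ : ContDiff ℝ ∞ Φ) (hD : Dom ν Φ) : Dom ν (dx Φ) := by
  intro j R
  obtain ⟨g, hg, hb⟩ := hD (j + 1) R
  exact ⟨g, hg, fun h z hh => (norm_dx_le hΦ j _).trans (hb h z hh)⟩

theorem Dom.int {G : Type} [NormedAddCommGroup G] [NormedSpace ℝ G] {Φ : F × Z → G}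
    (hΦ : ContDiff ℝ ∞ Φ) (hD : Dom ν Φ) (h : F) : Integrable (fun z => Φ (h, z)) ν := by
  obtain ⟨g, hg, hb⟩ := hD 0 ‖h‖
  refine hg.mono' (hΦ.continuous.comp (by fun_prop)).aestronglyMeasurable ?_
  filter_upwards with z
  have := hb h z le_rfl
  rwa [norm_iteratedFDeriv_zero] at this

theorem Dom.int_iter {G : Type} [NormedAddCommGroup G] [NormedSpace ℝ G] {Φ : F × Z → G}
    (hΦ : ContDiff ℝ ∞ Φ) (hD : Dom ν Φ) (j : ℕ) (h : F) :
    Integrable (fun z => ‖iteratedFDeriv ℝ j Φ (h, z)‖) ν := by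
  obtain ⟨g, hg, hb⟩ := hD j ‖h‖
  refine hg.mono' ?_ ?_
  · have hc : Continuous (iteratedFDeriv ℝ j Φ) := hΦ.continuous_iteratedFDeriv (by exact_mod_cast le_top)
    exact (hc.norm.comp (by fun_prop : Continuous fun z : Z => (h, z))).aestronglyMeasurable
  · filter_upwards with z
    rw [norm_norm]
    exact hb h z le_rfl

theorem hasFDerivAt_par {G : Type} [NormedAddCommGroup G] [NormedSpace ℝ G] [CompleteSpace G]
    {Φ : F × Z → G} (hΦ : ContDiff ℝ ∞ Φ) (hD : Dom ν Φ) (h : F) :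
    HasFDerivAt (fun h => ∫ z, Φ (h, z) ∂ν) (∫ z, SC.dx Φ (h, z) ∂ν) h := by
  obtain ⟨g, hg, hb⟩ := hD 1 (‖h‖ + 1)
  refine hasFDerivAt_integral_of_dominated_of_fderiv_le (F := fun h z => Φ (h, z))
    (F' := fun h z => SC.dx Φ (h, z)) (s := Metric.ball h 1) (bound := g)
    (Metric.ball_mem_nhds h one_pos) ?_ (hD.int hΦ h) ?_ ?_ hg ?_
  · filter_upwards with x
    exact (hΦ.continuous.comp (by fun_prop : Continuous fun z : Z => (x, z))).aestronglyMeasurable
  · exact ((contDiff_dx hΦ).continuous.comp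
      (by fun_prop : Continuous fun z : Z => (h, z))).aestronglyMeasurable
  · filter_upwards with z x hx
    have h1 := norm_dx_le hΦ 0 (x, z)
    rw [norm_iteratedFDeriv_zero] at h1
    refine h1.trans (hb x z ?_)
    have h2 : ‖x - h‖ < 1 := by simpa [dist_eq_norm] using hx
    have h3 : ‖x‖ ≤ ‖h‖ + ‖x - h‖ := by
      have := norm_add_le h (x - h)
      simpa using this
    linarith
  · filter_upwards with z x hx
    have h1 : HasFDerivAt Φ (fderiv ℝ Φ (x, z)) (x, z) :=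
      (hΦ.differentiable (by simp) _).hasFDerivAt
    have h2 : HasFDerivAt (fun x : F => (x, z)) (ContinuousLinearMap.inl ℝ F Z) x := by
      have := (hasFDerivAt_id (𝕜 := ℝ) x).prodMk (hasFDerivAt_const z x)
      simpa [ContinuousLinearMap.inl] using this
    exact h1.comp x h2

/-- main statement -/
theorem par_main (j : ℕ) : ∀ {G : Type} [NormedAddCommGroup G] [NormedSpace ℝ G] [CompleteSpace G]
    {Φ : F × Z → G} (_ : ContDiff ℝ ∞ Φ) (_ : Dom ν Φ),
    ContDiff ℝ j (fun h => ∫ z, Φ (h, z) ∂ν) ∧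
    ∀ h, ‖iteratedFDeriv ℝ j (fun h => ∫ z, Φ (h, z) ∂ν) h‖ ≤
      ∫ z, ‖iteratedFDeriv ℝ j Φ (h, z)‖ ∂ν := by
  induction j with
  | zero =>
    intro G _ _ _ Φ hΦ hD
    refine ⟨?_, fun h => ?_⟩
    · rw [Nat.cast_zero, contDiff_zero]
      exact continuous_iff_continuousAt.2 fun h => (hasFDerivAt_par hΦ hD h).continuousAt
    · rw [norm_iteratedFDeriv_zero]
      refine (norm_integral_le_integral_norm _).trans (le_of_eq ?_)
      simp only [norm_iteratedFDeriv_zero]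
  | succ j ih =>
    intro G _ _ _ Φ hΦ hD
    have hfd : fderiv ℝ (fun h => ∫ z, Φ (h, z) ∂ν) = fun h => ∫ z, SC.dx Φ (h, z) ∂ν :=
      funext fun h => (hasFDerivAt_par hΦ hD h).fderiv
    obtain ⟨h1, h2⟩ := ih (contDiff_dx hΦ) (hD.dx hΦ)
    refine ⟨?_, fun h => ?_⟩
    · rw [Nat.cast_add, Nat.cast_one, contDiff_succ_iff_fderiv]
      refine ⟨fun h => (hasFDerivAt_par hΦ hD h).differentiableAt, ?_, ?_⟩
      · intro hh
        exact absurd hh (by exact WithTop.coe_ne_top)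
      · rw [hfd]
        exact h1
    · rw [← norm_iteratedFDeriv_fderiv, hfd]
      refine (h2 h).trans ?_
      refine integral_mono ((hD.dx hΦ).int_iter (contDiff_dx hΦ) j h) (hD.int_iter hΦ (j + 1) h) ?_
      intro z
      exact norm_dx_le hΦ j (h, z)

theorem contDiff_par {G : Type} [NormedAddCommGroup G] [NormedSpace ℝ G] [CompleteSpace G]
    {Φ : F × Z → G} (hΦ : ContDiff ℝ ∞ Φ) (hD : Dom ν Φ) :
    ContDiff ℝ ∞ (fun h => ∫ z, Φ (h, z) ∂ν) :=
  contDiff_infty.2 fun j => (par_main j hΦ hD).1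

end

end Vale.Agent.P227.M.SC
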