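import Mathlib.Analysis.Convex.Slope
import Mathlib.Analysis.Convex.Topology
import Mathlib.MeasureTheory.Integral.Bochner.Basic
import Mathlib.MeasureTheory.Measure.Lebesgue.Basic
import Mathlib.Tactic

/-!
P227, block SC, one dimension, part 1 (helper84): sign pattern `+ - + -` of `p - q` when
`log (p / q)` is convex and then concave, and the comparison of third moments.
-/

open Set MeasureTheory

namespace Vale.Agent.P227.M.SC

/-- sign pattern to the right of `ξ` -/
theorem pat_right {g : ℝ → ℝ} {ξ : ℝ} (h : ConcaveOn ℝ (Ici ξ) g) :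
    ∃ a, ξ ≤ a ∧ (0 < g ξ → a = ξ) ∧ (∀ x, ξ < x → x < a → g x ≤ 0) ∧
      ((∀ x, a < x → 0 ≤ g x) ∨ ∃ b, a ≤ b ∧ (∀ x, a < x → x < b → 0 ≤ g x) ∧
        ∀ x, b < x → g x ≤ 0) := by
  set P : Set ℝ := {x | x ∈ Ici ξ ∧ 0 < g x} with hP
  have hoc : P.OrdConnected := (h.convex_gt 0).ordConnected
  by_cases hne : P.Nonempty
  · have hbb : BddBelow P := ⟨ξ, fun x hx => hx.1⟩
    have hξa : ξ ≤ sInf P := le_csInf hne fun x hx => hx.1
    have hmid : ∀ x, sInf P < x → (∃ z ∈ P, x < z) → 0 ≤ g x := by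
      rintro x hx ⟨z, hz, hxz⟩
      obtain ⟨y, hy, hyx⟩ := exists_lt_of_csInf_lt hne hx
      exact (hoc.out hy hz ⟨hyx.le, hxz.le⟩).2.le
    refine ⟨sInf P, hξa, fun h0 => le_antisymm (csInf_le hbb ⟨mem_Ici.2 le_rfl, h0⟩) hξa, ?_, ?_⟩
    · intro x hx1 hx2
      by_contra hc
      exact absurd (csInf_le hbb ⟨hx1.le, not_le.1 hc⟩) (not_le.2 hx2)
    · by_cases hba : BddAbove P
      · right
        obtain ⟨y, hy⟩ := hne
        refine ⟨sSup P, (csInf_le hbb hy).trans (le_csSup hba hy), ?_, ?_⟩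
        · intro x hx1 hx2
          exact hmid x hx1 (exists_lt_of_lt_csSup ⟨y, hy⟩ hx2)
        · intro x hx
          by_contra hc
          have hxP : x ∈ P :=
            ⟨(hy.1.out.trans (le_csSup hba hy)).trans hx.le, not_le.1 hc⟩
          exact absurd (le_csSup hba hxP) (not_le.2 hx)
      · left
        intro x hx
        exact hmid x hx (not_bddAbove_iff.1 hba x)
  · have hall : ∀ x, ξ ≤ x → g x ≤ 0 := by
      intro x hx
      by_contra hc
      exact hne ⟨x, hx, not_le.1 hc⟩
    exact ⟨ξ, le_rfl, fun _ => rfl, fun x h1 _ => hall x h1.le,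
      Or.inr ⟨ξ, le_rfl, fun x h1 h2 => absurd h1 (not_lt.2 h2.le), fun x hx => hall x hx.le⟩⟩

/-- sign pattern of a function which is convex on `(0, ξ]` and concave on `[ξ, ∞)` -/
theorem pat {g r : ℝ → ℝ} {ξ : ℝ} (hξ : 0 < ξ) (hc : ConvexOn ℝ (Ioc 0 ξ) g)
    (hcc : ConcaveOn ℝ (Ici ξ) g) (h0 : ∀ x, x ≤ 0 → 0 ≤ r x)
    (h1 : ∀ x, 0 < x → 0 ≤ g x → 0 ≤ r x) (h2 : ∀ x, 0 < x → g x ≤ 0 → r x ≤ 0) :
    ∃ a b, a ≤ b ∧ (∀ x, x < a → 0 ≤ r x) ∧ (∀ x, a < x → x < b → r x ≤ 0) ∧
      ((∀ x, b < x → 0 ≤ r x) ∨ ∃ c, b ≤ c ∧ (∀ x, b < x → x < c → 0 ≤ r x) ∧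
        ∀ x, c < x → r x ≤ 0) := by
  obtain ⟨a2, hξa2, hpos, hm, hr⟩ := pat_right hcc
  have ha2 : 0 < a2 := hξ.trans_le hξa2
  -- the right part in terms of `r`
  have hr' : (∀ x, a2 < x → 0 ≤ r x) ∨ ∃ c, a2 ≤ c ∧ (∀ x, a2 < x → x < c → 0 ≤ r x) ∧
      ∀ x, c < x → r x ≤ 0 := by
    rcases hr with hr | ⟨b, hab, hb1, hb2⟩
    · exact Or.inl fun x hx => h1 x (ha2.trans hx) (hr x hx)
    · exact Or.inr ⟨b, hab, fun x hx hx' => h1 x (ha2.trans hx) (hb1 x hx hx'),
        fun x hx => h2 x ((ha2.trans_le hab).trans hx) (hb2 x hx)⟩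
  set N : Set ℝ := {x | x ∈ Ioc 0 ξ ∧ g x < 0} with hN
  have hoc : N.OrdConnected := (hc.convex_lt 0).ordConnected
  by_cases hne : N.Nonempty
  · have hbb : BddBelow N := ⟨0, fun x hx => hx.1.1.le⟩
    have hba : BddAbove N := ⟨ξ, fun x hx => hx.1.2⟩
    have hb1ξ : sSup N ≤ ξ := csSup_le hne fun x hx => hx.1.2
    have h0a : 0 ≤ sInf N := le_csInf hne fun x hx => hx.1.1.le
    have hleft : ∀ x, x < sInf N → 0 ≤ r x := by
      intro x hx
      rcases le_or_gt x 0 with hx0 | hx0
      · exact h0 x hx0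
      · refine h1 x hx0 ?_
        by_contra hcon
        obtain ⟨y, hy⟩ := hne
        have hxξ : x ≤ ξ := (hx.le.trans (csInf_le hbb hy)).trans hy.1.2
        exact absurd (csInf_le hbb (show x ∈ N from ⟨⟨hx0, hxξ⟩, not_le.1 hcon⟩)) (not_le.2 hx)
    have hmid : ∀ x, sInf N < x → x < sSup N → g x < 0 := by
      intro x hx1 hx2
      obtain ⟨y, hy, hyx⟩ := exists_lt_of_csInf_lt hne hx1
      obtain ⟨z, hz, hxz⟩ := exists_lt_of_lt_csSup hne hx2
      exact (hoc.out hy hz ⟨hyx.le, hxz.le⟩).2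
    have hrt : ∀ x, sSup N < x → x ≤ ξ → 0 ≤ g x := by
      intro x hx1 hx2
      by_contra hcon
      obtain ⟨y, hy⟩ := hne
      have hx0 : 0 < x := hy.1.1.trans_le ((le_csSup hba hy).trans hx1.le)
      exact absurd (le_csSup hba (show x ∈ N from ⟨⟨hx0, hx2⟩, not_le.1 hcon⟩)) (not_le.2 hx1)
    have hab : sInf N ≤ sSup N := csInf_le_csSup hne hbb hba
    rcases hb1ξ.lt_or_eq with hlt | heq
    · -- `g ξ > 0`
      have hgξ : 0 < g ξ := by
        obtain ⟨y, hy⟩ := hne
        have hyz : y < (sSup N + ξ) / 2 := by have := le_csSup hba hy; linarith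
        have hzξ : (sSup N + ξ) / 2 < ξ := by linarith
        have hgz : 0 ≤ g ((sSup N + ξ) / 2) := hrt _ (by linarith) hzξ.le
        have hs := hc.slope_mono_adjacent hy.1 ⟨hξ, le_refl ξ⟩ hyz hzξ
        have hp : 0 < (g ((sSup N + ξ) / 2) - g y) / ((sSup N + ξ) / 2 - y) := by
          apply div_pos
          · have := hy.2; linarith
          · linarith
        have hp2 := hp.trans_le hs
        have hp3 : 0 < g ξ - g ((sSup N + ξ) / 2) := by
          by_contra hcon
          have : (g ξ - g ((sSup N + ξ) / 2)) / (ξ - (sSup N + ξ) / 2) ≤ 0 :=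
            div_nonpos_of_nonpos_of_nonneg (not_lt.1 hcon) (by linarith)
          linarith
        linarith
      have ha2ξ : a2 = ξ := hpos hgξ
      have hb0 : 0 ≤ sSup N := h0a.trans hab
      have key : ∀ x, sSup N < x → x ≤ ξ → 0 ≤ r x := fun x hx hx' =>
        h1 x (hb0.trans_lt hx) (hrt x hx hx')
      refine ⟨sInf N, sSup N, hab, hleft, fun x hx hx' =>
        h2 x (h0a.trans_lt hx) (hmid x hx hx').le, ?_⟩
      rcases hr' with hr' | ⟨c, hc1, hc2, hc3⟩
      · left
        intro x hx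
        rcases le_or_gt x ξ with hxξ | hxξ
        · exact key x hx hxξ
        · exact hr' x (ha2ξ ▸ hxξ)
      · right
        refine ⟨c, (hlt.le.trans hξa2).trans hc1, fun x hx hx' => ?_, hc3⟩
        rcases le_or_gt x ξ with hxξ | hxξ
        · exact key x hx hxξ
        · exact hc2 x (ha2ξ ▸ hxξ) hx'
    · refine ⟨sInf N, a2, (hab.trans hb1ξ).trans hξa2, hleft, fun x hx hx' => ?_, hr'⟩
      have hx0 : 0 < x := h0a.trans_lt hx
      rcases lt_trichotomy x ξ with h | h | h
      · exact h2 x hx0 (hmid x hx (heq ▸ h)).le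
      · refine h2 x hx0 ?_
        by_contra hcon
        have := hpos (h ▸ not_le.1 hcon)
        rw [h, this] at hx'
        exact lt_irrefl _ hx'
      · exact h2 x hx0 (hm x h hx')
  · have hall : ∀ x, 0 < x → x ≤ ξ → 0 ≤ g x := by
      intro x hx hx'
      by_contra hcon
      exact hne ⟨x, ⟨hx, hx'⟩, not_le.1 hcon⟩
    refine ⟨ξ, a2, hξa2, fun x hx => ?_, fun x hx hx' =>
      h2 x (hξ.trans hx) (hm x hx hx'), hr'⟩
    rcases le_or_gt x 0 with hx0 | hx0
    · exact h0 x hx0
    · exact h1 x hx0 (hall x hx0 hx.le)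

/-- comparison of the third moments -/
theorem cubic_le {r : ℝ → ℝ} (hi0 : Integrable r) (hi1 : Integrable fun x => x * r x)
    (hi2 : Integrable fun x => x ^ 2 * r x) (hi3 : Integrable fun x => x ^ 3 * r x)
    (e0 : ∫ x, r x = 0) (e1 : ∫ x, x * r x = 0) (e2 : ∫ x, x ^ 2 * r x = 0)
    (hneg : ∀ x, x ≤ 0 → 0 < r x)
    (hp : ∃ a b, a ≤ b ∧ (∀ x, x < a → 0 ≤ r x) ∧ (∀ x, a < x → x < b → r x ≤ 0) ∧
      ((∀ x, b < x → 0 ≤ r x) ∨ ∃ c, b ≤ c ∧ (∀ x, b < x → x < c → 0 ≤ r x) ∧
        ∀ x, c < x → r x ≤ 0)) : ∫ x, x ^ 3 * r x ≤ 0 := by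
  obtain ⟨a, b, hab, ha, hm, h | ⟨c, hbc, hc1, hc2⟩⟩ := hp
  · exfalso
    have hnn : ∀ x, 0 ≤ (x - a) * (x - b) * r x := by
      intro x
      rcases lt_trichotomy x a with hx | hx | hx
      · exact mul_nonneg (mul_nonneg_of_nonpos_of_nonpos (by linarith) (by linarith)) (ha x hx)
      · simp [hx]
      · rcases lt_trichotomy x b with hx' | hx' | hx'
        · exact mul_nonneg_of_nonpos_of_nonpos
            (mul_nonpos_of_nonneg_of_nonpos (by linarith) (by linarith)) (hm x hx hx')
        · simp [hx']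
        · exact mul_nonneg (mul_nonneg (by linarith) (by linarith)) (h x hx')
    have heq : (fun x => (x - a) * (x - b) * r x) =
        fun x => x ^ 2 * r x - (a + b) * (x * r x) + a * b * r x := by
      funext x; ring
    have hint : Integrable fun x => (x - a) * (x - b) * r x := by
      rw [heq]; exact (hi2.sub (hi1.const_mul _)).add (hi0.const_mul _)
    have hz : ∫ x, (x - a) * (x - b) * r x = 0 := by
      have i1 : Integrable fun x => (a + b) * (x * r x) := hi1.const_mul _
      have i0 : Integrable fun x => a * b * r x := hi0.const_mul _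
      have i21 : Integrable fun x => x ^ 2 * r x - (a + b) * (x * r x) := hi2.sub i1
      rw [heq, integral_add i21 i0, integral_sub hi2 i1, integral_const_mul,
        integral_const_mul, e0, e1, e2]
      simp
    rw [integral_eq_zero_iff_of_nonneg hnn hint] at hz
    have hpos : (volume (Iio (min 0 a))) ≠ 0 := by
      rw [Real.volume_Iio]; simp
    have hae : ∀ᵐ x ∂(volume.restrict (Iio (min 0 a))), False := by
      rw [ae_restrict_iff' measurableSet_Iio]
      filter_upwards [hz] with x hx hx'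
      have h1 : x < 0 := lt_of_lt_of_le hx' (min_le_left _ _)
      have h2 : x < a := lt_of_lt_of_le hx' (min_le_right _ _)
      have h3 : 0 < (x - a) * (x - b) * r x :=
        mul_pos (mul_pos_of_neg_of_neg (by linarith) (by linarith)) (hneg x h1.le)
      simp only [Pi.zero_apply] at hx
      linarith
    have : volume.restrict (Iio (min 0 a)) = 0 := by
      rw [← ae_eq_bot]
      exact Filter.eventually_false_iff_eq_bot.1 hae
    rw [Measure.restrict_eq_zero] at this
    exact hpos this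
  · have hle : ∀ x, (x - a) * (x - b) * (x - c) * r x ≤ 0 := by
      intro x
      rcases lt_trichotomy x a with hx | hx | hx
      · exact mul_nonpos_of_nonpos_of_nonneg (mul_nonpos_of_nonneg_of_nonpos
          (mul_nonneg_of_nonpos_of_nonpos (by linarith) (by linarith)) (by linarith)) (ha x hx)
      · simp [hx]
      · rcases lt_trichotomy x b with hx' | hx' | hx'
        · exact mul_nonpos_of_nonneg_of_nonpos (mul_nonneg_of_nonpos_of_nonpos
            (mul_nonpos_of_nonneg_of_nonpos (by linarith) (by linarith)) (by linarith))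
            (hm x hx hx')
        · simp [hx']
        · rcases lt_trichotomy x c with hx2 | hx2 | hx2
          · exact mul_nonpos_of_nonpos_of_nonneg (mul_nonpos_of_nonneg_of_nonpos
              (mul_nonneg (by linarith) (by linarith)) (by linarith)) (hc1 x hx' hx2)
          · simp [hx2]
          · exact mul_nonpos_of_nonneg_of_nonpos
              (mul_nonneg (mul_nonneg (by linarith) (by linarith)) (by linarith)) (hc2 x hx2)
    have heq : (fun x => (x - a) * (x - b) * (x - c) * r x) =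
        fun x => x ^ 3 * r x - (a + b + c) * (x ^ 2 * r x) +
          (a * b + b * c + c * a) * (x * r x) - a * b * c * r x := by
      funext x; ring
    have hz : ∫ x, (x - a) * (x - b) * (x - c) * r x = ∫ x, x ^ 3 * r x := by
      have i2 : Integrable fun x => (a + b + c) * (x ^ 2 * r x) := hi2.const_mul _
      have i1 : Integrable fun x => (a * b + b * c + c * a) * (x * r x) := hi1.const_mul _
      have i0 : Integrable fun x => a * b * c * r x := hi0.const_mul _
      have i32 : Integrable fun x => x ^ 3 * r x - (a + b + c) * (x ^ 2 * r x) := hi3.sub i2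
      have i321 : Integrable fun x => x ^ 3 * r x - (a + b + c) * (x ^ 2 * r x) +
          (a * b + b * c + c * a) * (x * r x) := i32.add i1
      rw [heq, integral_sub i321 i0, integral_add i32 i1, integral_sub hi3 i2,
        integral_const_mul, integral_const_mul, integral_const_mul, e0, e1, e2]
      simp
    rw [← hz]
    exact integral_nonpos hle

end Vale.Agent.P227.M.SC
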