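import Mathlib

/-! # P227/M/SC: real estimates for the third and fourth derivatives of the two-point average. -/

namespace Vale.Agent.P227.M.SC

theorem abs_mul2 {a b A B : ℝ} (ha : |a| ≤ A) (hb : |b| ≤ B) : |a * b| ≤ A * B := by
  rw [abs_mul]
  exact mul_le_mul ha hb (abs_nonneg _) ((abs_nonneg _).trans ha)

theorem abs_mul3 {a b c A B C : ℝ} (ha : |a| ≤ A) (hb : |b| ≤ B) (hc : |c| ≤ C) :
    |a * b * c| ≤ A * B * C := abs_mul2 (abs_mul2 ha hb) hc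

theorem abs_mul4 {a b c d A B C D : ℝ} (ha : |a| ≤ A) (hb : |b| ≤ B) (hc : |c| ≤ C)
    (hd : |d| ≤ D) : |a * b * c * d| ≤ A * B * C * D := abs_mul2 (abs_mul3 ha hb hc) hd

theorem q_bd {P Q : ℝ} (hP0 : 0 ≤ P) (hP1 : P ≤ 1) (hQ : Q = P * (1 - P)) :
    0 ≤ Q ∧ Q ≤ 1 / 4 := by
  subst hQ
  constructor
  · exact mul_nonneg hP0 (by linarith)
  · nlinarith [sq_nonneg (P - 1 / 2)]

theorem q_abs {P Q : ℝ} (hP0 : 0 ≤ P) (hP1 : P ≤ 1) (hQ : Q = P * (1 - P)) :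
    |Q| ≤ 1 / 4 := by
  have h := q_bd hP0 hP1 hQ
  rw [abs_of_nonneg h.1]
  exact h.2

theorem r_abs {P Q R : ℝ} (hP0 : 0 ≤ P) (hP1 : P ≤ 1) (hQ : Q = P * (1 - P))
    (hR : R = Q * (1 - 2 * P)) : |R| ≤ 1 / 4 := by
  have h1 : |1 - 2 * P| ≤ 1 := by
    rw [abs_le]
    constructor <;> linarith
  have h2 := abs_mul2 (q_abs hP0 hP1 hQ) h1
  rw [hR]
  linarith

theorem s_abs {P Q : ℝ} (hP0 : 0 ≤ P) (hP1 : P ≤ 1) (hQ : Q = P * (1 - P)) :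
    |Q * (6 * Q - 1)| ≤ 1 / 4 := by
  have h := q_bd hP0 hP1 hQ
  have h1 : |6 * Q - 1| ≤ 1 := by
    rw [abs_le]
    constructor <;> linarith [h.1, h.2]
  have h2 := abs_mul2 (q_abs hP0 hP1 hQ) h1
  linarith

theorem conv_abs {P g f T : ℝ} (hP0 : 0 ≤ P) (hP1 : P ≤ 1) (hg : |g| ≤ T) (hf : |f| ≤ T) :
    |g + P * (f - g)| ≤ T := by
  rw [abs_le] at hg hf ⊢
  have h0 : 0 ≤ 1 - P := by linarith
  have e1 := mul_le_mul_of_nonneg_left hg.1 h0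
  have e2 := mul_le_mul_of_nonneg_left hg.2 h0
  have e3 := mul_le_mul_of_nonneg_left hf.1 hP0
  have e4 := mul_le_mul_of_nonneg_left hf.2 hP0
  constructor <;> linarith

/-- third order estimate -/
theorem r3 {P Q R δ b C3 n1 n2 n3 f g d1 d2 d3 d21 d32 d31 : ℝ}
    (hP0 : 0 ≤ P) (hP1 : P ≤ 1) (hQ : Q = P * (1 - P)) (hR : R = Q * (1 - 2 * P))
    (_hδ0 : 0 ≤ δ) (_hδ1 : δ ≤ 1) (_hb : 0 ≤ b) (_hC3 : 0 ≤ C3)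
    (_hn1 : 0 ≤ n1) (_hn2 : 0 ≤ n2) (_hn3 : 0 ≤ n3)
    (h1 : |d1| ≤ 2 * δ * (b * n1)) (h2 : |d2| ≤ 2 * δ * (b * n2))
    (h3 : |d3| ≤ 2 * δ * (b * n3))
    (h21 : |d21| ≤ 2 * δ * (C3 * (n1 * n2)))
    (h32 : |d32| ≤ 2 * δ * (C3 * (n2 * n3)))
    (h31 : |d31| ≤ 2 * δ * (C3 * (n1 * n3)))
    (hg : |g| ≤ C3 * (n1 * n2 * n3)) (hf : |f| ≤ C3 * (n1 * n2 * n3)) :
    |g + P * (f - g) - Q * (d3 * d21 + d32 * d1 + d2 * d31) + R * (d3 * d2 * d1)|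
      ≤ (C3 * (1 + 3 * b * δ ^ 2) + 2 * b ^ 3 * δ ^ 3) * (n1 * n2 * n3) := by
  have e0 := abs_le.1 (conv_abs hP0 hP1 hg hf)
  have hq := q_abs hP0 hP1 hQ
  have hr := r_abs hP0 hP1 hQ hR
  have e1 := abs_le.1 (abs_mul3 hq h3 h21)
  have e2 := abs_le.1 (abs_mul3 hq h32 h1)
  have e3 := abs_le.1 (abs_mul3 hq h2 h31)
  have e4 := abs_le.1 (abs_mul4 hr h3 h2 h1)
  rw [abs_le]
  constructor
  · linarith [e0.1, e0.2, e1.1, e1.2, e2.1, e2.2, e3.1, e3.2, e4.1, e4.2]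
  · linarith [e0.1, e0.2, e1.1, e1.2, e2.1, e2.2, e3.1, e3.2, e4.1, e4.2]

/-- fourth order estimate -/
theorem r4 {P Q R δ b C3 C4 n1 n2 n3 n4 f g d1 d2 d3 d4 d21 d32 d31 d41 d42 d43
      d321 d421 d431 d432 : ℝ}
    (hP0 : 0 ≤ P) (hP1 : P ≤ 1) (hQ : Q = P * (1 - P)) (hR : R = Q * (1 - 2 * P))
    (hδ0 : 0 ≤ δ) (hδ1 : δ ≤ 1) (_hb : 0 ≤ b) (hC3 : 0 ≤ C3) (_hC4 : 0 ≤ C4)
    (hn1 : 0 ≤ n1) (hn2 : 0 ≤ n2) (hn3 : 0 ≤ n3) (hn4 : 0 ≤ n4)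
    (h1 : |d1| ≤ 2 * δ * (b * n1)) (h2 : |d2| ≤ 2 * δ * (b * n2))
    (h3 : |d3| ≤ 2 * δ * (b * n3)) (h4 : |d4| ≤ 2 * δ * (b * n4))
    (h21 : |d21| ≤ 2 * δ * (C3 * (n1 * n2)))
    (h31 : |d31| ≤ 2 * δ * (C3 * (n1 * n3)))
    (h32 : |d32| ≤ 2 * δ * (C3 * (n2 * n3)))
    (h41 : |d41| ≤ 2 * δ * (C3 * (n1 * n4)))
    (h42 : |d42| ≤ 2 * δ * (C3 * (n2 * n4)))
    (h43 : |d43| ≤ 2 * δ * (C3 * (n3 * n4)))
    (h321 : |d321| ≤ 2 * δ * (C4 * (n1 * n2 * n3)))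
    (h421 : |d421| ≤ 2 * δ * (C4 * (n1 * n2 * n4)))
    (h431 : |d431| ≤ 2 * δ * (C4 * (n1 * n3 * n4)))
    (h432 : |d432| ≤ 2 * δ * (C4 * (n2 * n3 * n4)))
    (hg : |g| ≤ C4 * (n1 * n2 * n3 * n4)) (hf : |f| ≤ C4 * (n1 * n2 * n3 * n4)) :
    |g + P * (f - g) - Q * (d4 * d321 + d3 * d421 + d1 * d432 + d2 * d431)
        - Q * (d43 * d21 + d32 * d41 + d42 * d31)
        + R * (d4 * d3 * d21 + d4 * d32 * d1 + d4 * d2 * d31 + d43 * d2 * d1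
          + d3 * d42 * d1 + d3 * d2 * d41)
        + Q * (6 * Q - 1) * (d4 * d3 * d2 * d1)|
      ≤ (C4 * (1 + 4 * b * δ ^ 2) + δ ^ 2 * (3 * C3 ^ 2 + 12 * C3 * b ^ 2 + 4 * b ^ 4))
        * (n1 * n2 * n3 * n4) := by
  have e0 := abs_le.1 (conv_abs hP0 hP1 hg hf)
  have hq := q_abs hP0 hP1 hQ
  have hr := r_abs hP0 hP1 hQ hR
  have hs := s_abs hP0 hP1 hQ
  have a1 := abs_le.1 (abs_mul3 hq h4 h321)
  have a2 := abs_le.1 (abs_mul3 hq h3 h421)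
  have a3 := abs_le.1 (abs_mul3 hq h1 h432)
  have a4 := abs_le.1 (abs_mul3 hq h2 h431)
  have b1 := abs_le.1 (abs_mul3 hq h43 h21)
  have b2 := abs_le.1 (abs_mul3 hq h32 h41)
  have b3 := abs_le.1 (abs_mul3 hq h42 h31)
  have c1 := abs_le.1 (abs_mul4 hr h4 h3 h21)
  have c2 := abs_le.1 (abs_mul4 hr h4 h32 h1)
  have c3 := abs_le.1 (abs_mul4 hr h4 h2 h31)
  have c4 := abs_le.1 (abs_mul4 hr h43 h2 h1)
  have c5 := abs_le.1 (abs_mul4 hr h3 h42 h1)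
  have c6 := abs_le.1 (abs_mul4 hr h3 h2 h41)
  have s1 := abs_le.1 (abs_mul2 hs (abs_mul4 h4 h3 h2 h1))
  have hN : 0 ≤ n1 * n2 * n3 * n4 := by positivity
  have hδ3 : δ ^ 3 ≤ δ ^ 2 := pow_le_pow_of_le_one hδ0 hδ1 (by norm_num)
  have hδ4 : δ ^ 4 ≤ δ ^ 2 := pow_le_pow_of_le_one hδ0 hδ1 (by norm_num)
  have k1 : δ ^ 3 * (C3 * b ^ 2 * (n1 * n2 * n3 * n4))
      ≤ δ ^ 2 * (C3 * b ^ 2 * (n1 * n2 * n3 * n4)) :=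
    mul_le_mul_of_nonneg_right hδ3 (by positivity)
  have k2 : δ ^ 4 * (b ^ 4 * (n1 * n2 * n3 * n4)) ≤ δ ^ 2 * (b ^ 4 * (n1 * n2 * n3 * n4)) :=
    mul_le_mul_of_nonneg_right hδ4 (by positivity)
  rw [abs_le]
  constructor
  · linarith [e0.1, a1.2, a2.2, a3.2, a4.2, b1.2, b2.2, b3.2, c1.1, c2.1, c3.1, c4.1, c5.1,
      c6.1, s1.1, k1, k2]
  · linarith [e0.2, a1.1, a2.1, a3.1, a4.1, b1.1, b2.1, b3.1, c1.2, c2.2, c3.2, c4.2, c5.2,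
      c6.2, s1.2, k1, k2]

end Vale.Agent.P227.M.SC
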