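import Mathlib

/-! # P227/M/SC: lower bound of the second derivative of the two-point average, real inequality
(leaf (4) of helper839, helper847) -/

namespace Vale.Agent.P227.M.SC

theorem r_low (a0 b A3 : ℝ) (_ha0 : 0 < a0) (hb : 0 ≤ b) (hA3 : 0 ≤ A3) : ∃ K, 0 ≤ K ∧
    ∀ (a C3 δ P n a1 a2 ax m D : ℝ), a0 ≤ a → a ≤ b → 0 ≤ C3 → C3 ≤ A3 → 0 < δ → δ ≤ 1 → 0 ≤ P → P ≤ 1 →
      0 ≤ n → a * n ^ 2 ≤ a1 → a1 ≤ b * n ^ 2 → a * n ^ 2 ≤ a2 → a2 ≤ b * n ^ 2 → 0 ≤ ax → m ^ 2 ≤ b * ax →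
      ax ≤ a1 + C3 * δ * n ^ 2 → ax ≤ a2 + C3 * δ * n ^ 2 → |m| ≤ b * n → |D - 2 * δ * m| ≤ 2 * C3 * δ ^ 2 * n →
      (a * (1 - b * δ ^ 2) - K * δ ^ 3) * n ^ 2 ≤ P * a1 + (1 - P) * a2 - P * (1 - P) * D ^ 2 := by
  refine ⟨3 * b * A3 + A3 ^ 2 + b ^ 3, by positivity, ?_⟩
  intro a C3 δ P n a1 a2 ax m D haa hab hC hCA hδ hδ1 hP hP1 hn h1 h2 h3 h4 hax hm hx1 hx2 hmb hD
  have ha : 0 ≤ a := by linarith
  set B := P * a1 + (1 - P) * a2 with hB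
  have hB1 : a * n ^ 2 ≤ B := by
    have e1 := mul_le_mul_of_nonneg_left h1 hP
    have e2 := mul_le_mul_of_nonneg_left h3 (by linarith : (0 : ℝ) ≤ 1 - P)
    rw [hB]; linarith
  have hB2 : B ≤ b * n ^ 2 := by
    have e1 := mul_le_mul_of_nonneg_left h2 hP
    have e2 := mul_le_mul_of_nonneg_left h4 (by linarith : (0 : ℝ) ≤ 1 - P)
    rw [hB]; linarith
  have hB3 : ax ≤ B + C3 * δ * n ^ 2 := by
    have e1 := mul_le_mul_of_nonneg_left hx1 hP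
    have e2 := mul_le_mul_of_nonneg_left hx2 (by linarith : (0 : ℝ) ≤ 1 - P)
    rw [hB]; linarith
  -- bound of `D ^ 2`
  have hD2 : D ^ 2 ≤ 4 * δ ^ 2 * (b * ax) + 8 * δ ^ 3 * b * C3 * n ^ 2 + 4 * C3 ^ 2 * δ ^ 4 * n ^ 2 := by
    set E := D - 2 * δ * m with hE
    have e1 : D = 2 * δ * m + E := by rw [hE]; ring
    have e2 : E ^ 2 ≤ (2 * C3 * δ ^ 2 * n) ^ 2 := by
      rw [← sq_abs E]
      exact pow_le_pow_left₀ (abs_nonneg _) hD 2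
    have e3 : m * E ≤ (b * n) * (2 * C3 * δ ^ 2 * n) := by
      refine (le_abs_self _).trans ?_
      rw [abs_mul]
      exact mul_le_mul hmb hD (abs_nonneg _) (by positivity)
    have e4 := mul_le_mul_of_nonneg_left hm (by positivity : 0 ≤ 4 * δ ^ 2)
    have e5 := mul_le_mul_of_nonneg_left e3 (by positivity : 0 ≤ 4 * δ)
    rw [e1]
    nlinarith
  have hQ : P * (1 - P) ≤ 1 / 4 := by nlinarith [sq_nonneg (P - 1 / 2)]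
  have hQ0 : 0 ≤ P * (1 - P) := mul_nonneg hP (by linarith)
  have hQD : P * (1 - P) * D ^ 2 ≤ 1 / 4 * (4 * δ ^ 2 * (b * ax) + 8 * δ ^ 3 * b * C3 * n ^ 2 +
      4 * C3 ^ 2 * δ ^ 4 * n ^ 2) :=
    mul_le_mul hQ hD2 (sq_nonneg _) (by norm_num)
  have hax2 : δ ^ 2 * (b * ax) ≤ δ ^ 2 * (b * (B + C3 * δ * n ^ 2)) :=
    mul_le_mul_of_nonneg_left (mul_le_mul_of_nonneg_left hB3 hb) (by positivity)
  have hδ4 : δ ^ 4 ≤ δ ^ 3 := by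
    have : δ ^ 4 = δ ^ 3 * δ := by ring
    rw [this]
    exact mul_le_of_le_one_right (by positivity) hδ1
  have hC2 : C3 ^ 2 * δ ^ 4 * n ^ 2 ≤ A3 ^ 2 * δ ^ 3 * n ^ 2 := by
    refine mul_le_mul_of_nonneg_right ?_ (sq_nonneg n)
    exact mul_le_mul (pow_le_pow_left₀ hC hCA 2) hδ4 (by positivity) (by positivity)
  have hC1 : b * C3 * δ ^ 3 * n ^ 2 ≤ b * A3 * δ ^ 3 * n ^ 2 := by
    refine mul_le_mul_of_nonneg_right ?_ (sq_nonneg n)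
    refine mul_le_mul_of_nonneg_right ?_ (by positivity)
    exact mul_le_mul_of_nonneg_left hCA hb
  -- main estimate
  have main : B * (1 - b * δ ^ 2) - (3 * b * A3 + A3 ^ 2) * δ ^ 3 * n ^ 2 ≤ B - P * (1 - P) * D ^ 2 := by
    have e1 : 1 / 4 * (4 * δ ^ 2 * (b * ax) + 8 * δ ^ 3 * b * C3 * n ^ 2 + 4 * C3 ^ 2 * δ ^ 4 * n ^ 2) =
        δ ^ 2 * (b * ax) + 2 * (b * C3 * δ ^ 3 * n ^ 2) + C3 ^ 2 * δ ^ 4 * n ^ 2 := by ring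
    rw [e1] at hQD
    have e2 : δ ^ 2 * (b * (B + C3 * δ * n ^ 2)) = B * (b * δ ^ 2) + b * C3 * δ ^ 3 * n ^ 2 := by ring
    rw [e2] at hax2
    have e3 : (3 * b * A3 + A3 ^ 2) * δ ^ 3 * n ^ 2 = 3 * (b * A3 * δ ^ 3 * n ^ 2) + A3 ^ 2 * δ ^ 3 * n ^ 2 := by ring
    rw [e3]
    linarith
  refine le_trans ?_ main
  rcases le_total (b * δ ^ 2) 1 with hs | hs
  · have e1 := mul_le_mul_of_nonneg_right hB1 (by linarith : (0 : ℝ) ≤ 1 - b * δ ^ 2)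
    have e2 : 0 ≤ b ^ 3 * δ ^ 3 * n ^ 2 := by positivity
    have e3 : (a * (1 - b * δ ^ 2) - (3 * b * A3 + A3 ^ 2 + b ^ 3) * δ ^ 3) * n ^ 2 =
        a * n ^ 2 * (1 - b * δ ^ 2) - (3 * b * A3 + A3 ^ 2) * δ ^ 3 * n ^ 2 - b ^ 3 * δ ^ 3 * n ^ 2 := by ring
    rw [e3]
    linarith
  · have e1 : b * n ^ 2 * (1 - b * δ ^ 2) ≤ B * (1 - b * δ ^ 2) := by
      have := mul_le_mul_of_nonneg_right hB2 (by linarith : (0 : ℝ) ≤ b * δ ^ 2 - 1)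
      linarith
    -- `(b - a) (b δ² - 1) ≤ b³ δ³`
    have e2 : (b - a) * (b * δ ^ 2 - 1) ≤ b ^ 3 * δ ^ 3 := by
      have f1 : (b - a) * (b * δ ^ 2 - 1) ≤ b * (b * δ ^ 2) :=
        mul_le_mul (by linarith) (by linarith) (by linarith) hb
      have f2 : b * (b * δ ^ 2) ≤ b * (b * δ ^ 2) * (b * δ ^ 2) :=
        le_mul_of_one_le_right (by positivity) hs
      have f3 : b * (b * δ ^ 2) * (b * δ ^ 2) = b ^ 3 * δ ^ 4 := by ring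
      have f4 : b ^ 3 * δ ^ 4 ≤ b ^ 3 * δ ^ 3 := mul_le_mul_of_nonneg_left hδ4 (by positivity)
      linarith
    have e3 := mul_le_mul_of_nonneg_right e2 (sq_nonneg n)
    have e4 : (a * (1 - b * δ ^ 2) - (3 * b * A3 + A3 ^ 2 + b ^ 3) * δ ^ 3) * n ^ 2 =
        b * n ^ 2 * (1 - b * δ ^ 2) + (b - a) * (b * δ ^ 2 - 1) * n ^ 2
          - (3 * b * A3 + A3 ^ 2) * δ ^ 3 * n ^ 2 - b ^ 3 * δ ^ 3 * n ^ 2 := by ring
    rw [e4]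
    linarith

end Vale.Agent.P227.M.SC
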