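import Mathlib

/-!
# Binomial Riemann sums

`(2δ)^m ∑_{i ∈ [-M,M]^m} ∏_l (C(2M, M+i_l)/C(2M,M)) G(2δ i) → ∫ G` when `δ → 0` and `M δ² → ∞`.
-/

open Filter Topology MeasureTheory

namespace Vale.Agent.P227.M.SC.RiemBin

/-- ratio of binomial coefficients `C(2M, M+i)/C(2M, M)` -/
noncomputable def rr (M : ℕ) (i : ℤ) : ℝ :=
  ((2 * M).choose ((M : ℤ) + i).toNat : ℝ) / ((2 * M).choose M : ℝ)

lemma cpos (M : ℕ) : (0 : ℝ) < ((2 * M).choose M : ℝ) := by
  exact_mod_cast Nat.choose_pos (by omega)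

lemma rr_nonneg (M : ℕ) (i : ℤ) : 0 ≤ rr M i := by
  unfold rr; positivity

lemma rr_le_one (M : ℕ) (i : ℤ) : rr M i ≤ 1 := by
  unfold rr
  rw [div_le_one (cpos M)]
  have := Nat.choose_le_centralBinom ((M : ℤ) + i).toNat M
  rw [Nat.centralBinom] at this
  exact_mod_cast this

/-- for natural `j ≤ M` -/
lemma rr_nat_succ (M j : ℕ) (hj : j + 1 ≤ M) :
    rr M ((j : ℤ) + 1) = rr M j * ((M : ℝ) - j) / ((M : ℝ) + j + 1) := by
  unfold rr
  have e1 : ((M : ℤ) + ((j : ℤ) + 1)).toNat = M + j + 1 := by omega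
  have e2 : ((M : ℤ) + (j : ℤ)).toNat = M + j := by omega
  rw [e1, e2]
  have h := Nat.choose_succ_right_eq (2 * M) (M + j)
  have h' : (((2 * M).choose (M + j + 1) : ℝ)) * ((M : ℝ) + j + 1)
      = ((2 * M).choose (M + j) : ℝ) * ((M : ℝ) - j) := by
    have e3 : 2 * M - (M + j) = M - j := by omega
    rw [e3] at h
    have h2 : (((2 * M).choose (M + j + 1) * (M + j + 1) : ℕ) : ℝ)
        = (((2 * M).choose (M + j) * (M - j) : ℕ) : ℝ) := by exact_mod_cast h
    push_cast [Nat.cast_sub (show j ≤ M by omega)] at h2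
    linarith
  have hp : (0 : ℝ) < (M : ℝ) + j + 1 := by positivity
  have hc := cpos M
  field_simp
  linarith

lemma rr_zero (M : ℕ) : rr M 0 = 1 := by
  unfold rr
  simp only [add_zero, Int.toNat_natCast]
  exact div_self (cpos M).ne'

lemma rr_nat_ge (M : ℕ) (hM : 0 < M) (j : ℕ) (hj : j ≤ M) :
    1 - (j : ℝ) ^ 2 / M ≤ rr M j := by
  induction j with
  | zero => simp [rr_zero]
  | succ j ih =>
    have hj' : j ≤ M := by omega
    have ih := ih hj'
    have e : ((j + 1 : ℕ) : ℤ) = (j : ℤ) + 1 := by push_cast; rfl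
    rw [e, rr_nat_succ M j hj]
    have hMr : (0 : ℝ) < M := by exact_mod_cast hM
    have hjM : (j : ℝ) + 1 ≤ M := by exact_mod_cast hj
    have hj0 : (0 : ℝ) ≤ j := by positivity
    have hp : (0 : ℝ) < (M : ℝ) + j + 1 := by positivity
    have h1 := rr_le_one M j
    have h0 := rr_nonneg M j
    -- rr * (M-j)/(M+j+1) = rr - rr * (2j+1)/(M+j+1) >= rr - (2j+1)/M
    have h2 : rr M j * ((M : ℝ) - j) / ((M : ℝ) + j + 1)
        = rr M j - rr M j * ((2 * j + 1) / ((M : ℝ) + j + 1)) := by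
      field_simp; ring
    rw [h2]
    have h3 : rr M j * ((2 * j + 1) / ((M : ℝ) + j + 1)) ≤ (2 * j + 1) / (M : ℝ) := by
      calc rr M j * ((2 * j + 1) / ((M : ℝ) + j + 1))
          ≤ 1 * ((2 * j + 1) / ((M : ℝ) + j + 1)) := by
            apply mul_le_mul_of_nonneg_right h1; positivity
        _ ≤ (2 * j + 1) / (M : ℝ) := by
            rw [one_mul]
            apply div_le_div_of_nonneg_left (by positivity) hMr; linarith
    have h4 : ((j + 1 : ℕ) : ℝ) ^ 2 / (M : ℝ) = (j : ℝ) ^ 2 / M + (2 * j + 1) / (M : ℝ) := by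
      push_cast; field_simp; ring
    rw [h4]; linarith

lemma rr_neg (M : ℕ) (j : ℕ) (hj : j ≤ M) : rr M (-(j : ℤ)) = rr M j := by
  unfold rr
  have e1 : ((M : ℤ) + (-(j : ℤ))).toNat = M - j := by omega
  have e2 : ((M : ℤ) + (j : ℤ)).toNat = M + j := by omega
  rw [e1, e2]
  have : (2 * M).choose (M - j) = (2 * M).choose (M + j) := by
    rw [← Nat.choose_symm (show M + j ≤ 2 * M by omega)]
    congr 1; omega
  rw [this]

/-- main lower bound; for `|i| ≤ M` -/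
lemma rr_ge (M : ℕ) (hM : 0 < M) (i : ℤ) (hi : |i| ≤ M) :
    1 - (i : ℝ) ^ 2 / M ≤ rr M i := by
  rcases le_total 0 i with h | h
  · obtain ⟨j, rfl⟩ := Int.eq_ofNat_of_zero_le h
    have : j ≤ M := by
      rw [abs_of_nonneg h] at hi; exact_mod_cast hi
    have := rr_nat_ge M hM j this
    simpa using this
  · obtain ⟨j, hj⟩ := Int.eq_ofNat_of_zero_le (show 0 ≤ -i by omega)
    have hij : i = -(j : ℤ) := by omega
    subst hij
    have hjM : j ≤ M := by
      rw [abs_of_nonpos h] at hi; omega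
    rw [rr_neg M j hjM]
    have := rr_nat_ge M hM j hjM
    have e : ((-(j : ℤ) : ℤ) : ℝ) ^ 2 = (j : ℝ) ^ 2 := by push_cast; ring
    rw [e]; exact this

/-- extended by zero outside `[-M, M]` -/
noncomputable def rz (M : ℕ) (i : ℤ) : ℝ := if |i| ≤ M then rr M i else 0

lemma rz_nonneg (M : ℕ) (i : ℤ) : 0 ≤ rz M i := by
  unfold rz; split_ifs; exacts [rr_nonneg M i, le_rfl]

lemma rz_le_one (M : ℕ) (i : ℤ) : rz M i ≤ 1 := by
  unfold rz; split_ifs; exacts [rr_le_one M i, zero_le_one]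

lemma rz_ge (M : ℕ) (hM : 0 < M) (i : ℤ) : 1 - (i : ℝ) ^ 2 / M ≤ rz M i := by
  unfold rz
  split_ifs with h
  · exact rr_ge M hM i h
  · push Not at h
    have hMr : (0 : ℝ) < M := by exact_mod_cast hM
    have h1 : (M : ℝ) ≤ |(i : ℝ)| := by
      have : (M : ℤ) ≤ |i| := h.le
      exact_mod_cast this
    have hM1 : (1 : ℝ) ≤ M := by exact_mod_cast hM
    have h2 : (M : ℝ) ≤ (i : ℝ) ^ 2 := by
      calc (M : ℝ) ≤ M * M := by nlinarith
        _ ≤ |(i : ℝ)| * |(i : ℝ)| := by gcongr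
        _ = (i : ℝ) ^ 2 := by rw [← sq, sq_abs]
    have : 1 ≤ (i : ℝ) ^ 2 / M := by rw [le_div_iff₀ hMr]; linarith
    linarith

end Vale.Agent.P227.M.SC.RiemBin
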