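import Mathlib

/-!
P227, block SC-1: third central moment of a one-dimensional self-concordant log-concave density.
-/

namespace Vale.Agent.P227.M.SC

open MeasureTheory Set Filter Topology

/-! ## (A) the sign lemma -/

theorem int_poly {D : ℝ → ℝ}
    (i0 : Integrable D) (i1 : Integrable fun x => x * D x)
    (i2 : Integrable fun x => x ^ 2 * D x) (i3 : Integrable fun x => x ^ 3 * D x)
    (m0 : ∫ x, D x = 0) (m1 : ∫ x, x * D x = 0) (m2 : ∫ x, x ^ 2 * D x = 0)
    (α β γ δ : ℝ) :
    Integrable (fun x => (α + β * x + γ * x ^ 2 + δ * x ^ 3) * D x) ∧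
    ∫ x, (α + β * x + γ * x ^ 2 + δ * x ^ 3) * D x = δ * ∫ x, x ^ 3 * D x := by
  have e : (fun x => (α + β * x + γ * x ^ 2 + δ * x ^ 3) * D x)
      = fun x => ((α * D x + β * (x * D x)) + γ * (x ^ 2 * D x)) + δ * (x ^ 3 * D x) := by
    funext x; ring
  have j0 := i0.const_mul α
  have j1 := i1.const_mul β
  have j2 := i2.const_mul γ
  have j3 := i3.const_mul δ
  refine ⟨?_, ?_⟩
  · rw [e]; exact ((j0.add j1).add j2).add j3
  · rw [e]
    have h3 : ∫ x, ((α * D x + β * (x * D x)) + γ * (x ^ 2 * D x)) + δ * (x ^ 3 * D x)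
        = (∫ x, (α * D x + β * (x * D x)) + γ * (x ^ 2 * D x)) + ∫ x, δ * (x ^ 3 * D x) :=
      integral_add ((j0.add j1).add j2) j3
    have h2 : ∫ x, (α * D x + β * (x * D x)) + γ * (x ^ 2 * D x)
        = (∫ x, α * D x + β * (x * D x)) + ∫ x, γ * (x ^ 2 * D x) :=
      integral_add (j0.add j1) j2
    have h1 : ∫ x, α * D x + β * (x * D x)
        = (∫ x, α * D x) + ∫ x, β * (x * D x) := integral_add j0 j1
    rw [h3, h2, h1, integral_const_mul, integral_const_mul, integral_const_mul,
      integral_const_mul, m0, m1, m2]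
    ring

theorem third_moment_nonpos {D : ℝ → ℝ}
    (i0 : Integrable D) (i1 : Integrable fun x => x * D x)
    (i2 : Integrable fun x => x ^ 2 * D x) (i3 : Integrable fun x => x ^ 3 * D x)
    (m0 : ∫ x, D x = 0) (m1 : ∫ x, x * D x = 0) (m2 : ∫ x, x ^ 2 * D x = 0)
    (hq : ∀ u1 u2 u3 u4, u1 < u2 → u2 < u3 → u3 < u4 →
      D u1 < 0 → 0 < D u2 → D u3 < 0 → 0 < D u4 → False) :
    ∫ x, x ^ 3 * D x ≤ 0 := by
  -- degenerate cases
  have deg : ∀ α β γ : ℝ, (∀ x, 0 ≤ (α + β * x + γ * x ^ 2) * D x) →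
      (∀ᵐ x : ℝ, α + β * x + γ * x ^ 2 ≠ 0) → ∫ x, x ^ 3 * D x ≤ 0 := by
    intro α β γ h0 hne
    obtain ⟨hi, he⟩ := int_poly i0 i1 i2 i3 m0 m1 m2 α β γ 0
    have e1 : (fun x => (α + β * x + γ * x ^ 2 + 0 * x ^ 3) * D x)
        = fun x => (α + β * x + γ * x ^ 2) * D x := by funext x; ring
    rw [e1] at hi
    have he' : ∫ x, (α + β * x + γ * x ^ 2) * D x = 0 := by
      have := he
      rw [zero_mul] at this
      rw [← this]
      congr 1
      funext x; ring
    have hz := (integral_eq_zero_iff_of_nonneg h0 hi).1 he'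
    have hD : ∀ᵐ x : ℝ, x ^ 3 * D x = 0 := by
      filter_upwards [hz, hne] with x hx hx'
      have : (α + β * x + γ * x ^ 2) * D x = 0 := hx
      rcases mul_eq_zero.1 this with h | h
      · exact absurd h hx'
      · rw [h, mul_zero]
    rw [integral_congr_ae hD]
    simp
  have ne1 : ∀ c : ℝ, ∀ᵐ x : ℝ, x ≠ c := fun c => by
    have : (volume ({c} : Set ℝ)) = 0 := by simp
    exact (measure_eq_zero_iff_ae_notMem.1 this).mono (fun x hx => by simpa using hx)
  set Cs : Set ℝ := {x | 0 < D x} with hCs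
  set Bs : Set ℝ := {x | D x < 0 ∧ ∃ y, x < y ∧ 0 < D y} with hBs
  set As : Set ℝ := {x | 0 < D x ∧ ∃ y, x < y ∧ y ∈ Bs} with hAs
  by_cases hC : Cs.Nonempty
  swap
  · refine deg (-1) 0 0 (fun x => ?_) (by filter_upwards with x; norm_num)
    have : ¬ 0 < D x := fun h => hC ⟨x, h⟩
    push Not at this
    nlinarith
  by_cases hB : Bs.Nonempty
  swap
  · -- no negative point followed by a positive one
    have hBx : ∀ x, D x < 0 → ∀ y, x < y → D y ≤ 0 := by
      intro x hx y hy
      by_contra h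
      push Not at h
      exact hB ⟨x, hx, y, hy, h⟩
    by_cases hCb : BddAbove Cs
    · set c := sSup Cs
      refine deg c (-1) 0 (fun x => ?_) ?_
      · rcases lt_trichotomy x c with h | h | h
        · obtain ⟨y, hy, hxy⟩ := exists_lt_of_lt_csSup hC h
          have : 0 ≤ D x := by
            by_contra h'
            push Not at h'
            exact absurd hy (not_lt.2 (hBx x h' y hxy))
          have : 0 ≤ (c - x) * D x := mul_nonneg (by linarith) this
          linarith
        · rw [h]; simp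
        · have : D x ≤ 0 := by
            by_contra h'
            push Not at h'
            exact absurd (le_csSup hCb h') (not_le.2 h)
          nlinarith
      · filter_upwards [ne1 c] with x hx h
        apply hx; linarith
    · refine deg 1 0 0 (fun x => ?_) (by filter_upwards with x; norm_num)
      obtain ⟨y, hy, hxy⟩ := not_bddAbove_iff.1 hCb x
      have : 0 ≤ D x := by
        by_contra h'
        push Not at h'
        exact absurd hy (not_lt.2 (hBx x h' y hxy))
      linarith
  -- Bs is bounded above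
  have hBb : BddAbove Bs := by
    by_contra hnb
    obtain ⟨x, hx, y, hxy, hy⟩ := hB
    obtain ⟨x', ⟨hx', z, hz, hzp⟩, hyx'⟩ := not_bddAbove_iff.1 hnb y
    exact hq x y x' z hxy hyx' hz hx hy hx' hzp
  set b := sSup Bs
  -- right of b
  have hright : ∀ x, b < x → D x < 0 → ∀ y, x < y → D y ≤ 0 := by
    intro x hbx hx y hy
    by_contra h
    push Not at h
    exact absurd (le_csSup hBb ⟨hx, y, hy, h⟩) (not_le.2 hbx)
  by_cases hA : As.Nonempty
  swap
  · have hleft : ∀ x, x < b → D x ≤ 0 := by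
      intro x hx
      by_contra h
      push Not at h
      obtain ⟨y, hy, hxy⟩ := exists_lt_of_lt_csSup hB hx
      exact hA ⟨x, h, y, hxy, hy⟩
    by_cases hCb : BddAbove Cs
    · set c := sSup Cs
      have hbc : b ≤ c := by
        apply csSup_le hB
        rintro x ⟨hx, y, hxy, hy⟩
        exact le_trans hxy.le (le_csSup hCb hy)
      refine deg (-(b * c)) (b + c) (-1) (fun x => ?_) ?_
      · have key : (-(b * c) + (b + c) * x + (-1) * x ^ 2) * D x = (x - b) * (c - x) * D x := by
          ring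
        rw [key]
        rcases lt_trichotomy x b with h | h | h
        · have h1 := hleft x h
          have : (x - b) * (c - x) ≤ 0 := mul_nonpos_of_nonpos_of_nonneg (by linarith) (by linarith)
          exact mul_nonneg_of_nonpos_of_nonpos this h1
        · rw [h]; simp
        · rcases lt_trichotomy x c with h' | h' | h'
          · obtain ⟨y, hy, hxy⟩ := exists_lt_of_lt_csSup hC h'
            have : 0 ≤ D x := by
              by_contra h''
              push Not at h''
              exact absurd hy (not_lt.2 (hright x h h'' y hxy))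
            exact mul_nonneg (mul_nonneg (by linarith) (by linarith)) this
          · rw [h']; simp
          · have hDx : D x ≤ 0 := by
              by_contra h''
              push Not at h''
              exact absurd (le_csSup hCb h'') (not_le.2 h')
            have : (x - b) * (c - x) ≤ 0 :=
              mul_nonpos_of_nonneg_of_nonpos (by linarith) (by linarith)
            exact mul_nonneg_of_nonpos_of_nonpos this hDx
      · filter_upwards [ne1 b, ne1 c] with x hx hx' h
        have key : (x - b) * (c - x) = 0 := by linarith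
        rcases mul_eq_zero.1 key with h1 | h1
        · exact hx (by linarith)
        · exact hx' (by linarith)
    · refine deg (-b) 1 0 (fun x => ?_) ?_
      · have key : (-b + 1 * x + 0 * x ^ 2) * D x = (x - b) * D x := by ring
        rw [key]
        rcases lt_trichotomy x b with h | h | h
        · exact mul_nonneg_of_nonpos_of_nonpos (by linarith) (hleft x h)
        · rw [h]; simp
        · obtain ⟨y, hy, hxy⟩ := not_bddAbove_iff.1 hCb x
          have : 0 ≤ D x := by
            by_contra h''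
            push Not at h''
            exact absurd hy (not_lt.2 (hright x h h'' y hxy))
          exact mul_nonneg (by linarith) this
      · filter_upwards [ne1 b] with x hx h
        exact hx (by linarith)
  -- main case
  have hAb : BddAbove As := ⟨b, by
    rintro x ⟨hx, y, hxy, hy⟩
    exact le_trans hxy.le (le_csSup hBb hy)⟩
  set a := sSup As
  have hab : a ≤ b := by
    apply csSup_le hA
    rintro x ⟨hx, y, hxy, hy⟩
    exact le_trans hxy.le (le_csSup hBb hy)
  have hla : ∀ x, x < a → 0 ≤ D x := by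
    intro x hx
    by_contra h
    push Not at h
    obtain ⟨x', ⟨hx', y, hx'y, hy, z, hyz, hz⟩, hxx'⟩ := exists_lt_of_lt_csSup hA hx
    exact hq x x' y z hxx' hx'y hyz h hx' hy hz
  have hmid : ∀ x, a < x → x < b → D x ≤ 0 := by
    intro x hax hxb
    by_contra h
    push Not at h
    obtain ⟨y, hy, hxy⟩ := exists_lt_of_lt_csSup hB hxb
    exact absurd (le_csSup hAb ⟨h, y, hxy, hy⟩) (not_le.2 hax)
  by_cases hCb : BddAbove Cs
  · set c := sSup Cs
    have hbc : b ≤ c := by
      apply csSup_le hB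
      rintro x ⟨hx, y, hxy, hy⟩
      exact le_trans hxy.le (le_csSup hCb hy)
    obtain ⟨hi, he⟩ := int_poly i0 i1 i2 i3 m0 m1 m2 (-(a * b * c)) (a * b + b * c + c * a)
      (-(a + b + c)) 1
    rw [one_mul] at he
    rw [← he]
    apply integral_nonpos
    intro x
    have key : (-(a * b * c) + (a * b + b * c + c * a) * x + (-(a + b + c)) * x ^ 2 + 1 * x ^ 3) * D x
        = (x - a) * (x - b) * (x - c) * D x := by ring
    show (-(a * b * c) + (a * b + b * c + c * a) * x + (-(a + b + c)) * x ^ 2 + 1 * x ^ 3) * D x ≤ 0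
    rw [key]
    rcases lt_trichotomy x a with h | h | h
    · have h1 : (x - a) * (x - b) * (x - c) ≤ 0 := by
        apply mul_nonpos_of_nonneg_of_nonpos
        · exact mul_nonneg_of_nonpos_of_nonpos (by linarith) (by linarith)
        · linarith
      exact mul_nonpos_of_nonpos_of_nonneg h1 (hla x h)
    · rw [h]; simp
    · rcases lt_trichotomy x b with h' | h' | h'
      · have h1 : 0 ≤ (x - a) * (x - b) * (x - c) := by
          apply mul_nonneg_of_nonpos_of_nonpos
          · exact mul_nonpos_of_nonneg_of_nonpos (by linarith) (by linarith)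
          · linarith
        exact mul_nonpos_of_nonneg_of_nonpos h1 (hmid x h h')
      · rw [h']; simp
      · rcases lt_trichotomy x c with h'' | h'' | h''
        · obtain ⟨y, hy, hxy⟩ := exists_lt_of_lt_csSup hC h''
          have hD : 0 ≤ D x := by
            by_contra h3
            push Not at h3
            exact absurd hy (not_lt.2 (hright x h' h3 y hxy))
          have h1 : (x - a) * (x - b) * (x - c) ≤ 0 := by
            apply mul_nonpos_of_nonneg_of_nonpos
            · exact mul_nonneg (by linarith) (by linarith)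
            · linarith
          exact mul_nonpos_of_nonpos_of_nonneg h1 hD
        · rw [h'']; simp
        · have hD : D x ≤ 0 := by
            by_contra h3
            push Not at h3
            exact absurd (le_csSup hCb h3) (not_le.2 h'')
          have h1 : 0 ≤ (x - a) * (x - b) * (x - c) :=
            mul_nonneg (mul_nonneg (by linarith) (by linarith)) (by linarith)
          exact mul_nonpos_of_nonneg_of_nonpos h1 hD
  · refine deg (a * b) (-(a + b)) 1 (fun x => ?_) ?_
    · have key : (a * b + (-(a + b)) * x + 1 * x ^ 2) * D x = (x - a) * (x - b) * D x := by ring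
      rw [key]
      rcases lt_trichotomy x a with h | h | h
      · exact mul_nonneg (mul_nonneg_of_nonpos_of_nonpos (by linarith) (by linarith)) (hla x h)
      · rw [h]; simp
      · rcases lt_trichotomy x b with h' | h' | h'
        · exact mul_nonneg_of_nonpos_of_nonpos
            (mul_nonpos_of_nonneg_of_nonpos (by linarith) (by linarith)) (hmid x h h')
        · rw [h']; simp
        · obtain ⟨y, hy, hxy⟩ := not_bddAbove_iff.1 hCb x
          have hD : 0 ≤ D x := by
            by_contra h3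
            push Not at h3
            exact absurd hy (not_lt.2 (hright x h' h3 y hxy))
          exact mul_nonneg (mul_nonneg (by linarith) (by linarith)) hD
    · filter_upwards [ne1 a, ne1 b] with x hx hx' h
      have key : (x - a) * (x - b) = 0 := by linarith
      rcases mul_eq_zero.1 key with h1 | h1
      · exact hx (by linarith)
      · exact hx' (by linarith)

/-! ## (B) calculus: quadruples, gamma moments, integrability -/

theorem mvt {f f' : ℝ → ℝ} {a b : ℝ} (hab : a < b)
    (hf : ∀ x, a ≤ x → x ≤ b → HasDerivAt f (f' x) x) :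
    ∃ c, a < c ∧ c < b ∧ f' c * (b - a) = f b - f a := by
  obtain ⟨c, hc, h⟩ := exists_hasDerivAt_eq_slope f f' hab
    (fun x hx => (hf x hx.1 hx.2).continuousAt.continuousWithinAt)
    (fun x hx => hf x hx.1.le hx.2.le)
  refine ⟨c, hc.1, hc.2, ?_⟩
  have : b - a ≠ 0 := by linarith [hab]
  rw [h]; field_simp

theorem no_quad {h h' h'' : ℝ → ℝ} (H1 : ∀ t, 0 < t → HasDerivAt h (h' t) t)
    (H2 : ∀ t, 0 < t → HasDerivAt h' (h'' t) t)
    (H3 : ∀ s t, 0 < s → s < t → h'' s < 0 → h'' t ≤ 0)
    {u1 u2 u3 u4 : ℝ} (h0 : 0 < u1) (h12 : u1 < u2) (h23 : u2 < u3) (h34 : u3 < u4)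
    (n1 : h u1 < 0) (p2 : 0 < h u2) (n3 : h u3 < 0) (p4 : 0 < h u4) : False := by
  obtain ⟨c1, ha1, hb1, e1⟩ := mvt (f := h) (f' := h') h12 (fun x hx _ => H1 x (by linarith))
  obtain ⟨c2, ha2, hb2, e2⟩ := mvt (f := h) (f' := h') h23 (fun x hx _ => H1 x (by linarith))
  obtain ⟨c3, ha3, hb3, e3⟩ := mvt (f := h) (f' := h') h34 (fun x hx _ => H1 x (by linarith))
  have q1 : 0 < h' c1 := by
    by_contra hh
    push Not at hh
    nlinarith
  have q2 : h' c2 < 0 := by
    by_contra hh
    push Not at hh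
    nlinarith
  have q3 : 0 < h' c3 := by
    by_contra hh
    push Not at hh
    nlinarith
  have c12 : c1 < c2 := by linarith
  have c23 : c2 < c3 := by linarith
  obtain ⟨d1, da1, db1, f1⟩ := mvt (f := h') (f' := h'') c12 (fun x hx _ => H2 x (by linarith))
  obtain ⟨d2, da2, db2, f2⟩ := mvt (f := h') (f' := h'') c23 (fun x hx _ => H2 x (by linarith))
  have r1 : h'' d1 < 0 := by
    by_contra hh
    push Not at hh
    nlinarith
  have r2 : 0 < h'' d2 := by
    by_contra hh
    push Not at hh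
    nlinarith
  exact absurd r2 (not_lt.2 (H3 d1 d2 (by linarith) (by linarith) r1))

/-- the Gamma density of shape `k+1` and rate `β` -/
noncomputable def gam (k β : ℝ) : ℝ → ℝ :=
  (Ioi (0 : ℝ)).indicator
    (fun t => (((1 / β) ^ (k + 1) * Real.Gamma (k + 1))⁻¹) * (t ^ k * Real.exp (-(β * t))))

theorem gam_mom {k β : ℝ} (hk : 0 < k) (hβ : 0 < β) (n : ℕ) :
    Integrable (fun t => t ^ n * gam k β t) ∧
    ∫ t, t ^ n * gam k β t
      = (1 / β) ^ n * (Real.Gamma (k + n + 1) / Real.Gamma (k + 1)) := by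
  set c : ℝ := ((1 / β) ^ (k + 1) * Real.Gamma (k + 1))⁻¹ with hc
  have hG : 0 < Real.Gamma (k + 1) := Real.Gamma_pos_of_pos (by linarith)
  have hGn : 0 < Real.Gamma (k + n + 1) := Real.Gamma_pos_of_pos (by positivity)
  have hb : 0 < 1 / β := by positivity
  have hbk : 0 < (1 / β) ^ (k + 1) := Real.rpow_pos_of_pos hb _
  have e : (fun t => t ^ n * gam k β t)
      = (Ioi (0 : ℝ)).indicator (fun t => c * (t ^ ((k + n + 1) - 1) * Real.exp (-(β * t)))) := by
    funext t
    by_cases ht : t ∈ Ioi (0 : ℝ)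
    · rw [gam, indicator_of_mem ht, indicator_of_mem ht]
      have ht' : 0 < t := ht
      have : t ^ ((k + n + 1) - 1) = t ^ n * t ^ k := by
        rw [show (k + (n : ℝ) + 1) - 1 = (n : ℝ) + k by ring, Real.rpow_add ht', Real.rpow_natCast]
      rw [this]; ring
    · rw [gam, indicator_of_notMem ht, indicator_of_notMem ht]; simp
  have hI := Real.integral_rpow_mul_exp_neg_mul_Ioi (a := k + n + 1) (r := β)
    (by positivity) hβ
  have hIpos : 0 < ∫ t in Ioi (0 : ℝ), t ^ ((k + n + 1) - 1) * Real.exp (-(β * t)) := by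
    rw [hI]; exact mul_pos (Real.rpow_pos_of_pos hb _) hGn
  have hint : IntegrableOn (fun t => t ^ ((k + n + 1) - 1) * Real.exp (-(β * t))) (Ioi (0 : ℝ)) := by
    by_contra h
    rw [integral_undef h] at hIpos
    exact lt_irrefl _ hIpos
  refine ⟨?_, ?_⟩
  · rw [e, integrable_indicator_iff measurableSet_Ioi]
    exact hint.const_mul c
  · rw [e, integral_indicator measurableSet_Ioi, integral_const_mul, hI, hc]
    have : (1 / β) ^ (k + n + 1) = (1 / β) ^ (k + 1) * (1 / β) ^ n := by
      rw [show k + (n : ℝ) + 1 = (k + 1) + (n : ℝ) by ring, Real.rpow_add hb, Real.rpow_natCast]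
    rw [this]
    field_simp

theorem gam_m0 {k β : ℝ} (hk : 0 < k) (hβ : 0 < β) : ∫ t, gam k β t = 1 := by
  have h := (gam_mom hk hβ 0).2
  have hG : 0 < Real.Gamma (k + 1) := Real.Gamma_pos_of_pos (by linarith)
  simp only [pow_zero, one_mul, Nat.cast_zero, add_zero] at h
  rw [h]; field_simp

theorem gam_m1 {k β : ℝ} (hk : 0 < k) (hβ : 0 < β) : ∫ t, t * gam k β t = (k + 1) / β := by
  have h := (gam_mom hk hβ 1).2
  have hG : 0 < Real.Gamma (k + 1) := Real.Gamma_pos_of_pos (by linarith)
  simp only [pow_one, Nat.cast_one] at h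
  rw [h, Real.Gamma_add_one (s := k + 1) (by linarith)]
  field_simp

theorem gam_m2 {k β : ℝ} (hk : 0 < k) (hβ : 0 < β) :
    ∫ t, t ^ 2 * gam k β t = (k + 1) * (k + 2) / β ^ 2 := by
  have h := (gam_mom hk hβ 2).2
  have hG : 0 < Real.Gamma (k + 1) := Real.Gamma_pos_of_pos (by linarith)
  rw [h, show k + ((2 : ℕ) : ℝ) + 1 = (k + 1 + 1) + 1 by push_cast; ring,
    Real.Gamma_add_one (s := k + 1 + 1) (by linarith),
    Real.Gamma_add_one (s := k + 1) (by linarith)]
  field_simp
  ring

theorem gam_m3 {k β : ℝ} (hk : 0 < k) (hβ : 0 < β) :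
    ∫ t, t ^ 3 * gam k β t = (k + 1) * (k + 2) * (k + 3) / β ^ 3 := by
  have h := (gam_mom hk hβ 3).2
  have hG : 0 < Real.Gamma (k + 1) := Real.Gamma_pos_of_pos (by linarith)
  rw [h, show k + ((3 : ℕ) : ℝ) + 1 = ((k + 1 + 1) + 1) + 1 by push_cast; ring,
    Real.Gamma_add_one (s := k + 1 + 1 + 1) (by linarith),
    Real.Gamma_add_one (s := k + 1 + 1) (by linarith),
    Real.Gamma_add_one (s := k + 1) (by linarith)]
  field_simp
  ring

/-- quadratic lower bound from `W'' ≥ a`. -/
theorem quad_lower {W W1 W2 : ℝ → ℝ} (h1 : ∀ x, HasDerivAt W (W1 x) x)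
    (h2 : ∀ x, HasDerivAt W1 (W2 x) x) {a : ℝ} (hW2 : ∀ x, a ≤ W2 x) (x : ℝ) :
    W 0 + W1 0 * x + a / 2 * x ^ 2 ≤ W x := by
  have hF : ∀ t, HasDerivAt (fun t => W t - W 0 - W1 0 * t - a / 2 * t ^ 2)
      (W1 t - W1 0 - a * t) t := by
    intro t
    have := (((h1 t).sub_const (W 0)).sub ((hasDerivAt_id' t).const_mul (W1 0))).sub
      ((hasDerivAt_pow 2 t).const_mul (a / 2))
    refine this.congr_deriv ?_
    norm_num
    ring
  have hG : ∀ t, HasDerivAt (fun t => W1 t - W1 0 - a * t) (W2 t - a) t := by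
    intro t
    have := ((h2 t).sub_const (W1 0)).sub ((hasDerivAt_id' t).const_mul a)
    refine this.congr_deriv ?_
    ring
  have hmono : Monotone (fun t => W1 t - W1 0 - a * t) :=
    monotone_of_hasDerivAt_nonneg hG (fun t => by have := hW2 t; simp only [Pi.zero_apply]; linarith)
  rcases lt_trichotomy x 0 with hx | hx | hx
  · obtain ⟨c, hc1, hc2, e⟩ := mvt (f := fun t => W t - W 0 - W1 0 * t - a / 2 * t ^ 2) hx
      (fun t _ _ => hF t)
    have := hmono hc2.le
    simp only [mul_zero, sub_self] at this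
    simp only [mul_zero, sub_zero, sub_self] at e
    norm_num at e
    nlinarith
  · rw [hx]; simp
  · obtain ⟨c, hc1, hc2, e⟩ := mvt (f := fun t => W t - W 0 - W1 0 * t - a / 2 * t ^ 2) hx
      (fun t _ _ => hF t)
    have := hmono hc1.le
    simp only [mul_zero, sub_self] at this
    simp only [mul_zero, sub_zero, sub_self] at e
    norm_num at e
    nlinarith

theorem integrable_pow_exp {W W1 W2 : ℝ → ℝ} (h1 : ∀ x, HasDerivAt W (W1 x) x)
    (h2 : ∀ x, HasDerivAt W1 (W2 x) x) {a : ℝ} (ha : 0 < a) (hW2 : ∀ x, a ≤ W2 x) (n : ℕ) :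
    Integrable (fun x => x ^ n * Real.exp (-W x)) := by
  have hcont : Continuous W := continuous_iff_continuousAt.2 (fun x => (h1 x).continuousAt)
  have hb : 0 < a / 4 := by positivity
  have hI := integrable_rpow_mul_exp_neg_mul_sq hb (s := (n : ℝ))
    (by have : (0 : ℝ) ≤ n := Nat.cast_nonneg n; linarith)
  have hI' : Integrable (fun x : ℝ => Real.exp (-W 0 + (W1 0) ^ 2 / a) *
      (x ^ (n : ℝ) * Real.exp (-(a / 4) * x ^ 2))) := hI.const_mul _
  refine hI'.mono (by
    apply Continuous.aestronglyMeasurable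
    fun_prop) (Eventually.of_forall (fun x => ?_))
  rw [norm_mul, norm_mul, norm_mul, Real.rpow_natCast, Real.norm_eq_abs, Real.norm_eq_abs,
    Real.norm_eq_abs, Real.norm_eq_abs, abs_of_pos (Real.exp_pos _), abs_of_pos (Real.exp_pos _),
    abs_of_pos (Real.exp_pos _)]
  have hq := quad_lower h1 h2 hW2 x
  have key : -W x ≤ (-W 0 + (W1 0) ^ 2 / a) + (-(a / 4) * x ^ 2) := by
    have : 0 ≤ (a / 2 * x + W1 0) ^ 2 / a := by positivity
    have e : (a / 2 * x + W1 0) ^ 2 / a = a / 4 * x ^ 2 + W1 0 * x + (W1 0) ^ 2 / a := by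
      field_simp; ring
    rw [e] at this
    nlinarith
  have := Real.exp_le_exp.2 key
  rw [Real.exp_add] at this
  have hx0 : 0 ≤ |x ^ n| := abs_nonneg _
  calc |x ^ n| * Real.exp (-W x) ≤ |x ^ n| * (Real.exp (-W 0 + (W1 0) ^ 2 / a)
        * Real.exp (-(a / 4) * x ^ 2)) := mul_le_mul_of_nonneg_left this hx0
    _ = _ := by ring

/-! ## (C) the third moment lemma -/

/-- one-sided version with `3/2` powers written as `s * √s`. -/
theorem sk_one {W W1 W2 W3 : ℝ → ℝ} (h1 : ∀ x, HasDerivAt W (W1 x) x)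
    (h2 : ∀ x, HasDerivAt W1 (W2 x) x) (h3 : ∀ x, HasDerivAt W2 (W3 x) x)
    {a M : ℝ} (ha : 0 < a) (hM : 0 < M) (hW2 : ∀ x, a ≤ W2 x)
    (hsc : ∀ x, |W3 x| ≤ 2 * M * (W2 x * √(W2 x)))
    {Z m v : ℝ} (hZ : Z = ∫ x, Real.exp (-W x))
    (hm : m = (∫ x, x * Real.exp (-W x)) / Z)
    (hv : v = (∫ x, (x - m) ^ 2 * Real.exp (-W x)) / Z) :
    (∫ x, (x - m) ^ 3 * Real.exp (-W x)) / Z ≤ 2 * M * (v * √v) := by
  have hcont : Continuous W := continuous_iff_continuousAt.2 (fun x => (h1 x).continuousAt)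
  -- integrability of shifted powers
  have hI : ∀ (c : ℝ) (n : ℕ), Integrable (fun x => (x - c) ^ n * Real.exp (-W x)) := by
    intro c n
    have H := integrable_pow_exp (W := fun x => W (x + c)) (W1 := fun x => W1 (x + c))
      (W2 := fun x => W2 (x + c)) (fun x => (h1 (x + c)).comp_add_const x c)
      (fun x => (h2 (x + c)).comp_add_const x c) ha (fun x => hW2 (x + c)) n
    have H' := H.comp_sub_right c
    simpa using H'
  have hI0 : Integrable (fun x => Real.exp (-W x)) := by simpa using hI 0 0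
  have hI1 : Integrable (fun x => x * Real.exp (-W x)) := by simpa using hI 0 1
  have hZpos : 0 < Z := by
    rw [hZ]
    exact integral_exp_pos hI0
  -- first centred moment vanishes
  have hc1 : ∫ x, (x - m) * Real.exp (-W x) = 0 := by
    have e : (fun x => (x - m) * Real.exp (-W x))
        = fun x => x * Real.exp (-W x) - m * Real.exp (-W x) := by funext x; ring
    rw [e, integral_sub hI1 (hI0.const_mul m), integral_const_mul, ← hZ, hm]
    field_simp
    ring
  -- positivity of the variance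
  have hvpos : 0 < v := by
    rw [hv]
    refine div_pos ?_ hZpos
    rw [integral_pos_iff_support_of_nonneg (fun x => by positivity) (hI m 2)]
    have hs : (Function.support fun x => (x - m) ^ 2 * Real.exp (-W x)) = {m}ᶜ := by
      ext x
      simp only [Function.mem_support, mem_compl_iff, mem_singleton_iff, ne_eq, mul_eq_zero,
        Real.exp_ne_zero, or_false]
      constructor
      · intro h hx; apply h; rw [hx]; ring
      · intro h hx; apply h
        have := pow_eq_zero_iff (two_ne_zero) |>.1 hx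
        linarith
    rw [hs]
    have : volume ({m}ᶜ : Set ℝ) = ⊤ := by
      rw [measure_compl (measurableSet_singleton m) (by simp)]
      simp
    rw [this]; exact ENNReal.coe_lt_top
  set k : ℝ := 1 / M ^ 2 with hk
  have hkpos : 0 < k := by positivity
  set β : ℝ := √((k + 1) / v) with hβ
  have hβpos : 0 < β := Real.sqrt_pos.2 (by positivity)
  have hβ2 : β ^ 2 = (k + 1) / v := Real.sq_sqrt (by positivity)
  set μ : ℝ := (k + 1) / β with hμ
  set x0 : ℝ := m - μ with hx0
  set C : ℝ := ((1 / β) ^ (k + 1) * Real.Gamma (k + 1))⁻¹ with hC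
  have hG : 0 < Real.Gamma (k + 1) := Real.Gamma_pos_of_pos (by linarith)
  have hCpos : 0 < C := by
    rw [hC]; exact inv_pos.2 (mul_pos (Real.rpow_pos_of_pos (by positivity) _) hG)
  set P : ℝ → ℝ := fun t => Real.exp (-W (t + x0)) / Z with hP
  set D : ℝ → ℝ := fun t => P t - gam k β t with hD
  have hPn : ∀ n : ℕ, Integrable (fun t => t ^ n * P t) ∧
      ∫ t, t ^ n * P t = (∫ x, (x - x0) ^ n * Real.exp (-W x)) / Z := by
    intro n
    have e : (fun t => t ^ n * P t)
        = fun t => (fun x => ((x - x0) ^ n * Real.exp (-W x)) / Z) (t + x0) := by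
      funext t; simp only [hP, add_sub_cancel_right]; ring
    refine ⟨?_, ?_⟩
    · rw [e]; exact ((hI x0 n).div_const Z).comp_add_right x0
    · rw [e, integral_add_right_eq_self (fun x => ((x - x0) ^ n * Real.exp (-W x)) / Z) x0,
        integral_div]
  -- moments of P
  have P0 : ∫ t, P t = 1 := by
    have := (hPn 0).2
    simp only [pow_zero, one_mul] at this
    rw [this, ← hZ]; field_simp
  have P1 : ∫ t, t * P t = μ := by
    have := (hPn 1).2
    simp only [pow_one] at this
    rw [this]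
    have e : (fun x => (x - x0) * Real.exp (-W x))
        = fun x => (x - m) * Real.exp (-W x) + μ * Real.exp (-W x) := by
      funext x; rw [hx0]; ring
    rw [e, integral_add (by simpa using hI m 1) (hI0.const_mul μ), integral_const_mul, hc1, ← hZ]
    field_simp
    ring
  have P2 : ∫ t, t ^ 2 * P t = v + μ ^ 2 := by
    rw [(hPn 2).2]
    have e : (fun x => (x - x0) ^ 2 * Real.exp (-W x))
        = fun x => ((x - m) ^ 2 * Real.exp (-W x) + (2 * μ) * ((x - m) * Real.exp (-W x)))
          + μ ^ 2 * Real.exp (-W x) := by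
      funext x; rw [hx0]; ring
    have j1 : Integrable (fun x => (x - m) * Real.exp (-W x)) := by simpa using hI m 1
    have s1 : ∫ x, ((x - m) ^ 2 * Real.exp (-W x) + (2 * μ) * ((x - m) * Real.exp (-W x)))
          + μ ^ 2 * Real.exp (-W x)
        = (∫ x, ((x - m) ^ 2 * Real.exp (-W x) + (2 * μ) * ((x - m) * Real.exp (-W x))))
          + ∫ x, μ ^ 2 * Real.exp (-W x) :=
      integral_add ((hI m 2).add (j1.const_mul _)) (hI0.const_mul _)
    have s2 : ∫ x, ((x - m) ^ 2 * Real.exp (-W x) + (2 * μ) * ((x - m) * Real.exp (-W x)))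
        = (∫ x, (x - m) ^ 2 * Real.exp (-W x)) + ∫ x, (2 * μ) * ((x - m) * Real.exp (-W x)) :=
      integral_add (hI m 2) (j1.const_mul _)
    rw [e, s1, s2, integral_const_mul, integral_const_mul, hc1, ← hZ, hv]
    field_simp
    ring
  have P3 : ∫ t, t ^ 3 * P t
      = (∫ x, (x - m) ^ 3 * Real.exp (-W x)) / Z + 3 * μ * v + μ ^ 3 := by
    rw [(hPn 3).2]
    have e : (fun x => (x - x0) ^ 3 * Real.exp (-W x))
        = fun x => (((x - m) ^ 3 * Real.exp (-W x) + (3 * μ) * ((x - m) ^ 2 * Real.exp (-W x)))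
          + (3 * μ ^ 2) * ((x - m) * Real.exp (-W x))) + μ ^ 3 * Real.exp (-W x) := by
      funext x; rw [hx0]; ring
    have j1 : Integrable (fun x => (x - m) * Real.exp (-W x)) := by simpa using hI m 1
    have s1 : ∫ x, (((x - m) ^ 3 * Real.exp (-W x) + (3 * μ) * ((x - m) ^ 2 * Real.exp (-W x)))
          + (3 * μ ^ 2) * ((x - m) * Real.exp (-W x))) + μ ^ 3 * Real.exp (-W x)
        = (∫ x, (((x - m) ^ 3 * Real.exp (-W x) + (3 * μ) * ((x - m) ^ 2 * Real.exp (-W x)))
          + (3 * μ ^ 2) * ((x - m) * Real.exp (-W x)))) + ∫ x, μ ^ 3 * Real.exp (-W x) :=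
      integral_add (((hI m 3).add ((hI m 2).const_mul _)).add (j1.const_mul _)) (hI0.const_mul _)
    have s2 : ∫ x, (((x - m) ^ 3 * Real.exp (-W x) + (3 * μ) * ((x - m) ^ 2 * Real.exp (-W x)))
          + (3 * μ ^ 2) * ((x - m) * Real.exp (-W x)))
        = (∫ x, ((x - m) ^ 3 * Real.exp (-W x) + (3 * μ) * ((x - m) ^ 2 * Real.exp (-W x))))
          + ∫ x, (3 * μ ^ 2) * ((x - m) * Real.exp (-W x)) :=
      integral_add ((hI m 3).add ((hI m 2).const_mul _)) (j1.const_mul _)
    have s3 : ∫ x, ((x - m) ^ 3 * Real.exp (-W x) + (3 * μ) * ((x - m) ^ 2 * Real.exp (-W x)))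
        = (∫ x, (x - m) ^ 3 * Real.exp (-W x))
          + ∫ x, (3 * μ) * ((x - m) ^ 2 * Real.exp (-W x)) :=
      integral_add (hI m 3) ((hI m 2).const_mul _)
    rw [e, s1, s2, s3, integral_const_mul, integral_const_mul, integral_const_mul, hc1, ← hZ, hv]
    field_simp
    ring
  have hvβ : v = (k + 1) / β ^ 2 := by
    rw [hβ2]; field_simp
  -- the sign lemma
  have hPi0 : Integrable P := by simpa using (hPn 0).1
  have hPi1 : Integrable (fun t => t * P t) := by simpa using (hPn 1).1
  have hgi0 : Integrable (gam k β) := by simpa using (gam_mom hkpos hβpos 0).1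
  have hgi1 : Integrable (fun t => t * gam k β t) := by simpa using (gam_mom hkpos hβpos 1).1
  have hgi2 := (gam_mom hkpos hβpos 2).1
  have hgi3 := (gam_mom hkpos hβpos 3).1
  have e1 : (fun t => t * D t) = fun t => t * P t - t * gam k β t := by funext t; simp only [hD]; ring
  have e2 : (fun t => t ^ 2 * D t) = fun t => t ^ 2 * P t - t ^ 2 * gam k β t := by
    funext t; simp only [hD]; ring
  have e3 : (fun t => t ^ 3 * D t) = fun t => t ^ 3 * P t - t ^ 3 * gam k β t := by
    funext t; simp only [hD]; ring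
  have M0 : ∫ t, D t = 0 := by
    rw [hD, integral_sub hPi0 hgi0, P0, gam_m0 hkpos hβpos]; ring
  have M1 : ∫ t, t * D t = 0 := by
    rw [e1, integral_sub hPi1 hgi1, P1, gam_m1 hkpos hβpos, hμ]; ring
  have M2 : ∫ t, t ^ 2 * D t = 0 := by
    rw [e2, integral_sub (hPn 2).1 hgi2, P2, gam_m2 hkpos hβpos, hvβ, hμ]
    field_simp
    ring
  have hneg : ∀ t, D t < 0 → 0 < t := by
    intro t ht
    by_contra h
    push Not at h
    have hg : gam k β t = 0 := by
      rw [gam, indicator_of_notMem]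
      simpa using h
    simp only [hD, hg, sub_zero, hP] at ht
    exact absurd ht (not_lt.2 (by positivity))
  -- the comparison function
  set h : ℝ → ℝ := fun t => -W (t + x0) - k * Real.log t + β * t - Real.log (Z * C) with hh
  have hsign : ∀ t, 0 < t → (D t < 0 → h t < 0) ∧ (0 < D t → 0 < h t) := by
    intro t ht
    have hg : gam k β t = C * (t ^ k * Real.exp (-(β * t))) := by
      rw [gam, indicator_of_mem (show t ∈ Ioi (0:ℝ) from ht)]
    have hg' : gam k β t = Real.exp (Real.log C + k * Real.log t - β * t) := by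
      rw [hg, Real.exp_sub, Real.exp_add, Real.exp_log hCpos, Real.rpow_def_of_pos ht,
        Real.exp_neg, mul_comm (Real.log t) k]
      field_simp
    have hP' : P t = Real.exp (-W (t + x0) - Real.log Z) := by
      rw [Real.exp_sub, Real.exp_log hZpos]
    have hlog : Real.log (Z * C) = Real.log Z + Real.log C :=
      Real.log_mul hZpos.ne' hCpos.ne'
    constructor
    · intro hlt
      have : P t < gam k β t := by simp only [hD] at hlt; linarith
      rw [hP', hg', Real.exp_lt_exp] at this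
      simp only [hh]; rw [hlog]; linarith
    · intro hlt
      have : gam k β t < P t := by simp only [hD] at hlt; linarith
      rw [hP', hg', Real.exp_lt_exp] at this
      simp only [hh]; rw [hlog]; linarith
  have H1 : ∀ t, 0 < t → HasDerivAt h (-W1 (t + x0) - k / t + β) t := by
    intro t ht
    have d1 := ((h1 (t + x0)).comp_add_const t x0).neg
    have d2 := (Real.hasDerivAt_log ht.ne').const_mul k
    have d3 := (hasDerivAt_id' t).const_mul β
    refine (((d1.sub d2).add d3).sub_const (Real.log (Z * C))).congr_deriv ?_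
    rw [mul_one]; rfl
  have H2 : ∀ t, 0 < t → HasDerivAt (fun t => -W1 (t + x0) - k / t + β)
      (-W2 (t + x0) + k / t ^ 2) t := by
    intro t ht
    have d1 := ((h2 (t + x0)).comp_add_const t x0).neg
    have d2 := (hasDerivAt_inv ht.ne').const_mul k
    have := ((d1.sub d2).add_const β)
    refine (this.congr_deriv ?_).congr_of_eventuallyEq (Eventually.of_forall (fun s => ?_))
    · field_simp; ring
    · simp [div_eq_mul_inv]
  -- monotone function φ(t) = M t - 1/√(W2(t+x0))
  have hW2pos : ∀ x, 0 < W2 x := fun x => lt_of_lt_of_le ha (hW2 x)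
  have hφ : Monotone (fun t => M * t - (√(W2 (t + x0)))⁻¹) := by
    have hd : ∀ t, HasDerivAt (fun t => M * t - (√(W2 (t + x0)))⁻¹)
        (M * 1 - -(W3 (t + x0) / (2 * √(W2 (t + x0)))) / (√(W2 (t + x0))) ^ 2) t := by
      intro t
      have d := ((h3 (t + x0)).comp_add_const t x0).sqrt (hW2pos (t + x0)).ne'
      have hs : √(W2 (t + x0)) ≠ 0 := (Real.sqrt_pos.2 (hW2pos (t + x0))).ne'
      exact ((hasDerivAt_id' t).const_mul M).sub (d.inv hs)
    refine monotone_of_hasDerivAt_nonneg hd (fun t => ?_)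
    have hs : 0 < √(W2 (t + x0)) := Real.sqrt_pos.2 (hW2pos (t + x0))
    have hsq : √(W2 (t + x0)) ^ 2 = W2 (t + x0) := Real.sq_sqrt (hW2pos _).le
    have hsc' := (abs_le.1 (hsc (t + x0))).1
    simp only [Pi.zero_apply]
    have : -(M * 1) ≤ (W3 (t + x0) / (2 * √(W2 (t + x0)))) / (√(W2 (t + x0))) ^ 2 := by
      rw [le_div_iff₀ (by positivity), le_div_iff₀ (by positivity)]
      have e : -(M * 1) * √(W2 (t + x0)) ^ 2 * (2 * √(W2 (t + x0)))
          = -(2 * M * (√(W2 (t + x0)) ^ 2 * √(W2 (t + x0)))) := by ring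
      rw [e, hsq]; exact hsc'
    have e2 : M * 1 - -(W3 (t + x0) / (2 * √(W2 (t + x0)))) / √(W2 (t + x0)) ^ 2
        = M * 1 + (W3 (t + x0) / (2 * √(W2 (t + x0)))) / √(W2 (t + x0)) ^ 2 := by ring
    rw [e2]; linarith
  have H3 : ∀ s t, 0 < s → s < t → -W2 (s + x0) + k / s ^ 2 < 0 →
      -W2 (t + x0) + k / t ^ 2 ≤ 0 := by
    intro s t hs hst hlt
    have ht : 0 < t := lt_trans hs hst
    have hss : 0 < √(W2 (s + x0)) := Real.sqrt_pos.2 (hW2pos _)
    have hst' : 0 < √(W2 (t + x0)) := Real.sqrt_pos.2 (hW2pos _)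
    have hsqs : √(W2 (s + x0)) ^ 2 = W2 (s + x0) := Real.sq_sqrt (hW2pos _).le
    have hsqt : √(W2 (t + x0)) ^ 2 = W2 (t + x0) := Real.sq_sqrt (hW2pos _).le
    have p1 : 0 < M * s - (√(W2 (s + x0)))⁻¹ := by
      have : k / s ^ 2 < W2 (s + x0) := by linarith
      rw [hk, ← hsqs] at this
      have h' : (1 / (M * s)) ^ 2 < √(W2 (s + x0)) ^ 2 := by
        calc (1 / (M * s)) ^ 2 = 1 / M ^ 2 / s ^ 2 := by field_simp
          _ < _ := this
      have h'' : 1 / (M * s) < √(W2 (s + x0)) := lt_of_pow_lt_pow_left₀ 2 hss.le h'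
      rw [div_lt_iff₀ (by positivity)] at h''
      have : (√(W2 (s + x0)))⁻¹ < M * s := by
        rw [inv_lt_iff_one_lt_mul₀ hss]
        linarith
      linarith
    have p2 : 0 < M * t - (√(W2 (t + x0)))⁻¹ := lt_of_lt_of_le p1 (hφ hst.le)
    have p3 : (√(W2 (t + x0)))⁻¹ < M * t := by linarith
    rw [inv_lt_iff_one_lt_mul₀ hst'] at p3
    have p4 : 1 / (M * t) < √(W2 (t + x0)) := by
      rw [div_lt_iff₀ (by positivity)]; linarith
    have p5 : (1 / (M * t)) ^ 2 < √(W2 (t + x0)) ^ 2 :=
      pow_lt_pow_left₀ p4 (by positivity) two_ne_zero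
    rw [hsqt] at p5
    have e : (1 / (M * t)) ^ 2 = k / t ^ 2 := by rw [hk]; field_simp
    rw [e] at p5
    linarith
  have hmain : ∫ t, t ^ 3 * D t ≤ 0 := by
    refine third_moment_nonpos (hPi0.sub hgi0) (by rw [e1]; exact hPi1.sub hgi1)
      (by rw [e2]; exact (hPn 2).1.sub hgi2) (by rw [e3]; exact (hPn 3).1.sub hgi3) M0 M1 M2 ?_
    intro u1 u2 u3 u4 h12 h23 h34 n1 q2 n3 q4
    have u1p := hneg u1 n1
    exact no_quad H1 H2 H3 u1p h12 h23 h34 ((hsign u1 u1p).1 n1)
      ((hsign u2 (by linarith)).2 q2) ((hsign u3 (by linarith)).1 n3)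
      ((hsign u4 (by linarith)).2 q4)
  rw [e3, integral_sub (hPn 3).1 hgi3, P3, gam_m3 hkpos hβpos] at hmain
  have hκ : (∫ x, (x - m) ^ 3 * Real.exp (-W x)) / Z ≤ 2 * (k + 1) / β ^ 3 := by
    have e : (k + 1) * (k + 2) * (k + 3) / β ^ 3 - 3 * μ * v - μ ^ 3 = 2 * (k + 1) / β ^ 3 := by
      rw [hvβ, hμ]; field_simp; ring
    linarith
  refine hκ.trans ?_
  have e : 2 * (k + 1) / β ^ 3 = 2 * v / β := by
    rw [hvβ]; field_simp
  rw [e]
  have hMβ : √(1 / v) / M ≤ β := by
    rw [hβ]
    rw [div_le_iff₀ hM]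
    have : √((k + 1) / v) * M = √((k + 1) / v * M ^ 2) := by
      rw [Real.sqrt_mul (by positivity), Real.sqrt_sq hM.le]
    rw [this]
    apply Real.sqrt_le_sqrt
    rw [hk]
    have e : (1 / M ^ 2 + 1) / v * M ^ 2 = 1 / v + M ^ 2 / v := by field_simp
    rw [e]
    have : 0 ≤ M ^ 2 / v := by positivity
    linarith
  rw [div_le_iff₀ hβpos]
  have hsv : 0 < √v := Real.sqrt_pos.2 hvpos
  have e5 : √(1 / v) = 1 / √v := by rw [Real.sqrt_div zero_le_one, Real.sqrt_one]
  rw [e5] at hMβ
  have hsv2 : √v * √v = v := Real.mul_self_sqrt hvpos.le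
  calc 2 * v = 2 * M * (v * √v) * (1 / √v / M) := by field_simp
    _ ≤ 2 * M * (v * √v) * β := mul_le_mul_of_nonneg_left hMβ (by positivity)

/-- two-sided version, `s * √s` form. -/
theorem sk_two {W W1 W2 W3 : ℝ → ℝ} (h1 : ∀ x, HasDerivAt W (W1 x) x)
    (h2 : ∀ x, HasDerivAt W1 (W2 x) x) (h3 : ∀ x, HasDerivAt W2 (W3 x) x)
    {a M : ℝ} (ha : 0 < a) (hM : 0 < M) (hW2 : ∀ x, a ≤ W2 x)
    (hsc : ∀ x, |W3 x| ≤ 2 * M * (W2 x * √(W2 x)))
    {Z m v : ℝ} (hZ : Z = ∫ x, Real.exp (-W x))
    (hm : m = (∫ x, x * Real.exp (-W x)) / Z)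
    (hv : v = (∫ x, (x - m) ^ 2 * Real.exp (-W x)) / Z) :
    |(∫ x, (x - m) ^ 3 * Real.exp (-W x)) / Z| ≤ 2 * M * (v * √v) := by
  have h1' : ∀ x, HasDerivAt (fun x => W (-x)) (-(W1 (-x))) x := by
    intro x
    have := (h1 (-x)).comp x (hasDerivAt_neg x)
    refine this.congr_deriv (by ring)
  have h2' : ∀ x, HasDerivAt (fun x => -(W1 (-x))) (W2 (-x)) x := by
    intro x
    have := ((h2 (-x)).comp x (hasDerivAt_neg x)).neg
    refine this.congr_deriv (by ring)
  have h3' : ∀ x, HasDerivAt (fun x => W2 (-x)) (-(W3 (-x))) x := by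
    intro x
    have := (h3 (-x)).comp x (hasDerivAt_neg x)
    refine this.congr_deriv (by ring)
  have r1 := sk_one h1 h2 h3 ha hM hW2 hsc hZ hm hv
  have hZ' : Z = ∫ x, Real.exp (-W (-x)) := by
    rw [hZ, integral_neg_eq_self (fun x => Real.exp (-W x)) volume]
  have hm' : -m = (∫ x, x * Real.exp (-W (-x))) / Z := by
    have : ∫ x, x * Real.exp (-W (-x)) = ∫ x, (-x) * Real.exp (-W x) := by
      rw [← integral_neg_eq_self (fun x => (-x) * Real.exp (-W x)) volume]
      simp
    rw [this, hm]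
    simp only [neg_mul]
    rw [integral_neg]; ring
  have hv' : v = (∫ x, (x - -m) ^ 2 * Real.exp (-W (-x))) / Z := by
    have : ∫ x, (x - -m) ^ 2 * Real.exp (-W (-x)) = ∫ x, (x - m) ^ 2 * Real.exp (-W x) := by
      rw [← integral_neg_eq_self (fun x => (x - m) ^ 2 * Real.exp (-W x)) volume]
      congr 1
      funext x; ring
    rw [this, hv]
  have r2 := sk_one h1' h2' h3' ha hM (fun x => hW2 (-x)) (fun x => by
    rw [abs_neg]; exact hsc (-x)) hZ' hm' hv'
  have e3 : ∫ x, (x - -m) ^ 3 * Real.exp (-W (-x)) = -∫ x, (x - m) ^ 3 * Real.exp (-W x) := by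
    rw [← integral_neg]
    rw [← integral_neg_eq_self (fun x => -((x - m) ^ 3 * Real.exp (-W x))) volume]
    congr 1
    funext x; ring
  rw [e3, neg_div] at r2
  exact abs_le.2 ⟨by linarith, r1⟩

/-- **(SK)** third central moment of a one-dimensional `M`-self-concordant log-concave density. -/
theorem sk (W W1 W2 W3 : ℝ → ℝ) (h1 : ∀ x, HasDerivAt W (W1 x) x)
    (h2 : ∀ x, HasDerivAt W1 (W2 x) x) (h3 : ∀ x, HasDerivAt W2 (W3 x) x)
    {a M : ℝ} (ha : 0 < a) (hM : 0 < M) (hW2 : ∀ x, a ≤ W2 x)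
    (hsc : ∀ x, |W3 x| ≤ 2 * M * (W2 x) ^ (3 / 2 : ℝ))
    {Z m v : ℝ} (hZ : Z = ∫ x, Real.exp (-W x))
    (hm : m = (∫ x, x * Real.exp (-W x)) / Z)
    (hv : v = (∫ x, (x - m) ^ 2 * Real.exp (-W x)) / Z) :
    |(∫ x, (x - m) ^ 3 * Real.exp (-W x)) / Z| ≤ 2 * M * v ^ (3 / 2 : ℝ) := by
  have key : ∀ s : ℝ, 0 ≤ s → s ^ (3 / 2 : ℝ) = s * √s := by
    intro s hs
    rcases hs.eq_or_lt with h | h
    · rw [← h, Real.zero_rpow (by norm_num), zero_mul]
    · rw [show (3 / 2 : ℝ) = 1 + 1 / 2 by norm_num, Real.rpow_add h, Real.rpow_one,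
        ← Real.sqrt_eq_rpow]
  have hv0 : 0 ≤ v := by
    rw [hv, hZ]
    exact div_nonneg (integral_nonneg (fun x => by positivity))
      (integral_nonneg (fun x => by positivity))
  rw [key v hv0]
  exact sk_two h1 h2 h3 ha hM hW2 (fun x => by
    rw [← key (W2 x) (ha.le.trans (hW2 x))]; exact hsc x) hZ hm hv

end Vale.Agent.P227.M.SC
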