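import Mathlib

/-! # P227/M/SC: the scalar heart of the two-point step (field `sc` of `StepStmt`).
Everything is real algebra in the values at the two points. (helper866) -/

namespace Vale.Agent.P227.M.SC.Sc866

open Real

/-- `F x = x^{3/2}` -/
noncomputable def F (x : ℝ) : ℝ := x * √x

lemma F_eq_rpow (x : ℝ) : x ^ ((3 : ℝ) / 2) = F x := by
  unfold F
  rcases le_or_gt 0 x with hx | hx
  · rcases hx.eq_or_lt with rfl | hx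
    · rw [Real.zero_rpow (by norm_num)]; simp
    · rw [show (3 : ℝ) / 2 = 1 + 1 / 2 by norm_num, Real.rpow_add hx, Real.rpow_one,
        Real.sqrt_eq_rpow]
  · rw [Real.sqrt_eq_zero_of_nonpos hx.le, mul_zero, Real.rpow_def_of_neg hx]
    have : Real.cos (3 / 2 * π) = 0 := by
      rw [Real.cos_eq_zero_iff]
      exact ⟨1, by push_cast; ring⟩
    rw [this, mul_zero]

lemma F_nonneg (x : ℝ) : 0 ≤ F x := by
  unfold F
  rcases le_or_gt 0 x with hx | hx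
  · positivity
  · rw [Real.sqrt_eq_zero_of_nonpos hx.le, mul_zero]

lemma F_tangent (x μ : ℝ) (hμ : 0 ≤ μ) : F μ + 3 / 2 * √μ * (x - μ) ≤ F x := by
  rcases le_or_gt 0 x with hx | hx
  · unfold F
    have h1 : √x ^ 2 = x := Real.sq_sqrt hx
    have h2 : √μ ^ 2 = μ := Real.sq_sqrt hμ
    set y := √x
    set s := √μ
    have hy : 0 ≤ y := Real.sqrt_nonneg _
    have hs : 0 ≤ s := Real.sqrt_nonneg _
    rw [← h1, ← h2]
    nlinarith [mul_nonneg (sq_nonneg (y - s)) (by positivity : 0 ≤ y + s / 2)]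
  · have h0 := F_nonneg x
    have hs : 0 ≤ √μ := Real.sqrt_nonneg _
    have : F μ + 3 / 2 * √μ * (x - μ) ≤ 0 := by
      unfold F
      nlinarith [mul_nonneg hμ hs, mul_nonneg hs (neg_nonneg.2 hx.le)]
    linarith

lemma F_upper1 (x α : ℝ) (hx : 0 ≤ x) (hα : 0 < α) :
    F x ≤ F α + 3 / 2 * √α * (x - α) + (x - α) ^ 2 / √α := by
  unfold F
  have h1 : √x ^ 2 = x := Real.sq_sqrt hx
  have h2 : √α ^ 2 = α := Real.sq_sqrt hα.le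
  have hs : 0 < √α := Real.sqrt_pos.2 hα
  have hy : 0 ≤ √x := Real.sqrt_nonneg _
  set y := √x
  set s := √α
  rw [← h1, ← h2]
  have h3 : (y - s) ^ 2 * (y + s / 2) ≤ (y ^ 2 - s ^ 2) ^ 2 / s := by
    rw [le_div_iff₀ hs]
    have : (y ^ 2 - s ^ 2) ^ 2 = (y - s) ^ 2 * (y + s) ^ 2 := by ring
    rw [this, mul_assoc]
    apply mul_le_mul_of_nonneg_left _ (sq_nonneg _)
    nlinarith [mul_nonneg hy hs.le]
  nlinarith [h3]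

lemma F_upper2 (x μ : ℝ) (hx : 0 ≤ x) (hμ : 0 < μ) :
    F x ≤ F μ + 3 / 2 * √μ * (x - μ) + 3 / 8 * (x - μ) ^ 2 / √μ
      + 3 / 8 * |x - μ| ^ 3 / (√μ) ^ 3 := by
  unfold F
  have h1 : √x ^ 2 = x := Real.sq_sqrt hx
  have h2 : √μ ^ 2 = μ := Real.sq_sqrt hμ.le
  have hs : 0 < √μ := Real.sqrt_pos.2 hμ
  have hy : 0 ≤ √x := Real.sqrt_nonneg _
  set y := √x
  set s := √μ
  rw [← h1, ← h2]
  have hys : 0 < y + s := by positivity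
  have e1 : |y ^ 2 - s ^ 2| = |y - s| * (y + s) := by
    rw [show y ^ 2 - s ^ 2 = (y - s) * (y + s) by ring, abs_mul, abs_of_pos hys]
  -- exact identity
  have e2 : y ^ 2 * y = s ^ 2 * s + 3 / 2 * s * (y ^ 2 - s ^ 2)
      + 3 / 8 * (y ^ 2 - s ^ 2) ^ 2 / s + (s - y) ^ 3 * (s + 3 * y) / (8 * s) := by
    field_simp
    ring
  have h3 : (s - y) ^ 3 * (s + 3 * y) / (8 * s) ≤ 3 / 8 * |y ^ 2 - s ^ 2| ^ 3 / s ^ 3 := by
    have h4 : (s - y) ^ 3 ≤ |y - s| ^ 3 := by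
      calc (s - y) ^ 3 ≤ |(s - y) ^ 3| := le_abs_self _
        _ = |y - s| ^ 3 := by rw [abs_pow, abs_sub_comm]
    rw [e1, div_le_div_iff₀ (by positivity) (by positivity)]
    have h5 : (s - y) ^ 3 * (s + 3 * y) ≤ |y - s| ^ 3 * (3 * (y + s)) := by
      have h6 : 0 ≤ s + 3 * y := by positivity
      calc (s - y) ^ 3 * (s + 3 * y) ≤ |y - s| ^ 3 * (s + 3 * y) :=
            mul_le_mul_of_nonneg_right h4 h6
        _ ≤ |y - s| ^ 3 * (3 * (y + s)) := by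
            apply mul_le_mul_of_nonneg_left _ (by positivity)
            linarith
    have h7 : s ^ 2 ≤ (y + s) ^ 2 := by nlinarith [mul_nonneg hy hs.le, sq_nonneg y]
    calc (s - y) ^ 3 * (s + 3 * y) * s ^ 3 ≤ |y - s| ^ 3 * (3 * (y + s)) * s ^ 3 :=
          mul_le_mul_of_nonneg_right h5 (by positivity)
      _ = 3 * |y - s| ^ 3 * (y + s) * s * s ^ 2 := by ring
      _ ≤ 3 * |y - s| ^ 3 * (y + s) * s * (y + s) ^ 2 :=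
          mul_le_mul_of_nonneg_left h7 (by positivity)
      _ = 3 / 8 * (|y - s| * (y + s)) ^ 3 * (8 * s) := by ring
  linarith

/-- the algebraic identity behind the step -/
lemma key_identity (κ m h s : ℝ) (hs : s ≠ 0) :
    3 * κ * s * m ^ 2 + 3 / 4 * κ * h ^ 2 / s
      + 6 * κ * ((-1 + κ ^ 2 / 2) * m + κ / 4 * h / s) * s * m
      - 3 * ((-1 + κ ^ 2 / 2) * m + κ / 4 * h / s) * h - 3 * m * h
      = -(3 * κ * (1 - κ ^ 2) * s * m ^ 2) := by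
  field_simp
  ring


/-- one endpoint of the step -/
lemma one_side {N κ δ ε α A1 A2 A3 Aee Avee Aeee s m h t : ℝ} (hN : 1 ≤ N)
    (hκ0 : 0 ≤ κ) (hκ1 : κ ≤ 1) (hδ0 : 0 < δ) (hδ1 : δ ≤ 1)
    (hα : 0 < α) (hαN : 1 ≤ N * √α) (hαN' : √α ≤ N)
    (hs0 : 0 ≤ s) (hs : s ≤ N) (hst : |√α - s| ≤ 6 * N ^ 2 * δ)
    (hA1 : |A1| ≤ N) (hAm : |A1 - m| ≤ 2 * N * δ) (hAh : |A2 - h| ≤ 2 * N * δ)
    (hAee : |Aee| ≤ N) (hAvee : |Avee| ≤ N) (hAeee : |Aeee| ≤ N)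
    (ht : |t| ≤ 4 * N ^ 2 * δ ^ 2)
    (pos : 0 ≤ α + 2 * t * A1 + t ^ 2 * Aee)
    (hA : A3 + 3 * t * A2 + 3 * t ^ 2 * Avee + t ^ 3 * Aeee
      ≤ 2 * κ * F (α + 2 * t * A1 + t ^ 2 * Aee) + ε * (1 + |t|) ^ 3) :
    A3 ≤ 2 * κ * F α + 6 * κ * s * m * t - 3 * t * h + ε * (1 + |t|) ^ 3
      + 1528 * N ^ 11 * δ ^ 3 := by
  have hN0 : 0 < N := by linarith
  have hsα : 0 < √α := Real.sqrt_pos.2 hα
  have hpow : ∀ a b : ℕ, a ≤ b → N ^ a ≤ N ^ b := fun a b hab => pow_le_pow_right₀ hN hab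
  have hδ3 : 0 ≤ δ ^ 3 := by positivity
  -- T1
  have hT0 : |√α * A1 - s * m| ≤ 8 * N ^ 3 * δ := by
    have e : √α * A1 - s * m = (√α - s) * A1 + s * (A1 - m) := by ring
    rw [e]
    calc |(√α - s) * A1 + s * (A1 - m)| ≤ |(√α - s) * A1| + |s * (A1 - m)| := abs_add_le _ _
      _ = |√α - s| * |A1| + s * |A1 - m| := by rw [abs_mul, abs_mul, abs_of_nonneg hs0]
      _ ≤ (6 * N ^ 2 * δ) * N + N * (2 * N * δ) := by
          gcongr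
      _ ≤ 8 * N ^ 3 * δ := by nlinarith [hpow 2 3 (by norm_num), mul_le_mul_of_nonneg_right (hpow 2 3 (by norm_num)) hδ0.le]
  have hT1 : |t * (√α * A1 - s * m)| ≤ 32 * N ^ 5 * δ ^ 3 := by
    rw [abs_mul]
    calc |t| * |√α * A1 - s * m| ≤ (4 * N ^ 2 * δ ^ 2) * (8 * N ^ 3 * δ) := by gcongr
      _ = 32 * N ^ 5 * δ ^ 3 := by ring
  have hT2 : |t * (A2 - h)| ≤ 8 * N ^ 3 * δ ^ 3 := by
    rw [abs_mul]
    calc |t| * |A2 - h| ≤ (4 * N ^ 2 * δ ^ 2) * (2 * N * δ) := by gcongr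
      _ = 8 * N ^ 3 * δ ^ 3 := by ring
  have ht2 : t ^ 2 ≤ 16 * N ^ 4 * δ ^ 3 := by
    calc t ^ 2 = |t| ^ 2 := (sq_abs t).symm
      _ ≤ (4 * N ^ 2 * δ ^ 2) ^ 2 := by gcongr
      _ = 16 * N ^ 4 * δ ^ 3 * δ := by ring
      _ ≤ 16 * N ^ 4 * δ ^ 3 * 1 := by gcongr
      _ = 16 * N ^ 4 * δ ^ 3 := by ring
  have ht3 : |t| ^ 3 ≤ 64 * N ^ 6 * δ ^ 3 := by
    calc |t| ^ 3 ≤ (4 * N ^ 2 * δ ^ 2) ^ 3 := by gcongr
      _ = 64 * N ^ 6 * δ ^ 3 * δ ^ 3 := by ring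
      _ ≤ 64 * N ^ 6 * δ ^ 3 * 1 := by
          gcongr
          exact pow_le_one₀ hδ0.le hδ1
      _ = 64 * N ^ 6 * δ ^ 3 := by ring
  have ht1 : |t| ≤ 4 * N ^ 2 := by
    calc |t| ≤ 4 * N ^ 2 * δ ^ 2 := ht
      _ ≤ 4 * N ^ 2 * 1 := by
          gcongr
          exact pow_le_one₀ hδ0.le hδ1
      _ = 4 * N ^ 2 := by ring
  set x := α + 2 * t * A1 + t ^ 2 * Aee with hx
  have hU := F_upper1 x α pos hα
  have hxa : x - α = t * (2 * A1 + t * Aee) := by rw [hx]; ring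
  have hq1 : |2 * A1 + t * Aee| ≤ 6 * N ^ 3 := by
    calc |2 * A1 + t * Aee| ≤ |2 * A1| + |t * Aee| := abs_add_le _ _
      _ = 2 * |A1| + |t| * |Aee| := by rw [abs_mul, abs_mul, abs_two]
      _ ≤ 2 * N + (4 * N ^ 2) * N := by gcongr
      _ ≤ 6 * N ^ 3 := by nlinarith [hpow 1 3 (by norm_num)]
  have hsq : (x - α) ^ 2 / √α ≤ 576 * N ^ 11 * δ ^ 3 := by
    rw [hxa, mul_pow, div_le_iff₀ hsα]
    have h1 : (2 * A1 + t * Aee) ^ 2 ≤ 36 * N ^ 6 := by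
      calc (2 * A1 + t * Aee) ^ 2 = |2 * A1 + t * Aee| ^ 2 := (sq_abs _).symm
        _ ≤ (6 * N ^ 3) ^ 2 := by gcongr
        _ = 36 * N ^ 6 := by ring
    calc t ^ 2 * (2 * A1 + t * Aee) ^ 2 ≤ (16 * N ^ 4 * δ ^ 3) * (36 * N ^ 6) := by gcongr
      _ = 576 * N ^ 10 * δ ^ 3 * 1 := by ring
      _ ≤ 576 * N ^ 10 * δ ^ 3 * (N * √α) := by gcongr
      _ = 576 * N ^ 11 * δ ^ 3 * √α := by ring
  have hee : √α * t ^ 2 * Aee ≤ 16 * N ^ 6 * δ ^ 3 := by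
    calc √α * t ^ 2 * Aee ≤ √α * t ^ 2 * |Aee| := by
          gcongr
          exact le_abs_self _
      _ ≤ N * (16 * N ^ 4 * δ ^ 3) * N := by gcongr
      _ = 16 * N ^ 6 * δ ^ 3 := by ring
  have hvee : -(t ^ 2 * Avee) ≤ 16 * N ^ 5 * δ ^ 3 := by
    calc -(t ^ 2 * Avee) = t ^ 2 * (-Avee) := by ring
      _ ≤ t ^ 2 * |Avee| := by
          gcongr
          exact neg_le_abs _
      _ ≤ (16 * N ^ 4 * δ ^ 3) * N := by gcongr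
      _ = 16 * N ^ 5 * δ ^ 3 := by ring
  have heee : -(t ^ 3 * Aeee) ≤ 64 * N ^ 7 * δ ^ 3 := by
    calc -(t ^ 3 * Aeee) ≤ |t ^ 3 * Aeee| := neg_le_abs _
      _ = |t| ^ 3 * |Aeee| := by rw [abs_mul, abs_pow]
      _ ≤ (64 * N ^ 6 * δ ^ 3) * N := by gcongr
      _ = 64 * N ^ 7 * δ ^ 3 := by ring
  -- F x bound
  have hF : F x ≤ F α + 3 * t * (√α * A1) + 3 / 2 * (√α * t ^ 2 * Aee) + (x - α) ^ 2 / √α := by
    have : 3 / 2 * √α * (x - α) = 3 * t * (√α * A1) + 3 / 2 * (√α * t ^ 2 * Aee) := by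
      rw [hxa]; ring
    linarith
  have hF2 : F x ≤ F α + 3 * t * (√α * A1) + (24 * N ^ 6 + 576 * N ^ 11) * δ ^ 3 := by
    have e : F α + 3 * t * (√α * A1) + (24 * N ^ 6 + 576 * N ^ 11) * δ ^ 3
      = F α + 3 * t * (√α * A1) + 3 / 2 * (16 * N ^ 6 * δ ^ 3) + 576 * N ^ 11 * δ ^ 3 := by ring
    rw [e]
    have h1 : 3 / 2 * (√α * t ^ 2 * Aee) ≤ 3 / 2 * (16 * N ^ 6 * δ ^ 3) := by gcongr
    exact hF.trans (add_le_add (add_le_add le_rfl h1) hsq)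
  have hκF : 2 * κ * F x ≤ 2 * κ * F α + 6 * κ * (t * (√α * A1))
      + 2 * ((24 * N ^ 6 + 576 * N ^ 11) * δ ^ 3) := by
    have hR : 0 ≤ (24 * N ^ 6 + 576 * N ^ 11) * δ ^ 3 := by positivity
    have h1 : 2 * κ * F x ≤ 2 * κ * (F α + 3 * t * (√α * A1) + (24 * N ^ 6 + 576 * N ^ 11) * δ ^ 3) := by
      gcongr
    have h2 : κ * ((24 * N ^ 6 + 576 * N ^ 11) * δ ^ 3) ≤ 1 * ((24 * N ^ 6 + 576 * N ^ 11) * δ ^ 3) := by
      gcongr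
    calc 2 * κ * F x ≤ 2 * κ * (F α + 3 * t * (√α * A1) + (24 * N ^ 6 + 576 * N ^ 11) * δ ^ 3) := h1
      _ = 2 * κ * F α + 6 * κ * (t * (√α * A1)) + 2 * (κ * ((24 * N ^ 6 + 576 * N ^ 11) * δ ^ 3)) := by ring
      _ ≤ 2 * κ * F α + 6 * κ * (t * (√α * A1)) + 2 * (1 * ((24 * N ^ 6 + 576 * N ^ 11) * δ ^ 3)) := by
          gcongr
      _ = _ := by ring
  have hκ1' : 6 * κ * (t * (√α * A1)) ≤ 6 * κ * (t * (s * m)) + 6 * (32 * N ^ 5 * δ ^ 3) := by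
    have h1 : t * (√α * A1 - s * m) ≤ 32 * N ^ 5 * δ ^ 3 := (le_abs_self _).trans hT1
    have h2 : κ * (t * (√α * A1 - s * m)) ≤ 32 * N ^ 5 * δ ^ 3 := by
      have h3 : κ * (t * (√α * A1 - s * m)) ≤ κ * (32 * N ^ 5 * δ ^ 3) := by gcongr
      have h4 : κ * (32 * N ^ 5 * δ ^ 3) ≤ 1 * (32 * N ^ 5 * δ ^ 3) := by gcongr
      linarith
    have e : 6 * κ * (t * (√α * A1)) = 6 * κ * (t * (s * m)) + 6 * (κ * (t * (√α * A1 - s * m))) := by ring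
    rw [e]
    exact add_le_add le_rfl (mul_le_mul_of_nonneg_left h2 (by norm_num))
  have hA2' : -(3 * (t * A2)) ≤ -(3 * (t * h)) + 3 * (8 * N ^ 3 * δ ^ 3) := by
    have h1 : -(t * (A2 - h)) ≤ 8 * N ^ 3 * δ ^ 3 := (neg_le_abs _).trans hT2
    have e : -(3 * (t * A2)) = -(3 * (t * h)) + 3 * (-(t * (A2 - h))) := by ring
    rw [e]
    exact add_le_add le_rfl (mul_le_mul_of_nonneg_left h1 (by norm_num))
  have h6 := mul_le_mul_of_nonneg_right (hpow 6 11 (by norm_num)) hδ3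
  have h5 := mul_le_mul_of_nonneg_right (hpow 5 11 (by norm_num)) hδ3
  have h3 := mul_le_mul_of_nonneg_right (hpow 3 11 (by norm_num)) hδ3
  have h7 := mul_le_mul_of_nonneg_right (hpow 7 11 (by norm_num)) hδ3
  clear_value x
  clear hF hF2 hU hxa hq1 hsq hee hT0 hT1 hT2 ht2 ht3 ht1 hpow hst hAm hAh
  linarith [hA, hκF, hκ1', hA2', hvee, heee, h6, h5, h3, h7]

/-- Jensen defect of `F` at two points -/
lemma jensen_defect {N δ p q α β : ℝ} (hN : 1 ≤ N) (hδ0 : 0 < δ)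
    (hp : 0 ≤ p) (hq : 0 ≤ q) (hpq : p + q = 1)
    (hα : 0 < α) (hβ : 0 < β) (hsN : 1 ≤ N * √(p * α + q * β))
    (hab : |α - β| ≤ 6 * N * δ) :
    p * F α + q * F β ≤ F (p * α + q * β)
      + 3 / 8 * (p * q * (α - β) ^ 2) / √(p * α + q * β) + 81 * N ^ 6 * δ ^ 3 := by
  have hN0 : 0 < N := by linarith
  have hμ : 0 < p * α + q * β := by
    by_contra hcon
    rw [Real.sqrt_eq_zero_of_nonpos (not_lt.1 hcon)] at hsN
    linarith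
  have hs : 0 < √(p * α + q * β) := Real.sqrt_pos.2 hμ
  have h1 := F_upper2 α (p * α + q * β) hα.le hμ
  have h2 := F_upper2 β (p * α + q * β) hβ.le hμ
  set μ := p * α + q * β with hμdef
  set s := √μ with hsdef
  have ea : α - μ = q * (α - β) := by
    rw [hμdef]
    have : p = 1 - q := by linarith
    rw [this]; ring
  have eb : β - μ = -(p * (α - β)) := by
    rw [hμdef]
    have : q = 1 - p := by linarith
    rw [this]; ring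
  have hq1 : q ≤ 1 := by linarith
  have hp1 : p ≤ 1 := by linarith
  have hs3 : 1 / s ^ 3 ≤ N ^ 3 := by
    rw [div_le_iff₀ (by positivity)]
    calc (1 : ℝ) = 1 ^ 3 := by norm_num
      _ ≤ (N * s) ^ 3 := by gcongr
      _ = N ^ 3 * s ^ 3 := by ring
  have hab3 : |α - β| ^ 3 ≤ 216 * N ^ 3 * δ ^ 3 := by
    calc |α - β| ^ 3 ≤ (6 * N * δ) ^ 3 := by gcongr
      _ = 216 * N ^ 3 * δ ^ 3 := by ring
  have c1 : |α - μ| ^ 3 ≤ |α - β| ^ 3 := by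
    rw [ea, abs_mul, abs_of_nonneg hq]
    calc (q * |α - β|) ^ 3 ≤ (1 * |α - β|) ^ 3 := by gcongr
      _ = |α - β| ^ 3 := by ring
  have c2 : |β - μ| ^ 3 ≤ |α - β| ^ 3 := by
    rw [eb, abs_neg, abs_mul, abs_of_nonneg hp]
    calc (p * |α - β|) ^ 3 ≤ (1 * |α - β|) ^ 3 := by gcongr
      _ = |α - β| ^ 3 := by ring
  have d1 : 3 / 8 * |α - μ| ^ 3 / s ^ 3 ≤ 81 * N ^ 6 * δ ^ 3 := by
    calc 3 / 8 * |α - μ| ^ 3 / s ^ 3 = 3 / 8 * |α - μ| ^ 3 * (1 / s ^ 3) := by ring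
      _ ≤ 3 / 8 * (216 * N ^ 3 * δ ^ 3) * N ^ 3 := by
          gcongr
          exact c1.trans hab3
      _ = 81 * N ^ 6 * δ ^ 3 := by ring
  have d2 : 3 / 8 * |β - μ| ^ 3 / s ^ 3 ≤ 81 * N ^ 6 * δ ^ 3 := by
    calc 3 / 8 * |β - μ| ^ 3 / s ^ 3 = 3 / 8 * |β - μ| ^ 3 * (1 / s ^ 3) := by ring
      _ ≤ 3 / 8 * (216 * N ^ 3 * δ ^ 3) * N ^ 3 := by
          gcongr
          exact c2.trans hab3
      _ = 81 * N ^ 6 * δ ^ 3 := by ring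
  have g1 : p * F α ≤ p * (F μ + 3 / 2 * s * (α - μ) + 3 / 8 * (α - μ) ^ 2 / s + 81 * N ^ 6 * δ ^ 3) := by
    apply mul_le_mul_of_nonneg_left _ hp
    linarith
  have g2 : q * F β ≤ q * (F μ + 3 / 2 * s * (β - μ) + 3 / 8 * (β - μ) ^ 2 / s + 81 * N ^ 6 * δ ^ 3) := by
    apply mul_le_mul_of_nonneg_left _ hq
    linarith
  have e : p * (F μ + 3 / 2 * s * (α - μ) + 3 / 8 * (α - μ) ^ 2 / s + 81 * N ^ 6 * δ ^ 3)
      + q * (F μ + 3 / 2 * s * (β - μ) + 3 / 8 * (β - μ) ^ 2 / s + 81 * N ^ 6 * δ ^ 3)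
      = F μ + 3 / 8 * (p * q * (α - β) ^ 2) / s + 81 * N ^ 6 * δ ^ 3 := by
    rw [ea, eb]
    have hq' : q = 1 - p := by linarith
    rw [hq']
    field_simp
    ring
  linarith [g1, g2, e]

lemma pq_le {p q : ℝ} (hpq : p + q = 1) : p * q ≤ 1 / 4 := by
  have : q = 1 - p := by linarith
  rw [this]
  nlinarith [sq_nonneg (p - (1 - p))]

lemma aux_div {N δ u w : ℝ} (hδ0 : 0 < δ) (huw : |2 * δ * u - 2 * δ * w| ≤ 4 * N * δ ^ 2) :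
    |w - u| ≤ 2 * N * δ := by
  have e : 2 * δ * u - 2 * δ * w = (2 * δ) * (u - w) := by ring
  rw [e, abs_mul, abs_of_pos (by positivity : 0 < 2 * δ), abs_sub_comm] at huw
  have h2 : 4 * N * δ ^ 2 = (2 * δ) * (2 * N * δ) := by ring
  rw [h2] at huw
  exact le_of_mul_le_mul_left huw (by positivity)

lemma aux_abs {N δ w u : ℝ} (hN : 1 ≤ N) (hδ0 : 0 < δ) (hδ1 : δ ≤ 1) (hw : |w| ≤ N)
    (h : |w - u| ≤ 2 * N * δ) : |u| ≤ 3 * N := by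
  have h1 : |u| ≤ |w| + |w - u| := by
    calc |u| = |w - (w - u)| := by ring_nf
      _ ≤ |w| + |w - u| := abs_sub _ _
  have h2 : 2 * N * δ ≤ 2 * N := by nlinarith
  linarith

/-- the `ε` term -/
lemma eps_bound {N δ ε t : ℝ} (hN : 1 ≤ N) (hδ0 : 0 < δ) (hδ1 : δ ≤ 1) (hε : 0 ≤ ε)
    (htN : |t| ≤ 4 * N ^ 2 * δ ^ 2) :
    ε * (1 + |t|) ^ 3 ≤ ε * (1 + 2000 * N ^ 11 * δ ^ 2) := by
  have hN0 : 0 < N := by linarith
  have hpow : ∀ a b : ℕ, a ≤ b → N ^ a ≤ N ^ b := fun a b hab => pow_le_pow_right₀ hN hab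
  apply mul_le_mul_of_nonneg_left _ hε
  have hδ2 : δ ^ 2 ≤ 1 := pow_le_one₀ hδ0.le hδ1
  have h1 : |t| ≤ 4 * N ^ 2 := by
    calc |t| ≤ 4 * N ^ 2 * δ ^ 2 := htN
      _ ≤ 4 * N ^ 2 * 1 := by gcongr
      _ = 4 * N ^ 2 := by ring
  have h2 : |t| ^ 2 ≤ 16 * N ^ 4 := by
    calc |t| ^ 2 ≤ (4 * N ^ 2) ^ 2 := by gcongr
      _ = 16 * N ^ 4 := by ring
  have a1 := hpow 2 11 (by norm_num)
  have a2 := hpow 4 11 (by norm_num)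
  have a3 := hpow 6 11 (by norm_num)
  have h0 : 0 ≤ N ^ 11 * δ ^ 2 := by positivity
  calc (1 + |t|) ^ 3 = 1 + |t| * (3 + 3 * |t| + |t| ^ 2) := by ring
    _ ≤ 1 + (4 * N ^ 2 * δ ^ 2) * (3 + 3 * (4 * N ^ 2) + 16 * N ^ 4) := by gcongr
    _ = 1 + (12 * N ^ 2 + 48 * N ^ 4 + 64 * N ^ 6) * δ ^ 2 := by ring
    _ ≤ 1 + (12 * N ^ 11 + 48 * N ^ 11 + 64 * N ^ 11) * δ ^ 2 := by gcongr
    _ = 1 + 124 * (N ^ 11 * δ ^ 2) := by ring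
    _ ≤ 1 + 2000 * (N ^ 11 * δ ^ 2) := by linarith only [h0]
    _ = 1 + 2000 * N ^ 11 * δ ^ 2 := by ring

/-- the bracket is nonpositive -/
lemma bracket {κ m h s t σ r : ℝ} (hκ0 : 0 ≤ κ) (hκ1 : κ ≤ 1) (hs : 0 < s) (hσ0 : 0 ≤ σ)
    (hr : r = (-1 + κ ^ 2 / 2) * m + κ / 4 * h / s) (ht : t = σ * r) :
    3 * κ * s * (σ * m ^ 2) + 3 / 4 * κ * (σ * h ^ 2) / s + 6 * κ * s * m * t - 3 * t * h
      - 3 * σ * m * h ≤ 0 := by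
  have hkey := key_identity κ m h s hs.ne'
  have e : 3 * κ * s * (σ * m ^ 2) + 3 / 4 * κ * (σ * h ^ 2) / s + 6 * κ * s * m * t - 3 * t * h
    - 3 * σ * m * h = σ * (3 * κ * s * m ^ 2 + 3 / 4 * κ * h ^ 2 / s
    + 6 * κ * ((-1 + κ ^ 2 / 2) * m + κ / 4 * h / s) * s * m
    - 3 * ((-1 + κ ^ 2 / 2) * m + κ / 4 * h / s) * h - 3 * m * h) := by
    rw [ht, hr]; ring
  rw [e, hkey]
  have h1 : 0 ≤ 1 - κ ^ 2 := by nlinarith
  have h2 : 0 ≤ 3 * κ * (1 - κ ^ 2) * s * m ^ 2 := by positivity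
  have h3 := mul_nonneg hσ0 h2
  linarith only [h3]

/-- the cubic term -/
lemma cubic_bound {N δ p q D m : ℝ} (hN : 1 ≤ N) (hδ0 : 0 < δ)
    (hp : 0 ≤ p) (hq : 0 ≤ q) (hpq : p + q = 1) (hm : D = 2 * δ * m) (hmN : |m| ≤ 3 * N) :
    (q - p) * (p * q) * D ^ 3 ≤ 54 * N ^ 3 * δ ^ 3 := by
  have hpq0 : 0 ≤ p * q := mul_nonneg hp hq
  have hpq4 : p * q ≤ 1 / 4 := by nlinarith [sq_nonneg (p - q)]
  have hqp : |q - p| ≤ 1 := by rw [abs_le]; constructor <;> linarith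
  calc (q - p) * (p * q) * D ^ 3 ≤ |(q - p) * (p * q) * D ^ 3| := le_abs_self _
    _ = |q - p| * (p * q) * (8 * δ ^ 3 * |m| ^ 3) := by
        rw [abs_mul, abs_mul, abs_of_nonneg hpq0, hm, abs_pow, abs_mul,
          abs_of_pos (by positivity : 0 < 2 * δ)]
        ring
    _ ≤ 1 * (1 / 4) * (8 * δ ^ 3 * (3 * N) ^ 3) := by gcongr
    _ = 54 * N ^ 3 * δ ^ 3 := by ring

lemma r_bound {N κ m h s : ℝ} (hN : 1 ≤ N) (hκ0 : 0 ≤ κ) (hκ1 : κ ≤ 1) (hs : 0 < s)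
    (hmN : |m| ≤ 3 * N) (hhN : |h| ≤ 3 * N) (hinv : 1 / s ≤ N) :
    |(-1 + κ ^ 2 / 2) * m + κ / 4 * h / s| ≤ 4 * N ^ 2 := by
  have hN0 : 0 < N := by linarith
  have hk2 : |(-1 + κ ^ 2 / 2 : ℝ)| ≤ 1 := by
    rw [abs_le]; constructor <;> nlinarith
  calc |(-1 + κ ^ 2 / 2) * m + κ / 4 * h / s|
      ≤ |(-1 + κ ^ 2 / 2) * m| + |κ / 4 * h / s| := abs_add_le _ _
    _ = |(-1 + κ ^ 2 / 2 : ℝ)| * |m| + κ / 4 * |h| * (1 / s) := by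
        rw [abs_mul, abs_div, abs_mul, abs_of_nonneg (by positivity : 0 ≤ κ / 4), abs_of_pos hs]
        ring
    _ ≤ 1 * (3 * N) + 1 / 4 * (3 * N) * N := by gcongr
    _ ≤ 4 * N ^ 2 := by nlinarith

lemma sqrt_dist {N δ γ μ : ℝ} (hN : 1 ≤ N) (hδ0 : 0 < δ) (hγ : 0 < γ) (hμ : 0 < μ)
    (hsN' : 1 ≤ N * √μ) (hγμ : |γ - μ| ≤ 6 * N * δ) : |√γ - √μ| ≤ 6 * N ^ 2 * δ := by
  have hN0 : 0 < N := by linarith
  have h1 : √γ ^ 2 = γ := Real.sq_sqrt hγ.le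
  have hss : √μ ^ 2 = μ := Real.sq_sqrt hμ.le
  have hg : 0 ≤ √γ := Real.sqrt_nonneg _
  have hs : 0 < √μ := Real.sqrt_pos.2 hμ
  have e : γ - μ = (√γ - √μ) * (√γ + √μ) := by
    calc γ - μ = √γ ^ 2 - √μ ^ 2 := by rw [h1, hss]
      _ = (√γ - √μ) * (√γ + √μ) := by ring
  rw [e, abs_mul, abs_of_pos (by positivity : 0 < √γ + √μ)] at hγμ
  have h2 : |√γ - √μ| * √μ ≤ 6 * N * δ := by
    calc |√γ - √μ| * √μ ≤ |√γ - √μ| * (√γ + √μ) := by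
          apply mul_le_mul_of_nonneg_left _ (abs_nonneg _)
          linarith
      _ ≤ 6 * N * δ := hγμ
  calc |√γ - √μ| = |√γ - √μ| * 1 := by ring
    _ ≤ |√γ - √μ| * (N * √μ) := by gcongr
    _ = N * (|√γ - √μ| * √μ) := by ring
    _ ≤ N * (6 * N * δ) := by gcongr
    _ = 6 * N ^ 2 * δ := by ring

lemma sqrt_mem {N α : ℝ} (hN : 1 ≤ N) (hα : 0 < α) (hαN : 1 ≤ N * √α) (hαN' : √α ≤ N) :
    1 / N ^ 2 ≤ α ∧ α ≤ N ^ 2 := by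
  have hN0 : 0 < N := by linarith
  have hN2 : 0 < N ^ 2 := by positivity
  constructor
  · rw [div_le_iff₀ hN2]
    calc (1 : ℝ) = 1 ^ 2 := by norm_num
      _ ≤ (N * √α) ^ 2 := by gcongr
      _ = α * N ^ 2 := by rw [mul_pow, Real.sq_sqrt hα.le]; ring
  · calc α = √α ^ 2 := (Real.sq_sqrt hα.le).symm
      _ ≤ N ^ 2 := by gcongr

lemma sqrt_mem' {N μ : ℝ} (hN : 1 ≤ N) (hμge : 1 / N ^ 2 ≤ μ) (hμle : μ ≤ N ^ 2) :
    0 < μ ∧ √μ ≤ N ∧ 1 ≤ N * √μ ∧ 1 / √μ ≤ N := by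
  have hN0 : 0 < N := by linarith
  have hμ : 0 < μ := lt_of_lt_of_le (by positivity) hμge
  have hs : 0 < √μ := Real.sqrt_pos.2 hμ
  have h1 : √μ ≤ N := by
    calc √μ ≤ √(N ^ 2) := Real.sqrt_le_sqrt hμle
      _ = N := Real.sqrt_sq hN0.le
  have h2 : 1 / N ≤ √μ := by
    calc (1 : ℝ) / N = √((1 / N) ^ 2) := (Real.sqrt_sq (by positivity)).symm
      _ ≤ √μ := by
          apply Real.sqrt_le_sqrt
          rw [div_pow, one_pow]; exact hμge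
  have h3 : 1 ≤ N * √μ := by
    rw [div_le_iff₀ hN0] at h2
    linarith
  refine ⟨hμ, h1, h3, ?_⟩
  rw [div_le_iff₀ hs]; exact h3

/-- the step after the change of variables `D = 2δm`, `α - β = 2δh`, `s = √μ`, `t = σ r` -/
lemma sc_core {N κ δ ε p q α β D A3 B3 m h s μ t σ r : ℝ}
    (hN : 1 ≤ N) (hκ0 : 0 ≤ κ) (hκ1 : κ ≤ 1) (hδ0 : 0 < δ) (hδ1 : δ ≤ 1) (hε : 0 ≤ ε)
    (hp : 0 ≤ p) (hq : 0 ≤ q) (hpq : p + q = 1) (hμ : 0 ≤ μ) (hs : 0 < s) (hsdef : s = √μ)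
    (hm : D = 2 * δ * m) (hh : α - β = 2 * δ * h) (hmN : |m| ≤ 3 * N)
    (hpq0 : 0 ≤ p * q) (hpq4 : p * q ≤ 1 / 4) (hσ : σ = 4 * (p * q) * δ ^ 2) (hσ0 : 0 ≤ σ)
    (hr : r = (-1 + κ ^ 2 / 2) * m + κ / 4 * h / s) (ht : t = σ * r)
    (htN : |t| ≤ 4 * N ^ 2 * δ ^ 2)
    (hJ : p * F α + q * F β ≤ F μ + 3 / 8 * (p * q * (α - β) ^ 2) / s + 81 * N ^ 6 * δ ^ 3)
    (oA : A3 ≤ 2 * κ * F α + 6 * κ * s * m * t - 3 * t * h + ε * (1 + |t|) ^ 3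
      + 1528 * N ^ 11 * δ ^ 3)
    (oB : B3 ≤ 2 * κ * F β + 6 * κ * s * m * t - 3 * t * h + ε * (1 + |t|) ^ 3
      + 1528 * N ^ 11 * δ ^ 3) :
    p * A3 + q * B3 - 3 * (p * q) * D * (α - β) + (q - p) * (p * q) * D ^ 3
      ≤ 2 * κ * F (μ - p * q * D ^ 2)
        + ε * (1 + 2000 * N ^ 11 * δ ^ 2) + 2000 * N ^ 11 * δ ^ 3 := by
  have hN0 : 0 < N := by linarith
  have hpow : ∀ a b : ℕ, a ≤ b → N ^ a ≤ N ^ b := fun a b hab => pow_le_pow_right₀ hN hab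
  have hδ3 : 0 ≤ δ ^ 3 := by positivity
  have hq1 : q ≤ 1 := by linarith
  have hp1 : p ≤ 1 := by linarith
  -- average of the two
  have hav : p * A3 + q * B3 ≤ 2 * κ * (p * F α + q * F β) + 6 * κ * s * m * t - 3 * t * h
      + ε * (1 + |t|) ^ 3 + 1528 * N ^ 11 * δ ^ 3 := by
    have h1 := mul_le_mul_of_nonneg_left oA hp
    have h2 := mul_le_mul_of_nonneg_left oB hq
    have e : p * (2 * κ * F α + 6 * κ * s * m * t - 3 * t * h + ε * (1 + |t|) ^ 3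
        + 1528 * N ^ 11 * δ ^ 3) + q * (2 * κ * F β + 6 * κ * s * m * t - 3 * t * h
        + ε * (1 + |t|) ^ 3 + 1528 * N ^ 11 * δ ^ 3)
        = 2 * κ * (p * F α + q * F β) + (p + q) * (6 * κ * s * m * t - 3 * t * h
      + ε * (1 + |t|) ^ 3 + 1528 * N ^ 11 * δ ^ 3) := by ring
    rw [hpq] at e
    linarith
  -- Jensen and tangent
  have hJ' : 2 * κ * (p * F α + q * F β) ≤ 2 * κ * F μ + 3 / 4 * κ * (σ * h ^ 2) / s
      + 162 * N ^ 6 * δ ^ 3 := by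
    have e1 : p * q * (α - β) ^ 2 = σ * h ^ 2 := by rw [hh, hσ]; ring
    rw [e1] at hJ
    have h1 := mul_le_mul_of_nonneg_left hJ (by positivity : 0 ≤ 2 * κ)
    have e2 : 2 * κ * (F μ + 3 / 8 * (σ * h ^ 2) / s + 81 * N ^ 6 * δ ^ 3)
        = 2 * κ * F μ + 3 / 4 * κ * (σ * h ^ 2) / s + κ * (162 * N ^ 6 * δ ^ 3) := by ring
    have h2 : κ * (162 * N ^ 6 * δ ^ 3) ≤ 1 * (162 * N ^ 6 * δ ^ 3) := by gcongr
    linarith
  have hT : 2 * κ * F μ ≤ 2 * κ * F (μ - p * q * D ^ 2) + 3 * κ * s * (σ * m ^ 2) := by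
    have h0 := F_tangent (μ - p * q * D ^ 2) μ hμ
    rw [← hsdef] at h0
    have e1 : p * q * D ^ 2 = σ * m ^ 2 := by rw [hm, hσ]; ring
    rw [e1] at h0 ⊢
    have h1 := mul_le_mul_of_nonneg_left h0 (by positivity : 0 ≤ 2 * κ)
    have e2 : 2 * κ * (F μ + 3 / 2 * s * (μ - σ * m ^ 2 - μ))
        = 2 * κ * F μ - 3 * κ * s * (σ * m ^ 2) := by ring
    linarith
  have hC := cubic_bound hN hδ0 hp hq hpq hm hmN
  have hD : 3 * (p * q) * D * (α - β) = 3 * σ * m * h := by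
    rw [hm, hh, hσ]; ring
  have hEps := eps_bound (ε := ε) hN hδ0 hδ1 hε htN
  have hbr := bracket hκ0 hκ1 hs hσ0 hr ht
  have h6 := mul_le_mul_of_nonneg_right (hpow 6 11 (by norm_num)) hδ3
  have h3 := mul_le_mul_of_nonneg_right (hpow 3 11 (by norm_num)) hδ3
  have h11 : 0 ≤ N ^ 11 * δ ^ 3 := by positivity
  rw [hD]
  linarith only [hav, hJ', hT, hC, hEps, hbr, h6, h3, h11]

/-- THE SCALAR STEP (field `sc` of `StepStmt`), pure real numbers. -/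
theorem sc_scalar {N κ δ ε p q α β D A1 B1 A2 B2 A3 B3 Aee Bee Avee Bvee Aeee Beee : ℝ}
    (hN : 1 ≤ N) (hκ0 : 0 ≤ κ) (hκ1 : κ ≤ 1) (hδ0 : 0 < δ) (hδ1 : δ ≤ 1) (hε : 0 ≤ ε)
    (hp : 0 ≤ p) (hq : 0 ≤ q) (hpq : p + q = 1) (hα : 0 < α) (hβ : 0 < β)
    (hαN : 1 ≤ N * √α) (hβN : 1 ≤ N * √β) (hαN' : √α ≤ N) (hβN' : √β ≤ N)
    (hA1 : |A1| ≤ N) (hB1 : |B1| ≤ N) (hA2 : |A2| ≤ N) (hB2 : |B2| ≤ N)
    (hAee : |Aee| ≤ N) (hBee : |Bee| ≤ N) (hAvee : |Avee| ≤ N) (hBvee : |Bvee| ≤ N)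
    (hAeee : |Aeee| ≤ N) (hBeee : |Beee| ≤ N)
    (hDA : |D - 2 * δ * A1| ≤ 4 * N * δ ^ 2) (hDB : |D - 2 * δ * B1| ≤ 4 * N * δ ^ 2)
    (hqA : |α - β - 2 * δ * A2| ≤ 4 * N * δ ^ 2) (hqB : |α - β - 2 * δ * B2| ≤ 4 * N * δ ^ 2)
    (posA : ∀ t : ℝ, 0 ≤ α + 2 * t * A1 + t ^ 2 * Aee)
    (posB : ∀ t : ℝ, 0 ≤ β + 2 * t * B1 + t ^ 2 * Bee)
    (hA : ∀ t : ℝ, A3 + 3 * t * A2 + 3 * t ^ 2 * Avee + t ^ 3 * Aeee
      ≤ 2 * κ * F (α + 2 * t * A1 + t ^ 2 * Aee) + ε * (1 + |t|) ^ 3)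
    (hB : ∀ t : ℝ, B3 + 3 * t * B2 + 3 * t ^ 2 * Bvee + t ^ 3 * Beee
      ≤ 2 * κ * F (β + 2 * t * B1 + t ^ 2 * Bee) + ε * (1 + |t|) ^ 3) :
    p * A3 + q * B3 - 3 * (p * q) * D * (α - β) + (q - p) * (p * q) * D ^ 3
      ≤ 2 * κ * F (p * α + q * β - p * q * D ^ 2)
        + ε * (1 + 2000 * N ^ 11 * δ ^ 2) + 2000 * N ^ 11 * δ ^ 3 := by
  have hN0 : 0 < N := by linarith
  have hpow : ∀ a b : ℕ, a ≤ b → N ^ a ≤ N ^ b := fun a b hab => pow_le_pow_right₀ hN hab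
  have hδ3 : 0 ≤ δ ^ 3 := by positivity
  have hq1 : q ≤ 1 := by linarith
  have hp1 : p ≤ 1 := by linarith
  have hsα : 0 < √α := Real.sqrt_pos.2 hα
  have hsβ : 0 < √β := Real.sqrt_pos.2 hβ
  -- m and h
  obtain ⟨m, hm⟩ : ∃ m, D = 2 * δ * m := ⟨D / (2 * δ), by field_simp⟩
  obtain ⟨h, hh⟩ : ∃ h, α - β = 2 * δ * h := ⟨(α - β) / (2 * δ), by field_simp⟩
  have hAm : |A1 - m| ≤ 2 * N * δ := aux_div hδ0 (by rw [← hm]; exact hDA)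
  have hBm : |B1 - m| ≤ 2 * N * δ := aux_div hδ0 (by rw [← hm]; exact hDB)
  have hAh : |A2 - h| ≤ 2 * N * δ := aux_div hδ0 (by rw [← hh]; exact hqA)
  have hBh : |B2 - h| ≤ 2 * N * δ := aux_div hδ0 (by rw [← hh]; exact hqB)
  have hmN : |m| ≤ 3 * N := aux_abs hN hδ0 hδ1 hA1 hAm
  have hhN : |h| ≤ 3 * N := aux_abs hN hδ0 hδ1 hA2 hAh
  have hab : |α - β| ≤ 6 * N * δ := by
    rw [hh, abs_mul, abs_of_pos (by positivity : 0 < 2 * δ)]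
    calc 2 * δ * |h| ≤ 2 * δ * (3 * N) := by gcongr
      _ = 6 * N * δ := by ring
  -- mu, s
  set μ := p * α + q * β with hμdef
  obtain ⟨hαge, hαle⟩ := sqrt_mem hN hα hαN hαN'
  obtain ⟨hβge, hβle⟩ := sqrt_mem hN hβ hβN hβN'
  have hμge : 1 / N ^ 2 ≤ μ := by
    calc 1 / N ^ 2 = p * (1 / N ^ 2) + q * (1 / N ^ 2) := by rw [← add_mul, hpq, one_mul]
      _ ≤ p * α + q * β := by gcongr
  have hμle : μ ≤ N ^ 2 := by
    calc p * α + q * β ≤ p * N ^ 2 + q * N ^ 2 := by gcongr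
      _ = N ^ 2 := by rw [← add_mul, hpq, one_mul]
  obtain ⟨hμ, hsN, hsN', hinv⟩ := sqrt_mem' hN hμge hμle
  have hs : 0 < √μ := Real.sqrt_pos.2 hμ
  have hJ := jensen_defect (N := N) (δ := δ) (p := p) (q := q) (α := α) (β := β) hN hδ0 hp hq hpq
    hα hβ (by rw [← hμdef]; exact hsN') hab
  rw [← hμdef] at hJ
  have hαs : |√α - √μ| ≤ 6 * N ^ 2 * δ := by
    apply sqrt_dist hN hδ0 hα hμ hsN'
    have ea : α - μ = q * (α - β) := by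
      rw [hμdef]
      have : p = 1 - q := by linarith
      rw [this]; ring
    rw [ea, abs_mul, abs_of_nonneg hq]
    calc q * |α - β| ≤ 1 * (6 * N * δ) := by gcongr
      _ = 6 * N * δ := by ring
  have hβs : |√β - √μ| ≤ 6 * N ^ 2 * δ := by
    apply sqrt_dist hN hδ0 hβ hμ hsN'
    have eb : β - μ = -(p * (α - β)) := by
      rw [hμdef]
      have : q = 1 - p := by linarith
      rw [this]; ring
    rw [eb, abs_neg, abs_mul, abs_of_nonneg hp]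
    calc p * |α - β| ≤ 1 * (6 * N * δ) := by gcongr
      _ = 6 * N * δ := by ring
  -- sigma, r, t
  have hpq4 : p * q ≤ 1 / 4 := pq_le hpq
  have hpq0 : 0 ≤ p * q := mul_nonneg hp hq
  obtain ⟨σ, hσ⟩ : ∃ σ, σ = 4 * (p * q) * δ ^ 2 := ⟨_, rfl⟩
  have hσ0 : 0 ≤ σ := by rw [hσ]; positivity
  have hσ1 : σ ≤ δ ^ 2 := by
    rw [hσ]
    calc 4 * (p * q) * δ ^ 2 ≤ 4 * (1 / 4) * δ ^ 2 := by gcongr
      _ = δ ^ 2 := by ring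
  obtain ⟨r, hr⟩ : ∃ r, r = (-1 + κ ^ 2 / 2) * m + κ / 4 * h / √μ := ⟨_, rfl⟩
  have hrN : |r| ≤ 4 * N ^ 2 := by
    rw [hr]; exact r_bound hN hκ0 hκ1 hs hmN hhN hinv
  obtain ⟨t, ht⟩ : ∃ t, t = σ * r := ⟨_, rfl⟩
  have htN : |t| ≤ 4 * N ^ 2 * δ ^ 2 := by
    rw [ht, abs_mul, abs_of_nonneg hσ0]
    calc σ * |r| ≤ δ ^ 2 * (4 * N ^ 2) := by gcongr
      _ = 4 * N ^ 2 * δ ^ 2 := by ring
  have oA := one_side (ε := ε) hN hκ0 hκ1 hδ0 hδ1 hα hαN hαN' hs.le hsN hαs hA1 hAm hAh hAee hAvee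
    hAeee htN (posA t) (hA t)
  have oB := one_side (ε := ε) hN hκ0 hκ1 hδ0 hδ1 hβ hβN hβN' hs.le hsN hβs hB1 hBm hBh hBee hBvee
    hBeee htN (posB t) (hB t)
  exact sc_core hN hκ0 hκ1 hδ0 hδ1 hε hp hq hpq hμ.le hs rfl hm hh hmN hpq0 hpq4 hσ hσ0 hr ht htN
    hJ oA oB

end Vale.Agent.P227.M.SC.Sc866
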