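import Mathlib

/-! # P227/M/SC (static line of note 10898): binary cubic forms, (A1) and (A2). helper96 -/

namespace Vale.Agent.P227.M.SC.St96A

lemma rpow_three_half {X : ℝ} (hX : 0 ≤ X) : X ^ ((3 : ℝ) / 2) = Real.sqrt X ^ 3 := by
  rw [Real.sqrt_eq_rpow, ← Real.rpow_natCast, ← Real.rpow_mul hX]
  norm_num

/-- `(1+s)^{3/2} ≤ 1 + 3s/2 + s²`, `s ≥ -1` -/
lemma sqrt_cube_le {s : ℝ} (hs : -1 ≤ s) : Real.sqrt (1 + s) ^ 3 ≤ 1 + 3 / 2 * s + s ^ 2 := by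
  have h1 : Real.sqrt (1 + s) ^ 2 = 1 + s := Real.sq_sqrt (by linarith)
  set w := Real.sqrt (1 + s) with hw
  have h2 : s = w ^ 2 - 1 := by linarith
  have h3 : 0 ≤ w := Real.sqrt_nonneg _
  have h4 : 0 ≤ (w - 1) ^ 2 * (w ^ 2 + w + 1 / 2) := by positivity
  rw [h2]
  nlinarith [h4]

/-- `(5+4u)^{3/2} + (5-4u)^{3/2} ≤ 28`, `|u| ≤ 1` -/
lemma sum_28 {u : ℝ} (hu : |u| ≤ 1) :
    Real.sqrt (5 + 4 * u) ^ 3 + Real.sqrt (5 - 4 * u) ^ 3 ≤ 28 := by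
  obtain ⟨h1, h2⟩ := abs_le.mp hu
  have key : ∀ X : ℝ, 1 ≤ X → X ≤ 9 → Real.sqrt X ^ 3 ≤ 3.25 * X - 2.25 := by
    intro X hX1 hX2
    have e1 : Real.sqrt X ^ 2 = X := Real.sq_sqrt (by linarith)
    have e2 : 1 ≤ Real.sqrt X := by
      rw [show (1 : ℝ) = Real.sqrt 1 by simp]
      exact Real.sqrt_le_sqrt hX1
    have e3 : Real.sqrt X ≤ 3 := by
      rw [show (3 : ℝ) = Real.sqrt 9 by
        rw [show (9 : ℝ) = 3 ^ 2 by norm_num]; simp]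
      exact Real.sqrt_le_sqrt hX2
    set p := Real.sqrt X with hp
    have e4 : 0 ≤ (p - 1) * (3 - p) * (p + 0.75) :=
      mul_nonneg (mul_nonneg (by linarith) (by linarith)) (by linarith)
    rw [← e1]
    nlinarith [e4]
  have k1 := key (5 + 4 * u) (by linarith) (by linarith)
  have k2 := key (5 - 4 * u) (by linarith) (by linarith)
  linarith

/-- normalised form of (A1) -/
lemma a1_norm {a0 a1 a2 a3 c u : ℝ} (hc : 0 ≤ c) (hu : |u| ≤ 1)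
    (H : ∀ t : ℝ, |a0 + 3 * t * a1 + 3 * t ^ 2 * a2 + t ^ 3 * a3| ≤
      2 * c * Real.sqrt (1 + 2 * t * u + t ^ 2) ^ 3) :
    |a2| ≤ 5 / 4 * (2 * c) := by
  have h0 := H 0
  have hp := H 2
  have hm := H (-2)
  have e0 : (1 : ℝ) + 2 * 0 * u + 0 ^ 2 = 1 := by ring
  rw [e0, Real.sqrt_one] at h0
  have ep : (1 : ℝ) + 2 * 2 * u + 2 ^ 2 = 5 + 4 * u := by ring
  have em : (1 : ℝ) + 2 * (-2) * u + (-2) ^ 2 = 5 - 4 * u := by ring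
  rw [ep] at hp
  rw [em] at hm
  have hs := sum_28 hu
  have hs' : 2 * c * (Real.sqrt (5 + 4 * u) ^ 3 + Real.sqrt (5 - 4 * u) ^ 3) ≤ 2 * c * 28 :=
    mul_le_mul_of_nonneg_left hs (by linarith)
  rw [abs_le] at h0 hp hm ⊢
  constructor <;> nlinarith [h0.1, h0.2, hp.1, hp.2, hm.1, hm.2]

/-- normalised form of (A2) -/
lemma a2_norm {a0 a1 a2 a3 c u θ : ℝ} (hc : 0 ≤ c) (hu : |u| ≤ 1) (hθ0 : 0 ≤ θ) (hθ2 : θ ≤ 2)
    (h0 : a0 = 2 * c * (1 - θ)) (h3 : |a3| ≤ 2 * c)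
    (H : ∀ t : ℝ, |a0 + 3 * t * a1 + 3 * t ^ 2 * a2 + t ^ 3 * a3| ≤
      2 * c * Real.sqrt (1 + 2 * t * u + t ^ 2) ^ 3) :
    |a1 - 2 * c * u| ≤ 13 * c * Real.sqrt θ := by
  have h2 := a1_norm hc hu H
  obtain ⟨u1, u2⟩ := abs_le.mp hu
  -- one-sided inequality
  have one : ∀ t : ℝ, 3 * t * (a1 - 2 * c * u) ≤
      2 * c * (θ + t ^ 2 * (5.25 + (2 + |t|) ^ 2 + |t|)) := by
    intro t
    have hs : -1 ≤ 2 * t * u + t ^ 2 := by nlinarith [sq_nonneg (t + u), sq_nonneg u]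
    have h4 := H t
    have h5 := sqrt_cube_le hs
    rw [show (1 : ℝ) + (2 * t * u + t ^ 2) = 1 + 2 * t * u + t ^ 2 by ring] at h5
    have h6 : a0 + 3 * t * a1 + 3 * t ^ 2 * a2 + t ^ 3 * a3 ≤
        2 * c * (1 + 3 / 2 * (2 * t * u + t ^ 2) + (2 * t * u + t ^ 2) ^ 2) :=
      (le_abs_self _).trans (h4.trans (mul_le_mul_of_nonneg_left h5 (by linarith)))
    have h7 : (2 * t * u + t ^ 2) ^ 2 ≤ t ^ 2 * (2 + |t|) ^ 2 := by
      have : |2 * t * u + t ^ 2| ≤ |t| * (2 + |t|) := by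
        calc |2 * t * u + t ^ 2| ≤ |2 * t * u| + |t ^ 2| := abs_add_le _ _
          _ = 2 * |t| * |u| + |t| ^ 2 := by
            rw [abs_mul, abs_mul, abs_pow]; norm_num
          _ ≤ 2 * |t| * 1 + |t| ^ 2 := by gcongr
          _ = |t| * (2 + |t|) := by ring
      calc (2 * t * u + t ^ 2) ^ 2 = |2 * t * u + t ^ 2| ^ 2 := (sq_abs _).symm
        _ ≤ (|t| * (2 + |t|)) ^ 2 := by gcongr
        _ = t ^ 2 * (2 + |t|) ^ 2 := by rw [mul_pow, sq_abs]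
    have h8 : -(3 * t ^ 2 * a2) ≤ 3 * t ^ 2 * (5 / 4 * (2 * c)) := by
      have := (abs_le.mp h2).1
      nlinarith [sq_nonneg t]
    have h9 : -(t ^ 3 * a3) ≤ |t| * t ^ 2 * (2 * c) := by
      calc -(t ^ 3 * a3) ≤ |t ^ 3 * a3| := neg_le_abs _
        _ = |t| * t ^ 2 * |a3| := by
          rw [abs_mul, abs_pow, ← sq_abs t]; ring
        _ ≤ |t| * t ^ 2 * (2 * c) := by gcongr
    have h10 : 2 * c * (2 * t * u + t ^ 2) ^ 2 ≤ 2 * c * (t ^ 2 * (2 + |t|) ^ 2) :=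
      mul_le_mul_of_nonneg_left h7 (by linarith)
    rw [h0] at h6
    nlinarith [h6, h8, h9, h10]
  have two : ∀ t : ℝ, 0 ≤ t → 3 * t * |a1 - 2 * c * u| ≤
      2 * c * (θ + t ^ 2 * (5.25 + (2 + t) ^ 2 + t)) := by
    intro t ht
    have p1 := one t
    have p2 := one (-t)
    rw [abs_neg, abs_of_nonneg ht, neg_sq] at p2
    rw [abs_of_nonneg ht] at p1
    rcases abs_cases (a1 - 2 * c * u) with ⟨h, _⟩ | ⟨h, _⟩
    · rw [h]; exact p1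
    · rw [h]; linarith
  rcases eq_or_lt_of_le hθ0 with h | h
  · -- θ = 0
    rw [← h, Real.sqrt_zero, mul_zero]
    by_contra hne
    push Not at hne
    set Δ := |a1 - 2 * c * u| with hΔ
    -- for t in (0,1] : 3 t Δ ≤ 2c t² 15.25
    have : ∀ t : ℝ, 0 < t → t ≤ 1 → Δ ≤ 11 * c * t := by
      intro t ht ht1
      have p := two t ht.le
      rw [← h] at p
      have q1 : (5.25 : ℝ) + (2 + t) ^ 2 + t ≤ 15.25 := by nlinarith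
      have q2 : 2 * c * (0 + t ^ 2 * (5.25 + (2 + t) ^ 2 + t)) ≤ 2 * c * (t ^ 2 * 15.25) := by
        rw [zero_add]
        gcongr
      have q3 : t * (3 * Δ) ≤ t * (2 * c * (t * 15.25)) := by nlinarith [p, q2]
      have q4 := le_of_mul_le_mul_left q3 ht
      nlinarith [mul_nonneg hc ht.le]
    by_cases hc0 : c = 0
    · have := this 1 one_pos le_rfl
      rw [hc0] at this
      linarith
    · have hcp : 0 < c := lt_of_le_of_ne hc (Ne.symm hc0)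
      have ht : 0 < min 1 (Δ / (22 * c)) := lt_min one_pos (by positivity)
      have := this _ ht (min_le_left _ _)
      have h2' : min 1 (Δ / (22 * c)) ≤ Δ / (22 * c) := min_le_right _ _
      have h3' : 11 * c * min 1 (Δ / (22 * c)) ≤ 11 * c * (Δ / (22 * c)) := by gcongr
      have h4' : 11 * c * (Δ / (22 * c)) = Δ / 2 := by field_simp; norm_num
      linarith
  · have ht : 0 < Real.sqrt θ := Real.sqrt_pos.mpr h
    have hsq : Real.sqrt θ ^ 2 = θ := Real.sq_sqrt hθ0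
    have p := two _ ht.le
    set t := Real.sqrt θ with htdef
    have ht2 : t ≤ 1.4143 := by
      by_contra hlt
      push Not at hlt
      nlinarith
    have q1 : (5.25 : ℝ) + (2 + t) ^ 2 + t ≤ 18.4 := by nlinarith
    have q2 : 2 * c * (θ + t ^ 2 * (5.25 + (2 + t) ^ 2 + t)) ≤ 2 * c * (t ^ 2 * 19.4) := by
      have : θ + t ^ 2 * (5.25 + (2 + t) ^ 2 + t) ≤ t ^ 2 * 19.4 := by
        rw [← hsq]
        nlinarith [mul_le_mul_of_nonneg_left q1 (sq_nonneg t)]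
      exact mul_le_mul_of_nonneg_left this (by linarith)
    have q3 : t * (3 * |a1 - 2 * c * u|) ≤ t * (2 * c * (t * 19.4)) := by nlinarith [p, q2]
    have q4 := le_of_mul_le_mul_left q3 ht
    nlinarith [mul_nonneg hc ht.le]

/-- data of the binary forms at a point: `Q(x,y) = B x² + 2P x y + R y²`,
`D(x,y) = d0 x³ + 3 d1 x² y + 3 d2 x y² + d3 y³`, `|D| ≤ 2c Q^{3/2}`. -/
theorem forms {B P R d0 d1 d2 d3 c q Y : ℝ} (hR : 0 < R) (hY : 0 < Y)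
    (hX : Y ^ 2 = B + 2 * q * P + q ^ 2 * R) (hPBR : P ^ 2 ≤ B * R)
    (H : ∀ x y : ℝ, |d0 * x ^ 3 + 3 * d1 * x ^ 2 * y + 3 * d2 * x * y ^ 2 + d3 * y ^ 3| ≤
      2 * c * (B * x ^ 2 + 2 * P * x * y + R * y ^ 2) ^ ((3 : ℝ) / 2)) :
    |(P + q * R) / (Y * Real.sqrt R)| ≤ 1 ∧ |d3 / Real.sqrt R ^ 3| ≤ 2 * c ∧
    ∀ t : ℝ, |(d0 + 3 * d1 * q + 3 * d2 * q ^ 2 + d3 * q ^ 3) / Y ^ 3
        + 3 * t * ((d1 + 2 * q * d2 + q ^ 2 * d3) / (Y ^ 2 * Real.sqrt R))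
        + 3 * t ^ 2 * ((d2 + q * d3) / (Y * R)) + t ^ 3 * (d3 / Real.sqrt R ^ 3)| ≤
      2 * c * Real.sqrt (1 + 2 * t * ((P + q * R) / (Y * Real.sqrt R)) + t ^ 2) ^ 3 := by
  have hw : 0 < Real.sqrt R := Real.sqrt_pos.mpr hR
  have hw2 : Real.sqrt R ^ 2 = R := Real.sq_sqrt hR.le
  set w := Real.sqrt R with hwdef
  refine ⟨?_, ?_, ?_⟩
  · rw [abs_div, abs_of_pos (mul_pos hY hw), div_le_one (mul_pos hY hw)]
    apply abs_le_of_sq_le_sq _ (mul_pos hY hw).le |> id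
    rw [mul_pow, hw2, hX]
    nlinarith
  · have h := H 0 1
    have e1 : d0 * 0 ^ 3 + 3 * d1 * 0 ^ 2 * 1 + 3 * d2 * 0 * 1 ^ 2 + d3 * 1 ^ 3 = d3 := by ring
    have e2 : B * 0 ^ 2 + 2 * P * 0 * 1 + R * 1 ^ 2 = R := by ring
    rw [e1, e2, rpow_three_half hR.le] at h
    rw [abs_div, abs_of_pos (pow_pos hw 3), div_le_iff₀ (pow_pos hw 3)]
    exact h
  · intro t
    have h := H 1 (q + t * Y / w)
    have hQ : B * 1 ^ 2 + 2 * P * 1 * (q + t * Y / w) + R * (q + t * Y / w) ^ 2 =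
        Y ^ 2 * (1 + 2 * t * ((P + q * R) / (Y * w)) + t ^ 2) := by
      rw [← hw2] at hX ⊢
      field_simp
      have : B = Y ^ 2 - 2 * q * P - q ^ 2 * w ^ 2 := by linarith
      rw [this]
      ring
    have hu : |(P + q * R) / (Y * w)| ≤ 1 := by
      rw [abs_div, abs_of_pos (mul_pos hY hw), div_le_one (mul_pos hY hw)]
      apply abs_le_of_sq_le_sq _ (mul_pos hY hw).le |> id
      rw [mul_pow, hw2, hX]
      nlinarith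
    have hpos : 0 ≤ 1 + 2 * t * ((P + q * R) / (Y * w)) + t ^ 2 := by
      obtain ⟨h1, h2⟩ := abs_le.mp hu
      set u := (P + q * R) / (Y * w)
      nlinarith [sq_nonneg (t + u)]
    rw [hQ, rpow_three_half (mul_nonneg (sq_nonneg Y) hpos),
      Real.sqrt_mul (sq_nonneg Y), Real.sqrt_sq hY.le, mul_pow] at h
    have hY3 : 0 < Y ^ 3 := pow_pos hY 3
    have hD : (d0 + 3 * d1 * q + 3 * d2 * q ^ 2 + d3 * q ^ 3) / Y ^ 3
        + 3 * t * ((d1 + 2 * q * d2 + q ^ 2 * d3) / (Y ^ 2 * w))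
        + 3 * t ^ 2 * ((d2 + q * d3) / (Y * R)) + t ^ 3 * (d3 / w ^ 3) =
        (d0 * 1 ^ 3 + 3 * d1 * 1 ^ 2 * (q + t * Y / w) + 3 * d2 * 1 * (q + t * Y / w) ^ 2
          + d3 * (q + t * Y / w) ^ 3) / Y ^ 3 := by
      rw [← hw2]
      field_simp
      ring
    rw [hD, abs_div, abs_of_pos hY3, div_le_iff₀ hY3]
    calc _ ≤ _ := h
      _ = _ := by ring

/-- (A1) of note 10898 -/
theorem A1 {B P R d0 d1 d2 d3 c q Y : ℝ} (hc : 0 ≤ c) (hR : 0 < R) (hY : 0 < Y)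
    (hX : Y ^ 2 = B + 2 * q * P + q ^ 2 * R) (hPBR : P ^ 2 ≤ B * R)
    (H : ∀ x y : ℝ, |d0 * x ^ 3 + 3 * d1 * x ^ 2 * y + 3 * d2 * x * y ^ 2 + d3 * y ^ 3| ≤
      2 * c * (B * x ^ 2 + 2 * P * x * y + R * y ^ 2) ^ ((3 : ℝ) / 2)) :
    |d2 + q * d3| ≤ 5 / 4 * (2 * c) * Y * R := by
  obtain ⟨h1, _, h3⟩ := forms hR hY hX hPBR H
  have h := a1_norm hc h1 h3
  have hYR : 0 < Y * R := mul_pos hY hR
  rw [abs_div, abs_of_pos hYR, div_le_iff₀ hYR] at h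
  linarith

/-- (A2) of note 10898 -/
theorem A2 {B P R d0 d1 d2 d3 c q Y θ : ℝ} (hc : 0 ≤ c) (hR : 0 < R) (hY : 0 < Y)
    (hX : Y ^ 2 = B + 2 * q * P + q ^ 2 * R) (hPBR : P ^ 2 ≤ B * R)
    (H : ∀ x y : ℝ, |d0 * x ^ 3 + 3 * d1 * x ^ 2 * y + 3 * d2 * x * y ^ 2 + d3 * y ^ 3| ≤
      2 * c * (B * x ^ 2 + 2 * P * x * y + R * y ^ 2) ^ ((3 : ℝ) / 2))
    (hθ0 : 0 ≤ θ) (hθ2 : θ ≤ 2)
    (hT : d0 + 3 * q * d1 + 3 * q ^ 2 * d2 + q ^ 3 * d3 = 2 * c * (1 - θ) * Y ^ 3) :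
    |(d1 + 2 * q * d2 + q ^ 2 * d3) - 2 * c * Y * (P + q * R)| ≤
      13 * c * Y ^ 2 * Real.sqrt (R * θ) := by
  obtain ⟨h1, h2, h3⟩ := forms hR hY hX hPBR H
  have hY3 : 0 < Y ^ 3 := pow_pos hY 3
  have h0 : (d0 + 3 * d1 * q + 3 * d2 * q ^ 2 + d3 * q ^ 3) / Y ^ 3 = 2 * c * (1 - θ) := by
    rw [div_eq_iff hY3.ne']
    linarith
  have h := a2_norm hc h1 hθ0 hθ2 h0 h2 h3
  have hw : 0 < Real.sqrt R := Real.sqrt_pos.mpr hR
  have hw2 : Real.sqrt R ^ 2 = R := Real.sq_sqrt hR.le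
  rw [Real.sqrt_mul hR.le]
  set w := Real.sqrt R with hwdef
  have e : (d1 + 2 * q * d2 + q ^ 2 * d3) / (Y ^ 2 * w) - 2 * c * ((P + q * R) / (Y * w)) =
      ((d1 + 2 * q * d2 + q ^ 2 * d3) - 2 * c * Y * (P + q * R)) / (Y ^ 2 * w) := by
    field_simp
  have hYw : 0 < Y ^ 2 * w := by positivity
  rw [e, abs_div, abs_of_pos hYw, div_le_iff₀ hYw] at h
  calc _ ≤ _ := h
    _ = _ := by ring

/-- the deficit `θ` exists: `T = 2c(1-θ)Y³` with `0 ≤ θ ≤ 2` (for `c > 0`) -/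
theorem theta {B P R d0 d1 d2 d3 c q Y : ℝ} (hc : 0 < c) (hR : 0 < R) (hY : 0 < Y)
    (hX : Y ^ 2 = B + 2 * q * P + q ^ 2 * R) (hPBR : P ^ 2 ≤ B * R)
    (H : ∀ x y : ℝ, |d0 * x ^ 3 + 3 * d1 * x ^ 2 * y + 3 * d2 * x * y ^ 2 + d3 * y ^ 3| ≤
      2 * c * (B * x ^ 2 + 2 * P * x * y + R * y ^ 2) ^ ((3 : ℝ) / 2)) :
    let θ := 1 - (d0 + 3 * q * d1 + 3 * q ^ 2 * d2 + q ^ 3 * d3) / (2 * c * Y ^ 3)
    0 ≤ θ ∧ θ ≤ 2 ∧ d0 + 3 * q * d1 + 3 * q ^ 2 * d2 + q ^ 3 * d3 = 2 * c * (1 - θ) * Y ^ 3 := by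
  intro θ
  have h := H 1 q
  have hQ : B * 1 ^ 2 + 2 * P * 1 * q + R * q ^ 2 = Y ^ 2 := by rw [hX]; ring
  rw [hQ, rpow_three_half (sq_nonneg Y), Real.sqrt_sq hY.le] at h
  have hD : d0 * 1 ^ 3 + 3 * d1 * 1 ^ 2 * q + 3 * d2 * 1 * q ^ 2 + d3 * q ^ 3 =
      d0 + 3 * q * d1 + 3 * q ^ 2 * d2 + q ^ 3 * d3 := by ring
  rw [hD, abs_le] at h
  have hp : 0 < 2 * c * Y ^ 3 := by positivity
  refine ⟨?_, ?_, ?_⟩
  · have : (d0 + 3 * q * d1 + 3 * q ^ 2 * d2 + q ^ 3 * d3) / (2 * c * Y ^ 3) ≤ 1 := by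
      rw [div_le_one hp]; exact h.2
    simp only [θ]; linarith
  · have : -1 ≤ (d0 + 3 * q * d1 + 3 * q ^ 2 * d2 + q ^ 3 * d3) / (2 * c * Y ^ 3) := by
      rw [le_div_iff₀ hp]; linarith [h.1]
    simp only [θ]; linarith
  · simp only [θ]
    field_simp
    ring

end Vale.Agent.P227.M.SC.St96A
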