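import Mathlib

/-! # P227/M/SC (static line of note 10898): END, pure real inequality. helper96

`mu² = w''`, `b1 = sup Y`, `S = |s|_2`, `s2 = S²`, `S4 = (E s⁴)^{1/2}`, `G = |X - E X|_2`,
`Δ = |X - mu²|_2`, `N = |X √θ|_2`, `Θ = E[θ Y³]`, `e3 = 2 E|s|³`. -/

namespace Vale.Agent.P227.M.SC.St96E

/-- `(Y-μ)²(2Y+μ) ≤ (Y²-μ²)²/μ` -/
lemma cube_dev {Y mu : ℝ} (hmu : 0 < mu) :
    (Y - mu) ^ 2 * (2 * Y + mu) ≤ (Y ^ 2 - mu ^ 2) ^ 2 / mu := by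
  rw [le_div_iff₀ hmu]
  have : (Y ^ 2 - mu ^ 2) ^ 2 - (Y - mu) ^ 2 * (2 * Y + mu) * mu = (Y - mu) ^ 2 * Y ^ 2 := by ring
  have h2 : 0 ≤ (Y - mu) ^ 2 * Y ^ 2 := by positivity
  linarith

/-- `|Y-μ| ≤ |Y²-μ²|/μ` -/
lemma lin_dev {Y mu : ℝ} (hY : 0 ≤ Y) (hmu : 0 < mu) : |Y - mu| ≤ |Y ^ 2 - mu ^ 2| / mu := by
  rw [le_div_iff₀ hmu]
  have h1 : Y ^ 2 - mu ^ 2 = (Y - mu) * (Y + mu) := by ring
  rw [h1, abs_mul, abs_of_pos (by linarith : 0 < Y + mu)]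
  exact mul_le_mul_of_nonneg_left (by linarith) (abs_nonneg _)

/-- `|Y-μ| Y ≤ |Y²-μ²|` (helper852) -/
lemma lin_dev' {Y mu : ℝ} (hY : 0 ≤ Y) (hmu : 0 < mu) : |Y - mu| * Y ≤ |Y ^ 2 - mu ^ 2| := by
  have h1 : Y ^ 2 - mu ^ 2 = (Y - mu) * (Y + mu) := by ring
  rw [h1, abs_mul, abs_of_pos (by linarith : 0 < Y + mu)]
  exact mul_le_mul_of_nonneg_left (by linarith) (abs_nonneg _)

/-- auxiliary -/
lemma sum_aux {x y Δ S4 : ℝ} (hx0 : 0 ≤ x) (hy0 : 0 ≤ y) (hΔ0 : 0 ≤ Δ) (hS40 : 0 ≤ S4)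
    (hΔ2 : Δ ≤ 9.05 * x + 16.25 * y) (hS42 : S4 ≤ 1.31 * x) :
    Δ ^ 2 + 2.55 * (Δ * S4) ≤ 222 * x ^ 2 + 556 * y ^ 2 := by
  have hD2 : Δ ^ 2 ≤ (9.05 * x + 16.25 * y) ^ 2 := pow_le_pow_left₀ hΔ0 hΔ2 2
  have hDS : Δ * S4 ≤ (9.05 * x + 16.25 * y) * (1.31 * x) :=
    mul_le_mul hΔ2 hS42 hS40 (hΔ0.trans hΔ2)
  clear hΔ2 hS42
  nlinarith [sq_nonneg (0.6 * x - y), sq_nonneg x, sq_nonneg y]

lemma coefA {cb mu : ℝ} (h0 : 0 ≤ cb) (h : 23 * cb ≤ mu) : 222 * cb ^ 2 ≤ 0.45 * mu ^ 2 := by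
  have h1 : (23 * cb) ^ 2 ≤ mu ^ 2 := pow_le_pow_left₀ (by linarith) h 2
  nlinarith [sq_nonneg cb]

lemma coefB {c b1 mu : ℝ} (hc : 0 ≤ c) (hcb : 0 ≤ c * b1) (hc23 : 23 * c ≤ 1)
    (hsmall : 23 * (c * b1) ≤ mu) : 556 * (c ^ 2 * b1) ≤ 2 * mu := by
  have h : (23 * c) * (23 * (c * b1)) ≤ 1 * mu :=
    mul_le_mul hc23 hsmall (by linarith) (by norm_num)
  nlinarith

/-- END. -/
theorem end_real {c mu b1 s2 S S4 G Δ N Θ m3 e3 : ℝ}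
    (hc : 0 ≤ c) (hmu : 0 < mu) (hb1 : mu ≤ b1) (hsmall : 23 * (c * b1) ≤ mu)
    (hS : 0 ≤ S) (hS2 : S ^ 2 = s2) (hS40 : 0 ≤ S4) (hG : 0 ≤ G) (hΔ0 : 0 ≤ Δ)
    (hN0 : 0 ≤ N) (hΘ : 0 ≤ Θ)
    (hS4 : S4 ≤ 1.31 * c * b1 * S) (hs2 : s2 ≤ S4)
    (hΔ : Δ ≤ G + s2)
    (hmain : G ≤ 3 * S4 + 2 * c * mu * S + 2 * c * Δ + 13 * c * N)
    (hN : N ^ 2 ≤ b1 * Θ)
    (hfin : 3 * c * mu * s2 - e3 + 2 * c * Θ - c / mu * Δ ^ 2 ≤ 2 * c * mu ^ 3 - m3)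
    (he3 : e3 ≤ 2.55 * c * (mu * s2 + 1 / mu * (Δ * S4))) :
    m3 ≤ 2 * c * mu ^ 3 := by
  have hb1p : 0 < b1 := lt_of_lt_of_le hmu hb1
  have hcb : 0 ≤ c * b1 := mul_nonneg hc hb1p.le
  -- `c ≤ 1/23`
  have hc23 : 23 * c ≤ 1 := by
    have : 23 * c * mu ≤ 1 * mu := by nlinarith [mul_le_mul_of_nonneg_left hb1 hc]
    exact le_of_mul_le_mul_right this hmu
  have hs20 : 0 ≤ s2 := by rw [← hS2]; positivity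
  -- bound for Δ
  have hcΔ : 2 * c * Δ ≤ (2 / 23) * Δ := by nlinarith
  have hΔ1 : Δ ≤ 9.05 * (c * b1) * S + 16.25 * c * N := by
    -- Δ ≤ G + S4, G ≤ 3 S4 + 2cμS + 2cΔ + 13cN
    have h1 : Δ * (1 - 2 / 23) ≤ 4 * S4 + 2 * c * mu * S + 13 * c * N := by linarith
    have h2 : c * mu * S ≤ c * b1 * S := by gcongr
    have h3 : 4 * S4 ≤ 5.24 * (c * b1) * S := by linarith
    have h4 : Δ * (21 / 23) ≤ 7.24 * (c * b1) * S + 13 * c * N := by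
      have : (1 : ℝ) - 2 / 23 = 21 / 23 := by norm_num
      rw [this] at h1
      linarith
    have h5 : 0 ≤ (c * b1) * S := mul_nonneg hcb hS
    have h6 : 0 ≤ c * N := mul_nonneg hc hN0
    nlinarith
  -- x = c b1 S, y = c N
  set x := c * b1 * S with hx
  set y := c * N with hy
  have hx0 : 0 ≤ x := mul_nonneg hcb hS
  have hy0 : 0 ≤ y := mul_nonneg hc hN0
  have hΔ2 : Δ ≤ 9.05 * x + 16.25 * y := by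
    rw [hx, hy]; linarith
  have hS42 : S4 ≤ 1.31 * x := by rw [hx]; linarith
  have hsum : Δ ^ 2 + 2.55 * (Δ * S4) ≤ 222 * x ^ 2 + 556 * y ^ 2 :=
    sum_aux hx0 hy0 hΔ0 hS40 hΔ2 hS42
  have hx2 : x ^ 2 = (c * b1) ^ 2 * s2 := by rw [hx, mul_pow, hS2]
  have hy2 : y ^ 2 ≤ c ^ 2 * (b1 * Θ) := by
    rw [hy, mul_pow]
    gcongr
  -- final
  have hA : 222 * x ^ 2 ≤ 0.45 * mu ^ 2 * s2 := by
    rw [hx2]
    have := coefA hcb hsmall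
    calc 222 * ((c * b1) ^ 2 * s2) = 222 * (c * b1) ^ 2 * s2 := by ring
      _ ≤ 0.45 * mu ^ 2 * s2 := by gcongr
  have hB : 556 * y ^ 2 ≤ 2 * mu * Θ := by
    have h1 := coefB hc hcb hc23 hsmall
    calc 556 * y ^ 2 ≤ 556 * (c ^ 2 * (b1 * Θ)) := by linarith
      _ = 556 * (c ^ 2 * b1) * Θ := by ring
      _ ≤ 2 * mu * Θ := by gcongr
  have hC : Δ ^ 2 + 2.55 * (Δ * S4) ≤ 0.45 * mu ^ 2 * s2 + 2 * mu * Θ := by linarith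
  -- divide by mu
  have hD : c / mu * (Δ ^ 2 + 2.55 * (Δ * S4)) ≤ c * (0.45 * mu * s2 + 2 * Θ) := by
    calc c / mu * (Δ ^ 2 + 2.55 * (Δ * S4)) ≤ c / mu * (0.45 * mu ^ 2 * s2 + 2 * mu * Θ) := by
          gcongr
      _ = c * (0.45 * mu * s2 + 2 * Θ) := by field_simp
  have hE : 2.55 * c * (1 / mu * (Δ * S4)) = c / mu * (2.55 * (Δ * S4)) := by ring
  have hF : c / mu * (Δ ^ 2 + 2.55 * (Δ * S4)) = c / mu * Δ ^ 2 + c / mu * (2.55 * (Δ * S4)) := by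
    ring
  have hG1 : 2.55 * c * (mu * s2 + 1 / mu * (Δ * S4)) =
      2.55 * c * mu * s2 + c / mu * (2.55 * (Δ * S4)) := by rw [← hE]; ring
  rw [hG1] at he3
  have hH : c * (0.45 * mu * s2 + 2 * Θ) = 0.45 * c * mu * s2 + 2 * c * Θ := by ring
  rw [hH] at hD
  have hI : 3 * c * mu * s2 = 2.55 * c * mu * s2 + 0.45 * c * mu * s2 := by ring
  linarith

end Vale.Agent.P227.M.SC.St96E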