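import Mathlib

/-! # P227/M/SC, static proof of the marginal lemma: pointwise algebra of binary cubic forms. -/

set_option linter.all false
set_option autoImplicit false

namespace Vale.Agent.P227.M.SC.St

/-- hypothesis: the cubic form is bounded by `2c Q^{3/2}` -/
def CubB (X κ W T R k w c : ℝ) : Prop := ∀ u v : ℝ,
  |u ^ 3 * T + 3 * u ^ 2 * v * R + 3 * u * v ^ 2 * k + v ^ 3 * w| ≤
    2 * c * ((u ^ 2 * X + 2 * u * v * κ + v ^ 2 * W) * √(u ^ 2 * X + 2 * u * v * κ + v ^ 2 * W))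

theorem cube_sum_le (p α β : ℝ) (hp : 0 ≤ p) (hα : 0 ≤ α) (hβ : 0 ≤ β) (h1 : α ^ 2 + β ^ 2 = 10 * p ^ 2)
    (h2 : 3 * p ^ 2 ≤ α * β) : α ^ 3 + β ^ 3 ≤ 28 * p ^ 3 := by
  have hm : α * β ≤ 5 * p ^ 2 := by nlinarith [sq_nonneg (α - β)]
  have e : α ^ 3 + β ^ 3 = (α + β) * (10 * p ^ 2 - α * β) := by rw [← h1]; ring
  rw [e]
  apply le_of_sq_le_sq _ (by positivity)
  have hs : (α + β) ^ 2 = 10 * p ^ 2 + 2 * (α * β) := by rw [← h1]; ring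
  rw [mul_pow, hs]
  set m := α * β
  have h3 : 0 ≤ m - 3 * p ^ 2 := by linarith
  have h4 : 0 ≤ 36 * p ^ 4 + 12 * p ^ 2 * m - m ^ 2 := by
    have hm0 : 0 ≤ m := mul_nonneg hα hβ
    nlinarith [mul_nonneg hm0 (by linarith : 0 ≤ 5 * p ^ 2 - m), pow_nonneg hp 4, mul_nonneg (sq_nonneg p) hm0]
  nlinarith [mul_nonneg h3 h4]

theorem alg_k {X κ W T R k w c : ℝ} (hX : 0 < X) (hW : 0 < W) (hc : 0 ≤ c) (hκ : κ ^ 2 ≤ X * W)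
    (H : CubB X κ W T R k w c) : |k| ≤ 5 / 2 * c * √X * W := by
  obtain ⟨Y, hY, rfl⟩ : ∃ Y : ℝ, 0 < Y ∧ X = Y ^ 2 := ⟨√X, Real.sqrt_pos.2 hX, (Real.sq_sqrt hX.le).symm⟩
  obtain ⟨ω, hω, rfl⟩ : ∃ Y : ℝ, 0 < Y ∧ W = Y ^ 2 := ⟨√W, Real.sqrt_pos.2 hW, (Real.sq_sqrt hW.le).symm⟩
  rw [Real.sqrt_sq hY.le]
  have hP : 0 < ω * Y := mul_pos hω hY
  have hκ1 : |κ| ≤ ω * Y := abs_le_of_sq_le_sq (by nlinarith) hP.le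
  obtain ⟨hκ2, hκ3⟩ := abs_le.1 hκ1
  have H1 := H ω (2 * Y)
  have H2 := H ω (-(2 * Y))
  have H3 := H ω 0
  have hq3 : ω ^ 2 * Y ^ 2 + 2 * ω * 0 * κ + 0 ^ 2 * ω ^ 2 = (ω * Y) ^ 2 := by ring
  rw [hq3, Real.sqrt_sq hP.le] at H3
  set Qp := ω ^ 2 * Y ^ 2 + 2 * ω * (2 * Y) * κ + (2 * Y) ^ 2 * ω ^ 2 with hQp
  set Qm := ω ^ 2 * Y ^ 2 + 2 * ω * (-(2 * Y)) * κ + (-(2 * Y)) ^ 2 * ω ^ 2 with hQm
  have hQp0 : 0 ≤ Qp := by rw [hQp]; nlinarith [mul_pos hω hY]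
  have hQm0 : 0 ≤ Qm := by rw [hQm]; nlinarith [mul_pos hω hY]
  have hα := Real.sqrt_nonneg Qp
  have hβ := Real.sqrt_nonneg Qm
  have hα2 := Real.sq_sqrt hQp0
  have hβ2 := Real.sq_sqrt hQm0
  have hsum : √Qp ^ 2 + √Qm ^ 2 = 10 * (ω * Y) ^ 2 := by rw [hα2, hβ2, hQp, hQm]; ring
  have hprod : 3 * (ω * Y) ^ 2 ≤ √Qp * √Qm := by
    rw [← Real.sqrt_mul hQp0]
    apply Real.le_sqrt_of_sq_le
    have e : Qp * Qm = 25 * (ω * Y) ^ 4 - 16 * (ω * Y) ^ 2 * κ ^ 2 := by rw [hQp, hQm]; ring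
    rw [e]
    nlinarith [mul_nonneg (sq_nonneg (ω * Y)) (by nlinarith : 0 ≤ (ω * Y) ^ 2 - κ ^ 2)]
  have hc3 := cube_sum_le (ω * Y) (√Qp) (√Qm) hP.le hα hβ hsum hprod
  have e1 : Qp * √Qp = √Qp ^ 3 := by rw [pow_succ, hα2]
  have e2 : Qm * √Qm = √Qm ^ 3 := by rw [pow_succ, hβ2]
  rw [e1] at H1
  rw [e2] at H2
  obtain ⟨a1, a2⟩ := abs_le.1 H1
  obtain ⟨b1, b2⟩ := abs_le.1 H2
  obtain ⟨d1, d2⟩ := abs_le.1 H3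
  have hcc : 2 * c * √Qp ^ 3 + 2 * c * √Qm ^ 3 ≤ 56 * c * (ω * Y) ^ 3 := by
    have := mul_le_mul_of_nonneg_left hc3 (by linarith : (0:ℝ) ≤ 2 * c)
    linarith
  have hpos : 0 < 24 * ω * Y ^ 2 := by positivity
  rw [abs_le]
  constructor
  · have h : -(60 * c * (ω * Y) ^ 3) ≤ 24 * ω * Y ^ 2 * k := by
      clear_value Qp Qm
      linarith
    have h' : 24 * ω * Y ^ 2 * (-(5 / 2 * c * Y * ω ^ 2)) ≤ 24 * ω * Y ^ 2 * k := by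
      calc _ = -(60 * c * (ω * Y) ^ 3) := by ring
        _ ≤ _ := h
    exact le_of_mul_le_mul_left h' hpos
  · have h : 24 * ω * Y ^ 2 * k ≤ 60 * c * (ω * Y) ^ 3 := by
      clear_value Qp Qm
      linarith
    have h' : 24 * ω * Y ^ 2 * k ≤ 24 * ω * Y ^ 2 * (5 / 2 * c * Y * ω ^ 2) := by
      calc _ ≤ 60 * c * (ω * Y) ^ 3 := h
        _ = _ := by ring
    exact le_of_mul_le_mul_left h' hpos

theorem alg_w {X κ W T R k w c : ℝ} (hW : 0 < W) (H : CubB X κ W T R k w c) :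
    |w| ≤ 2 * c * (W * √W) := by
  have := H 0 1
  simpa using this

theorem alg_T {X κ W T R k w c : ℝ} (H : CubB X κ W T R k w c) :
    |T| ≤ 2 * c * (X * √X) := by
  have := H 1 0
  simpa using this


theorem lem_Q {P κ t : ℝ} (hP : 0 < P) (hκ1 : |κ| ≤ P) (ht : |t| ≤ 1) :
    (P ^ 2 + 2 * t * P * κ + t ^ 2 * P ^ 2) * √(P ^ 2 + 2 * t * P * κ + t ^ 2 * P ^ 2) ≤
      P ^ 3 + 3 * t * P ^ 2 * κ + 21 / 2 * t ^ 2 * P ^ 3 := by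
  have ht2 : t ^ 2 ≤ 1 := by rw [← sq_abs]; nlinarith [abs_nonneg t]
  have hκ2 : κ ^ 2 ≤ P ^ 2 := by rw [← sq_abs κ]; nlinarith [abs_nonneg κ]
  generalize hQ : P ^ 2 + 2 * t * P * κ + t ^ 2 * P ^ 2 = Q
  have hQ0 : 0 ≤ Q := by
    have e : Q = (P + t * κ) ^ 2 + t ^ 2 * (P ^ 2 - κ ^ 2) := by rw [← hQ]; ring
    rw [e]
    have : 0 ≤ P ^ 2 - κ ^ 2 := by linarith
    positivity
  have hy := Real.sqrt_nonneg Q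
  have hy2 := Real.sq_sqrt hQ0
  generalize √Q = y at hy hy2 ⊢
  have hb : P * (Q * y) ≤ P ^ 4 + 3 / 2 * P ^ 2 * (Q - P ^ 2) + (Q - P ^ 2) ^ 2 := by
    rw [← hy2]
    have : 0 ≤ (y - P) ^ 2 * (y ^ 2 + P * y + P ^ 2 / 2) := by positivity
    have e : P ^ 4 + 3 / 2 * P ^ 2 * (y ^ 2 - P ^ 2) + (y ^ 2 - P ^ 2) ^ 2 - P * (y ^ 2 * y)
      = (y - P) ^ 2 * (y ^ 2 + P * y + P ^ 2 / 2) := by ring
    linarith
  have hu : Q - P ^ 2 = t ^ 2 * P ^ 2 + 2 * t * P * κ := by rw [← hQ]; ring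
  have hu2 : (Q - P ^ 2) ^ 2 ≤ 9 * t ^ 2 * P ^ 4 := by
    have e : Q - P ^ 2 = t * P * (t * P + 2 * κ) := by rw [hu]; ring
    have h3 : |t * P + 2 * κ| ≤ 3 * P := by
      calc |t * P + 2 * κ| ≤ |t * P| + |2 * κ| := abs_add_le _ _
        _ = |t| * P + 2 * |κ| := by rw [abs_mul t P, abs_mul 2 κ, abs_of_pos hP]; norm_num
        _ ≤ 3 * P := by nlinarith
    have h4 : (t * P + 2 * κ) ^ 2 ≤ (3 * P) ^ 2 := by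
      rw [← sq_abs (t * P + 2 * κ)]; nlinarith [abs_nonneg (t * P + 2 * κ)]
    rw [e, mul_pow]
    calc (t * P) ^ 2 * (t * P + 2 * κ) ^ 2 ≤ (t * P) ^ 2 * (3 * P) ^ 2 :=
          mul_le_mul_of_nonneg_left h4 (sq_nonneg _)
      _ = 9 * t ^ 2 * P ^ 4 := by ring
  have : P * (Q * y) ≤ P * (P ^ 3 + 3 * t * P ^ 2 * κ + 21 / 2 * t ^ 2 * P ^ 3) := by
    calc P * (Q * y) ≤ P ^ 4 + 3 / 2 * P ^ 2 * (Q - P ^ 2) + (Q - P ^ 2) ^ 2 := hb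
      _ ≤ P ^ 4 + 3 / 2 * P ^ 2 * (t ^ 2 * P ^ 2 + 2 * t * P * κ) + 9 * t ^ 2 * P ^ 4 := by
          rw [← hu]; linarith
      _ = P * (P ^ 3 + 3 * t * P ^ 2 * κ + 21 / 2 * t ^ 2 * P ^ 3) := by ring
  exact le_of_mul_le_mul_left this hP

theorem main_t {κ T R k w c Y ω t : ℝ} (hY : 0 < Y) (hω : 0 < ω) (hc : 0 < c) (hκ1 : |κ| ≤ ω * Y)
    (hk : |k| ≤ 5 / 2 * c * Y * ω ^ 2) (hw : |w| ≤ 2 * c * (ω ^ 2 * ω))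
    (H : CubB (Y ^ 2) κ (ω ^ 2) T R k w c) (ht : |t| ≤ 1) :
    3 * t * Y * (R - 2 * c * Y * κ) ≤ ω * ((2 * c * (Y ^ 2 * Y) - T) + 61 / 2 * c * t ^ 2 * Y ^ 3) := by
  have hP : 0 < ω * Y := mul_pos hω hY
  have h := (abs_le.1 (H ω (t * Y))).2
  have hb := lem_Q hP hκ1 ht
  have e0 : ω ^ 2 * Y ^ 2 + 2 * ω * (t * Y) * κ + (t * Y) ^ 2 * ω ^ 2
    = (ω * Y) ^ 2 + 2 * t * (ω * Y) * κ + t ^ 2 * (ω * Y) ^ 2 := by ring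
  rw [e0] at h
  have hb3 := mul_le_mul_of_nonneg_left hb (by positivity : (0:ℝ) ≤ 2 * c)
  have h0 := h.trans hb3
  have hk1 : -(3 * ω * (t * Y) ^ 2 * k) ≤ 15 / 2 * c * t ^ 2 * (ω ^ 3 * Y ^ 3) := by
    have h5 := neg_abs_le k
    have h6 : 0 ≤ 3 * ω * (t * Y) ^ 2 := by positivity
    calc -(3 * ω * (t * Y) ^ 2 * k) = 3 * ω * (t * Y) ^ 2 * (-k) := by ring
      _ ≤ 3 * ω * (t * Y) ^ 2 * (5 / 2 * c * Y * ω ^ 2) :=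
          mul_le_mul_of_nonneg_left (by linarith) h6
      _ = 15 / 2 * c * t ^ 2 * (ω ^ 3 * Y ^ 3) := by ring
  have hw1 : -((t * Y) ^ 3 * w) ≤ 2 * c * t ^ 2 * (ω ^ 3 * Y ^ 3) := by
    have h5 : |(t * Y) ^ 3 * w| ≤ 2 * c * t ^ 2 * (ω ^ 3 * Y ^ 3) := by
      rw [abs_mul, abs_pow, abs_mul t Y, abs_of_pos hY]
      have h7 : |t| ^ 3 ≤ t ^ 2 := by
        have e : |t| ^ 3 = t ^ 2 * |t| := by rw [pow_succ, sq_abs]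
        rw [e]
        have := mul_le_mul_of_nonneg_left ht (sq_nonneg t)
        linarith
      calc (|t| * Y) ^ 3 * |w| ≤ (|t| * Y) ^ 3 * (2 * c * (ω ^ 2 * ω)) :=
            mul_le_mul_of_nonneg_left hw (by positivity)
        _ = |t| ^ 3 * (2 * c * (ω ^ 3 * Y ^ 3)) := by ring
        _ ≤ t ^ 2 * (2 * c * (ω ^ 3 * Y ^ 3)) := mul_le_mul_of_nonneg_right h7 (by positivity)
        _ = _ := by ring
    linarith [neg_abs_le ((t * Y) ^ 3 * w)]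
  have hfin : ω ^ 2 * (3 * t * Y * (R - 2 * c * Y * κ)) ≤
      ω ^ 2 * (ω * ((2 * c * (Y ^ 2 * Y) - T) + 61 / 2 * c * t ^ 2 * Y ^ 3)) := by
    clear h hb3 hb H hk hw
    have e1 : (ω * Y) ^ 3 = ω ^ 3 * Y ^ 3 := by ring
    have e2 : (ω * Y) ^ 2 = ω ^ 2 * Y ^ 2 := by ring
    rw [e1, e2] at h0
    linarith
  exact le_of_mul_le_mul_left hfin (by positivity)

theorem fin_rho {ρ Δ c ω Y : ℝ} (hY : 0 < Y) (hω : 0 < ω) (hc : 0 < c) (hΔ0 : 0 ≤ Δ)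
    (hΔ1 : Δ ≤ 4 * c * Y ^ 3)
    (main : ∀ t : ℝ, |t| ≤ 1 → 3 * t * Y * ρ ≤ ω * (Δ + 61 / 2 * c * t ^ 2 * Y ^ 3)) :
    ρ ^ 2 ≤ 14 * c * Y * ω ^ 2 * Δ := by
  have h1 := main 1 (by norm_num)
  have h2 := main (-1) (by norm_num)
  have h3 : ω * (Δ + 61 / 2 * c * Y ^ 3) ≤ ω * (69 / 2 * c * Y ^ 3) :=
    mul_le_mul_of_nonneg_left (by linarith) hω.le
  have hA : 3 * Y * |ρ| ≤ 3 * Y * (23 / 2 * c * ω * Y ^ 2) := by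
    have e : 3 * Y * (23 / 2 * c * ω * Y ^ 2) = ω * (69 / 2 * c * Y ^ 3) := by ring
    rw [e]
    norm_num at h1 h2
    rcases abs_cases ρ with ⟨h, _⟩ | ⟨h, _⟩
    · rw [h]; linarith
    · rw [h]; linarith
  have hA' : |ρ| ≤ 23 / 2 * c * ω * Y ^ 2 := le_of_mul_le_mul_left hA (by positivity)
  have hD0 : 0 < 61 * c * ω * Y ^ 2 := by positivity
  have ht : |3 * ρ / (61 * c * ω * Y ^ 2)| ≤ 1 := by
    rw [abs_div, abs_of_pos hD0, div_le_one hD0, abs_mul, abs_of_pos (by norm_num : (0:ℝ) < 3)]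
    have : 0 < c * ω * Y ^ 2 := by positivity
    linarith
  have h := main (3 * ρ / (61 * c * ω * Y ^ 2)) ht
  have e2 : ω * (Δ + 61 / 2 * c * (3 * ρ / (61 * c * ω * Y ^ 2)) ^ 2 * Y ^ 3)
      = ω * Δ + 9 / 2 * ρ ^ 2 * Y / (61 * c * ω * Y ^ 2) := by
    field_simp; ring
  rw [e2] at h
  have e1 : 3 * (3 * ρ / (61 * c * ω * Y ^ 2)) * Y * ρ =
      9 / 2 * ρ ^ 2 * Y / (61 * c * ω * Y ^ 2) + 9 / 2 * ρ ^ 2 * Y / (61 * c * ω * Y ^ 2) := by ring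
  rw [e1] at h
  have h4 : 9 / 2 * ρ ^ 2 * Y / (61 * c * ω * Y ^ 2) ≤ ω * Δ := by linarith
  rw [div_le_iff₀ hD0] at h4
  have h5 : Y * (9 / 2 * ρ ^ 2) ≤ Y * (61 * c * ω ^ 2 * Y * Δ) := by linarith
  have h6 : 9 / 2 * ρ ^ 2 ≤ 61 * c * ω ^ 2 * Y * Δ := le_of_mul_le_mul_left h5 hY
  have h7 : 0 ≤ c * ω ^ 2 * Y * Δ := by positivity
  linarith

theorem alg_rho {X κ W T R k w c : ℝ} (hX : 0 < X) (hW : 0 < W) (hc : 0 < c) (hκ : κ ^ 2 ≤ X * W)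
    (H : CubB X κ W T R k w c) :
    (R - 2 * c * √X * κ) ^ 2 ≤ 14 * c * √X * W * (2 * c * (X * √X) - T) := by
  have hk := alg_k hX hW hc.le hκ H
  have hw := alg_w hW H
  have hT := alg_T H
  obtain ⟨Y, hY, rfl⟩ : ∃ Y : ℝ, 0 < Y ∧ X = Y ^ 2 := ⟨√X, Real.sqrt_pos.2 hX, (Real.sq_sqrt hX.le).symm⟩
  obtain ⟨ω, hω, rfl⟩ : ∃ Y : ℝ, 0 < Y ∧ W = Y ^ 2 := ⟨√W, Real.sqrt_pos.2 hW, (Real.sq_sqrt hW.le).symm⟩
  rw [Real.sqrt_sq hY.le] at hk hT ⊢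
  rw [Real.sqrt_sq hω.le] at hw
  have hP : 0 < ω * Y := mul_pos hω hY
  have hκ1 : |κ| ≤ ω * Y := abs_le_of_sq_le_sq (by nlinarith) hP.le
  have e : Y ^ 2 * Y = Y ^ 3 := by ring
  apply fin_rho hY hω hc
  · linarith [(abs_le.1 hT).2]
  · rw [e] at hT ⊢; linarith [(abs_le.1 hT).1]
  · intro t ht
    exact main_t hY hω hc hκ1 hk hw H ht

end Vale.Agent.P227.M.SC.St
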