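import Mathlib

/-! # P227/M/SC, static proof of the marginal lemma: one dimensional expectation calculus. -/

open MeasureTheory Set Filter Real
open scoped Topology

set_option linter.all false
set_option autoImplicit false

namespace Vale.Agent.P227.M.SC.St

/-- continuous functions of at most exponential growth -/
def Ok (f : ℝ → ℝ) : Prop :=
  Continuous f ∧ ∃ K k : ℝ, 0 ≤ K ∧ 0 ≤ k ∧ ∀ z, |f z| ≤ K * Real.exp (k * |z|)

theorem Ok.add {f g : ℝ → ℝ} (hf : Ok f) (hg : Ok g) : Ok (fun z => f z + g z) := by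
  obtain ⟨cf, K1, k1, h1, h2, h3⟩ := hf
  obtain ⟨cg, K2, k2, g1, g2, g3⟩ := hg
  refine ⟨cf.add cg, K1 + K2, k1 + k2, by positivity, by positivity, fun z => ?_⟩
  have e1 : Real.exp (k1 * |z|) ≤ Real.exp ((k1 + k2) * |z|) :=
    Real.exp_le_exp.2 (by nlinarith [abs_nonneg z])
  have e2 : Real.exp (k2 * |z|) ≤ Real.exp ((k1 + k2) * |z|) :=
    Real.exp_le_exp.2 (by nlinarith [abs_nonneg z])
  calc |f z + g z| ≤ |f z| + |g z| := abs_add_le _ _
    _ ≤ K1 * Real.exp (k1 * |z|) + K2 * Real.exp (k2 * |z|) := add_le_add (h3 z) (g3 z)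
    _ ≤ K1 * Real.exp ((k1 + k2) * |z|) + K2 * Real.exp ((k1 + k2) * |z|) := by
        gcongr
    _ = (K1 + K2) * Real.exp ((k1 + k2) * |z|) := by ring

theorem Ok.mul {f g : ℝ → ℝ} (hf : Ok f) (hg : Ok g) : Ok (fun z => f z * g z) := by
  obtain ⟨cf, K1, k1, h1, h2, h3⟩ := hf
  obtain ⟨cg, K2, k2, g1, g2, g3⟩ := hg
  refine ⟨cf.mul cg, K1 * K2, k1 + k2, by positivity, by positivity, fun z => ?_⟩
  calc |f z * g z| = |f z| * |g z| := abs_mul _ _
    _ ≤ (K1 * Real.exp (k1 * |z|)) * (K2 * Real.exp (k2 * |z|)) :=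
        mul_le_mul (h3 z) (g3 z) (abs_nonneg _) (by positivity)
    _ = K1 * K2 * Real.exp ((k1 + k2) * |z|) := by
        rw [add_mul, Real.exp_add]; ring

theorem Ok.bdd {f : ℝ → ℝ} (hc : Continuous f) (M : ℝ) (h : ∀ z, |f z| ≤ M) : Ok f := by
  refine ⟨hc, M, 0, (abs_nonneg _).trans (h 0), le_rfl, fun z => ?_⟩
  simpa using h z

theorem Ok.const (c : ℝ) : Ok (fun _ => c) := Ok.bdd continuous_const |c| (fun _ => le_rfl)

theorem Ok.id : Ok (fun z => z) := by
  refine ⟨continuous_id, 1, 1, by norm_num, by norm_num, fun z => ?_⟩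
  have := Real.add_one_le_exp (|z|)
  simp only [one_mul]; linarith

theorem Ok.neg {f : ℝ → ℝ} (hf : Ok f) : Ok (fun z => - f z) := by
  obtain ⟨cf, K1, k1, h1, h2, h3⟩ := hf
  exact ⟨cf.neg, K1, k1, h1, h2, fun z => by rw [abs_neg]; exact h3 z⟩

theorem Ok.sub {f g : ℝ → ℝ} (hf : Ok f) (hg : Ok g) : Ok (fun z => f z - g z) := by
  have := hf.add hg.neg
  simpa [sub_eq_add_neg] using this

theorem Ok.abs {f : ℝ → ℝ} (hf : Ok f) : Ok (fun z => |f z|) := by
  obtain ⟨cf, K1, k1, h1, h2, h3⟩ := hf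
  exact ⟨cf.abs, K1, k1, h1, h2, fun z => by rw [abs_abs]; exact h3 z⟩

theorem Ok.smul {f : ℝ → ℝ} (c : ℝ) (hf : Ok f) : Ok (fun z => c * f z) := (Ok.const c).mul hf

theorem Ok.pow {f : ℝ → ℝ} (hf : Ok f) (n : ℕ) : Ok (fun z => f z ^ n) := by
  induction n with
  | zero => simpa using Ok.const 1
  | succ n ih =>
    have := ih.mul hf
    simpa [pow_succ] using this

/-- linear growth from a bounded derivative -/
theorem Ok.of_deriv {f f' : ℝ → ℝ} (hd : ∀ z, HasDerivAt f (f' z) z) (M : ℝ) (hM : ∀ z, |f' z| ≤ M) :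
    Ok f := by
  have hM0 : 0 ≤ M := (abs_nonneg _).trans (hM 0)
  have hc : Continuous f := continuous_iff_continuousAt.2 fun z => (hd z).continuousAt
  have hb : ∀ z, |f z| ≤ |f 0| + M * |z| := by
    intro z
    have h := Convex.norm_image_sub_le_of_norm_hasDerivWithin_le (f := f) (f' := f') (s := Set.univ)
      (x := 0) (y := z) (C := M) (fun x _ => (hd x).hasDerivWithinAt) (fun x _ => hM x) convex_univ
      (mem_univ _) (mem_univ _)
    rw [Real.norm_eq_abs, Real.norm_eq_abs, sub_zero] at h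
    have h2 : |f z| ≤ |f z - f 0| + |f 0| := by
      have := abs_add_le (f z - f 0) (f 0)
      simpa using this
    linarith
  refine ⟨hc, |f 0| + M, 1, by positivity, by norm_num, fun z => (hb z).trans ?_⟩
  have h1 := Real.add_one_le_exp (|z|)
  have h2 : (1:ℝ) ≤ Real.exp |z| := Real.one_le_exp (abs_nonneg z)
  rw [one_mul]
  nlinarith [abs_nonneg z, abs_nonneg (f 0)]

/-- normalised potential with `a ≤ W''` and `W'' ≤ b` -/
structure Pot (W W1 W2 : ℝ → ℝ) (a b : ℝ) : Prop where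
  ha : 0 < a
  d0 : ∀ z, HasDerivAt W (W1 z) z
  d1 : ∀ z, HasDerivAt W1 (W2 z) z
  c2 : Continuous W2
  lo : ∀ z, a ≤ W2 z
  hi : ∀ z, W2 z ≤ b
  one : ∫ z, Real.exp (-W z) = 1

variable {W W1 W2 : ℝ → ℝ} {a b : ℝ}

theorem Pot.ok2 (P : Pot W W1 W2 a b) : Ok W2 :=
  Ok.bdd P.c2 b (fun z => by rw [abs_of_nonneg (P.ha.le.trans (P.lo z))]; exact P.hi z)

theorem Pot.ok1 (P : Pot W W1 W2 a b) : Ok W1 :=
  Ok.of_deriv P.d1 b (fun z => by rw [abs_of_nonneg (P.ha.le.trans (P.lo z))]; exact P.hi z)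

theorem Pot.c0 (P : Pot W W1 W2 a b) : Continuous W :=
  continuous_iff_continuousAt.2 fun z => (P.d0 z).continuousAt

theorem tangent_le {f f1 : ℝ → ℝ} (hd : ∀ z, HasDerivAt f (f1 z) z) (hm : Monotone f1) (z t : ℝ) :
    f z + f1 z * (t - z) ≤ f t := by
  have hc : Continuous f := continuous_iff_continuousAt.2 fun z => (hd z).continuousAt
  rcases lt_trichotomy z t with h | h | h
  · obtain ⟨ξ, hξ, he⟩ := exists_hasDerivAt_eq_slope f f1 h hc.continuousOn (fun x _ => hd x)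
    have h1 : f1 z ≤ f1 ξ := hm hξ.1.le
    rw [he, le_div_iff₀ (by linarith)] at h1
    linarith
  · subst h; simp
  · obtain ⟨ξ, hξ, he⟩ := exists_hasDerivAt_eq_slope f f1 h hc.continuousOn (fun x _ => hd x)
    have h1 : f1 ξ ≤ f1 z := hm hξ.2.le
    rw [he, div_le_iff₀ (by linarith)] at h1
    nlinarith

theorem Pot.quad (P : Pot W W1 W2 a b) (z t : ℝ) :
    W z + W1 z * (t - z) + a / 2 * (t - z) ^ 2 ≤ W t := by
  have hd : ∀ x, HasDerivAt (fun x => W x - a / 2 * (x - z) ^ 2) (W1 x - a * (x - z)) x := by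
    intro x
    have h1 := ((hasDerivAt_id x).sub_const z).pow 2
    have h2 := (P.d0 x).sub (h1.const_mul (a / 2))
    refine h2.congr_deriv ?_
    simp; ring
  have hm : Monotone (fun x => W1 x - a * (x - z)) := by
    apply monotone_of_hasDerivAt_nonneg (f' := fun x => W2 x - a)
    · intro x
      have h1 := (P.d1 x).sub (((hasDerivAt_id x).sub_const z).const_mul a)
      refine h1.congr_deriv ?_
      simp
    · intro x
      simpa using P.lo x
  have h := tangent_le hd hm z t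
  simp only [sub_self, mul_zero, sub_zero] at h
  nlinarith [h]

theorem Pot.bound (P : Pot W W1 W2 a b) {f : ℝ → ℝ} (hf : Ok f) :
    ∃ K : ℝ, 0 ≤ K ∧ ∀ z, |f z * Real.exp (-W z)| ≤ K * Real.exp (-(a / 4) * z ^ 2) := by
  obtain ⟨cf, K, k, hK, hk, h⟩ := hf
  have ha := P.ha
  set s := k + |W1 0| with hs
  refine ⟨K * Real.exp (-W 0) * Real.exp (s ^ 2 / a), by positivity, fun z => ?_⟩
  rw [abs_mul, abs_of_pos (Real.exp_pos _)]
  have h1 := P.quad 0 z
  have h2 : -W z ≤ -W 0 + |W1 0| * |z| - a / 2 * z ^ 2 := by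
    have h3 : -(W1 0 * z) ≤ |W1 0| * |z| := by
      rw [← abs_mul]; exact neg_le_abs _
    simp only [sub_zero] at h1
    linarith
  have h4 : s * |z| ≤ s ^ 2 / a + a / 4 * z ^ 2 := by
    have h5 : z ^ 2 = |z| ^ 2 := (sq_abs z).symm
    rw [h5]
    have h6 : 0 ≤ (s / a - |z| / 2) ^ 2 * a := by positivity
    have h7 : (s / a - |z| / 2) ^ 2 * a = s ^ 2 / a + a / 4 * |z| ^ 2 - s * |z| := by
      field_simp; ring
    linarith
  calc |f z| * Real.exp (-W z) ≤ (K * Real.exp (k * |z|)) * Real.exp (-W 0 + |W1 0| * |z| - a / 2 * z ^ 2) :=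
        mul_le_mul (h z) (Real.exp_le_exp.2 h2) (Real.exp_pos _).le (by positivity)
    _ = K * Real.exp (-W 0 + s * |z| - a / 2 * z ^ 2) := by
        rw [mul_assoc, ← Real.exp_add, hs]; ring_nf
    _ ≤ K * Real.exp (-W 0 + (s ^ 2 / a) + -(a / 4) * z ^ 2) := by
        apply mul_le_mul_of_nonneg_left _ hK
        apply Real.exp_le_exp.2
        linarith
    _ = K * Real.exp (-W 0) * Real.exp (s ^ 2 / a) * Real.exp (-(a / 4) * z ^ 2) := by
        rw [Real.exp_add, Real.exp_add]; ring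

theorem Pot.int (P : Pot W W1 W2 a b) {f : ℝ → ℝ} (hf : Ok f) :
    Integrable (fun z => f z * Real.exp (-W z)) := by
  obtain ⟨K, hK, h⟩ := P.bound hf
  have hi : Integrable (fun z : ℝ => K * Real.exp (-(a / 4) * z ^ 2)) :=
    (integrable_exp_neg_mul_sq (by have := P.ha; positivity)).const_mul K
  refine hi.mono' (hf.1.mul (Real.continuous_exp.comp P.c0.neg)).aestronglyMeasurable ?_
  exact Eventually.of_forall (fun z => by rw [Real.norm_eq_abs]; exact h z)

theorem tendsto_gauss_cocompact {a : ℝ} (ha : 0 < a) (K : ℝ) :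
    Tendsto (fun z : ℝ => K * Real.exp (-(a / 4) * z ^ 2)) (cocompact ℝ) (𝓝 0) := by
  have h1 : Tendsto (fun z : ℝ => (a / 4) * z ^ 2) (cocompact ℝ) atTop := by
    apply Tendsto.const_mul_atTop (by positivity)
    have h2 : Tendsto (fun z : ℝ => ‖z‖ ^ 2) (cocompact ℝ) atTop :=
      (tendsto_pow_atTop (by norm_num)).comp (tendsto_norm_cocompact_atTop (E := ℝ))
    refine h2.congr (fun z => ?_)
    simp
  have h3 : Tendsto (fun z : ℝ => Real.exp (-((a / 4) * z ^ 2))) (cocompact ℝ) (𝓝 0) :=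
    Real.tendsto_exp_neg_atTop_nhds_zero.comp h1
  have h4 := h3.const_mul K
  simpa [neg_mul] using h4

theorem Pot.tend (P : Pot W W1 W2 a b) {f : ℝ → ℝ} (hf : Ok f) :
    Tendsto (fun z => f z * Real.exp (-W z)) (cocompact ℝ) (𝓝 0) := by
  obtain ⟨K, hK, h⟩ := P.bound hf
  exact squeeze_zero_norm (fun z => by rw [Real.norm_eq_abs]; exact h z)
    (tendsto_gauss_cocompact P.ha K)

/-- expectation -/
noncomputable def J (W f : ℝ → ℝ) : ℝ := ∫ z, f z * Real.exp (-W z)

theorem Pot.ibp (P : Pot W W1 W2 a b) {f f' : ℝ → ℝ} (hf : Ok f) (hf' : Ok f')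
    (hd : ∀ z, HasDerivAt f (f' z) z) : J W f' = J W (fun z => W1 z * f z) := by
  have hD : ∀ z, HasDerivAt (fun z => f z * Real.exp (-W z))
      (f' z * Real.exp (-W z) - W1 z * f z * Real.exp (-W z)) z := by
    intro z
    have h1 := (hd z).mul ((P.d0 z).neg.exp)
    refine h1.congr_deriv ?_
    simp; ring
  have hi1 := P.int hf'
  have hi2 := P.int (P.ok1.mul hf)
  have hat : Tendsto (fun z => f z * Real.exp (-W z)) atTop (𝓝 0) :=
    (P.tend hf).mono_left atTop_le_cocompact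
  have hab : Tendsto (fun z => f z * Real.exp (-W z)) atBot (𝓝 0) :=
    (P.tend hf).mono_left atBot_le_cocompact
  have h := integral_of_hasDerivAt_of_tendsto hD (hi1.sub hi2) hab hat
  rw [integral_sub hi1 hi2] at h
  unfold J
  linarith

theorem Pot.J_add (P : Pot W W1 W2 a b) {f g : ℝ → ℝ} (hf : Ok f) (hg : Ok g) :
    J W (fun z => f z + g z) = J W f + J W g := by
  unfold J
  rw [← integral_add (P.int hf) (P.int hg)]
  congr 1; ext z; ring

theorem J_smul (W : ℝ → ℝ) (c : ℝ) (f : ℝ → ℝ) : J W (fun z => c * f z) = c * J W f := by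
  unfold J
  rw [← integral_const_mul]
  congr 1; ext z; ring

theorem J_neg (W : ℝ → ℝ) (f : ℝ → ℝ) : J W (fun z => - f z) = - J W f := by
  have := J_smul W (-1) f
  simpa using this

theorem Pot.J_sub (P : Pot W W1 W2 a b) {f g : ℝ → ℝ} (hf : Ok f) (hg : Ok g) :
    J W (fun z => f z - g z) = J W f - J W g := by
  have := P.J_add hf hg.neg
  rw [J_neg] at this
  simpa [sub_eq_add_neg] using this

theorem Pot.J_const (P : Pot W W1 W2 a b) (c : ℝ) : J W (fun _ => c) = c := by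
  unfold J
  rw [integral_const_mul, P.one, mul_one]

theorem Pot.J_mono (P : Pot W W1 W2 a b) {f g : ℝ → ℝ} (hf : Ok f) (hg : Ok g)
    (h : ∀ z, f z ≤ g z) : J W f ≤ J W g := by
  unfold J
  exact integral_mono (P.int hf) (P.int hg)
    (fun z => mul_le_mul_of_nonneg_right (h z) (Real.exp_pos _).le)

theorem J_nonneg (W : ℝ → ℝ) {f : ℝ → ℝ} (h : ∀ z, 0 ≤ f z) : 0 ≤ J W f := by
  unfold J
  exact integral_nonneg (fun z => mul_nonneg (h z) (Real.exp_pos _).le)

theorem J_congr (W : ℝ → ℝ) {f g : ℝ → ℝ} (h : ∀ z, f z = g z) : J W f = J W g := by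
  unfold J; congr 1; ext z; rw [h z]

/-- Cauchy-Schwarz -/
theorem Pot.cs (P : Pot W W1 W2 a b) {f g : ℝ → ℝ} (hf : Ok f) (hg : Ok g) :
    J W (fun z => f z * g z) ^ 2 ≤ J W (fun z => f z ^ 2) * J W (fun z => g z ^ 2) := by
  have h : ∀ t : ℝ, 0 ≤ J W (fun z => f z ^ 2) * (t * t) + 2 * J W (fun z => f z * g z) * t +
      J W (fun z => g z ^ 2) := by
    intro t
    have h1 : 0 ≤ J W (fun z => (t * f z + g z) ^ 2) := J_nonneg W (fun z => sq_nonneg _)
    have h2 : J W (fun z => (t * f z + g z) ^ 2)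
        = t * t * J W (fun z => f z ^ 2) + 2 * t * J W (fun z => f z * g z) + J W (fun z => g z ^ 2) := by
      rw [← J_smul, ← J_smul, ← P.J_add ((hf.pow 2).smul _) ((hf.mul hg).smul _),
        ← P.J_add (((hf.pow 2).smul _).add ((hf.mul hg).smul _)) (hg.pow 2)]
      apply J_congr; intro z; ring
    rw [h2] at h1; linarith
  have hd := discrim_le_zero h
  unfold discrim at hd
  nlinarith [hd]

end Vale.Agent.P227.M.SC.St
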