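import Vale.Agent.P227.M.SC.Dir

/-! # P227/M/SC: Cauchy-Schwarz and difference bounds for `St` (leaf StCS of helper839). -/

namespace Vale.Agent.P227.M.SC

variable {E : Type*} [NormedAddCommGroup E] [NormedSpace ℝ E]

section
variable {a b C3 C4 κ ε : ℝ} {w : E → ℝ}

theorem St.nonneg (h : St a b C3 C4 κ ε w) (ha : 0 ≤ a) (x v : E) : 0 ≤ dd v (dd v w) x :=
  le_trans (mul_nonneg ha (sq_nonneg _)) (h.lower x v)

/-- expansion of the second derivative along `v + t • u` -/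
theorem St.expand (h : St a b C3 C4 κ ε w) (x u v : E) (t : ℝ) :
    dd (v + t • u) (dd (v + t • u) w) x
      = dd v (dd v w) x + 2 * t * dd u (dd v w) x + t ^ 2 * dd u (dd u w) x := by
  have hs : Sm w := h.smooth
  have e1 : dd (v + t • u) w = fun y => dd v w y + t * dd u w y := by
    funext y
    rw [dd_add_dir, dd_smul_dir]
  have e2 : ∀ z : E, dd z (dd (v + t • u) w) x = dd z (dd v w) x + t * dd z (dd u w) x := by
    intro z
    rw [e1, dd_add (sm_dd hs v) (contDiff_const.mul (sm_dd hs u)), dd_const_mul (sm_dd hs u)]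
  rw [dd_add_dir, dd_smul_dir, e2, e2, dd_comm hs v u]
  ring

/-- Cauchy-Schwarz for the second derivative -/
theorem St.cs_sq (h : St a b C3 C4 κ ε w) (ha : 0 ≤ a) (x u v : E) :
    (dd u (dd v w) x) ^ 2 ≤ dd u (dd u w) x * dd v (dd v w) x := by
  have h0 : ∀ t : ℝ, 0 ≤ dd u (dd u w) x * (t * t) + 2 * dd u (dd v w) x * t + dd v (dd v w) x := by
    intro t
    have h1 := h.nonneg ha x (v + t • u)
    rw [h.expand] at h1
    nlinarith
  have h2 := discrim_le_zero h0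
  unfold discrim at h2
  nlinarith

/-- bound of the mixed second derivative -/
theorem St.cs_abs (h : St a b C3 C4 κ ε w) (ha : 0 ≤ a) (x u v : E) :
    |dd u (dd v w) x| ≤ b * (‖u‖ * ‖v‖) := by
  have h1 := h.cs_sq ha x u v
  have hu := h.upper x u
  have hv := h.upper x v
  have hu0 := h.nonneg ha x u
  have hv0 := h.nonneg ha x v
  by_cases hb : 0 ≤ b
  · apply abs_le_of_sq_le_sq _ (by positivity)
    calc (dd u (dd v w) x) ^ 2 ≤ dd u (dd u w) x * dd v (dd v w) x := h1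
      _ ≤ (b * ‖u‖ ^ 2) * (b * ‖v‖ ^ 2) := mul_le_mul hu hv hv0 (hu0.trans hu)
      _ = (b * (‖u‖ * ‖v‖)) ^ 2 := by ring
  · have hu1 : ‖u‖ = 0 := by
      by_contra hne
      have : 0 < ‖u‖ ^ 2 := by positivity
      nlinarith
    have hu2 : u = 0 := norm_eq_zero.1 hu1
    subst hu2
    simp [dd]

/-- first difference bound -/
theorem St.D1 (h : St a b C3 C4 κ ε w) (ha : 0 ≤ a) {e : E} (he : ‖e‖ = 1) {δ : ℝ} (hδ : 0 ≤ δ)
    (x v : E) : |dd v w (x + δ • e) - dd v w (x + (-δ) • e)| ≤ 2 * δ * (b * ‖v‖) := by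
  refine diff_bound (sm_dd h.smooth v) (fun y => ?_) x hδ
  have := h.cs_abs ha y e v
  rwa [he, one_mul] at this

/-- second difference bound -/
theorem St.D2 (h : St a b C3 C4 κ ε w) {e : E} (he : ‖e‖ = 1) {δ : ℝ} (hδ : 0 ≤ δ)
    (x v₁ v₂ : E) : |dd v₂ (dd v₁ w) (x + δ • e) - dd v₂ (dd v₁ w) (x + (-δ) • e)|
      ≤ 2 * δ * (C3 * (‖v₁‖ * ‖v₂‖)) := by
  refine diff_bound (sm_dd (sm_dd h.smooth v₁) v₂) (fun y => ?_) x hδ
  have := h.b3 y v₁ v₂ e
  rwa [he, mul_one] at this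

/-- third difference bound -/
theorem St.D3 (h : St a b C3 C4 κ ε w) {e : E} (he : ‖e‖ = 1) {δ : ℝ} (hδ : 0 ≤ δ)
    (x v₁ v₂ v₃ : E) :
    |dd v₃ (dd v₂ (dd v₁ w)) (x + δ • e) - dd v₃ (dd v₂ (dd v₁ w)) (x + (-δ) • e)|
      ≤ 2 * δ * (C4 * (‖v₁‖ * ‖v₂‖ * ‖v₃‖)) := by
  refine diff_bound (sm_dd (sm_dd (sm_dd h.smooth v₁) v₂) v₃) (fun y => ?_) x hδ
  have := h.b4 y v₁ v₂ v₃ e
  rwa [he, mul_one] at this

end

end Vale.Agent.P227.M.SC
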