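import Vale.Agent.P227.M.SC.StPrim
import Vale.Agent.P227.M.SC.StAlg

/-! # P227/M/SC, static proof of the marginal lemma: set-up and the exact identities. -/

open MeasureTheory Set Filter Real
open scoped Topology

set_option linter.all false
set_option autoImplicit false

namespace Vale.Agent.P227.M.SC.St


theorem Pot.zero {W W1 W2 : ℝ → ℝ} {a b : ℝ} (P : Pot W W1 W2 a b) {f f' H : ℝ → ℝ} (hf : Ok f)
    (hf' : Ok f') (hd : ∀ z, HasDerivAt f (f' z) z) (hH : ∀ z, H z = f' z - W1 z * f z) : J W H = 0 := by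
  rw [J_congr W hH, P.J_sub hf' (P.ok1.mul hf), P.ibp hf hf' hd, sub_self]

/-- the data at a fixed point and direction; `A, B, C` = first, second, third derivative of the
potential in the direction, functions of the integrated variable -/
structure Dat (W W1 W2 W3 A A1 A2 B B1 C : ℝ → ℝ) (a b c M : ℝ) : Prop where
  pot : Pot W W1 W2 a b
  d2 : ∀ z, HasDerivAt W2 (W3 z) z
  c3 : Continuous W3
  dA : ∀ z, HasDerivAt A (A1 z) z
  dA1 : ∀ z, HasDerivAt A1 (A2 z) z
  cA2 : Continuous A2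
  dB : ∀ z, HasDerivAt B (B1 z) z
  cB1 : Continuous B1
  cC : Continuous C
  lo : ∀ z u v, a * (u ^ 2 + v ^ 2) ≤ u ^ 2 * B z + 2 * u * v * A1 z + v ^ 2 * W2 z
  hi : ∀ z u v, u ^ 2 * B z + 2 * u * v * A1 z + v ^ 2 * W2 z ≤ b * (u ^ 2 + v ^ 2)
  sc : ∀ z, CubB (B z) (A1 z) (W2 z) (C z) (B1 z) (A2 z) (W3 z) c
  bd : ∀ z, |W3 z| ≤ M ∧ |A2 z| ≤ M ∧ |B1 z| ≤ M ∧ |C z| ≤ M

/-- data together with the velocity field `q` and `s = q'` -/
structure Cfg (W W1 W2 W3 A A1 A2 B B1 C q s F : ℝ → ℝ) (a b c M β : ℝ) : Prop extends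
    Dat W W1 W2 W3 A A1 A2 B B1 C a b c M where
  hF : ∀ z, F z = A z - J W A
  hs : ∀ z, s z = W1 z * q z + F z
  dq : ∀ z, HasDerivAt q (s z) z
  qb : ∀ z, |q z| ≤ β
  cc : 0 < c

variable {W W1 W2 W3 A A1 A2 B B1 C q s F : ℝ → ℝ} {a b c M β : ℝ}

theorem Dat.A1_le (D : Dat W W1 W2 W3 A A1 A2 B B1 C a b c M) (z : ℝ) : |A1 z| ≤ b := by
  have h1 := D.hi z 1 1
  have h2 := D.hi z 1 (-1)
  have h3 := D.lo z 1 0
  have h4 := D.lo z 0 1
  have ha := D.pot.ha
  rw [abs_le]; constructor <;> nlinarith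

theorem Dat.okA1 (D : Dat W W1 W2 W3 A A1 A2 B B1 C a b c M) : Ok A1 :=
  Ok.bdd (continuous_iff_continuousAt.2 fun z => (D.dA1 z).continuousAt) b D.A1_le

theorem Dat.okA (D : Dat W W1 W2 W3 A A1 A2 B B1 C a b c M) : Ok A := Ok.of_deriv D.dA b D.A1_le

theorem Dat.okB (D : Dat W W1 W2 W3 A A1 A2 B B1 C a b c M) : Ok B := by
  refine Ok.bdd (continuous_iff_continuousAt.2 fun z => (D.dB z).continuousAt) b (fun z => ?_)
  have h1 := D.hi z 1 0
  have h3 := D.lo z 1 0
  have ha := D.pot.ha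
  rw [abs_le]; constructor <;> nlinarith

theorem Dat.okA2 (D : Dat W W1 W2 W3 A A1 A2 B B1 C a b c M) : Ok A2 :=
  Ok.bdd D.cA2 M (fun z => (D.bd z).2.1)

theorem Dat.okB1 (D : Dat W W1 W2 W3 A A1 A2 B B1 C a b c M) : Ok B1 :=
  Ok.bdd D.cB1 M (fun z => (D.bd z).2.2.1)

theorem Dat.okC (D : Dat W W1 W2 W3 A A1 A2 B B1 C a b c M) : Ok C :=
  Ok.bdd D.cC M (fun z => (D.bd z).2.2.2)

theorem Dat.okW3 (D : Dat W W1 W2 W3 A A1 A2 B B1 C a b c M) : Ok W3 :=
  Ok.bdd D.c3 M (fun z => (D.bd z).1)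

theorem Dat.exists_cfg (D : Dat W W1 W2 W3 A A1 A2 B B1 C a b c M) (hc : 0 < c) :
    ∃ q s F : ℝ → ℝ, Cfg W W1 W2 W3 A A1 A2 B B1 C q s F a b c M (b / a) := by
  have hF : Ok (fun z => A z - J W A) := D.okA.sub (Ok.const _)
  have hF0 : J W (fun z => A z - J W A) = 0 := by
    rw [D.pot.J_sub D.okA (Ok.const _), D.pot.J_const, sub_self]
  refine ⟨fun z => - pr W (fun z => A z - J W A) z,
    fun z => W1 z * (- pr W (fun z => A z - J W A) z) + (A z - J W A), fun z => A z - J W A,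
    { toDat := D, hF := fun z => rfl, hs := fun z => rfl, dq := ?_, qb := ?_, cc := hc }⟩
  · intro z
    refine ((D.pot.pr_deriv hF z).neg).congr_deriv ?_
    ring
  · intro z
    show |- pr W (fun z => A z - J W A) z| ≤ b / a
    rw [abs_neg]
    apply D.pot.pr_le hF hF0 (fun z => (D.dA z).sub_const _)
    intro z
    have ha := D.pot.ha
    have h1 := D.A1_le z
    have hb : 0 ≤ b := (abs_nonneg _).trans h1
    calc |A1 z| ≤ b := h1
      _ = b / a * a := by field_simp
      _ ≤ b / a * W2 z := mul_le_mul_of_nonneg_left (D.pot.lo z) (by positivity)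

namespace Cfg

theorem okq (K : Cfg W W1 W2 W3 A A1 A2 B B1 C q s F a b c M β) : Ok q :=
  Ok.bdd (continuous_iff_continuousAt.2 fun z => (K.dq z).continuousAt) β K.qb

theorem okF (K : Cfg W W1 W2 W3 A A1 A2 B B1 C q s F a b c M β) : Ok F := by
  have h : F = fun z => A z - J W A := funext K.hF
  rw [h]; exact K.okA.sub (Ok.const _)

theorem oks (K : Cfg W W1 W2 W3 A A1 A2 B B1 C q s F a b c M β) : Ok s := by
  have h : s = fun z => W1 z * q z + F z := funext K.hs
  rw [h]; exact (K.pot.ok1.mul K.okq).add K.okF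

theorem dF (K : Cfg W W1 W2 W3 A A1 A2 B B1 C q s F a b c M β) (z : ℝ) : HasDerivAt F (A1 z) z := by
  have h : F = fun z => A z - J W A := funext K.hF
  rw [h]; exact (K.dA z).sub_const _

/-- `κ = A' + q W''` and `s' = W' s + κ` -/
theorem ds (K : Cfg W W1 W2 W3 A A1 A2 B B1 C q s F a b c M β) (z : ℝ) :
    HasDerivAt s (W1 z * s z + (A1 z + q z * W2 z)) z := by
  have h : s = fun z => W1 z * q z + F z := funext K.hs
  have h1 : HasDerivAt (fun z => W1 z * q z + F z) (W2 z * q z + W1 z * s z + A1 z) z :=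
    ((K.pot.d1 z).mul (K.dq z)).add (K.dF z)
  rw [← h] at h1
  refine h1.congr_deriv ?_
  ring

theorem i0 (K : Cfg W W1 W2 W3 A A1 A2 B B1 C q s F a b c M β) :
    J W (fun z => (B z + 2 * q z * A1 z + q z ^ 2 * W2 z) + s z ^ 2 - (B z - F z ^ 2)) = 0 := by
  have o1 := K.pot.ok1; have o2 := K.pot.ok2; have oq := K.okq; have os := K.oks; have oF := K.okF
  have oA1 := K.okA1; have oB := K.okB
  refine K.pot.zero (f := fun z => q z * (F z + s z))
    (f' := fun z => s z * (F z + s z) + q z * (A1 z + (W1 z * s z + (A1 z + q z * W2 z)))) ?_ ?_ ?_ ?_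
  · (repeat' (first | assumption | exact Ok.const _ | apply Ok.add | apply Ok.sub | apply Ok.mul | apply Ok.neg | apply Ok.pow | apply Ok.abs))
  · (repeat' (first | assumption | exact Ok.const _ | apply Ok.add | apply Ok.sub | apply Ok.mul | apply Ok.neg | apply Ok.pow | apply Ok.abs))
  · intro z
    exact (K.dq z).mul ((K.dF z).add (K.ds z))
  · intro z
    have h := K.hs z
    have h' : W1 z * q z = s z - F z := by linarith
    linear_combination (F z) * h'

theorem i1 (K : Cfg W W1 W2 W3 A A1 A2 B B1 C q s F a b c M β) :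
    J W (fun z => (C z + 3 * q z * B1 z + 3 * q z ^ 2 * A2 z + q z ^ 3 * W3 z) - 2 * s z ^ 3
      - (C z - 3 * (B z * F z) + F z ^ 3)) = 0 := by
  have o1 := K.pot.ok1; have o2 := K.pot.ok2; have oq := K.okq; have os := K.oks; have oF := K.okF
  have oA1 := K.okA1; have oB := K.okB; have oA2 := K.okA2; have oB1 := K.okB1; have oW3 := K.okW3
  refine K.pot.zero (f := fun z => 3 * (q z * B z) + 3 * (q z ^ 2 * A1 z) + q z ^ 3 * W2 z
      - q z * F z ^ 2 - q z * s z ^ 2 - q z * F z * s z)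
    (f' := fun z => 3 * (s z * B z + q z * B1 z) + 3 * (2 * q z * s z * A1 z + q z ^ 2 * A2 z)
      + (3 * q z ^ 2 * s z * W2 z + q z ^ 3 * W3 z) - (s z * F z ^ 2 + q z * (2 * F z * A1 z))
      - (s z * s z ^ 2 + q z * (2 * s z * (W1 z * s z + (A1 z + q z * W2 z))))
      - ((s z * F z + q z * A1 z) * s z + q z * F z * (W1 z * s z + (A1 z + q z * W2 z)))) ?_ ?_ ?_ ?_
  · (repeat' (first | assumption | exact Ok.const _ | apply Ok.add | apply Ok.sub | apply Ok.mul | apply Ok.neg | apply Ok.pow | apply Ok.abs))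
  · (repeat' (first | assumption | exact Ok.const _ | apply Ok.add | apply Ok.sub | apply Ok.mul | apply Ok.neg | apply Ok.pow | apply Ok.abs))
  · intro z
    have hq := K.dq z
    have hF := K.dF z
    have hs := K.ds z
    have h := (((((hq.mul (K.dB z)).const_mul 3).add (((hq.pow 2).mul (K.dA1 z)).const_mul 3)).add
      ((hq.pow 3).mul (K.d2 z))).sub (hq.mul (hF.pow 2))).sub (hq.mul (hs.pow 2)) |>.sub ((hq.mul hF).mul hs)
    refine h.congr_deriv ?_
    simp
  · intro z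
    have h := K.hs z
    have h' : W1 z * q z = s z - F z := by linarith
    linear_combination (3 * B z + 3 * q z * A1 z + q z ^ 2 * W2 z - F z ^ 2 + s z ^ 2) * h'

/-- test with a general function -/
theorem i3 (K : Cfg W W1 W2 W3 A A1 A2 B B1 C q s F a b c M β) {φ φ' : ℝ → ℝ} (hφ : Ok φ)
    (hφ' : Ok φ') (hd : ∀ z, HasDerivAt φ (φ' z) z) :
    J W (fun z => φ' z * (W1 z * s z + (A1 z + q z * W2 z)) + φ z * (2 * W2 z * s z + (A2 z + q z * W3 z))) = 0 := by
  have o1 := K.pot.ok1; have o2 := K.pot.ok2; have oq := K.okq; have os := K.oks; have oF := K.okF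
  have oA1 := K.okA1; have oB := K.okB; have oA2 := K.okA2; have oB1 := K.okB1; have oW3 := K.okW3
  refine K.pot.zero (f := fun z => φ z * (W1 z * s z + (A1 z + q z * W2 z)))
    (f' := fun z => φ' z * (W1 z * s z + (A1 z + q z * W2 z)) +
      φ z * ((W2 z * s z + W1 z * (W1 z * s z + (A1 z + q z * W2 z))) + (A2 z + (s z * W2 z + q z * W3 z)))) ?_ ?_ ?_ ?_
  · (repeat' (first | assumption | exact Ok.const _ | apply Ok.add | apply Ok.sub | apply Ok.mul | apply Ok.neg | apply Ok.pow | apply Ok.abs))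
  · (repeat' (first | assumption | exact Ok.const _ | apply Ok.add | apply Ok.sub | apply Ok.mul | apply Ok.neg | apply Ok.pow | apply Ok.abs))
  · intro z
    exact (hd z).mul ((((K.pot.d1 z).mul (K.ds z))).add ((K.dA1 z).add ((K.dq z).mul (K.d2 z))))
  · intro z
    ring

end Cfg

end Vale.Agent.P227.M.SC.St
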