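import Vale.Agent.P227.M.SC.StCore

/-! # P227/M/SC, static proof of the marginal lemma: pointwise facts and the moments of `s`. -/

open MeasureTheory Set Filter Real
open scoped Topology

set_option linter.all false
set_option autoImplicit false

namespace Vale.Agent.P227.M.SC.St

theorem hasDerivAt_mul_abs (x : ℝ) : HasDerivAt (fun x : ℝ => x * |x|) (2 * |x|) x := by
  rcases lt_trichotomy x 0 with h | h | h
  · have h1 := (hasDerivAt_id x).mul (hasDerivAt_abs_neg h)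
    refine h1.congr_deriv ?_
    simp [abs_of_neg h]; ring
  · subst h
    rw [hasDerivAt_iff_tendsto_slope_zero]
    have h1 : Tendsto (fun t : ℝ => |t|) (𝓝[≠] 0) (𝓝 0) := by
      have := (continuous_abs (G := ℝ)).tendsto 0
      simp only [abs_zero] at this
      exact this.mono_left nhdsWithin_le_nhds
    simp only [abs_zero, mul_zero]
    refine h1.congr' ?_
    filter_upwards [self_mem_nhdsWithin] with t ht
    have ht' : t ≠ 0 := ht
    simp only [zero_add, sub_zero, smul_eq_mul]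
    field_simp
  · have h1 := (hasDerivAt_id x).mul (hasDerivAt_abs_pos h)
    refine h1.congr_deriv ?_
    simp [abs_of_pos h]; ring

variable {W W1 W2 W3 A A1 A2 B B1 C q s F : ℝ → ℝ} {a b c M β : ℝ}

namespace Cfg

theorem W2pos (K : Cfg W W1 W2 W3 A A1 A2 B B1 C q s F a b c M β) (z : ℝ) : 0 < W2 z :=
  K.pot.ha.trans_le (K.pot.lo z)

theorem cub (K : Cfg W W1 W2 W3 A A1 A2 B B1 C q s F a b c M β) (z : ℝ) :
    CubB (B z + 2 * q z * A1 z + q z ^ 2 * W2 z) (A1 z + q z * W2 z) (W2 z)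
      (C z + 3 * q z * B1 z + 3 * q z ^ 2 * A2 z + q z ^ 3 * W3 z) (B1 z + 2 * q z * A2 z + q z ^ 2 * W3 z)
      (A2 z + q z * W3 z) (W3 z) c := by
  intro u v
  have h := K.sc z u (u * q z + v)
  have e1 : u ^ 3 * (C z + 3 * q z * B1 z + 3 * q z ^ 2 * A2 z + q z ^ 3 * W3 z) +
      3 * u ^ 2 * v * (B1 z + 2 * q z * A2 z + q z ^ 2 * W3 z) + 3 * u * v ^ 2 * (A2 z + q z * W3 z) + v ^ 3 * W3 z
      = u ^ 3 * C z + 3 * u ^ 2 * (u * q z + v) * B1 z + 3 * u * (u * q z + v) ^ 2 * A2 z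
        + (u * q z + v) ^ 3 * W3 z := by ring
  have e2 : u ^ 2 * (B z + 2 * q z * A1 z + q z ^ 2 * W2 z) + 2 * u * v * (A1 z + q z * W2 z) + v ^ 2 * W2 z
      = u ^ 2 * B z + 2 * u * (u * q z + v) * A1 z + (u * q z + v) ^ 2 * W2 z := by ring
  rw [e1, e2]
  exact h

theorem kap (K : Cfg W W1 W2 W3 A A1 A2 B B1 C q s F a b c M β) (z : ℝ) :
    (A1 z + q z * W2 z) ^ 2 ≤ (B z + 2 * q z * A1 z + q z ^ 2 * W2 z) * W2 z := by
  have h := K.lo z (W2 z) (-A1 z)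
  have hW := K.W2pos z
  have ha := K.pot.ha
  have h1 : 0 ≤ W2 z * (B z * W2 z - A1 z ^ 2) := by
    have : 0 ≤ a * (W2 z ^ 2 + (-A1 z) ^ 2) := by positivity
    nlinarith
  have h2 : 0 ≤ B z * W2 z - A1 z ^ 2 := nonneg_of_mul_nonneg_right h1 hW
  nlinarith

theorem Xlo (K : Cfg W W1 W2 W3 A A1 A2 B B1 C q s F a b c M β) (z : ℝ) :
    a ≤ B z + 2 * q z * A1 z + q z ^ 2 * W2 z := by
  have h := K.lo z 1 (q z)
  have ha := K.pot.ha
  nlinarith [mul_nonneg ha.le (sq_nonneg (q z))]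

theorem Xhi (K : Cfg W W1 W2 W3 A A1 A2 B B1 C q s F a b c M β) (z : ℝ) :
    B z + 2 * q z * A1 z + q z ^ 2 * W2 z ≤ b * (1 + β ^ 2) := by
  have h := K.hi z 1 (q z)
  have hb : 0 ≤ b := K.pot.ha.le.trans ((K.pot.lo z).trans (K.pot.hi z))
  have hq : q z ^ 2 ≤ β ^ 2 := by
    rw [← sq_abs]
    have := K.qb z
    gcongr
  have := mul_le_mul_of_nonneg_left hq hb
  nlinarith

theorem okX (K : Cfg W W1 W2 W3 A A1 A2 B B1 C q s F a b c M β) :
    Ok (fun z => B z + 2 * q z * A1 z + q z ^ 2 * W2 z) := by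
  have o2 := K.pot.ok2; have oq := K.okq
  have oA1 := K.okA1; have oB := K.okB
  (repeat' (first | assumption | exact Ok.const _ | apply Ok.add | apply Ok.sub | apply Ok.mul | apply Ok.neg | apply Ok.pow | apply Ok.abs))

theorem okY (K : Cfg W W1 W2 W3 A A1 A2 B B1 C q s F a b c M β) :
    Ok (fun z => √(B z + 2 * q z * A1 z + q z ^ 2 * W2 z)) := by
  refine Ok.bdd (Real.continuous_sqrt.comp K.okX.1) (√(b * (1 + β ^ 2))) (fun z => ?_)
  rw [abs_of_nonneg (Real.sqrt_nonneg _)]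
  exact Real.sqrt_le_sqrt (K.Xhi z)

theorem okI (K : Cfg W W1 W2 W3 A A1 A2 B B1 C q s F a b c M β) : Ok (fun z => (W2 z)⁻¹) := by
  refine Ok.bdd (K.pot.c2.inv₀ (fun z => (K.W2pos z).ne')) a⁻¹ (fun z => ?_)
  rw [abs_of_nonneg (inv_nonneg.2 (K.W2pos z).le)]
  exact inv_anti₀ K.pot.ha (K.pot.lo z)

/-- bound of `A'' + q W'''` -/
theorem k3 (K : Cfg W W1 W2 W3 A A1 A2 B B1 C q s F a b c M β) (z : ℝ) :
    |A2 z + q z * W3 z| ≤ 5 / 2 * c * √(B z + 2 * q z * A1 z + q z ^ 2 * W2 z) * W2 z :=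
  alg_k (K.pot.ha.trans_le (K.Xlo z)) (K.W2pos z) K.cc.le (K.kap z) (K.cub z)

theorem w3 (K : Cfg W W1 W2 W3 A A1 A2 B B1 C q s F a b c M β) (z : ℝ) :
    |W3 z| ≤ 2 * c * (W2 z * √(W2 z)) := alg_w (K.W2pos z) (K.cub z)

/-- pointwise inequality behind the third moment -/
theorem pw3 {s S w ω w3 k Y c : ℝ} (hω : 0 < ω) (hw : w = ω ^ 2) (hw3 : |w3| ≤ 2 * c * (w * ω))
    (hk : |k| ≤ 5 / 2 * c * Y * w) :
    (2 - c ^ 2 / 2) * |s| ^ 3 - 5 / 2 * c * (Y * s ^ 2) ≤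
      (2 * |s| * S * w⁻¹ + s * |s| * (-w3 * (w⁻¹) ^ 2)) * S + s * |s| * w⁻¹ * (2 * w * s + k) := by
  have hwp : 0 < w := by rw [hw]; positivity
  have hs2 : s * |s| * s = |s| ^ 3 := by
    have : s ^ 2 = |s| ^ 2 := (sq_abs s).symm
    calc s * |s| * s = s ^ 2 * |s| := by ring
      _ = |s| ^ 3 := by rw [this]; ring
  have e : (2 * |s| * S * w⁻¹ + s * |s| * (-w3 * (w⁻¹) ^ 2)) * S + s * |s| * w⁻¹ * (2 * w * s + k)
      = 2 * |s| * (S / ω) ^ 2 - s * |s| * S * (w3 / w ^ 2) + 2 * |s| ^ 3 + s * |s| * (k / w) := by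
    rw [← hs2, hw]; field_simp; ring
  rw [e]
  have h1 : s * |s| * S * (w3 / w ^ 2) ≤ 2 * c * s ^ 2 * (|S| / ω) := by
    have : |s * |s| * S * (w3 / w ^ 2)| ≤ 2 * c * s ^ 2 * (|S| / ω) := by
      rw [abs_mul, abs_mul, abs_mul, abs_abs, abs_div, abs_of_pos (by positivity : 0 < w ^ 2)]
      have h2 : |w3| / w ^ 2 ≤ 2 * c / ω := by
        rw [div_le_div_iff₀ (by positivity) hω]
        calc |w3| * ω ≤ 2 * c * (w * ω) * ω := mul_le_mul_of_nonneg_right hw3 hω.le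
          _ = 2 * c * w ^ 2 := by rw [hw]; ring
      calc |s| * |s| * |S| * (|w3| / w ^ 2) ≤ |s| * |s| * |S| * (2 * c / ω) :=
            mul_le_mul_of_nonneg_left h2 (by positivity)
        _ = 2 * c * s ^ 2 * (|S| / ω) := by rw [← sq_abs s]; ring
    exact (le_abs_self _).trans this
  have h3 : -(5 / 2 * c * (Y * s ^ 2)) ≤ s * |s| * (k / w) := by
    have : |s * |s| * (k / w)| ≤ 5 / 2 * c * (Y * s ^ 2) := by
      rw [abs_mul, abs_mul, abs_abs, abs_div, abs_of_pos hwp]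
      have h2 : |k| / w ≤ 5 / 2 * c * Y := by
        rw [div_le_iff₀ hwp]; exact hk
      calc |s| * |s| * (|k| / w) ≤ |s| * |s| * (5 / 2 * c * Y) :=
            mul_le_mul_of_nonneg_left h2 (by positivity)
        _ = 5 / 2 * c * (Y * s ^ 2) := by rw [← sq_abs s]; ring
    linarith [neg_abs_le (s * |s| * (k / w))]
  have h4 : 2 * c * s ^ 2 * (|S| / ω) ≤ 2 * |s| * (S / ω) ^ 2 + c ^ 2 / 2 * |s| ^ 3 := by
    have h5 : (S / ω) ^ 2 = (|S| / ω) ^ 2 := by rw [div_pow, div_pow, sq_abs]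
    rw [h5, ← sq_abs s]
    have := mul_nonneg (abs_nonneg s) (sq_nonneg (|S| / ω - c * |s| / 2))
    nlinarith
  linarith

/-- pointwise inequality behind the fourth moment -/
theorem pw4 {s S w ω w3 k Y c : ℝ} (hω : 0 < ω) (hw : w = ω ^ 2) (hw3 : |w3| ≤ 2 * c * (w * ω))
    (hk : |k| ≤ 5 / 2 * c * Y * w) :
    (2 - c ^ 2 / 3) * s ^ 4 - 5 / 2 * c * (Y * |s| ^ 3) ≤
      (3 * s ^ 2 * S * w⁻¹ + s ^ 3 * (-w3 * (w⁻¹) ^ 2)) * S + s ^ 3 * w⁻¹ * (2 * w * s + k) := by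
  have hwp : 0 < w := by rw [hw]; positivity
  have e : (3 * s ^ 2 * S * w⁻¹ + s ^ 3 * (-w3 * (w⁻¹) ^ 2)) * S + s ^ 3 * w⁻¹ * (2 * w * s + k)
      = 3 * s ^ 2 * (S / ω) ^ 2 - s ^ 3 * S * (w3 / w ^ 2) + 2 * s ^ 4 + s ^ 3 * (k / w) := by
    rw [hw]; field_simp; ring
  rw [e]
  have h1 : s ^ 3 * S * (w3 / w ^ 2) ≤ 2 * c * |s| ^ 3 * (|S| / ω) := by
    have : |s ^ 3 * S * (w3 / w ^ 2)| ≤ 2 * c * |s| ^ 3 * (|S| / ω) := by
      rw [abs_mul, abs_mul, abs_pow, abs_div, abs_of_pos (by positivity : 0 < w ^ 2)]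
      have h2 : |w3| / w ^ 2 ≤ 2 * c / ω := by
        rw [div_le_div_iff₀ (by positivity) hω]
        calc |w3| * ω ≤ 2 * c * (w * ω) * ω := mul_le_mul_of_nonneg_right hw3 hω.le
          _ = 2 * c * w ^ 2 := by rw [hw]; ring
      calc |s| ^ 3 * |S| * (|w3| / w ^ 2) ≤ |s| ^ 3 * |S| * (2 * c / ω) :=
            mul_le_mul_of_nonneg_left h2 (by positivity)
        _ = 2 * c * |s| ^ 3 * (|S| / ω) := by ring
    exact (le_abs_self _).trans this
  have h3 : -(5 / 2 * c * (Y * |s| ^ 3)) ≤ s ^ 3 * (k / w) := by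
    have : |s ^ 3 * (k / w)| ≤ 5 / 2 * c * (Y * |s| ^ 3) := by
      rw [abs_mul, abs_pow, abs_div, abs_of_pos hwp]
      have h2 : |k| / w ≤ 5 / 2 * c * Y := by
        rw [div_le_iff₀ hwp]; exact hk
      calc |s| ^ 3 * (|k| / w) ≤ |s| ^ 3 * (5 / 2 * c * Y) :=
            mul_le_mul_of_nonneg_left h2 (by positivity)
        _ = 5 / 2 * c * (Y * |s| ^ 3) := by ring
    linarith [neg_abs_le (s ^ 3 * (k / w))]
  have h4 : 2 * c * |s| ^ 3 * (|S| / ω) ≤ 3 * s ^ 2 * (S / ω) ^ 2 + c ^ 2 / 3 * s ^ 4 := by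
    have h5 : (S / ω) ^ 2 = (|S| / ω) ^ 2 := by rw [div_pow, div_pow, sq_abs]
    have h6 : s ^ 4 = |s| ^ 4 := by rw [show s ^ 4 = (s ^ 2) ^ 2 by ring, ← sq_abs s]; ring
    have h7 : s ^ 2 = |s| ^ 2 := (sq_abs s).symm
    rw [h5, h6, h7]
    have := mul_nonneg (sq_nonneg |s|) (sq_nonneg (|S| / ω - c * |s| / 3))
    nlinarith
  linarith

theorem dI (K : Cfg W W1 W2 W3 A A1 A2 B B1 C q s F a b c M β) (z : ℝ) :
    HasDerivAt (fun z => (W2 z)⁻¹) (-W3 z * ((W2 z)⁻¹) ^ 2) z := by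
  refine ((K.d2 z).inv (K.W2pos z).ne').congr_deriv ?_
  field_simp

theorem S3 (K : Cfg W W1 W2 W3 A A1 A2 B B1 C q s F a b c M β) :
    (2 - c ^ 2 / 2) * J W (fun z => |s z| ^ 3) ≤
      5 / 2 * c * J W (fun z => √(B z + 2 * q z * A1 z + q z ^ 2 * W2 z) * s z ^ 2) := by
  have o1 := K.pot.ok1; have o2 := K.pot.ok2; have oq := K.okq; have os := K.oks; have oF := K.okF
  have oA1 := K.okA1; have oB := K.okB; have oA2 := K.okA2; have oB1 := K.okB1; have oW3 := K.okW3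
  have oY := K.okY; have oI := K.okI
  have hφ : Ok (fun z => s z * |s z| * (W2 z)⁻¹) := by (repeat' (first | assumption | exact Ok.const _ | apply Ok.add | apply Ok.sub | apply Ok.mul | apply Ok.neg | apply Ok.pow | apply Ok.abs))
  have hφ' : Ok (fun z => 2 * |s z| * (W1 z * s z + (A1 z + q z * W2 z)) * (W2 z)⁻¹
      + s z * |s z| * (-W3 z * ((W2 z)⁻¹) ^ 2)) := by (repeat' (first | assumption | exact Ok.const _ | apply Ok.add | apply Ok.sub | apply Ok.mul | apply Ok.neg | apply Ok.pow | apply Ok.abs))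
  have hd : ∀ z, HasDerivAt (fun z => s z * |s z| * (W2 z)⁻¹) (2 * |s z| * (W1 z * s z + (A1 z + q z * W2 z)) * (W2 z)⁻¹
      + s z * |s z| * (-W3 z * ((W2 z)⁻¹) ^ 2)) z := by
    intro z
    have h1 : HasDerivAt (fun z => s z * |s z|) (2 * |s z| * (W1 z * s z + (A1 z + q z * W2 z))) z :=
      (hasDerivAt_mul_abs (s z)).comp z (K.ds z)
    exact h1.mul (K.dI z)
  have h0 := K.i3 hφ hφ' hd
  have hL : Ok (fun z => (2 - c ^ 2 / 2) * |s z| ^ 3 - 5 / 2 * c * (√(B z + 2 * q z * A1 z + q z ^ 2 * W2 z) * s z ^ 2)) := by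
    (repeat' (first | assumption | exact Ok.const _ | apply Ok.add | apply Ok.sub | apply Ok.mul | apply Ok.neg | apply Ok.pow | apply Ok.abs))
  have hR : Ok (fun z => (2 * |s z| * (W1 z * s z + (A1 z + q z * W2 z)) * (W2 z)⁻¹
      + s z * |s z| * (-W3 z * ((W2 z)⁻¹) ^ 2)) * (W1 z * s z + (A1 z + q z * W2 z))
      + s z * |s z| * (W2 z)⁻¹ * (2 * W2 z * s z + (A2 z + q z * W3 z))) := by (repeat' (first | assumption | exact Ok.const _ | apply Ok.add | apply Ok.sub | apply Ok.mul | apply Ok.neg | apply Ok.pow | apply Ok.abs))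
  have hle := K.pot.J_mono hL hR (fun z => pw3 (Real.sqrt_pos.2 (K.W2pos z))
    (Real.sq_sqrt (K.W2pos z).le).symm (K.w3 z) (K.k3 z))
  rw [h0] at hle
  have o3 : Ok (fun z => |s z| ^ 3) := by (repeat' (first | assumption | exact Ok.const _ | apply Ok.add | apply Ok.sub | apply Ok.mul | apply Ok.neg | apply Ok.pow | apply Ok.abs))
  have o4 : Ok (fun z => √(B z + 2 * q z * A1 z + q z ^ 2 * W2 z) * s z ^ 2) := by (repeat' (first | assumption | exact Ok.const _ | apply Ok.add | apply Ok.sub | apply Ok.mul | apply Ok.neg | apply Ok.pow | apply Ok.abs))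
  rw [K.pot.J_sub (o3.smul _) (o4.smul _), J_smul, J_smul] at hle
  linarith

theorem S4' (K : Cfg W W1 W2 W3 A A1 A2 B B1 C q s F a b c M β) :
    (2 - c ^ 2 / 3) * J W (fun z => s z ^ 4) ≤
      5 / 2 * c * J W (fun z => √(B z + 2 * q z * A1 z + q z ^ 2 * W2 z) * |s z| ^ 3) := by
  have o1 := K.pot.ok1; have o2 := K.pot.ok2; have oq := K.okq; have os := K.oks; have oF := K.okF
  have oA1 := K.okA1; have oB := K.okB; have oA2 := K.okA2; have oB1 := K.okB1; have oW3 := K.okW3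
  have oY := K.okY; have oI := K.okI
  have hφ : Ok (fun z => s z ^ 3 * (W2 z)⁻¹) := by (repeat' (first | assumption | exact Ok.const _ | apply Ok.add | apply Ok.sub | apply Ok.mul | apply Ok.neg | apply Ok.pow | apply Ok.abs))
  have hφ' : Ok (fun z => 3 * s z ^ 2 * (W1 z * s z + (A1 z + q z * W2 z)) * (W2 z)⁻¹
      + s z ^ 3 * (-W3 z * ((W2 z)⁻¹) ^ 2)) := by (repeat' (first | assumption | exact Ok.const _ | apply Ok.add | apply Ok.sub | apply Ok.mul | apply Ok.neg | apply Ok.pow | apply Ok.abs))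
  have hd : ∀ z, HasDerivAt (fun z => s z ^ 3 * (W2 z)⁻¹) (3 * s z ^ 2 * (W1 z * s z + (A1 z + q z * W2 z)) * (W2 z)⁻¹
      + s z ^ 3 * (-W3 z * ((W2 z)⁻¹) ^ 2)) z := by
    intro z
    have h1 : HasDerivAt (fun z => s z ^ 3) (3 * s z ^ 2 * (W1 z * s z + (A1 z + q z * W2 z))) z := by
      refine ((K.ds z).pow 3).congr_deriv ?_
      simp
    exact h1.mul (K.dI z)
  have h0 := K.i3 hφ hφ' hd
  have hL : Ok (fun z => (2 - c ^ 2 / 3) * s z ^ 4 - 5 / 2 * c * (√(B z + 2 * q z * A1 z + q z ^ 2 * W2 z) * |s z| ^ 3)) := by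
    (repeat' (first | assumption | exact Ok.const _ | apply Ok.add | apply Ok.sub | apply Ok.mul | apply Ok.neg | apply Ok.pow | apply Ok.abs))
  have hR : Ok (fun z => (3 * s z ^ 2 * (W1 z * s z + (A1 z + q z * W2 z)) * (W2 z)⁻¹
      + s z ^ 3 * (-W3 z * ((W2 z)⁻¹) ^ 2)) * (W1 z * s z + (A1 z + q z * W2 z))
      + s z ^ 3 * (W2 z)⁻¹ * (2 * W2 z * s z + (A2 z + q z * W3 z))) := by (repeat' (first | assumption | exact Ok.const _ | apply Ok.add | apply Ok.sub | apply Ok.mul | apply Ok.neg | apply Ok.pow | apply Ok.abs))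
  have hle := K.pot.J_mono hL hR (fun z => pw4 (Real.sqrt_pos.2 (K.W2pos z))
    (Real.sq_sqrt (K.W2pos z).le).symm (K.w3 z) (K.k3 z))
  rw [h0] at hle
  have o3 : Ok (fun z => s z ^ 4) := by (repeat' (first | assumption | exact Ok.const _ | apply Ok.add | apply Ok.sub | apply Ok.mul | apply Ok.neg | apply Ok.pow | apply Ok.abs))
  have o4 : Ok (fun z => √(B z + 2 * q z * A1 z + q z ^ 2 * W2 z) * |s z| ^ 3) := by (repeat' (first | assumption | exact Ok.const _ | apply Ok.add | apply Ok.sub | apply Ok.mul | apply Ok.neg | apply Ok.pow | apply Ok.abs))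
  rw [K.pot.J_sub (o3.smul _) (o4.smul _), J_smul, J_smul] at hle
  linarith

end Cfg

end Vale.Agent.P227.M.SC.St
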