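import Vale.Agent.P227.M.SC.StMain

/-! # P227/M/SC, static proof of the marginal lemma: the conclusion for normalised data. -/

open MeasureTheory Set Filter Real
open scoped Topology

set_option linter.all false
set_option autoImplicit false

namespace Vale.Agent.P227.M.SC.St

variable {W W1 W2 W3 A A1 A2 B B1 C q s F : ℝ → ℝ} {a b c M β : ℝ}


theorem bS4 (P : Pot W W1 W2 a b) (os : Ok s) {Y : ℝ → ℝ} (oY : Ok Y) {b1 : ℝ} (hc : 0 < c) (hb1 : 0 < b1)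
    (hYb : ∀ z, Y z ≤ b1) (h7 : c ≤ 1 / 10)
    (hS4 : (2 - c ^ 2 / 3) * J W (fun z => s z ^ 4) ≤ 5 / 2 * c * J W (fun z => Y z * |s z| ^ 3)) :
    √(J W (fun z => s z ^ 4)) ≤ 63 / 50 * (c * b1) * √(J W (fun z => s z ^ 2)) := by
  have nn4 : 0 ≤ J W (fun z => s z ^ 4) := J_nonneg W (fun z => by positivity)
  obtain ⟨x, hx⟩ : ∃ x, x = √(J W (fun z => s z ^ 2)) := ⟨_, rfl⟩
  obtain ⟨S4, hS4d⟩ : ∃ S4, S4 = √(J W (fun z => s z ^ 4)) := ⟨_, rfl⟩
  have x0 : 0 ≤ x := by rw [hx]; exact Real.sqrt_nonneg _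
  have S0 : 0 ≤ S4 := by rw [hS4d]; exact Real.sqrt_nonneg _
  have SS : S4 ^ 2 = J W (fun z => s z ^ 4) := by rw [hS4d]; exact Real.sq_sqrt nn4
  have c3 : J W (fun z => |s z| ^ 3) ≤ x * S4 := by
    have h := P.csq os.abs (os.pow 2)
    have h1 : J W (fun z => |s z| * s z ^ 2) = J W (fun z => |s z| ^ 3) :=
      J_congr W (fun z => by rw [← sq_abs]; ring)
    have h2 : J W (fun z => |s z| ^ 2) = J W (fun z => s z ^ 2) := J_congr W (fun z => sq_abs _)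
    have h3 : J W (fun z => (s z ^ 2) ^ 2) = J W (fun z => s z ^ 4) := J_congr W (fun z => by ring)
    rw [h1, h2, h3, ← hx, ← hS4d] at h
    exact (le_abs_self _).trans h
  rw [← hx, ← hS4d]
  have hY3 : J W (fun z => Y z * |s z| ^ 3) ≤ b1 * J W (fun z => |s z| ^ 3) := by
    rw [← J_smul]
    exact P.J_mono (oY.mul (os.abs.pow 3)) (Ok.smul b1 (os.abs.pow 3))
      (fun z => mul_le_mul_of_nonneg_right (hYb z) (by positivity))
  have h5 : 5 / 2 * c * J W (fun z => Y z * |s z| ^ 3) ≤ 5 / 2 * c * (b1 * (x * S4)) :=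
    mul_le_mul_of_nonneg_left (hY3.trans (mul_le_mul_of_nonneg_left c3 hb1.le)) (by positivity)
  have hc2 : c ^ 2 ≤ 1 / 100 := by
    have : c ^ 2 ≤ (1 / 10) ^ 2 := by gcongr
    linarith
  have h6 : 199 / 100 * S4 ^ 2 ≤ (2 - c ^ 2 / 3) * S4 ^ 2 :=
    mul_le_mul_of_nonneg_right (by linarith) (sq_nonneg _)
  rw [← SS] at hS4
  rcases eq_or_lt_of_le S0 with h | h
  · rw [← h]; positivity
  · have h9 : S4 * (199 / 100 * S4) ≤ S4 * (5 / 2 * (c * b1) * x) := by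
      calc S4 * (199 / 100 * S4) = 199 / 100 * S4 ^ 2 := by ring
        _ ≤ 5 / 2 * c * (b1 * (x * S4)) := by linarith
        _ = S4 * (5 / 2 * (c * b1) * x) := by ring
    have h10 := le_of_mul_le_mul_left h9 h
    have h11 : 0 ≤ (c * b1) * x := by positivity
    linarith

theorem bx2 (P : Pot W W1 W2 a b) (os : Ok s) :
    J W (fun z => s z ^ 2) ≤ √(J W (fun z => s z ^ 4)) := by
  have h := P.csq (os.pow 2) (Ok.const 1)
  have h1 : J W (fun z => s z ^ 2 * 1) = J W (fun z => s z ^ 2) := J_congr W (fun z => by ring)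
  have h3 : J W (fun z => (s z ^ 2) ^ 2) = J W (fun z => s z ^ 4) := J_congr W (fun z => by ring)
  have h4 : J W (fun _ => (1:ℝ) ^ 2) = 1 := by
    have := P.J_const ((1:ℝ) ^ 2)
    rw [this]; norm_num
  rw [h1, h3, h4, Real.sqrt_one, mul_one] at h
  exact (le_abs_self _).trans h

theorem bNY (P : Pot W W1 W2 a b) {X Y : ℝ → ℝ} {μ : ℝ} (hμ : 0 < μ) (oX : Ok X) (oY : Ok Y)
    (hXY : ∀ z, X z = Y z ^ 2) (hY0 : ∀ z, 0 < Y z) :
    μ * √(J W (fun z => (Y z - μ) ^ 2)) ≤ √(J W (fun z => (X z - μ ^ 2) ^ 2)) := by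
  have oYm : Ok (fun z => Y z - μ) := by (repeat' (first | assumption | exact Ok.const _ | apply Ok.add | apply Ok.sub | apply Ok.mul | apply Ok.neg | apply Ok.pow | apply Ok.abs))
  have oXm : Ok (fun z => X z - μ ^ 2) := by (repeat' (first | assumption | exact Ok.const _ | apply Ok.add | apply Ok.sub | apply Ok.mul | apply Ok.neg | apply Ok.pow | apply Ok.abs))
  apply Real.le_sqrt_of_sq_le
  rw [mul_pow, Real.sq_sqrt (J_nonneg W (fun z => sq_nonneg _)), ← J_smul]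
  refine P.J_mono (Ok.smul _ (oYm.pow 2)) (oXm.pow 2) (fun z => ?_)
  have hz := hY0 z
  rw [hXY z]
  have e' : (Y z ^ 2 - μ ^ 2) ^ 2 = (Y z + μ) ^ 2 * (Y z - μ) ^ 2 := by ring
  rw [e']
  apply mul_le_mul_of_nonneg_right _ (sq_nonneg _)
  gcongr; linarith

theorem bM2 (P : Pot W W1 W2 a b) {X : ℝ → ℝ} {μ : ℝ} (oX : Ok X)
    (hμ2 : μ ^ 2 = J W X + J W (fun z => s z ^ 2)) :
    √(J W (fun z => (X z - μ ^ 2) ^ 2)) ≤ √(J W (fun z => (X z - J W X) ^ 2)) + J W (fun z => s z ^ 2) := by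
  have nn2 : 0 ≤ J W (fun z => s z ^ 2) := J_nonneg W (fun z => sq_nonneg _)
  obtain ⟨y, hy⟩ : ∃ y, y = J W (fun z => s z ^ 2) := ⟨_, rfl⟩
  rw [← hy] at nn2 hμ2 ⊢
  have og : Ok (fun z => X z - J W X) := by (repeat' (first | assumption | exact Ok.const _ | apply Ok.add | apply Ok.sub | apply Ok.mul | apply Ok.neg | apply Ok.pow | apply Ok.abs))
  have hJg : J W (fun z => X z - J W X) = 0 := by rw [P.J_sub oX (Ok.const _), P.J_const, sub_self]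
  have hJ2 : J W (fun z => (X z - μ ^ 2) ^ 2) = J W (fun z => (X z - J W X) ^ 2) + y ^ 2 := by
    have e1 : ∀ z, (X z - μ ^ 2) ^ 2 = (X z - J W X) ^ 2 + (-2 * y) * (X z - J W X) + y ^ 2 := by
      intro z
      rw [hμ2]; ring
    rw [J_congr W e1, P.J_add ((og.pow 2).add (og.smul _)) (Ok.const _), P.J_add (og.pow 2) (og.smul _),
      J_smul, hJg, P.J_const]
    ring
  rw [hJ2]
  have hG := J_nonneg W (fun z => sq_nonneg (X z - J W X))
  apply Real.sqrt_le_iff.2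
  refine ⟨by positivity, ?_⟩
  have h1 := Real.sq_sqrt hG
  have h2 : 0 ≤ √(J W (fun z => (X z - J W X) ^ 2)) * y := mul_nonneg (Real.sqrt_nonneg _) nn2
  generalize √(J W (fun z => (X z - J W X) ^ 2)) = G at h1 h2 ⊢
  rw [← h1]
  linarith

theorem bYs (P : Pot W W1 W2 a b) (os : Ok s) {Y : ℝ → ℝ} (oY : Ok Y) {μ : ℝ} :
    J W (fun z => Y z * s z ^ 2) ≤ μ * J W (fun z => s z ^ 2)
      + √(J W (fun z => (Y z - μ) ^ 2)) * √(J W (fun z => s z ^ 4)) := by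
  have oYm : Ok (fun z => Y z - μ) := by (repeat' (first | assumption | exact Ok.const _ | apply Ok.add | apply Ok.sub | apply Ok.mul | apply Ok.neg | apply Ok.pow | apply Ok.abs))
  have h := P.csq oYm (os.pow 2)
  have h3 : J W (fun z => (s z ^ 2) ^ 2) = J W (fun z => s z ^ 4) := J_congr W (fun z => by ring)
  rw [h3] at h
  have h4 : J W (fun z => Y z * s z ^ 2) = J W (fun z => (Y z - μ) * s z ^ 2) + μ * J W (fun z => s z ^ 2) := by
    rw [← J_smul, ← P.J_add (oYm.mul (os.pow 2)) (Ok.smul _ (os.pow 2))]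
    exact J_congr W (fun z => by ring)
  rw [h4]
  linarith [le_abs_self (J W (fun z => (Y z - μ) * s z ^ 2))]

theorem bcube (P : Pot W W1 W2 a b) {X Y : ℝ → ℝ} {μ : ℝ} (hμ : 0 < μ) (oX : Ok X) (oY : Ok Y)
    (hXY : ∀ z, X z = Y z ^ 2) (hY0 : ∀ z, 0 < Y z) :
    μ * (2 * J W (fun z => X z * Y z) - 3 * μ * J W X + μ ^ 3) ≤ √(J W (fun z => (X z - μ ^ 2) ^ 2)) ^ 2 := by
  have oXY : Ok (fun z => X z * Y z) := oX.mul oY
  have oXm : Ok (fun z => X z - μ ^ 2) := by (repeat' (first | assumption | exact Ok.const _ | apply Ok.add | apply Ok.sub | apply Ok.mul | apply Ok.neg | apply Ok.pow | apply Ok.abs))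
  have o1 : Ok (fun z => (Y z - μ) ^ 2 * (2 * Y z + μ)) := by (repeat' (first | assumption | exact Ok.const _ | apply Ok.add | apply Ok.sub | apply Ok.mul | apply Ok.neg | apply Ok.pow | apply Ok.abs))
  have e1 : ∀ z, (Y z - μ) ^ 2 * (2 * Y z + μ) = 2 * (X z * Y z) + (-3 * μ) * X z + μ ^ 3 := by
    intro z; rw [hXY z]; ring
  have e2 : J W (fun z => (Y z - μ) ^ 2 * (2 * Y z + μ)) =
      2 * J W (fun z => X z * Y z) - 3 * μ * J W X + μ ^ 3 := by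
    rw [J_congr W e1, P.J_add ((oXY.smul 2).add (oX.smul _)) (Ok.const _), P.J_add (oXY.smul 2) (oX.smul _),
      J_smul, J_smul, P.J_const]
    ring
  rw [← e2, ← J_smul, Real.sq_sqrt (J_nonneg W (fun z => sq_nonneg _))]
  refine P.J_mono (Ok.smul _ o1) (oXm.pow 2) (fun z => ?_)
  rw [hXY z]
  have e' : (Y z ^ 2 - μ ^ 2) ^ 2 - μ * ((Y z - μ) ^ 2 * (2 * Y z + μ)) = ((Y z - μ) * Y z) ^ 2 := by ring
  linarith [sq_nonneg ((Y z - μ) * Y z)]


theorem glue {c μ b1 x S4 G NY M2 sx t3 D ys JX JT JXY J3 : ℝ} (hc : 0 < c) (hμ : 0 < μ) (hb1 : 0 < b1)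
    (x0 : 0 ≤ x) (S0 : 0 ≤ S4) (N0 : 0 ≤ NY) (M0 : 0 ≤ M2) (xx : sx = x ^ 2) (nn3 : 0 ≤ t3) (nnD : 0 ≤ D)
    (h1 : S4 ≤ 63 / 50 * (c * b1) * x) (h2 : sx ≤ S4)
    (h3 : G ≤ 3 * S4 + 2 * c * μ * x + 2 * (c * b1) * NY + √(14 * (c * b1) * D))
    (h4 : μ * NY ≤ M2) (h5 : M2 ≤ G + sx) (hYs : ys ≤ μ * sx + NY * S4)
    (hcube : μ * (2 * JXY - 3 * μ * JX + μ ^ 3) ≤ M2 ^ 2)
    (hDe : D = 2 * c * JXY - JT) (hX1 : JX ≤ b1 ^ 2) (hs3 : -t3 ≤ J3)
    (hS3 : (2 - c ^ 2 / 2) * t3 ≤ 5 / 2 * c * ys) (hμ2 : μ ^ 2 = JX + sx)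
    (h7 : c ≤ 1 / 10) (h8 : 100 * (c * b1) ≤ μ) : JT - 2 * J3 ≤ 2 * c * μ ^ 3 := by
  subst xx
  have hc2 : c ^ 2 ≤ 1 / 100 := by
    have : c ^ 2 ≤ (1 / 10) ^ 2 := by gcongr
    linarith
  have h6 : 2 * t3 ≤ 251 / 100 * c * (μ * x ^ 2 + NY * S4) := by
    have h6 : 399 / 200 * t3 ≤ (2 - c ^ 2 / 2) * t3 :=
      mul_le_mul_of_nonneg_right (by linarith) nn3
    have h7' : 5 / 2 * c * ys ≤ 5 / 2 * c * (μ * x ^ 2 + NY * S4) :=
      mul_le_mul_of_nonneg_left hYs (by positivity)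
    have h8' : 0 ≤ c * (μ * x ^ 2 + NY * S4) := by positivity
    linarith
  have h9 : μ ^ 2 ≤ b1 ^ 2 + x ^ 2 := by linarith
  have hnum := final_num x0 S0 hμ hb1 hc nnD N0 M0 (Real.sqrt_nonneg _)
    (Real.sq_sqrt (by positivity : 0 ≤ 14 * (c * b1) * D)) h1 h2 h3 h4 h5 h6 h7 h8 h9
  have hk : 0 ≤ μ * (2 * c * μ ^ 3 - (JT - 2 * J3)) := by
    have hcc := mul_le_mul_of_nonneg_left hcube hc.le
    have e3 : μ * (2 * c * μ ^ 3 - (JT - 2 * J3))
        = μ * (3 * c * μ * x ^ 2 + 2 * J3 + D) - c * (μ * (2 * JXY - 3 * μ * JX + μ ^ 3)) := by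
      have : JX = μ ^ 2 - x ^ 2 := by linarith
      rw [hDe, this]; ring
    rw [e3]
    have e4 : μ * (3 * c * μ * x ^ 2 - 2 * t3 + D) ≤ μ * (3 * c * μ * x ^ 2 + 2 * J3 + D) := by
      apply mul_le_mul_of_nonneg_left _ hμ.le
      linarith
    linarith
  have := nonneg_of_mul_nonneg_right hk hμ
  linarith

namespace Cfg

theorem fin_abs (K : Cfg W W1 W2 W3 A A1 A2 B B1 C q s F a b c M β) {X Y κ R T ρ : ℝ → ℝ} {b1 μ : ℝ}
    (oX : Ok X) (oY : Ok Y) (oκ : Ok κ) (oR : Ok R) (oT : Ok T) (oρ : Ok ρ)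
    (hXY : ∀ z, X z = Y z ^ 2) (hY0 : ∀ z, 0 < Y z) (hYb : ∀ z, Y z ≤ b1) (hb1 : 0 < b1)
    (dX : ∀ z, HasDerivAt X (R z + 2 * (κ z * s z)) z)
    (dss : ∀ z, HasDerivAt s (W1 z * s z + κ z) z)
    (hκ : ∀ z, κ z ^ 2 ≤ X z * W2 z)
    (hR : ∀ z, R z = ρ z + 2 * c * Y z * κ z)
    (hρ : ∀ z, ρ z ^ 2 ≤ 14 * c * Y z * W2 z * (2 * c * (X z * Y z) - T z))
    (hT : ∀ z, T z ≤ 2 * c * (X z * Y z)) (hμ : 0 < μ)
    (hS3 : (2 - c ^ 2 / 2) * J W (fun z => |s z| ^ 3) ≤ 5 / 2 * c * J W (fun z => Y z * s z ^ 2))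
    (hS4 : (2 - c ^ 2 / 3) * J W (fun z => s z ^ 4) ≤ 5 / 2 * c * J W (fun z => Y z * |s z| ^ 3))
    (hμ2 : μ ^ 2 = J W X + J W (fun z => s z ^ 2))
    (h7 : c ≤ 1 / 10) (h8 : 100 * (c * b1) ≤ μ) :
    J W T - 2 * J W (fun z => s z ^ 3) ≤ 2 * c * μ ^ 3 := by
  have P := K.pot
  have os := K.oks
  have hc := K.cc
  have h3 := K.main oX oY oκ oR oT oρ hXY hY0 hYb hb1 dX dss hκ hR hρ hT hμ
  have oXY : Ok (fun z => X z * Y z) := oX.mul oY
  have nn2 : 0 ≤ J W (fun z => s z ^ 2) := J_nonneg W (fun z => sq_nonneg _)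
  have nn3 : 0 ≤ J W (fun z => |s z| ^ 3) := J_nonneg W (fun z => by positivity)
  have nnD : 0 ≤ J W (fun z => 2 * c * (X z * Y z) - T z) :=
    J_nonneg W (fun z => by linarith [hT z])
  have h1 := bS4 P os oY hc hb1 hYb h7 hS4
  have h2 := bx2 P os
  have h4 := bNY P hμ oX oY hXY hY0
  have h5 := bM2 P oX hμ2
  have hYs := bYs P os oY (μ := μ)
  have hcube := bcube P hμ oX oY hXY hY0
  have hDe : J W (fun z => 2 * c * (X z * Y z) - T z) = 2 * c * J W (fun z => X z * Y z) - J W T := by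
    rw [P.J_sub (oXY.smul _) oT, J_smul]
  have hX1 : J W X ≤ b1 ^ 2 := by
    have h := P.J_mono oX (Ok.const (b1 ^ 2)) (fun z => by
      rw [hXY z]; have := hYb z; have := hY0 z; gcongr)
    rwa [P.J_const] at h
  have hs3 : -(J W (fun z => |s z| ^ 3)) ≤ J W (fun z => s z ^ 3) := by
    rw [← J_neg]
    refine P.J_mono (os.abs.pow 3).neg (os.pow 3) (fun z => ?_)
    rw [← abs_pow]; exact neg_abs_le _
  have xx : √(J W (fun z => s z ^ 2)) ^ 2 = J W (fun z => s z ^ 2) := Real.sq_sqrt nn2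
  exact glue hc hμ hb1 (Real.sqrt_nonneg _) (Real.sqrt_nonneg _) (Real.sqrt_nonneg _) (Real.sqrt_nonneg _)
    xx.symm nn3 nnD h1 h2 h3 h4 h5 hYs hcube hDe hX1 hs3 hS3 hμ2 h7 h8

/-- one sided conclusion -/
theorem upper (K : Cfg W W1 W2 W3 A A1 A2 B B1 C q s F a b c M β) {μ : ℝ} (hμ : 0 < μ)
    (hμ2 : μ ^ 2 = J W (fun z => B z - F z ^ 2)) (h7 : c ≤ 1 / 10)
    (h8 : 100 * (c * √(b * (1 + β ^ 2))) ≤ μ) :
    J W (fun z => C z - 3 * (B z * F z) + F z ^ 3) ≤ 2 * c * μ ^ 3 := by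
  have P := K.pot
  have o1 := K.pot.ok1; have o2 := K.pot.ok2; have oq := K.okq; have os := K.oks; have oF := K.okF
  have oA1 := K.okA1; have oB := K.okB; have oA2 := K.okA2; have oB1 := K.okB1; have oW3 := K.okW3
  have oC := K.okC; have oX := K.okX; have oY := K.okY
  have hXpos : ∀ z, 0 < B z + 2 * q z * A1 z + q z ^ 2 * W2 z := fun z => K.pot.ha.trans_le (K.Xlo z)
  have i0 := K.i0
  have i1 := K.i1
  have oBF : Ok (fun z => B z - F z ^ 2) := by (repeat' (first | assumption | exact Ok.const _ | apply Ok.add | apply Ok.sub | apply Ok.mul | apply Ok.neg | apply Ok.pow | apply Ok.abs))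
  have oT : Ok (fun z => C z + 3 * q z * B1 z + 3 * q z ^ 2 * A2 z + q z ^ 3 * W3 z) := by (repeat' (first | assumption | exact Ok.const _ | apply Ok.add | apply Ok.sub | apply Ok.mul | apply Ok.neg | apply Ok.pow | apply Ok.abs))
  have oH : Ok (fun z => C z - 3 * (B z * F z) + F z ^ 3) := by (repeat' (first | assumption | exact Ok.const _ | apply Ok.add | apply Ok.sub | apply Ok.mul | apply Ok.neg | apply Ok.pow | apply Ok.abs))
  rw [P.J_sub (oX.add (os.pow 2)) oBF, P.J_add oX (os.pow 2)] at i0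
  rw [P.J_sub (oT.sub (Ok.smul 2 (os.pow 3))) oH, P.J_sub oT (Ok.smul 2 (os.pow 3)), J_smul] at i1
  have hb : 0 < b := K.pot.ha.trans_le ((K.pot.lo 0).trans (K.pot.hi 0))
  have hR : Ok (fun z => B1 z + 2 * q z * A2 z + q z ^ 2 * W3 z) := by (repeat' (first | assumption | exact Ok.const _ | apply Ok.add | apply Ok.sub | apply Ok.mul | apply Ok.neg | apply Ok.pow | apply Ok.abs))
  have hκ : Ok (fun z => A1 z + q z * W2 z) := by (repeat' (first | assumption | exact Ok.const _ | apply Ok.add | apply Ok.sub | apply Ok.mul | apply Ok.neg | apply Ok.pow | apply Ok.abs))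
  have key := K.fin_abs (X := fun z => B z + 2 * q z * A1 z + q z ^ 2 * W2 z)
    (Y := fun z => √(B z + 2 * q z * A1 z + q z ^ 2 * W2 z)) (κ := fun z => A1 z + q z * W2 z)
    (R := fun z => B1 z + 2 * q z * A2 z + q z ^ 2 * W3 z)
    (T := fun z => C z + 3 * q z * B1 z + 3 * q z ^ 2 * A2 z + q z ^ 3 * W3 z)
    (ρ := fun z => (B1 z + 2 * q z * A2 z + q z ^ 2 * W3 z) -
      2 * c * √(B z + 2 * q z * A1 z + q z ^ 2 * W2 z) * (A1 z + q z * W2 z))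
    (b1 := √(b * (1 + β ^ 2))) (μ := μ) oX oY hκ hR oT (by (repeat' (first | assumption | exact Ok.const _ | apply Ok.add | apply Ok.sub | apply Ok.mul | apply Ok.neg | apply Ok.pow | apply Ok.abs)))
    (fun z => (Real.sq_sqrt (hXpos z).le).symm) (fun z => Real.sqrt_pos.2 (hXpos z))
    (fun z => Real.sqrt_le_sqrt (K.Xhi z)) (Real.sqrt_pos.2 (by positivity)) ?_ K.ds K.kap
    (fun z => by ring) (fun z => alg_rho (hXpos z) (K.W2pos z) K.cc (K.kap z) (K.cub z))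
    (fun z => (abs_le.1 (alg_T (K.cub z))).2) hμ K.S3 K.S4' ?_ h7 h8
  · linarith
  · intro z
    have h := ((K.dB z).add (((K.dq z).const_mul 2).mul (K.dA1 z))).add (((K.dq z).pow 2).mul (K.d2 z))
    refine h.congr_deriv ?_
    simp; ring
  · rw [hμ2]; linarith

end Cfg

end Vale.Agent.P227.M.SC.St
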