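import Mathlib

/-! # P227/M/SC, static proof of the marginal lemma: the final numerical step. -/

set_option linter.all false
set_option autoImplicit false

namespace Vale.Agent.P227.M.SC.St

theorem num_a {x S4 G μ b1 c NY M2 e p : ℝ} (hx : 0 ≤ x) (hp : p = c * b1)
    (hμ : 0 < μ) (hb : 0 < b1) (hc : 0 < c) (hN : 0 ≤ NY)
    (h1 : S4 ≤ 63 / 50 * p * x) (h2 : x ^ 2 ≤ S4)
    (h3 : G ≤ 3 * S4 + 2 * c * μ * x + 2 * p * NY + e)
    (h4 : μ * NY ≤ M2) (h5 : M2 ≤ G + x ^ 2)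
    (h7 : c ≤ 1 / 10) (h8 : 100 * p ≤ μ) (h9 : μ ^ 2 ≤ b1 ^ 2 + x ^ 2) (he : 0 ≤ e) :
    M2 ≤ 37 / 5 * (p * x) + 103 / 100 * e := by
  have hp0 : 0 < p := by rw [hp]; exact mul_pos hc hb
  have hx1 : x ≤ 63 / 50 * p := by
    rcases eq_or_lt_of_le hx with h | h
    · rw [← h]; positivity
    · have : x * x ≤ x * (63 / 50 * p) := by
        calc x * x = x ^ 2 := by ring
          _ ≤ 63 / 50 * p * x := h2.trans h1
          _ = x * (63 / 50 * p) := by ring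
      exact le_of_mul_le_mul_left this h
  have hpb : p ≤ 1 / 10 * b1 := by rw [hp]; exact mul_le_mul_of_nonneg_right h7 hb.le
  have hx2 : x ≤ 63 / 500 * b1 := by linarith
  have hx3 : x ^ 2 ≤ (63 / 500 * b1) ^ 2 := by gcongr
  have hμ1 : μ ≤ 11 / 10 * b1 := by
    apply le_of_sq_le_sq _ (by positivity)
    have : (63 / 500 * b1) ^ 2 = 3969 / 250000 * b1 ^ 2 := by ring
    have h' : (11 / 10 * b1) ^ 2 = 121 / 100 * b1 ^ 2 := by ring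
    rw [h']; have := sq_nonneg b1; linarith
  have hNY : 2 * p * NY ≤ M2 / 50 := by
    have : 100 * p * NY ≤ μ * NY := mul_le_mul_of_nonneg_right h8 hN
    linarith
  have hcμ : 2 * c * μ * x ≤ 11 / 5 * (p * x) := by
    have := mul_le_mul_of_nonneg_left hμ1 (by positivity : 0 ≤ 2 * c * x)
    rw [hp]; linarith
  have hpx : 0 ≤ p * x := by positivity
  linarith

theorem num_b {x S4 μ c D NY M2 t3 e p : ℝ} (hx : 0 ≤ x) (hS : 0 ≤ S4)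
    (hμ : 0 < μ) (hc : 0 < c) (hD : 0 ≤ D) (hM : 0 ≤ M2) (hp0 : 0 < p)
    (he : 0 ≤ e) (hee : e ^ 2 = 14 * p * D)
    (h1 : S4 ≤ 63 / 50 * (p * x))
    (hM2 : M2 ≤ 37 / 5 * (p * x) + 103 / 100 * e)
    (h4 : μ * NY ≤ M2)
    (h6 : 2 * t3 ≤ 251 / 100 * c * (μ * x ^ 2 + NY * S4))
    (h7 : c ≤ 1 / 10) (h8 : 100 * p ≤ μ) :
    c * M2 ^ 2 ≤ μ * (3 * c * μ * x ^ 2 - 2 * t3 + D) := by
  have hpx : 0 ≤ p * x := by positivity
  obtain ⟨q, hq⟩ : ∃ q, q = p * x := ⟨_, rfl⟩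
  obtain ⟨m, hm⟩ : ∃ m, m = μ ^ 2 * x ^ 2 := ⟨_, rfl⟩
  obtain ⟨d, hd⟩ : ∃ d, d = μ * D := ⟨_, rfl⟩
  have hq0 : 0 ≤ q := by rw [hq]; exact hpx
  have hm0 : 0 ≤ m := by rw [hm]; positivity
  have hd0 : 0 ≤ d := by rw [hd]; positivity
  have hq2 : q ^ 2 ≤ m / 10000 := by
    have h' : p ^ 2 ≤ (μ / 100) ^ 2 := by gcongr; linarith
    have h'' := mul_le_mul_of_nonneg_right h' (sq_nonneg x)
    rw [hq, hm, mul_pow]; linarith
  have he2 : e ^ 2 ≤ 7 / 50 * d := by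
    rw [hee, hd]
    have := mul_le_mul_of_nonneg_right h8 hD
    linarith
  rw [← hq] at hM2 h1
  have hsq : M2 ^ 2 ≤ 2 * (37 / 5 * q) ^ 2 + 2 * (103 / 100 * e) ^ 2 := by
    have h'' : M2 ^ 2 ≤ (37 / 5 * q + 103 / 100 * e) ^ 2 := by gcongr
    have := sq_nonneg (37 / 5 * q - 103 / 100 * e)
    linarith
  have hsq2 : M2 ^ 2 ≤ 11 / 1000 * m + 3 / 10 * d := by
    have e1 : (37 / 5 * q) ^ 2 = 1369 / 25 * q ^ 2 := by ring
    have e2 : (103 / 100 * e) ^ 2 = 10609 / 10000 * e ^ 2 := by ring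
    rw [e1, e2] at hsq
    linarith
  have hMS : M2 * S4 ≤ 1 / 500 * m + 1 / 10 * d := by
    have h' : M2 * S4 ≤ (37 / 5 * q + 103 / 100 * e) * (63 / 50 * q) :=
      mul_le_mul hM2 h1 hS (by positivity)
    have h'' : q * e ≤ (q ^ 2 + e ^ 2) / 2 := by have := sq_nonneg (q - e); linarith
    have e1 : (37 / 5 * q + 103 / 100 * e) * (63 / 50 * q) = 2331 / 250 * q ^ 2 + 6489 / 5000 * (q * e) := by ring
    rw [e1] at h'
    linarith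
  have hNS : μ * (NY * S4) ≤ M2 * S4 := by
    have := mul_le_mul_of_nonneg_right h4 hS
    linarith
  have ht : μ * (2 * t3) ≤ 251 / 100 * c * (m + M2 * S4) := by
    have := mul_le_mul_of_nonneg_left h6 hμ.le
    have h' : 251 / 100 * c * (μ * (NY * S4)) ≤ 251 / 100 * c * (M2 * S4) :=
      mul_le_mul_of_nonneg_left hNS (by positivity)
    rw [hm]
    linarith
  have hc1 : c * M2 ^ 2 ≤ c * (11 / 1000 * m + 3 / 10 * d) :=
    mul_le_mul_of_nonneg_left hsq2 hc.le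
  have hc2 : 251 / 100 * c * (M2 * S4) ≤ 251 / 100 * c * (1 / 500 * m + 1 / 10 * d) :=
    mul_le_mul_of_nonneg_left hMS (by positivity)
  have hcd : c * d ≤ 1 / 10 * d := mul_le_mul_of_nonneg_right h7 hd0
  have hcm : 0 ≤ c * m := by positivity
  have hfin : μ * (3 * c * μ * x ^ 2 - 2 * t3 + D) = 3 * (c * m) - μ * (2 * t3) + d := by
    rw [hm, hd]; ring
  rw [hfin]
  linarith

theorem final_num {x S4 G μ b1 c D NY M2 t3 e : ℝ} (hx : 0 ≤ x) (hS : 0 ≤ S4)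
    (hμ : 0 < μ) (hb : 0 < b1) (hc : 0 < c) (hD : 0 ≤ D) (hN : 0 ≤ NY) (hM : 0 ≤ M2)
    (he : 0 ≤ e) (hee : e ^ 2 = 14 * (c * b1) * D)
    (h1 : S4 ≤ 63 / 50 * (c * b1) * x) (h2 : x ^ 2 ≤ S4)
    (h3 : G ≤ 3 * S4 + 2 * c * μ * x + 2 * (c * b1) * NY + e)
    (h4 : μ * NY ≤ M2) (h5 : M2 ≤ G + x ^ 2)
    (h6 : 2 * t3 ≤ 251 / 100 * c * (μ * x ^ 2 + NY * S4))
    (h7 : c ≤ 1 / 10) (h8 : 100 * (c * b1) ≤ μ) (h9 : μ ^ 2 ≤ b1 ^ 2 + x ^ 2) :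
    c * M2 ^ 2 ≤ μ * (3 * c * μ * x ^ 2 - 2 * t3 + D) := by
  have h := num_a hx rfl hμ hb hc hN h1 h2 h3 h4 h5 h7 h8 h9 he
  exact num_b hx hS hμ hc hD hM (mul_pos hc hb) he hee (by linarith) h h4 h6 h7 h8

end Vale.Agent.P227.M.SC.St
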