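import Vale.Agent.P227.M.SC.StEst
import Vale.Agent.P227.M.SC.StNum

/-! # P227/M/SC, static proof of the marginal lemma: variance of `X` and the conclusion. -/

open MeasureTheory Set Filter Real
open scoped Topology

set_option linter.all false
set_option autoImplicit false

namespace Vale.Agent.P227.M.SC.St

variable {W W1 W2 W3 A A1 A2 B B1 C q s F : ℝ → ℝ} {a b c M β : ℝ}

theorem Pot.csq (P : Pot W W1 W2 a b) {f g : ℝ → ℝ} (hf : Ok f) (hg : Ok g) :
    |J W (fun z => f z * g z)| ≤ √(J W (fun z => f z ^ 2)) * √(J W (fun z => g z ^ 2)) := by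
  rw [← Real.sqrt_mul (J_nonneg W (fun z => sq_nonneg _))]
  exact Real.abs_le_sqrt (P.cs hf hg)

namespace Cfg

/-- abstract form of the main estimate -/
theorem main (K : Cfg W W1 W2 W3 A A1 A2 B B1 C q s F a b c M β) {X Y κ R T ρ : ℝ → ℝ} {b1 μ : ℝ}
    (oX : Ok X) (oY : Ok Y) (oκ : Ok κ) (oR : Ok R) (oT : Ok T) (oρ : Ok ρ)
    (hXY : ∀ z, X z = Y z ^ 2) (hY0 : ∀ z, 0 < Y z) (hYb : ∀ z, Y z ≤ b1) (hb1 : 0 < b1)
    (dX : ∀ z, HasDerivAt X (R z + 2 * (κ z * s z)) z)
    (dss : ∀ z, HasDerivAt s (W1 z * s z + κ z) z)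
    (hκ : ∀ z, κ z ^ 2 ≤ X z * W2 z)
    (hR : ∀ z, R z = ρ z + 2 * c * Y z * κ z)
    (hρ : ∀ z, ρ z ^ 2 ≤ 14 * c * Y z * W2 z * (2 * c * (X z * Y z) - T z))
    (hT : ∀ z, T z ≤ 2 * c * (X z * Y z)) (hμ : 0 < μ) :
    √(J W (fun z => (X z - J W X) ^ 2)) ≤ 3 * √(J W (fun z => s z ^ 4)) + 2 * c * μ * √(J W (fun z => s z ^ 2))
      + 2 * (c * b1) * √(J W (fun z => (Y z - μ) ^ 2))
      + √(14 * (c * b1) * J W (fun z => 2 * c * (X z * Y z) - T z)) := by
  have P := K.pot
  have o1 := K.pot.ok1; have o2 := K.pot.ok2; have oq := K.okq; have os := K.oks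
  have oI := K.okI
  have hc := K.cc
  -- g
  obtain ⟨g, hg⟩ : ∃ g : ℝ → ℝ, g = fun z => X z - J W X := ⟨_, rfl⟩
  have og : Ok g := by rw [hg]; (repeat' (first | assumption | exact Ok.const _ | apply Ok.add | apply Ok.sub | apply Ok.mul | apply Ok.neg | apply Ok.pow | apply Ok.abs))
  have hg0 : J W g = 0 := by rw [hg, P.J_sub oX (Ok.const _), P.J_const, sub_self]
  have dg : ∀ z, HasDerivAt g (R z + 2 * (κ z * s z)) z := by
    intro z; rw [hg]; exact (dX z).sub_const _
  have hgb : ∀ z, |g z| ≤ b1 ^ 2 + |J W X| := by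
    intro z
    rw [hg]
    have h1 : |X z| ≤ b1 ^ 2 := by
      rw [hXY z, abs_of_nonneg (sq_nonneg _)]
      have := hYb z; have := hY0 z
      gcongr
    have h2 := abs_sub (X z) (J W X)
    show |X z - J W X| ≤ _
    linarith
  obtain ⟨Kr, hKr⟩ := P.pr_bdd og hg0 _ hgb
  obtain ⟨r, hr⟩ : ∃ r : ℝ → ℝ, r = pr W g := ⟨_, rfl⟩
  have dr : ∀ z, HasDerivAt r (W1 z * r z - g z) z := by intro z; rw [hr]; exact P.pr_deriv og z
  have or : Ok r := by
    rw [hr]
    exact Ok.bdd (continuous_iff_continuousAt.2 fun z => (P.pr_deriv og z).continuousAt) Kr hKr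
  obtain ⟨r1, hr1⟩ : ∃ r1 : ℝ → ℝ, r1 = fun z => W1 z * r z - g z := ⟨_, rfl⟩
  have or1 : Ok r1 := by rw [hr1]; (repeat' (first | assumption | exact Ok.const _ | apply Ok.add | apply Ok.sub | apply Ok.mul | apply Ok.neg | apply Ok.pow | apply Ok.abs))
  have hr1z : ∀ z, r1 z = W1 z * r z - g z := fun z => by rw [hr1]
  have dr' : ∀ z, HasDerivAt r (r1 z) z := fun z => by rw [hr1z]; exact dr z
  have dr1 : ∀ z, HasDerivAt r1 (W2 z * r z + W1 z * r1 z - (R z + 2 * (κ z * s z))) z := by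
    intro z; rw [hr1]
    have h1 : HasDerivAt (fun z => W1 z * r z - g z) (W2 z * r z + W1 z * r1 z - (R z + 2 * (κ z * s z))) z :=
      ((P.d1 z).mul (dr' z)).sub (dg z)
    rw [hr1] at h1
    exact h1
  have og' : Ok (fun z => R z + 2 * (κ z * s z)) := by (repeat' (first | assumption | exact Ok.const _ | apply Ok.add | apply Ok.sub | apply Ok.mul | apply Ok.neg | apply Ok.pow | apply Ok.abs))
  -- (M1) with g
  have m1 : J W (fun z => g z ^ 2 - (R z + 2 * (κ z * s z)) * r z) = 0 := by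
    refine P.zero (f := fun z => -(g z * r z)) (f' := fun z => -((R z + 2 * (κ z * s z)) * r z + g z * r1 z)) ?_ ?_ ?_ ?_
    · (repeat' (first | assumption | exact Ok.const _ | apply Ok.add | apply Ok.sub | apply Ok.mul | apply Ok.neg | apply Ok.pow | apply Ok.abs))
    · (repeat' (first | assumption | exact Ok.const _ | apply Ok.add | apply Ok.sub | apply Ok.mul | apply Ok.neg | apply Ok.pow | apply Ok.abs))
    · intro z; exact ((dg z).mul (dr' z)).neg
    · intro z; rw [hr1z]; ring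
  -- (M2)
  have m2 : J W (fun z => r1 z ^ 2 + W2 z * r z ^ 2 - (R z + 2 * (κ z * s z)) * r z) = 0 := by
    refine P.zero (f := fun z => r z * r1 z)
      (f' := fun z => r1 z * r1 z + r z * (W2 z * r z + W1 z * r1 z - (R z + 2 * (κ z * s z)))) ?_ ?_ ?_ ?_
    · (repeat' (first | assumption | exact Ok.const _ | apply Ok.add | apply Ok.sub | apply Ok.mul | apply Ok.neg | apply Ok.pow | apply Ok.abs))
    · (repeat' (first | assumption | exact Ok.const _ | apply Ok.add | apply Ok.sub | apply Ok.mul | apply Ok.neg | apply Ok.pow | apply Ok.abs))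
    · intro z; exact (dr' z).mul (dr1 z)
    · intro z; ring
  have oA : Ok (fun z => (R z + 2 * (κ z * s z)) * r z) := by (repeat' (first | assumption | exact Ok.const _ | apply Ok.add | apply Ok.sub | apply Ok.mul | apply Ok.neg | apply Ok.pow | apply Ok.abs))
  have oB2 : Ok (fun z => r1 z ^ 2) := by (repeat' (first | assumption | exact Ok.const _ | apply Ok.add | apply Ok.sub | apply Ok.mul | apply Ok.neg | apply Ok.pow | apply Ok.abs))
  have oC2 : Ok (fun z => W2 z * r z ^ 2) := by (repeat' (first | assumption | exact Ok.const _ | apply Ok.add | apply Ok.sub | apply Ok.mul | apply Ok.neg | apply Ok.pow | apply Ok.abs))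
  have og2 : Ok (fun z => g z ^ 2) := by (repeat' (first | assumption | exact Ok.const _ | apply Ok.add | apply Ok.sub | apply Ok.mul | apply Ok.neg | apply Ok.pow | apply Ok.abs))
  rw [P.J_sub og2 oA] at m1
  rw [P.J_sub (oB2.add oC2) oA, P.J_add oB2 oC2] at m2
  have hG2 : J W (fun z => r1 z ^ 2) + J W (fun z => W2 z * r z ^ 2) = J W (fun z => g z ^ 2) := by linarith
  have n1 : 0 ≤ J W (fun z => r1 z ^ 2) := J_nonneg W (fun z => sq_nonneg _)
  have n2 : 0 ≤ J W (fun z => W2 z * r z ^ 2) :=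
    J_nonneg W (fun z => mul_nonneg (K.W2pos z).le (sq_nonneg _))
  set G := √(J W (fun z => g z ^ 2)) with hGd
  have hG0 : 0 ≤ G := Real.sqrt_nonneg _
  have hGG : G ^ 2 = J W (fun z => g z ^ 2) := Real.sq_sqrt (J_nonneg W (fun z => sq_nonneg _))
  have hr1G : √(J W (fun z => r1 z ^ 2)) ≤ G := Real.sqrt_le_sqrt (by linarith)
  have hrG : √(J W (fun z => W2 z * r z ^ 2)) ≤ G := Real.sqrt_le_sqrt (by linarith)
  -- the splitting
  have e1 : Ok (fun z => ρ z * r z) := by (repeat' (first | assumption | exact Ok.const _ | apply Ok.add | apply Ok.sub | apply Ok.mul | apply Ok.neg | apply Ok.pow | apply Ok.abs))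
  have e2 : Ok (fun z => (Y z - μ) * (κ z * r z)) := by (repeat' (first | assumption | exact Ok.const _ | apply Ok.add | apply Ok.sub | apply Ok.mul | apply Ok.neg | apply Ok.pow | apply Ok.abs))
  have e3 : Ok (fun z => r1 z * s z) := by (repeat' (first | assumption | exact Ok.const _ | apply Ok.add | apply Ok.sub | apply Ok.mul | apply Ok.neg | apply Ok.pow | apply Ok.abs))
  have e4 : Ok (fun z => s z ^ 2 * g z) := by (repeat' (first | assumption | exact Ok.const _ | apply Ok.add | apply Ok.sub | apply Ok.mul | apply Ok.neg | apply Ok.pow | apply Ok.abs))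
  have e5 : Ok (fun z => s z ^ 2 * r1 z) := by (repeat' (first | assumption | exact Ok.const _ | apply Ok.add | apply Ok.sub | apply Ok.mul | apply Ok.neg | apply Ok.pow | apply Ok.abs))
  have sp : J W (fun z => g z ^ 2 - (ρ z * r z + 2 * c * ((Y z - μ) * (κ z * r z)) + (-(2 * c * μ)) * (r1 z * s z)
      + (-1) * (s z ^ 2 * g z) + (-2) * (s z ^ 2 * r1 z))) = 0 := by
    refine P.zero (f := fun z => -(g z * r z) + 2 * c * μ * (r z * s z) + s z ^ 2 * r z)
      (f' := fun z => -((R z + 2 * (κ z * s z)) * r z + g z * r1 z)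
        + 2 * c * μ * (r1 z * s z + r z * (W1 z * s z + κ z))
        + (2 * s z * (W1 z * s z + κ z) * r z + s z ^ 2 * r1 z)) ?_ ?_ ?_ ?_
    · (repeat' (first | assumption | exact Ok.const _ | apply Ok.add | apply Ok.sub | apply Ok.mul | apply Ok.neg | apply Ok.pow | apply Ok.abs))
    · (repeat' (first | assumption | exact Ok.const _ | apply Ok.add | apply Ok.sub | apply Ok.mul | apply Ok.neg | apply Ok.pow | apply Ok.abs))
    · intro z
      have h := ((((dg z).mul (dr' z)).neg).add (((dr' z).mul (dss z)).const_mul (2 * c * μ))).add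
        (((dss z).pow 2).mul (dr' z))
      refine h.congr_deriv ?_
      simp
    · intro z
      rw [hR z]
      have := hr1z z
      linear_combination (g z + s z ^ 2) * this
  have hsum : J W (fun z => g z ^ 2) = J W (fun z => ρ z * r z) + 2 * c * J W (fun z => (Y z - μ) * (κ z * r z))
      + (-(2 * c * μ)) * J W (fun z => r1 z * s z) + (-1) * J W (fun z => s z ^ 2 * g z)
      + (-2) * J W (fun z => s z ^ 2 * r1 z) := by
    have f1 := e2.smul (2 * c)
    have f2 := e3.smul (-(2 * c * μ))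
    have f3 := e4.smul (-1)
    have f4 := e5.smul (-2)
    rw [P.J_sub og2 ((((e1.add f1).add f2).add f3).add f4), P.J_add (((e1.add f1).add f2).add f3) f4,
      P.J_add ((e1.add f1).add f2) f3, P.J_add (e1.add f1) f2, P.J_add e1 f1, J_smul, J_smul, J_smul, J_smul] at sp
    linarith
  -- bounds
  set x := √(J W (fun z => s z ^ 2)) with hx
  set S4 := √(J W (fun z => s z ^ 4)) with hS4
  set NY := √(J W (fun z => (Y z - μ) ^ 2)) with hNY
  set e := √(14 * (c * b1) * J W (fun z => 2 * c * (X z * Y z) - T z)) with he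
  have q4 : |J W (fun z => s z ^ 2 * g z)| ≤ S4 * G := by
    have h := P.csq (os.pow 2) og
    have h' : J W (fun z => (s z ^ 2) ^ 2) = J W (fun z => s z ^ 4) := J_congr W (fun z => by ring)
    rw [h'] at h; exact h
  have q5 : |J W (fun z => s z ^ 2 * r1 z)| ≤ S4 * G := by
    have h := P.csq (os.pow 2) or1
    have h' : J W (fun z => (s z ^ 2) ^ 2) = J W (fun z => s z ^ 4) := J_congr W (fun z => by ring)
    rw [h'] at h
    exact h.trans (mul_le_mul_of_nonneg_left hr1G (Real.sqrt_nonneg _))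
  have q3 : |J W (fun z => r1 z * s z)| ≤ G * x :=
    (P.csq or1 os).trans (mul_le_mul_of_nonneg_right hr1G (Real.sqrt_nonneg _))
  have q2 : |J W (fun z => (Y z - μ) * (κ z * r z))| ≤ NY * (b1 * G) := by
    have ok' : Ok (fun z => κ z * r z) := oκ.mul or
    have h := P.csq (oY.sub (Ok.const μ)) ok'
    refine h.trans (mul_le_mul_of_nonneg_left ?_ (Real.sqrt_nonneg _))
    have h1 : J W (fun z => (κ z * r z) ^ 2) ≤ b1 ^ 2 * J W (fun z => W2 z * r z ^ 2) := by
      rw [← J_smul]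
      refine P.J_mono (ok'.pow 2) (oC2.smul _) (fun z => ?_)
      have hk := hκ z
      have hYz := hY0 z
      have hYz' := hYb z
      have hx2 : X z ≤ b1 ^ 2 := by rw [hXY z]; gcongr
      have hW := K.W2pos z
      calc (κ z * r z) ^ 2 = κ z ^ 2 * r z ^ 2 := by ring
        _ ≤ (X z * W2 z) * r z ^ 2 := mul_le_mul_of_nonneg_right hk (sq_nonneg _)
        _ ≤ (b1 ^ 2 * W2 z) * r z ^ 2 := by
            apply mul_le_mul_of_nonneg_right _ (sq_nonneg _)
            exact mul_le_mul_of_nonneg_right hx2 hW.le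
        _ = b1 ^ 2 * (W2 z * r z ^ 2) := by ring
    calc √(J W (fun z => (κ z * r z) ^ 2)) ≤ √(b1 ^ 2 * J W (fun z => W2 z * r z ^ 2)) := Real.sqrt_le_sqrt h1
      _ = b1 * √(J W (fun z => W2 z * r z ^ 2)) := by
          rw [Real.sqrt_mul (sq_nonneg _), Real.sqrt_sq hb1.le]
      _ ≤ b1 * G := mul_le_mul_of_nonneg_left hrG hb1.le
  have q1 : |J W (fun z => ρ z * r z)| ≤ e * G := by
    have cW : Continuous (fun z => √(W2 z)) := Real.continuous_sqrt.comp P.c2
    have oω : Ok (fun z => √(W2 z)) := by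
      refine Ok.bdd cW (√b) (fun z => ?_)
      rw [abs_of_nonneg (Real.sqrt_nonneg _)]
      exact Real.sqrt_le_sqrt (P.hi z)
    have oω' : Ok (fun z => (√(W2 z))⁻¹) := by
      refine Ok.bdd (cW.inv₀ (fun z => (Real.sqrt_pos.2 (K.W2pos z)).ne')) (√a)⁻¹ (fun z => ?_)
      rw [abs_of_nonneg (inv_nonneg.2 (Real.sqrt_nonneg _))]
      exact inv_anti₀ (Real.sqrt_pos.2 P.ha) (Real.sqrt_le_sqrt (P.lo z))
    have u1 : Ok (fun z => ρ z * (√(W2 z))⁻¹) := oρ.mul oω'
    have u2 : Ok (fun z => √(W2 z) * r z) := oω.mul or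
    have h := P.csq u1 u2
    have h1 : J W (fun z => (ρ z * (√(W2 z))⁻¹) * (√(W2 z) * r z)) = J W (fun z => ρ z * r z) := by
      apply J_congr; intro z
      have : √(W2 z) ≠ 0 := (Real.sqrt_pos.2 (K.W2pos z)).ne'
      field_simp
    have h2 : J W (fun z => (√(W2 z) * r z) ^ 2) = J W (fun z => W2 z * r z ^ 2) := by
      apply J_congr; intro z
      rw [mul_pow, Real.sq_sqrt (K.W2pos z).le]
    rw [h1, h2] at h
    refine h.trans (mul_le_mul ?_ hrG (Real.sqrt_nonneg _) (Real.sqrt_nonneg _))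
    apply Real.sqrt_le_sqrt
    rw [← J_smul]
    refine P.J_mono (u1.pow 2) (Ok.smul _ (by (repeat' (first | assumption | exact Ok.const _ | apply Ok.add | apply Ok.sub | apply Ok.mul | apply Ok.neg | apply Ok.pow | apply Ok.abs)))) (fun z => ?_)
    have hW := K.W2pos z
    have hYz := hY0 z
    have hYz' := hYb z
    have hD : 0 ≤ 2 * c * (X z * Y z) - T z := by linarith [hT z]
    have h3 : (ρ z * (√(W2 z))⁻¹) ^ 2 = ρ z ^ 2 / W2 z := by
      rw [mul_pow, inv_pow, Real.sq_sqrt hW.le]; rfl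
    rw [h3, div_le_iff₀ hW]
    calc ρ z ^ 2 ≤ 14 * c * Y z * W2 z * (2 * c * (X z * Y z) - T z) := hρ z
      _ ≤ 14 * c * b1 * W2 z * (2 * c * (X z * Y z) - T z) := by
          apply mul_le_mul_of_nonneg_right _ hD
          apply mul_le_mul_of_nonneg_right _ hW.le
          exact mul_le_mul_of_nonneg_left hYz' (by positivity)
      _ = 14 * (c * b1) * (2 * c * (X z * Y z) - T z) * W2 z := by ring
  have hfin : G ^ 2 ≤ G * (3 * S4 + 2 * c * μ * x + 2 * (c * b1) * NY + e) := by
    rw [hGG, hsum]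
    have t1 := (abs_le.1 q1).2
    have t2 := mul_le_mul_of_nonneg_left (abs_le.1 q2).2 (by positivity : 0 ≤ 2 * c)
    have t3 := mul_le_mul_of_nonneg_left (abs_le.1 q3).1 (by positivity : 0 ≤ 2 * c * μ)
    have t4 := (abs_le.1 q4).1
    have t5 := (abs_le.1 q5).1
    linarith
  rcases eq_or_lt_of_le hG0 with h | h
  · show √(J W (fun z => (X z - J W X) ^ 2)) ≤ _
    have hGe : √(J W (fun z => (X z - J W X) ^ 2)) = G := by rw [hGd, hg]
    rw [hGe, ← h]
    positivity
  · have hGe : √(J W (fun z => (X z - J W X) ^ 2)) = G := by rw [hGd, hg]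
    rw [hGe]
    have : G * G ≤ G * (3 * S4 + 2 * c * μ * x + 2 * (c * b1) * NY + e) := by
      rw [← sq]; exact hfin
    exact le_of_mul_le_mul_left this h

end Cfg

end Vale.Agent.P227.M.SC.St
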