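import Vale.Agent.P227.M.SC.StFinal
import Vale.Agent.P227.M.SC.MargIfc

/-! # P227/M/SC, static proof of the marginal lemma: the interface `Marg1D` is a theorem. -/

open MeasureTheory Set Filter Real
open scoped Topology

set_option linter.all false
set_option autoImplicit false

namespace Vale.Agent.P227.M.SC.St

variable {W W1 W2 W3 A A1 A2 B B1 C q s F : ℝ → ℝ} {a b c M β : ℝ}

namespace Dat

theorem negc (D : Dat W W1 W2 W3 A A1 A2 B B1 C a b c M) :
    Dat W W1 W2 W3 (fun z => -A z) (fun z => -A1 z) (fun z => -A2 z) B B1 (fun z => -C z) a b c M where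
  pot := D.pot
  d2 := D.d2
  c3 := D.c3
  dA := fun z => (D.dA z).neg
  dA1 := fun z => (D.dA1 z).neg
  cA2 := D.cA2.neg
  dB := D.dB
  cB1 := D.cB1
  cC := D.cC.neg
  lo := fun z u v => by
    have := D.lo z (-u) v
    linarith
  hi := fun z u v => by
    have := D.hi z (-u) v
    linarith
  sc := fun z u v => by
    have h := D.sc z (-u) v
    have e1 : u ^ 3 * -C z + 3 * u ^ 2 * v * B1 z + 3 * u * v ^ 2 * -A2 z + v ^ 3 * W3 z
        = (-u) ^ 3 * C z + 3 * (-u) ^ 2 * v * B1 z + 3 * (-u) * v ^ 2 * A2 z + v ^ 3 * W3 z := by ring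
    have e2 : u ^ 2 * B z + 2 * u * v * -A1 z + v ^ 2 * W2 z
        = (-u) ^ 2 * B z + 2 * (-u) * v * A1 z + v ^ 2 * W2 z := by ring
    rw [e1, e2]; exact h
  bd := fun z => by
    obtain ⟨h1, h2, h3, h4⟩ := D.bd z
    exact ⟨h1, by rw [abs_neg]; exact h2, h3, by rw [abs_neg]; exact h4⟩

/-- the second order quantity -/
theorem low (D : Dat W W1 W2 W3 A A1 A2 B B1 C a b c M) (hc : 0 < c) :
    a ≤ J W (fun z => B z - (A z - J W A) ^ 2) := by
  obtain ⟨q, s, F, K⟩ := D.exists_cfg hc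
  have hF : F = fun z => A z - J W A := funext K.hF
  have o1 := K.pot.ok1; have os := K.oks; have oF := K.okF
  have oB := K.okB; have oX := K.okX
  have i0 := K.i0
  have oBF : Ok (fun z => B z - F z ^ 2) := by (repeat' (first | assumption | exact Ok.const _ | apply Ok.add | apply Ok.sub | apply Ok.mul | apply Ok.neg | apply Ok.pow | apply Ok.abs))
  rw [K.pot.J_sub (oX.add (os.pow 2)) oBF, K.pot.J_add oX (os.pow 2)] at i0
  have h1 : a ≤ J W (fun z => B z + 2 * q z * A1 z + q z ^ 2 * W2 z) := by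
    have h := K.pot.J_mono (Ok.const a) oX K.Xlo
    rwa [K.pot.J_const] at h
  have h2 : 0 ≤ J W (fun z => s z ^ 2) := J_nonneg W (fun z => sq_nonneg _)
  subst hF
  linarith

theorem upp (D : Dat W W1 W2 W3 A A1 A2 B B1 C a b c M) :
    J W (fun z => B z - (A z - J W A) ^ 2) ≤ b := by
  have oA := D.okA
  have oB := D.okB
  have h := D.pot.J_mono (f := fun z => B z - (A z - J W A) ^ 2) (g := fun _ => b) (by (repeat' (first | assumption | exact Ok.const _ | apply Ok.add | apply Ok.sub | apply Ok.mul | apply Ok.neg | apply Ok.pow | apply Ok.abs))) (Ok.const b)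
    (fun z => by
      have h1 := D.hi z 1 0
      have h2 := sq_nonneg (A z - J W A)
      linarith)
  rwa [D.pot.J_const] at h

theorem up3 (D : Dat W W1 W2 W3 A A1 A2 B B1 C 1 b c M) (hc : 0 < c) (h7 : c ≤ 1 / 10)
    (h8 : 100 * (c * √(b * (1 + b ^ 2))) ≤ 1) {V : ℝ} (hV : V = J W (fun z => B z - (A z - J W A) ^ 2)) :
    J W (fun z => C z - 3 * (B z * (A z - J W A)) + (A z - J W A) ^ 3) ≤ 2 * c * (V * √V) := by
  have hlow := D.low hc
  rw [← hV] at hlow
  obtain ⟨q, s, F, K⟩ := D.exists_cfg hc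
  have hF : F = fun z => A z - J W A := funext K.hF
  have hμ1 : 1 ≤ √V := Real.one_le_sqrt.2 hlow
  have hsq : √V ^ 2 = V := Real.sq_sqrt (by linarith)
  have h := K.upper (μ := √V) (by linarith) (by rw [hsq, hV, hF]) h7
    (by rw [div_one]; exact h8.trans hμ1)
  have e : √V ^ 3 = V * √V := by rw [pow_succ, hsq]
  rw [e] at h
  subst hF
  exact h

theorem abs3 (D : Dat W W1 W2 W3 A A1 A2 B B1 C 1 b c M) (hc : 0 < c) (h7 : c ≤ 1 / 10)
    (h8 : 100 * (c * √(b * (1 + b ^ 2))) ≤ 1) {V : ℝ} (hV : V = J W (fun z => B z - (A z - J W A) ^ 2)) :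
    |J W (fun z => C z - 3 * (B z * (A z - J W A)) + (A z - J W A) ^ 3)| ≤ 2 * c * (V * √V) := by
  have hn : J W (fun z => -A z) = - J W A := J_neg W A
  have h1 := D.up3 hc h7 h8 hV
  have h2 := D.negc.up3 hc h7 h8 (V := V) (by
    rw [hV, hn]
    exact J_congr W (fun z => by ring))
  rw [hn] at h2
  have e : J W (fun z => -C z - 3 * (B z * (-A z - -J W A)) + (-A z - -J W A) ^ 3)
      = - J W (fun z => C z - 3 * (B z * (A z - J W A)) + (A z - J W A) ^ 3) := by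
    rw [← J_neg W (fun z => C z - 3 * (B z * (A z - J W A)) + (A z - J W A) ^ 3)]
    exact J_congr W (fun z => by ring)
  rw [e] at h2
  rw [abs_le]; constructor <;> linarith

theorem e2 (D : Dat W W1 W2 W3 A A1 A2 B B1 C a b c M) :
    J W (fun z => B z - (A z - J W A) ^ 2) = J W B - (J W (fun z => A z ^ 2) - J W A ^ 2) := by
  have oA := D.okA
  have oB := D.okB
  obtain ⟨m, hm⟩ : ∃ m, m = J W A := ⟨_, rfl⟩
  rw [← hm]
  have e : ∀ z, B z - (A z - m) ^ 2 = (B z - A z ^ 2) + (2 * m) * A z + (-m ^ 2) := fun z => by ring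
  rw [J_congr W e, D.pot.J_add ((oB.sub (oA.pow 2)).add (oA.smul _)) (Ok.const _),
    D.pot.J_add (oB.sub (oA.pow 2)) (oA.smul _), D.pot.J_sub oB (oA.pow 2), J_smul, D.pot.J_const, ← hm]
  ring

theorem e3 (D : Dat W W1 W2 W3 A A1 A2 B B1 C a b c M) :
    J W (fun z => C z - 3 * (B z * (A z - J W A)) + (A z - J W A) ^ 3)
      = J W C - 3 * (J W (fun z => B z * A z) - J W B * J W A)
        + (J W (fun z => A z ^ 3) - 3 * J W A * J W (fun z => A z ^ 2) + 2 * J W A ^ 3) := by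
  have oA := D.okA
  have oB := D.okB
  have oC := D.okC
  have oBA : Ok (fun z => B z * A z) := oB.mul oA
  obtain ⟨m, hm⟩ : ∃ m, m = J W A := ⟨_, rfl⟩
  rw [← hm]
  have e : ∀ z, C z - 3 * (B z * (A z - m)) + (A z - m) ^ 3
      = C z + (-3) * (B z * A z) + (3 * m) * B z + A z ^ 3 + (-3 * m) * A z ^ 2 + (3 * m ^ 2) * A z
        + (-m ^ 3) := fun z => by ring
  have oA2 := oA.pow 2
  have oA3 := oA.pow 3
  have p1 := oC.add (oBA.smul (-3))
  have p2 := p1.add (oB.smul (3 * m))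
  have p3 := p2.add oA3
  have p4 := p3.add (oA2.smul (-3 * m))
  have p5 := p4.add (oA.smul (3 * m ^ 2))
  rw [J_congr W e, D.pot.J_add p5 (Ok.const _), D.pot.J_add p4 (oA.smul _), D.pot.J_add p3 (oA2.smul _),
    D.pot.J_add p2 oA3, D.pot.J_add p1 (oB.smul _), D.pot.J_add oC (oBA.smul _), J_smul, J_smul, J_smul,
    J_smul, D.pot.J_const, ← hm]
  ring

end Dat

/-- bound for the four coefficients of a bounded binary cubic form -/
theorem coef {C B1 A2 W3 N : ℝ} (h : ∀ u v : ℝ, u ^ 2 ≤ 1 → v ^ 2 ≤ 1 →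
    |u ^ 3 * C + 3 * u ^ 2 * v * B1 + 3 * u * v ^ 2 * A2 + v ^ 3 * W3| ≤ N) :
    |W3| ≤ N ∧ |A2| ≤ N ∧ |B1| ≤ N ∧ |C| ≤ N := by
  have h1 := abs_le.1 (h 1 0 (by norm_num) (by norm_num))
  have h2 := abs_le.1 (h 0 1 (by norm_num) (by norm_num))
  have h3 := abs_le.1 (h 1 1 (by norm_num) (by norm_num))
  have h4 := abs_le.1 (h 1 (-1) (by norm_num) (by norm_num))
  obtain ⟨a1, b1⟩ := h1
  obtain ⟨a2, b2⟩ := h2
  obtain ⟨a3, b3⟩ := h3
  obtain ⟨a4, b4⟩ := h4
  refine ⟨abs_le.2 ⟨?_, ?_⟩, abs_le.2 ⟨?_, ?_⟩, abs_le.2 ⟨?_, ?_⟩, abs_le.2 ⟨?_, ?_⟩⟩ <;> linarith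

/-- the interface, for positive constants -/
theorem pos {R c : ℝ} (hc : 0 < c) (h7 : c ≤ 1 / 10) (h8 : 100 * (c * √(R * (1 + R ^ 2))) ≤ 1)
    {W h om om1 g m m1 a a1 C3 : ℝ → ℝ}
    (d0 : ∀ z, HasDerivAt W (h z) z) (d1 : ∀ z, HasDerivAt h (om z) z)
    (d2 : ∀ z, HasDerivAt om (om1 z) z) (dg : ∀ z, HasDerivAt g (m z) z)
    (dm : ∀ z, HasDerivAt m (m1 z) z) (da : ∀ z, HasDerivAt a (a1 z) z)
    (c1 : Continuous om1) (c2 : Continuous m1) (c3 : Continuous a1) (c4 : Continuous C3)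
    (lo : ∀ z x y, x ^ 2 + y ^ 2 ≤ a z * x ^ 2 + 2 * m z * x * y + om z * y ^ 2)
    (hi : ∀ z x y, a z * x ^ 2 + 2 * m z * x * y + om z * y ^ 2 ≤ R * (x ^ 2 + y ^ 2))
    (sc : ∀ z x y, |C3 z * x ^ 3 + 3 * a1 z * x ^ 2 * y + 3 * m1 z * x * y ^ 2 + om1 z * y ^ 3| ≤
      2 * c * ((a z * x ^ 2 + 2 * m z * x * y + om z * y ^ 2) *
        √(a z * x ^ 2 + 2 * m z * x * y + om z * y ^ 2))) :
    1 ≤ Marg.EE W a - (Marg.EE W (fun z => g z ^ 2) - Marg.EE W g ^ 2) ∧
    Marg.EE W a - (Marg.EE W (fun z => g z ^ 2) - Marg.EE W g ^ 2) ≤ R ∧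
    |Marg.EE W C3 - 3 * (Marg.EE W (fun z => a z * g z) - Marg.EE W a * Marg.EE W g)
      + (Marg.EE W (fun z => g z ^ 3) - 3 * Marg.EE W g * Marg.EE W (fun z => g z ^ 2)
        + 2 * Marg.EE W g ^ 3)| ≤
      2 * c * ((Marg.EE W a - (Marg.EE W (fun z => g z ^ 2) - Marg.EE W g ^ 2)) *
        √(Marg.EE W a - (Marg.EE W (fun z => g z ^ 2) - Marg.EE W g ^ 2))) := by
  have lo1 : ∀ z, 1 ≤ om z := fun z => by have := lo z 0 1; linarith
  have hi1 : ∀ z, om z ≤ R := fun z => by have := hi z 0 1; linarith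
  have Q : Marg.Pot W h om om1 R := ⟨d0, d1, d2, c1, lo1, hi1⟩
  have hZ := Q.Zpos
  obtain ⟨Z, hZd⟩ : ∃ Z, Z = ∫ z, Real.exp (-W z) := ⟨_, rfl⟩
  rw [← hZd] at hZ
  have hexp : ∀ z, Real.exp (-(W z + Real.log Z)) = Real.exp (-W z) / Z := fun z => by
    rw [neg_add, Real.exp_add, Real.exp_neg (Real.log Z), Real.exp_log hZ]; rfl
  have hEJ : ∀ f : ℝ → ℝ, Marg.EE W f = J (fun z => W z + Real.log Z) f := fun f => by
    unfold Marg.EE J
    rw [← hZd, ← integral_div]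
    congr 1; ext z; rw [hexp]; ring
  have hR0 : 0 ≤ R := by have := lo1 0; have := hi1 0; linarith
  have D : Dat (fun z => W z + Real.log Z) h om om1 g m m1 a a1 C3 1 R c
      (2 * c * ((2 * R) * √(2 * R))) := by
    refine { pot := ⟨one_pos, fun z => (d0 z).add_const _, d1, ?_, lo1, hi1, ?_⟩, d2 := d2, c3 := c1, dA := dg,
             dA1 := dm, cA2 := c2, dB := da, cB1 := c3, cC := c4, lo := ?_, hi := ?_, sc := ?_, bd := ?_ }
    · exact continuous_iff_continuousAt.2 fun z => (d2 z).continuousAt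
    · have e : (fun z => Real.exp (-(W z + Real.log Z))) = fun z => Real.exp (-W z) / Z := funext hexp
      rw [e, integral_div, ← hZd, div_self hZ.ne']
    · intro z u v
      have := lo z u v
      linarith
    · intro z u v
      have := hi z u v
      linarith
    · intro z u v
      have h := sc z u v
      have e1 : u ^ 3 * C3 z + 3 * u ^ 2 * v * a1 z + 3 * u * v ^ 2 * m1 z + v ^ 3 * om1 z
        = C3 z * u ^ 3 + 3 * a1 z * u ^ 2 * v + 3 * m1 z * u * v ^ 2 + om1 z * v ^ 3 := by ring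
      have e2 : u ^ 2 * a z + 2 * u * v * m z + v ^ 2 * om z
        = a z * u ^ 2 + 2 * m z * u * v + om z * v ^ 2 := by ring
      rw [e1, e2]; exact h
    · intro z
      apply coef
      intro u v hu hv
      have h := sc z u v
      have e1 : u ^ 3 * C3 z + 3 * u ^ 2 * v * a1 z + 3 * u * v ^ 2 * m1 z + v ^ 3 * om1 z
        = C3 z * u ^ 3 + 3 * a1 z * u ^ 2 * v + 3 * m1 z * u * v ^ 2 + om1 z * v ^ 3 := by ring
      rw [e1]
      refine h.trans ?_
      have h1 : a z * u ^ 2 + 2 * m z * u * v + om z * v ^ 2 ≤ 2 * R := by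
        refine (hi z u v).trans ?_
        have := mul_le_mul_of_nonneg_left (by linarith : u ^ 2 + v ^ 2 ≤ 2) hR0
        linarith
      have h2 : 0 ≤ a z * u ^ 2 + 2 * m z * u * v + om z * v ^ 2 :=
        le_trans (by positivity) (lo z u v)
      have h3 := Real.sqrt_le_sqrt h1
      have h4 := mul_le_mul h1 h3 (Real.sqrt_nonneg _) (by positivity)
      exact mul_le_mul_of_nonneg_left h4 (by positivity)
  obtain ⟨V, hV⟩ : ∃ V, V = J (fun z => W z + Real.log Z)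
    (fun z => a z - (g z - J (fun z => W z + Real.log Z) g) ^ 2) := ⟨_, rfl⟩
  have hlow := D.low hc
  have hupp := D.upp
  have h3 := D.abs3 hc h7 h8 hV
  have e2 := D.e2
  have e3 := D.e3
  rw [e3] at h3
  rw [e2] at hlow hupp hV
  simp only [hEJ]
  rw [← hV] at hlow hupp ⊢
  exact ⟨hlow, hupp, h3⟩

/-- the static marginal lemma -/
theorem marg1D : Marg1D := by
  intro R hR
  have hR2 : 0 < √(R * (1 + R ^ 2)) := Real.sqrt_pos.2 (by positivity)
  refine ⟨min (1 / 10) (1 / (100 * √(R * (1 + R ^ 2)))), by positivity, ?_⟩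
  intro W h om om1 g m m1 a a1 C3 c hc0 hc1 d0 d1 d2 dg dm da k1 k2 k3 k4 lo hi sc
  have key : ∀ c' : ℝ, 0 < c' → c' ≤ min (1 / 10) (1 / (100 * √(R * (1 + R ^ 2)))) →
      c' ≤ 1 / 10 ∧ 100 * (c' * √(R * (1 + R ^ 2))) ≤ 1 := by
    intro c' h1 h2
    refine ⟨h2.trans (min_le_left _ _), ?_⟩
    have h3 := h2.trans (min_le_right _ _)
    rw [le_div_iff₀ (by positivity)] at h3
    linarith
  rcases eq_or_lt_of_le hc0 with hc | hc
  · subst hc
    have hm : 0 < min (1 / 10) (1 / (100 * √(R * (1 + R ^ 2)))) := by positivity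
    have all : ∀ c' : ℝ, 0 < c' → c' ≤ min (1 / 10) (1 / (100 * √(R * (1 + R ^ 2)))) → _ :=
      fun c' h1 h2 => pos h1 (key c' h1 h2).1 (key c' h1 h2).2 d0 d1 d2 dg dm da k1 k2 k3 k4 lo hi
        (fun z x y => (sc z x y).trans (by
          have h4 : 0 ≤ (a z * x ^ 2 + 2 * m z * x * y + om z * y ^ 2) *
              √(a z * x ^ 2 + 2 * m z * x * y + om z * y ^ 2) :=
            mul_nonneg (le_trans (by positivity) (lo z x y)) (Real.sqrt_nonneg _)
          rw [mul_zero, zero_mul]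
          positivity))
    obtain ⟨h1, h2, -⟩ := all _ hm le_rfl
    refine ⟨h1, h2, ?_⟩
    obtain ⟨V, hV⟩ : ∃ V, V = Marg.EE W a - (Marg.EE W (fun z => g z ^ 2) - Marg.EE W g ^ 2) := ⟨_, rfl⟩
    rw [← hV] at h1 all ⊢
    obtain ⟨U, hU⟩ : ∃ U, U = |Marg.EE W C3 - 3 * (Marg.EE W (fun z => a z * g z) - Marg.EE W a * Marg.EE W g)
      + (Marg.EE W (fun z => g z ^ 3) - 3 * Marg.EE W g * Marg.EE W (fun z => g z ^ 2)
        + 2 * Marg.EE W g ^ 3)| := ⟨_, rfl⟩
    rw [← hU] at all ⊢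
    rw [mul_zero, zero_mul]
    by_contra hcon
    push Not at hcon
    have hVV : 0 < V * √V := by
      have : 0 < V := by linarith
      positivity
    have hs : 0 < min (min (1 / 10) (1 / (100 * √(R * (1 + R ^ 2))))) (U / (4 * (V * √V))) := by positivity
    have h3 := (all _ hs (min_le_left _ _)).2.2
    have h4 : 2 * min (min (1 / 10) (1 / (100 * √(R * (1 + R ^ 2))))) (U / (4 * (V * √V))) * (V * √V)
        ≤ 2 * (U / (4 * (V * √V))) * (V * √V) := by
      gcongr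
      exact min_le_right _ _
    have h5 : 2 * (U / (4 * (V * √V))) * (V * √V) = U / 2 := by
      field_simp; ring
    linarith
  · exact pos hc (key c hc hc1).1 (key c hc hc1).2 d0 d1 d2 dg dm da k1 k2 k3 k4 lo hi sc

end Vale.Agent.P227.M.SC.St

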