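import Vale.Agent.P227.M.SC.StBase

/-! # P227/M/SC, static proof of the marginal lemma: the explicit primitives. -/

open MeasureTheory Set Filter Real
open scoped Topology

set_option linter.all false
set_option autoImplicit false

namespace Vale.Agent.P227.M.SC.St

variable {W W1 W2 : ℝ → ℝ} {a b : ℝ}

/-- solution of `-r' + W' r = g` -/
noncomputable def pr (W g : ℝ → ℝ) (z : ℝ) : ℝ := Real.exp (W z) * ∫ t in Ioi z, g t * Real.exp (-W t)

theorem hasDerivAt_tail {φ : ℝ → ℝ} (hc : Continuous φ) (hi : Integrable φ) (z : ℝ) :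
    HasDerivAt (fun z => ∫ t in Ioi z, φ t) (-φ z) z := by
  have h : (fun z => ∫ t in Ioi z, φ t) = fun z => (∫ t in Ioi (0:ℝ), φ t) - ∫ t in (0:ℝ)..z, φ t := by
    ext z
    have := intervalIntegral.integral_Ioi_sub_Ioi' (f := φ) (μ := volume) (a := 0) (b := z)
      hi.integrableOn hi.integrableOn
    linarith
  rw [h]
  have h2 := (hc.integral_hasStrictDerivAt 0 z).hasDerivAt
  exact (h2.const_sub _)

theorem Pot.pr_deriv (P : Pot W W1 W2 a b) {g : ℝ → ℝ} (hg : Ok g) (z : ℝ) :
    HasDerivAt (pr W g) (W1 z * pr W g z - g z) z := by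
  have h1 := hasDerivAt_tail (hg.1.mul (Real.continuous_exp.comp P.c0.neg)) (P.int hg) z
  have h2 := (P.d0 z).exp.mul h1
  refine h2.congr_deriv ?_
  unfold pr
  have : Real.exp (W z) * Real.exp (-W z) = 1 := by rw [← Real.exp_add]; simp
  simp only [Pi.mul_apply, Function.comp_apply]
  linear_combination (-g z) * this

theorem Pot.pr_left (P : Pot W W1 W2 a b) {g : ℝ → ℝ} (hg : Ok g) (h0 : J W g = 0) (z : ℝ) :
    ∫ t in Ioi z, g t * Real.exp (-W t) = - ∫ t in Iic z, g t * Real.exp (-W t) := by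
  have := integral_add_compl (measurableSet_Iic (a := z)) (P.int hg)
  rw [compl_Iic] at this
  unfold J at h0
  linarith

theorem Pot.pr_nonneg (P : Pot W W1 W2 a b) {g : ℝ → ℝ} (hg : Ok g) (h0 : J W g = 0)
    (hm : Monotone g) (z : ℝ) : 0 ≤ pr W g z := by
  unfold pr
  apply mul_nonneg (Real.exp_pos _).le
  rcases le_or_gt 0 (g z) with h | h
  · apply setIntegral_nonneg measurableSet_Ioi
    intro t ht
    exact mul_nonneg (h.trans (hm (le_of_lt ht))) (Real.exp_pos _).le
  · rw [P.pr_left hg h0, neg_nonneg]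
    apply setIntegral_nonpos measurableSet_Iic
    intro t ht
    exact mul_nonpos_of_nonpos_of_nonneg ((hm ht).trans h.le) (Real.exp_pos _).le

theorem Pot.J_W1 (P : Pot W W1 W2 a b) : J W W1 = 0 := by
  have h := P.ibp (Ok.const 1) (Ok.const 0) (fun z => hasDerivAt_const z 1)
  rw [P.J_const 0] at h
  rw [h]
  apply J_congr; intro z; ring

theorem Pot.pr_W1 (P : Pot W W1 W2 a b) (z : ℝ) : pr W W1 z = 1 := by
  have hD : ∀ t, HasDerivAt (fun t => - Real.exp (-W t)) (W1 t * Real.exp (-W t)) t := by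
    intro t
    refine ((P.d0 t).neg.exp.neg).congr_deriv ?_
    simp; ring
  have ht : Tendsto (fun t => - Real.exp (-W t)) atTop (𝓝 0) := by
    have h1 := (P.tend (Ok.const 1)).mono_left atTop_le_cocompact
    have h2 := h1.neg
    simpa using h2
  have h := integral_Ioi_of_hasDerivAt_of_tendsto' (fun t _ => hD t) (P.int P.ok1).integrableOn ht (a := z)
  unfold pr
  rw [h]
  have : Real.exp (W z) * Real.exp (-W z) = 1 := by rw [← Real.exp_add]; simp
  linarith

theorem Pot.pr_add (P : Pot W W1 W2 a b) {f g : ℝ → ℝ} (hf : Ok f) (hg : Ok g) (c : ℝ) (z : ℝ) :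
    pr W (fun t => c * f t + g t) z = c * pr W f z + pr W g z := by
  unfold pr
  have h1 : ∫ t in Ioi z, (c * f t + g t) * Real.exp (-W t)
      = c * (∫ t in Ioi z, f t * Real.exp (-W t)) + ∫ t in Ioi z, g t * Real.exp (-W t) := by
    rw [← integral_const_mul, ← integral_add ((P.int hf).integrableOn.const_mul c) (P.int hg).integrableOn]
    congr 1; ext t; ring
  rw [h1]; ring

/-- comparison: if `|g'| ≤ β W''` then `|pr g| ≤ β` -/
theorem Pot.pr_le (P : Pot W W1 W2 a b) {g g' : ℝ → ℝ} (hg : Ok g) (h0 : J W g = 0)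
    (hd : ∀ z, HasDerivAt g (g' z) z) (β : ℝ) (hβ : ∀ z, |g' z| ≤ β * W2 z) (z : ℝ) :
    |pr W g z| ≤ β := by
  have key : ∀ h h' : ℝ → ℝ, Ok h → J W h = 0 → (∀ z, HasDerivAt h (h' z) z) →
      (∀ z, |h' z| ≤ β * W2 z) → -β ≤ pr W h z := by
    intro h h' hh hj hdd hb
    have hm : Monotone (fun t => β * W1 t + h t) := by
      apply monotone_of_hasDerivAt_nonneg (f' := fun t => β * W2 t + h' t)
      · intro t; exact ((P.d1 t).const_mul β).add (hdd t)
      · intro t
        have := (abs_le.1 (hb t)).1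
        show (0:ℝ) ≤ β * W2 t + h' t
        linarith
    have hok : Ok (fun t => β * W1 t + h t) := (P.ok1.smul β).add hh
    have hj2 : J W (fun t => β * W1 t + h t) = 0 := by
      rw [P.J_add (P.ok1.smul β) hh, J_smul, P.J_W1, hj]; ring
    have := P.pr_nonneg hok hj2 hm z
    rw [P.pr_add P.ok1 hh, P.pr_W1] at this
    linarith
  rw [abs_le]
  refine ⟨key g g' hg h0 hd hβ, ?_⟩
  have h2 := key (fun t => - g t) (fun t => - g' t) hg.neg (by rw [J_neg, h0]; simp)
    (fun t => (hd t).neg) (fun t => by rw [abs_neg]; exact hβ t)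
  have h3 : pr W (fun t => - g t) z = - pr W g z := by
    unfold pr
    have : ∫ t in Ioi z, (-g t) * Real.exp (-W t) = - ∫ t in Ioi z, g t * Real.exp (-W t) := by
      rw [← integral_neg]; congr 1; ext t; ring
    rw [this]; ring
  rw [h3] at h2
  linarith

/-- bounded right hand side: bounded solution -/
theorem Pot.pr_bdd (P : Pot W W1 W2 a b) {g : ℝ → ℝ} (hg : Ok g) (h0 : J W g = 0) (M : ℝ)
    (hM : ∀ z, |g z| ≤ M) : ∃ K : ℝ, ∀ z, |pr W g z| ≤ K := by
  have ha := P.ha
  have hM0 : 0 ≤ M := (abs_nonneg _).trans (hM 0)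
  have hgi : Integrable (fun u : ℝ => Real.exp (-(a / 2) * u ^ 2)) :=
    integrable_exp_neg_mul_sq (by positivity)
  refine ⟨M * ∫ u : ℝ, Real.exp (-(a / 2) * u ^ 2), fun z => ?_⟩
  have hshift : ∫ t : ℝ, Real.exp (-(a / 2) * (t - z) ^ 2) = ∫ u : ℝ, Real.exp (-(a / 2) * u ^ 2) :=
    integral_sub_right_eq_self (fun u : ℝ => Real.exp (-(a / 2) * u ^ 2)) z
  have hshi : Integrable (fun t : ℝ => Real.exp (-(a / 2) * (t - z) ^ 2)) := hgi.comp_sub_right z
  have key : ∀ S : Set ℝ, MeasurableSet S → (∀ t ∈ S, 0 ≤ W1 z * (t - z)) →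
      Real.exp (W z) * |∫ t in S, g t * Real.exp (-W t)| ≤ M * ∫ u : ℝ, Real.exp (-(a / 2) * u ^ 2) := by
    intro S hS hpos
    have hb : ∀ t ∈ S, Real.exp (W z) * |g t * Real.exp (-W t)| ≤ M * Real.exp (-(a / 2) * (t - z) ^ 2) := by
      intro t ht
      rw [abs_mul, abs_of_pos (Real.exp_pos _)]
      have h1 := P.quad z t
      have h2 := hpos t ht
      have h3 : Real.exp (W z) * Real.exp (-W t) ≤ Real.exp (-(a / 2) * (t - z) ^ 2) := by
        rw [← Real.exp_add]; apply Real.exp_le_exp.2; nlinarith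
      calc Real.exp (W z) * (|g t| * Real.exp (-W t)) = |g t| * (Real.exp (W z) * Real.exp (-W t)) := by ring
        _ ≤ M * Real.exp (-(a / 2) * (t - z) ^ 2) :=
          mul_le_mul (hM t) h3 (by positivity) hM0
    calc Real.exp (W z) * |∫ t in S, g t * Real.exp (-W t)|
        ≤ Real.exp (W z) * ∫ t in S, |g t * Real.exp (-W t)| :=
          mul_le_mul_of_nonneg_left (abs_integral_le_integral_abs) (Real.exp_pos _).le
      _ = ∫ t in S, Real.exp (W z) * |g t * Real.exp (-W t)| := by rw [integral_const_mul]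
      _ ≤ ∫ t in S, M * Real.exp (-(a / 2) * (t - z) ^ 2) := by
          apply setIntegral_mono_on _ _ hS hb
          · exact ((P.int hg).abs.const_mul _).integrableOn
          · exact (hshi.const_mul M).integrableOn
      _ ≤ ∫ t, M * Real.exp (-(a / 2) * (t - z) ^ 2) := by
          apply setIntegral_le_integral (hshi.const_mul M)
          exact Eventually.of_forall (fun t => by positivity)
      _ = M * ∫ u : ℝ, Real.exp (-(a / 2) * u ^ 2) := by rw [integral_const_mul, hshift]
  have habs : |pr W g z| = Real.exp (W z) * |∫ t in Ioi z, g t * Real.exp (-W t)| := by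
    unfold pr; rw [abs_mul, abs_of_pos (Real.exp_pos _)]
  rw [habs]
  rcases le_or_gt 0 (W1 z) with h | h
  · exact key _ measurableSet_Ioi (fun t ht => mul_nonneg h (by have := mem_Ioi.1 ht; linarith))
  · rw [P.pr_left hg h0, abs_neg]
    exact key _ measurableSet_Iic (fun t ht => mul_nonneg_of_nonpos_of_nonpos h.le (by have := mem_Iic.1 ht; linarith))

end Vale.Agent.P227.M.SC.St
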