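import Mathlib

/-! # P227/M/SC: the pure real inequality behind the two-point step (self-concordance of marginals). -/

namespace Vale.Agent.P227.M.SC

open Real

/-- tangent line of `x ^ (3/2)` -/
theorem g_tangent {x y : ℝ} (hx : 0 ≤ x) (hy : 0 ≤ y) :
    y * √y + 3 / 2 * √y * (x - y) ≤ x * √x := by
  obtain ⟨u, hu, rfl⟩ : ∃ u : ℝ, 0 ≤ u ∧ x = u ^ 2 := ⟨√x, sqrt_nonneg x, (sq_sqrt hx).symm⟩
  obtain ⟨w, hw, rfl⟩ : ∃ w : ℝ, 0 ≤ w ∧ y = w ^ 2 := ⟨√y, sqrt_nonneg y, (sq_sqrt hy).symm⟩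
  rw [sqrt_sq hu, sqrt_sq hw]
  have h : 0 ≤ (u - w) ^ 2 * (u + w / 2) := by positivity
  nlinarith [h]

/-- second order upper bound of `x ^ (3/2)` -/
theorem g_upper2 {x y a0 : ℝ} (ha : 0 < a0) (hx : 0 ≤ x) (hy : a0 ≤ y) :
    x * √x ≤ y * √y + 3 / 2 * √y * (x - y) + (x - y) ^ 2 / √a0 := by
  obtain ⟨u, hu, rfl⟩ : ∃ u : ℝ, 0 ≤ u ∧ x = u ^ 2 := ⟨√x, sqrt_nonneg x, (sq_sqrt hx).symm⟩
  obtain ⟨w, hw, rfl⟩ : ∃ w : ℝ, 0 ≤ w ∧ y = w ^ 2 :=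
    ⟨√y, sqrt_nonneg y, (sq_sqrt (ha.le.trans hy)).symm⟩
  rw [sqrt_sq hu, sqrt_sq hw]
  have hr : 0 < √a0 := sqrt_pos.2 ha
  have hwr : √a0 ≤ w := by
    have := sqrt_le_sqrt hy
    rwa [sqrt_sq hw] at this
  have h1 : (u + w / 2) ≤ (u + w) ^ 2 / √a0 := by
    rw [le_div_iff₀ hr]
    nlinarith [mul_nonneg hu hw, mul_nonneg hu hr.le, mul_nonneg hw hr.le, mul_self_nonneg u]
  have h2 : (u - w) ^ 2 * (u + w / 2) ≤ (u - w) ^ 2 * ((u + w) ^ 2 / √a0) :=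
    mul_le_mul_of_nonneg_left h1 (sq_nonneg _)
  have h3 : (u ^ 2 - w ^ 2) ^ 2 / √a0 = (u - w) ^ 2 * ((u + w) ^ 2 / √a0) := by ring
  rw [h3]
  nlinarith [h2]

/-- third order upper bound of `x ^ (3/2)` -/
theorem g_upper3 {x y a0 : ℝ} (ha : 0 < a0) (hx : a0 ≤ x) (hy : a0 ≤ y) :
    x * √x ≤ y * √y + 3 / 2 * √y * (x - y) + 3 / 8 * ((x - y) ^ 2 / √y)
      + |x - y| ^ 3 / (16 * (a0 * √a0)) := by
  obtain ⟨u, hu, rfl⟩ : ∃ u : ℝ, 0 ≤ u ∧ x = u ^ 2 :=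
    ⟨√x, sqrt_nonneg x, (sq_sqrt (ha.le.trans hx)).symm⟩
  obtain ⟨w, hw, rfl⟩ : ∃ w : ℝ, 0 ≤ w ∧ y = w ^ 2 :=
    ⟨√y, sqrt_nonneg y, (sq_sqrt (ha.le.trans hy)).symm⟩
  obtain ⟨r, hr, rfl⟩ : ∃ r : ℝ, 0 ≤ r ∧ a0 = r ^ 2 := ⟨√a0, sqrt_nonneg a0, (sq_sqrt ha.le).symm⟩
  rw [sqrt_sq hu, sqrt_sq hw, sqrt_sq hr]
  have hr0 : 0 < r := by
    rcases hr.lt_or_eq with h | h
    · exact h
    · rw [← h] at ha; simp at ha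
  have hwr : r ≤ w := by nlinarith [hr0, hw]
  have hur : r ≤ u := by nlinarith [hr0, hu]
  have hw0 : 0 < w := lt_of_lt_of_le hr0 hwr
  have e1 : (u ^ 2 - w ^ 2) ^ 2 / w = (u - w) ^ 2 * (4 * w + 4 * (u - w) + (u - w) ^ 2 / w) := by
    field_simp; ring
  have e2 : |u ^ 2 - w ^ 2| ^ 3 / (16 * (r ^ 2 * r)) = |u - w| ^ 3 * ((u + w) ^ 3 / (16 * (r ^ 2 * r))) := by
    have : |u ^ 2 - w ^ 2| = |u - w| * (u + w) := by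
      rw [show u ^ 2 - w ^ 2 = (u - w) * (u + w) by ring, abs_mul, abs_of_nonneg (add_nonneg hu hw)]
    rw [this]; ring
  have e3 : (1 : ℝ) / 2 ≤ (u + w) ^ 3 / (16 * (r ^ 2 * r)) := by
    rw [le_div_iff₀ (by positivity)]
    have h2 : 2 * r ≤ u + w := by linarith
    have : (2 * r) ^ 3 ≤ (u + w) ^ 3 := pow_le_pow_left₀ (by positivity) h2 3
    nlinarith [this]
  have e4 : |u - w| ^ 3 * (1 / 2) ≤ |u - w| ^ 3 * ((u + w) ^ 3 / (16 * (r ^ 2 * r))) :=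
    mul_le_mul_of_nonneg_left e3 (by positivity)
  have e5 : -(|u - w| ^ 3) ≤ (u - w) ^ 3 := by
    have := neg_abs_le ((u - w) ^ 3)
    rwa [abs_pow] at this
  have e6 : 0 ≤ (u - w) ^ 2 * ((u - w) ^ 2 / w) := by positivity
  rw [e1, e2]
  nlinarith [e4, e5, e6]

/-- `|√x - √y| ≤ |x - y| / √a0` -/
theorem sqrt_sub_le {x y a0 : ℝ} (ha : 0 < a0) (hx : 0 ≤ x) (hy : a0 ≤ y) :
    |√x - √y| ≤ |x - y| / √a0 := by
  have hr : 0 < √a0 := sqrt_pos.2 ha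
  rw [le_div_iff₀ hr]
  have h1 : |x - y| = |√x - √y| * (√x + √y) := by
    have : x - y = (√x - √y) * (√x + √y) := by
      nlinarith [sq_sqrt hx, sq_sqrt (ha.le.trans hy)]
    rw [this, abs_mul, abs_of_nonneg (add_nonneg (sqrt_nonneg x) (sqrt_nonneg y))]
  rw [h1]
  apply mul_le_mul_of_nonneg_left _ (abs_nonneg _)
  have := sqrt_le_sqrt hy
  linarith [sqrt_nonneg x]


theorem d_pows {d : ℝ} (hd0 : 0 < d) (hd1 : d ≤ 1) :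
    d ^ 2 ≤ 1 ∧ d ^ 3 ≤ d ^ 2 ∧ d ^ 4 ≤ d ^ 3 ∧ d ^ 6 ≤ d ^ 3 ∧ d ^ 4 ≤ d ^ 2 ∧ d ^ 6 ≤ d ^ 2 := by
  have h0 : 0 ≤ d := hd0.le
  refine ⟨pow_le_one₀ h0 hd1, ?_, ?_, ?_, ?_, ?_⟩ <;>
    exact pow_le_pow_of_le_one h0 hd1 (by norm_num)

/-- the size of the perturbation of the second derivative -/
theorem xi_bound {b R d η m1 c1 : ℝ} (hb : 0 < b) (hR : 0 ≤ R) (hd0 : 0 < d) (hd1 : d ≤ 1)
    (hm1 : |m1| ≤ b) (hc1 : |c1| ≤ b) (hη : |η| ≤ R * d ^ 2) :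
    |2 * η * m1 + η ^ 2 * c1| ≤ (2 * R + R ^ 2) * b * d ^ 2 := by
  obtain ⟨hd2, hd3, hd4, hd6, hd4', hd6'⟩ := d_pows hd0 hd1
  have hηa : 0 ≤ |η| := abs_nonneg _
  have hη2 : η ^ 2 ≤ R ^ 2 * d ^ 4 := by
    have := pow_le_pow_left₀ hηa hη 2
    rw [sq_abs] at this
    calc η ^ 2 ≤ (R * d ^ 2) ^ 2 := this
      _ = _ := by ring
  have h0 : |2 * η * m1 + η ^ 2 * c1| ≤ 2 * (|η| * |m1|) + η ^ 2 * |c1| := by
    refine (abs_add_le _ _).trans ?_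
    rw [abs_mul, abs_mul, abs_mul, abs_of_nonneg (sq_nonneg η), abs_two, mul_assoc]
  have t1 : |η| * |m1| ≤ R * d ^ 2 * b := mul_le_mul hη hm1 (abs_nonneg _) (by positivity)
  have t2 : η ^ 2 * |c1| ≤ R ^ 2 * d ^ 4 * b := mul_le_mul hη2 hc1 (abs_nonneg _) (by positivity)
  have t3 : R ^ 2 * d ^ 4 * b ≤ R ^ 2 * d ^ 2 * b :=
    mul_le_mul_of_nonneg_right (mul_le_mul_of_nonneg_left hd4' (by positivity)) hb.le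
  calc |2 * η * m1 + η ^ 2 * c1| ≤ 2 * (R * d ^ 2 * b) + R ^ 2 * d ^ 2 * b := by linarith
    _ = _ := by ring

/-- `√a₁ m₁` versus `√a m` -/
theorem sm_bound {a0 b C3 d a a1 m m1 : ℝ} (ha0 : 0 < a0) (hC3 : 0 ≤ C3) (hd0 : 0 < d)
    (ha1 : a0 ≤ a1) (haa : a0 ≤ a) (hab' : a ≤ b) (h1 : |a1 - a| ≤ C3 * d) (h2 : |m1 - m| ≤ C3 * d)
    (hm1 : |m1| ≤ b) : |√a1 * m1 - √a * m| ≤ (C3 * b / √a0 + √b * C3) * d := by
  have hr0 : 0 < √a0 := sqrt_pos.2 ha0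
  have hsq : |√a1 - √a| ≤ C3 * d / √a0 := by
    refine (sqrt_sub_le ha0 (ha0.le.trans ha1) haa).trans ?_
    exact div_le_div_of_nonneg_right h1 hr0.le
  have e : √a1 * m1 - √a * m = (√a1 - √a) * m1 + √a * (m1 - m) := by ring
  rw [e]
  refine (abs_add_le _ _).trans ?_
  rw [abs_mul, abs_mul, abs_of_nonneg (sqrt_nonneg a)]
  have t1 : |√a1 - √a| * |m1| ≤ C3 * d / √a0 * b := mul_le_mul hsq hm1 (abs_nonneg _) (by positivity)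
  have t2 : √a * |m1 - m| ≤ √b * (C3 * d) := mul_le_mul (sqrt_le_sqrt hab') h2 (abs_nonneg _) (sqrt_nonneg b)
  have e2 : (C3 * b / √a0 + √b * C3) * d = C3 * d / √a0 * b + √b * (C3 * d) := by ring
  rw [e2]; linarith

/-- the first order term in `η` -/
theorem term_bound {a0 b C3 R d a a1 m m1 c1 η : ℝ} (ha0 : 0 < a0) (hb : 0 < b) (hC3 : 0 ≤ C3) (hR : 0 ≤ R)
    (hd0 : 0 < d) (hd1 : d ≤ 1)
    (ha1 : a0 ≤ a1) (ha1b : a1 ≤ b) (haa : a0 ≤ a) (hab' : a ≤ b) (h1 : |a1 - a| ≤ C3 * d)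
    (h2 : |m1 - m| ≤ C3 * d) (hm1 : |m1| ≤ b) (hc1 : |c1| ≤ b) (hη : |η| ≤ R * d ^ 2) :
    3 / 2 * √a1 * (2 * η * m1 + η ^ 2 * c1) ≤ 3 * √a * m * η
      + (3 * (R * (C3 * b / √a0 + √b * C3)) + 3 / 2 * √b * R ^ 2 * b) * d ^ 3 := by
  obtain ⟨hd2, hd3, hd4, hd6, hd4', hd6'⟩ := d_pows hd0 hd1
  have hsm := sm_bound ha0 hC3 hd0 ha1 haa hab' h1 h2 hm1
  have hη2 : η ^ 2 ≤ R ^ 2 * d ^ 4 := by
    have := pow_le_pow_left₀ (abs_nonneg η) hη 2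
    rw [sq_abs] at this
    calc η ^ 2 ≤ (R * d ^ 2) ^ 2 := this
      _ = _ := by ring
  have e : 3 / 2 * √a1 * (2 * η * m1 + η ^ 2 * c1)
      = 3 * √a * m * η + 3 * (η * (√a1 * m1 - √a * m)) + 3 / 2 * (√a1 * (η ^ 2 * c1)) := by ring
  rw [e]
  have t1 : η * (√a1 * m1 - √a * m) ≤ R * d ^ 2 * ((C3 * b / √a0 + √b * C3) * d) := by
    refine (le_abs_self _).trans ?_
    rw [abs_mul]
    exact mul_le_mul hη hsm (abs_nonneg _) (by positivity)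
  have u1 : η ^ 2 * c1 ≤ R ^ 2 * d ^ 3 * b := by
    have v1 : η ^ 2 * c1 ≤ η ^ 2 * b := mul_le_mul_of_nonneg_left ((le_abs_self _).trans hc1) (sq_nonneg _)
    have v2 : η ^ 2 * b ≤ R ^ 2 * d ^ 4 * b := mul_le_mul_of_nonneg_right hη2 hb.le
    have v3 : R ^ 2 * d ^ 4 * b ≤ R ^ 2 * d ^ 3 * b :=
      mul_le_mul_of_nonneg_right (mul_le_mul_of_nonneg_left hd4 (by positivity)) hb.le
    linarith
  have u4 : 0 ≤ R ^ 2 * d ^ 3 * b := by positivity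
  have t2 : √a1 * (η ^ 2 * c1) ≤ √b * (R ^ 2 * d ^ 3 * b) :=
    (mul_le_mul_of_nonneg_left u1 (sqrt_nonneg _)).trans
      (mul_le_mul_of_nonneg_right (sqrt_le_sqrt ha1b) u4)
  have e3 : (3 * (R * (C3 * b / √a0 + √b * C3)) + 3 / 2 * √b * R ^ 2 * b) * d ^ 3
      = 3 * (R * d ^ 2 * ((C3 * b / √a0 + √b * C3) * d)) + 3 / 2 * (√b * (R ^ 2 * d ^ 3 * b)) := by ring
  rw [e3]
  linarith

/-- the terms `-3ηq₁ - 3η²s₁ - η³t₁ + e(1+|η|)³` -/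
theorem rest_bound {C3 C4 R e d q q1 s1 t1 η : ℝ} (hC3 : 0 ≤ C3) (hC4 : 0 ≤ C4) (hR : 0 ≤ R)
    (he0 : 0 ≤ e) (hd0 : 0 < d) (hd1 : d ≤ 1) (h3 : |q1 - q| ≤ C4 * d) (hs1 : |s1| ≤ C3)
    (ht1 : |t1| ≤ C3) (hη : |η| ≤ R * d ^ 2) :
    -(3 * η * q1) - 3 * η ^ 2 * s1 - η ^ 3 * t1 + e * (1 + |η|) ^ 3 ≤
      -(3 * η * q) + e * (1 + (3 * R + 3 * R ^ 2 + R ^ 3) * d ^ 2)
        + (3 * R * C4 + (3 * R ^ 2 + R ^ 3) * C3) * d ^ 3 := by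
  obtain ⟨hd2, hd3, hd4, hd6, hd4', hd6'⟩ := d_pows hd0 hd1
  have hηa : 0 ≤ |η| := abs_nonneg _
  have hη2 : η ^ 2 ≤ R ^ 2 * d ^ 4 := by
    have := pow_le_pow_left₀ hηa hη 2
    rw [sq_abs] at this
    calc η ^ 2 ≤ (R * d ^ 2) ^ 2 := this
      _ = _ := by ring
  have hη3 : |η| ^ 3 ≤ R ^ 3 * d ^ 6 := by
    have := pow_le_pow_left₀ hηa hη 3
    calc |η| ^ 3 ≤ (R * d ^ 2) ^ 3 := this
      _ = _ := by ring
  have hqt : -(η * (q1 - q)) ≤ R * C4 * d ^ 3 := by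
    have : -(η * (q1 - q)) ≤ R * d ^ 2 * (C4 * d) := by
      refine (neg_le_abs _).trans ?_
      rw [abs_mul]
      exact mul_le_mul hη h3 (abs_nonneg _) (by positivity)
    calc -(η * (q1 - q)) ≤ R * d ^ 2 * (C4 * d) := this
      _ = _ := by ring
  have hst : -(η ^ 2 * s1) ≤ R ^ 2 * C3 * d ^ 3 := by
    have u1 : -(η ^ 2 * s1) ≤ R ^ 2 * d ^ 4 * C3 := by
      refine (neg_le_abs _).trans ?_
      rw [abs_mul, abs_of_nonneg (sq_nonneg η)]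
      exact mul_le_mul hη2 hs1 (abs_nonneg _) (by positivity)
    calc -(η ^ 2 * s1) ≤ R ^ 2 * d ^ 4 * C3 := u1
      _ = R ^ 2 * C3 * d ^ 4 := by ring
      _ ≤ _ := mul_le_mul_of_nonneg_left hd4 (by positivity)
  have htt : -(η ^ 3 * t1) ≤ R ^ 3 * C3 * d ^ 3 := by
    have u1 : -(η ^ 3 * t1) ≤ R ^ 3 * d ^ 6 * C3 := by
      refine (neg_le_abs _).trans ?_
      rw [abs_mul, abs_pow]
      exact mul_le_mul hη3 ht1 (abs_nonneg _) (by positivity)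
    calc -(η ^ 3 * t1) ≤ R ^ 3 * d ^ 6 * C3 := u1
      _ = R ^ 3 * C3 * d ^ 6 := by ring
      _ ≤ _ := mul_le_mul_of_nonneg_left hd6 (by positivity)
  have het : e * (1 + |η|) ^ 3 ≤ e * (1 + (3 * R + 3 * R ^ 2 + R ^ 3) * d ^ 2) := by
    apply mul_le_mul_of_nonneg_left _ he0
    have e1 : (1 + |η|) ^ 3 = 1 + 3 * |η| + 3 * η ^ 2 + |η| ^ 3 := by
      rw [← sq_abs η]; ring
    rw [e1]
    have u1 : R ^ 2 * d ^ 4 ≤ R ^ 2 * d ^ 2 := mul_le_mul_of_nonneg_left hd4' (by positivity)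
    have u2 : R ^ 3 * d ^ 6 ≤ R ^ 3 * d ^ 2 := mul_le_mul_of_nonneg_left hd6' (by positivity)
    calc 1 + 3 * |η| + 3 * η ^ 2 + |η| ^ 3 ≤ 1 + 3 * (R * d ^ 2) + 3 * (R ^ 2 * d ^ 2) + R ^ 3 * d ^ 2 := by
          linarith
      _ = _ := by ring
  have efin : (3 * R * C4 + (3 * R ^ 2 + R ^ 3) * C3) * d ^ 3
      = 3 * (R * C4 * d ^ 3) + 3 * (R ^ 2 * C3 * d ^ 3) + R ^ 3 * C3 * d ^ 3 := by ring
  have eq1 : -(3 * η * q1) = -(3 * η * q) + 3 * (-(η * (q1 - q))) := by ring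
  rw [efin, eq1]
  linarith

/-- one of the two points: the self-concordance inequality in the direction `v + η e` -/
theorem one_point {a0 b C3 C4 R : ℝ} (ha0 : 0 < a0) (hab : a0 ≤ b) (hC3 : 0 ≤ C3) (hC4 : 0 ≤ C4) (hR : 0 ≤ R)
    {k e d a m q a1 b1 m1 q1 c1 s1 t1 η : ℝ} (hk0 : 0 ≤ k) (hk1 : k ≤ 1) (he0 : 0 ≤ e)
    (hd0 : 0 < d) (hd1 : d ≤ 1) (ha1 : a0 ≤ a1) (ha1b : a1 ≤ b) (haa : a0 ≤ a) (hab' : a ≤ b)
    (h1 : |a1 - a| ≤ C3 * d) (h2 : |m1 - m| ≤ C3 * d) (h3 : |q1 - q| ≤ C4 * d)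
    (hm1 : |m1| ≤ b) (hc1 : |c1| ≤ b) (hs1 : |s1| ≤ C3) (ht1 : |t1| ≤ C3)
    (hη : |η| ≤ R * d ^ 2) (hpos : 0 ≤ a1 + 2 * η * m1 + η ^ 2 * c1)
    (hsc : b1 + 3 * η * q1 + 3 * η ^ 2 * s1 + η ^ 3 * t1 ≤
      2 * k * ((a1 + 2 * η * m1 + η ^ 2 * c1) * √(a1 + 2 * η * m1 + η ^ 2 * c1)) + e * (1 + |η|) ^ 3) :
    b1 ≤ 2 * k * (a1 * √a1) + 6 * k * √a * m * η - 3 * η * q + e * (1 + (3 * R + 3 * R ^ 2 + R ^ 3) * d ^ 2)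
      + (2 * (3 * (R * (C3 * b / √a0 + √b * C3)) + 3 / 2 * √b * R ^ 2 * b
          + ((2 * R + R ^ 2) * b) ^ 2 / √a0) + (3 * R * C4 + (3 * R ^ 2 + R ^ 3) * C3)) * d ^ 3 := by
  have hr0 : 0 < √a0 := sqrt_pos.2 ha0
  have hb0 : 0 < b := lt_of_lt_of_le ha0 hab
  obtain ⟨hd2, hd3, hd4, hd6, hd4', hd6'⟩ := d_pows hd0 hd1
  have hξb := xi_bound hb0 hR hd0 hd1 hm1 hc1 hη
  have hterm := term_bound ha0 hb0 hC3 hR hd0 hd1 ha1 ha1b haa hab' h1 h2 hm1 hc1 hη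
  have hrest := rest_bound hC3 hC4 hR he0 hd0 hd1 h3 hs1 ht1 hη
  have earg : a1 + 2 * η * m1 + η ^ 2 * c1 = a1 + (2 * η * m1 + η ^ 2 * c1) := by ring
  rw [earg] at hsc hpos
  generalize 2 * η * m1 + η ^ 2 * c1 = ξ at hξb hterm hsc hpos
  have hG := g_upper2 ha0 (x := a1 + ξ) (y := a1) hpos ha1
  rw [add_sub_cancel_left] at hG
  have hξ2 : ξ ^ 2 / √a0 ≤ ((2 * R + R ^ 2) * b) ^ 2 / √a0 * d ^ 3 := by
    have h4 : ξ ^ 2 ≤ ((2 * R + R ^ 2) * b) ^ 2 * d ^ 3 := by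
      have := pow_le_pow_left₀ (abs_nonneg ξ) hξb 2
      rw [sq_abs] at this
      calc ξ ^ 2 ≤ ((2 * R + R ^ 2) * b * d ^ 2) ^ 2 := this
        _ = ((2 * R + R ^ 2) * b) ^ 2 * d ^ 4 := by ring
        _ ≤ _ := mul_le_mul_of_nonneg_left hd4 (by positivity)
    calc ξ ^ 2 / √a0 ≤ (((2 * R + R ^ 2) * b) ^ 2 * d ^ 3) / √a0 :=
          div_le_div_of_nonneg_right h4 hr0.le
      _ = _ := by ring
  set A := 3 * (R * (C3 * b / √a0 + √b * C3)) + 3 / 2 * √b * R ^ 2 * b with hA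
  set B := ((2 * R + R ^ 2) * b) ^ 2 / √a0 with hB
  have hA0 : 0 ≤ A := by positivity
  have hB0 : 0 ≤ B := by positivity
  have hd30 : 0 ≤ d ^ 3 := by positivity
  have u1 : (a1 + ξ) * √(a1 + ξ) ≤ a1 * √a1 + 3 * √a * m * η + (A + B) * d ^ 3 := by
    have : (A + B) * d ^ 3 = A * d ^ 3 + B * d ^ 3 := by ring
    rw [this]; linarith
  have u3 := mul_le_mul_of_nonneg_left u1 (show (0 : ℝ) ≤ 2 * k by positivity)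
  have u4 : 2 * k * ((A + B) * d ^ 3) ≤ 2 * ((A + B) * d ^ 3) := by
    have : 0 ≤ (A + B) * d ^ 3 := by positivity
    exact mul_le_mul_of_nonneg_right (by linarith) this
  have e5 : 2 * k * (a1 * √a1 + 3 * √a * m * η + (A + B) * d ^ 3)
      = 2 * k * (a1 * √a1) + 6 * k * √a * m * η + 2 * k * ((A + B) * d ^ 3) := by ring
  rw [e5] at u3
  have efin : (2 * (A + B) + (3 * R * C4 + (3 * R ^ 2 + R ^ 3) * C3)) * d ^ 3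
      = 2 * ((A + B) * d ^ 3) + (3 * R * C4 + (3 * R ^ 2 + R ^ 3) * C3) * d ^ 3 := by ring
  rw [efin]
  linarith

/-- the average of `g(a_i)` versus `g` of the average -/
theorem two_point_g {a0 C3 C4 : ℝ} (ha0 : 0 < a0) (hC3 : 0 ≤ C3) (hC4 : 0 ≤ C4)
    {d a q a1 a2 P Q : ℝ} (hd0 : 0 < d) (hd1 : d ≤ 1) (hP : 0 ≤ P) (hQ : 0 ≤ Q) (hPQ : P + Q = 1)
    (ha1 : a0 ≤ a1) (ha2 : a0 ≤ a2) (haa : a0 ≤ a)
    (h1 : |a1 - a| ≤ C3 * d) (h2 : |a2 - a| ≤ C3 * d) (h12 : |a1 - a2 - 2 * d * q| ≤ C4 * d ^ 2)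
    (hq : |q| ≤ C3) :
    P * (a1 * √a1) + Q * (a2 * √a2) ≤ (P * a1 + Q * a2) * √(P * a1 + Q * a2)
      + 3 / 8 * (4 * (P * Q) * d ^ 2) * (q ^ 2 / √a)
      + (C3 ^ 3 / (a0 * √a0) + C3 * C4 / √a0 + C3 ^ 2 * C3 / (a0 * √a0)) * d ^ 3 := by
  obtain ⟨hd2, hd3, hd4, hd6, hd4', hd6'⟩ := d_pows hd0 hd1
  have hr0 : 0 < √a0 := sqrt_pos.2 ha0
  have hPQ4 : P * Q ≤ 1 / 4 := by nlinarith [sq_nonneg (P - Q)]
  have hPQ0 : 0 ≤ P * Q := mul_nonneg hP hQ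
  have hP1 : P ≤ 1 := by linarith
  have hQ1 : Q ≤ 1 := by linarith
  set A := P * a1 + Q * a2 with hA
  have hA0 : a0 ≤ A := by
    have : P * a0 + Q * a0 = a0 := by rw [← add_mul, hPQ, one_mul]
    rw [← this, hA]
    exact add_le_add (mul_le_mul_of_nonneg_left ha1 hP) (mul_le_mul_of_nonneg_left ha2 hQ)
  have hAp : 0 < A := lt_of_lt_of_le ha0 hA0
  have hg1 := g_upper3 ha0 ha1 hA0
  have hg2 := g_upper3 ha0 ha2 hA0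
  have hdiff : |a1 - a2| ≤ 2 * C3 * d := by
    have : a1 - a2 = (a1 - a) - (a2 - a) := by ring
    rw [this]
    exact (abs_sub _ _).trans (by linarith)
  have e1 : a1 - A = Q * (a1 - a2) := by
    rw [hA]; linear_combination (-a1) * hPQ
  have e2 : a2 - A = -(P * (a1 - a2)) := by
    rw [hA]; linear_combination (-a2) * hPQ
  have c1 : |a1 - A| ^ 3 ≤ 8 * C3 ^ 3 * d ^ 3 := by
    have : |a1 - A| ≤ 2 * C3 * d := by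
      rw [e1, abs_mul, abs_of_nonneg hQ]
      calc Q * |a1 - a2| ≤ 1 * |a1 - a2| := mul_le_mul_of_nonneg_right hQ1 (abs_nonneg _)
        _ ≤ _ := by linarith
    calc |a1 - A| ^ 3 ≤ (2 * C3 * d) ^ 3 := pow_le_pow_left₀ (abs_nonneg _) this 3
      _ = _ := by ring
  have c2 : |a2 - A| ^ 3 ≤ 8 * C3 ^ 3 * d ^ 3 := by
    have : |a2 - A| ≤ 2 * C3 * d := by
      rw [e2, abs_neg, abs_mul, abs_of_nonneg hP]
      calc P * |a1 - a2| ≤ 1 * |a1 - a2| := mul_le_mul_of_nonneg_right hP1 (abs_nonneg _)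
        _ ≤ _ := by linarith
    calc |a2 - A| ^ 3 ≤ (2 * C3 * d) ^ 3 := pow_le_pow_left₀ (abs_nonneg _) this 3
      _ = _ := by ring
  have hden : 0 < 16 * (a0 * √a0) := by positivity
  have c3 : P * (|a1 - A| ^ 3 / (16 * (a0 * √a0))) + Q * (|a2 - A| ^ 3 / (16 * (a0 * √a0)))
      ≤ C3 ^ 3 / (a0 * √a0) * d ^ 3 := by
    have u1 : |a1 - A| ^ 3 / (16 * (a0 * √a0)) ≤ 8 * C3 ^ 3 * d ^ 3 / (16 * (a0 * √a0)) :=
      div_le_div_of_nonneg_right c1 hden.le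
    have u2 : |a2 - A| ^ 3 / (16 * (a0 * √a0)) ≤ 8 * C3 ^ 3 * d ^ 3 / (16 * (a0 * √a0)) :=
      div_le_div_of_nonneg_right c2 hden.le
    have u3 : P * (|a1 - A| ^ 3 / (16 * (a0 * √a0))) + Q * (|a2 - A| ^ 3 / (16 * (a0 * √a0)))
        ≤ (P + Q) * (8 * C3 ^ 3 * d ^ 3 / (16 * (a0 * √a0))) := by
      rw [add_mul]
      exact add_le_add (mul_le_mul_of_nonneg_left u1 hP) (mul_le_mul_of_nonneg_left u2 hQ)
    rw [hPQ, one_mul] at u3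
    refine u3.trans ?_
    have : 8 * C3 ^ 3 * d ^ 3 / (16 * (a0 * √a0)) = 1 / 2 * (C3 ^ 3 / (a0 * √a0) * d ^ 3) := by
      field_simp; ring
    rw [this]
    have : 0 ≤ C3 ^ 3 / (a0 * √a0) * d ^ 3 := by positivity
    linarith
  -- the variance
  have hV : P * (a1 - A) ^ 2 + Q * (a2 - A) ^ 2 = P * Q * (a1 - a2) ^ 2 := by
    rw [e1, e2]
    linear_combination (P * Q * (a1 - a2) ^ 2) * hPQ
  have hsq : (a1 - a2) ^ 2 ≤ 4 * d ^ 2 * q ^ 2 + 4 * C3 * C4 * d ^ 3 := by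
    have e : (a1 - a2) ^ 2 = 4 * d ^ 2 * q ^ 2 + (a1 - a2 - 2 * d * q) * (a1 - a2 + 2 * d * q) := by ring
    rw [e]
    have u1 : |a1 - a2 + 2 * d * q| ≤ 4 * C3 * d := by
      refine (abs_add_le _ _).trans ?_
      rw [abs_mul, abs_mul, abs_two, abs_of_pos hd0]
      have : 2 * d * |q| ≤ 2 * d * C3 := mul_le_mul_of_nonneg_left hq (by positivity)
      linarith
    have u2 : (a1 - a2 - 2 * d * q) * (a1 - a2 + 2 * d * q) ≤ C4 * d ^ 2 * (4 * C3 * d) := by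
      refine (le_abs_self _).trans ?_
      rw [abs_mul]
      exact mul_le_mul h12 u1 (abs_nonneg _) (by positivity)
    calc _ ≤ 4 * d ^ 2 * q ^ 2 + C4 * d ^ 2 * (4 * C3 * d) := by linarith
      _ = _ := by ring
  have hVb : P * Q * (a1 - a2) ^ 2 ≤ 4 * (P * Q) * d ^ 2 * q ^ 2 + C3 * C4 * d ^ 3 := by
    have u1 := mul_le_mul_of_nonneg_left hsq hPQ0
    have u2 : P * Q * (4 * C3 * C4 * d ^ 3) ≤ 1 / 4 * (4 * C3 * C4 * d ^ 3) :=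
      mul_le_mul_of_nonneg_right hPQ4 (by positivity)
    calc P * Q * (a1 - a2) ^ 2 ≤ P * Q * (4 * d ^ 2 * q ^ 2 + 4 * C3 * C4 * d ^ 3) := u1
      _ = 4 * (P * Q) * d ^ 2 * q ^ 2 + P * Q * (4 * C3 * C4 * d ^ 3) := by ring
      _ ≤ _ := by linarith
  -- 1/√A versus 1/√a
  have hsA : √a0 ≤ √A := sqrt_le_sqrt hA0
  have hsa : √a0 ≤ √a := sqrt_le_sqrt haa
  have hsAp : 0 < √A := lt_of_lt_of_le hr0 hsA
  have hsap : 0 < √a := lt_of_lt_of_le hr0 hsa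
  have hAa : |A - a| ≤ C3 * d := by
    have : A - a = P * (a1 - a) + Q * (a2 - a) := by
      rw [hA]; linear_combination a * hPQ
    rw [this]
    refine (abs_add_le _ _).trans ?_
    rw [abs_mul, abs_mul, abs_of_nonneg hP, abs_of_nonneg hQ]
    calc P * |a1 - a| + Q * |a2 - a| ≤ P * (C3 * d) + Q * (C3 * d) :=
          add_le_add (mul_le_mul_of_nonneg_left h1 hP) (mul_le_mul_of_nonneg_left h2 hQ)
      _ = C3 * d := by rw [← add_mul, hPQ, one_mul]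
  have hsdiff : √a - √A ≤ C3 * d / √a0 := by
    have := sqrt_sub_le ha0 (hAp.le) haa
    have h' : |√A - √a| ≤ C3 * d / √a0 := this.trans (div_le_div_of_nonneg_right hAa hr0.le)
    have := neg_abs_le (√A - √a)
    linarith
  have hinv : 1 / √A ≤ 1 / √a + C3 * d / (a0 * √a0) := by
    have e : 1 / √A - 1 / √a = (√a - √A) / (√A * √a) := by field_simp
    have u0 : a0 ≤ √A * √a := by
      calc a0 = √a0 * √a0 := (mul_self_sqrt ha0.le).symm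
        _ ≤ _ := mul_le_mul hsA hsa hr0.le hsAp.le
    have u1 : (√a - √A) / (√A * √a) ≤ (C3 * d / √a0) / a0 := by
      have w1 : (√a - √A) / (√A * √a) ≤ (C3 * d / √a0) / (√A * √a) :=
        div_le_div_of_nonneg_right hsdiff (by positivity)
      have w2 : (C3 * d / √a0) / (√A * √a) ≤ (C3 * d / √a0) / a0 :=
        div_le_div_of_nonneg_left (by positivity) ha0 u0
      exact w1.trans w2
    have e3 : (C3 * d / √a0) / a0 = C3 * d / (a0 * √a0) := by field_simp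
    rw [e3] at u1
    linarith
  have hvar : 3 / 8 * (P * Q * (a1 - a2) ^ 2 / √A) ≤ 3 / 8 * (4 * (P * Q) * d ^ 2) * (q ^ 2 / √a)
      + (C3 * C4 / √a0 + C3 ^ 2 * C3 / (a0 * √a0)) * d ^ 3 := by
    have u1 : P * Q * (a1 - a2) ^ 2 / √A ≤ (4 * (P * Q) * d ^ 2 * q ^ 2 + C3 * C4 * d ^ 3) / √A :=
      div_le_div_of_nonneg_right hVb hsAp.le
    have u2 : (4 * (P * Q) * d ^ 2 * q ^ 2 + C3 * C4 * d ^ 3) / √A
        = 4 * (P * Q) * d ^ 2 * q ^ 2 * (1 / √A) + C3 * C4 * d ^ 3 / √A := by ring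
    have u3 : 4 * (P * Q) * d ^ 2 * q ^ 2 * (1 / √A)
        ≤ 4 * (P * Q) * d ^ 2 * q ^ 2 * (1 / √a + C3 * d / (a0 * √a0)) :=
      mul_le_mul_of_nonneg_left hinv (by positivity)
    have u4 : C3 * C4 * d ^ 3 / √A ≤ C3 * C4 * d ^ 3 / √a0 :=
      div_le_div_of_nonneg_left (by positivity) hr0 hsA
    have hq2 : q ^ 2 ≤ C3 ^ 2 := by
      have := pow_le_pow_left₀ (abs_nonneg q) hq 2
      rwa [sq_abs] at this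
    have u5 : 4 * (P * Q) * d ^ 2 * q ^ 2 * (C3 * d / (a0 * √a0)) ≤ C3 ^ 2 * C3 / (a0 * √a0) * d ^ 3 := by
      have w1 : 4 * (P * Q) * (d ^ 2 * q ^ 2 * (C3 * d / (a0 * √a0)))
          ≤ 1 * (d ^ 2 * q ^ 2 * (C3 * d / (a0 * √a0))) :=
        mul_le_mul_of_nonneg_right (by linarith) (by positivity)
      have w2 : d ^ 2 * q ^ 2 * (C3 * d / (a0 * √a0)) ≤ d ^ 2 * C3 ^ 2 * (C3 * d / (a0 * √a0)) := by
        apply mul_le_mul_of_nonneg_right _ (by positivity)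
        exact mul_le_mul_of_nonneg_left hq2 (by positivity)
      calc 4 * (P * Q) * d ^ 2 * q ^ 2 * (C3 * d / (a0 * √a0))
          = 4 * (P * Q) * (d ^ 2 * q ^ 2 * (C3 * d / (a0 * √a0))) := by ring
        _ ≤ d ^ 2 * C3 ^ 2 * (C3 * d / (a0 * √a0)) := by linarith
        _ = _ := by ring
    have e6 : 4 * (P * Q) * d ^ 2 * q ^ 2 * (1 / √a + C3 * d / (a0 * √a0))
        = 4 * (P * Q) * d ^ 2 * (q ^ 2 / √a) + 4 * (P * Q) * d ^ 2 * q ^ 2 * (C3 * d / (a0 * √a0)) := by ring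
    have e7 : (C3 * C4 / √a0 + C3 ^ 2 * C3 / (a0 * √a0)) * d ^ 3
        = C3 * C4 * d ^ 3 / √a0 + C3 ^ 2 * C3 / (a0 * √a0) * d ^ 3 := by ring
    have p1 : 0 ≤ C3 * C4 * d ^ 3 / √a0 := by positivity
    have p2 : 0 ≤ C3 ^ 2 * C3 / (a0 * √a0) * d ^ 3 := by positivity
    rw [e7]
    linarith
  -- assemble
  have hlin : P * (3 / 2 * √A * (a1 - A)) + Q * (3 / 2 * √A * (a2 - A)) = 0 := by
    rw [e1, e2]; ring
  have hAA : P * (A * √A) + Q * (A * √A) = A * √A := by rw [← add_mul, hPQ, one_mul]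
  have hvv : P * (3 / 8 * ((a1 - A) ^ 2 / √A)) + Q * (3 / 8 * ((a2 - A) ^ 2 / √A))
      = 3 / 8 * (P * Q * (a1 - a2) ^ 2 / √A) := by
    rw [← hV]; ring
  have f1 := mul_le_mul_of_nonneg_left hg1 hP
  have f2 := mul_le_mul_of_nonneg_left hg2 hQ
  have e8 : P * (A * √A + 3 / 2 * √A * (a1 - A) + 3 / 8 * ((a1 - A) ^ 2 / √A) + |a1 - A| ^ 3 / (16 * (a0 * √a0)))
      = P * (A * √A) + P * (3 / 2 * √A * (a1 - A)) + P * (3 / 8 * ((a1 - A) ^ 2 / √A))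
        + P * (|a1 - A| ^ 3 / (16 * (a0 * √a0))) := by ring
  have e9 : Q * (A * √A + 3 / 2 * √A * (a2 - A) + 3 / 8 * ((a2 - A) ^ 2 / √A) + |a2 - A| ^ 3 / (16 * (a0 * √a0)))
      = Q * (A * √A) + Q * (3 / 2 * √A * (a2 - A)) + Q * (3 / 8 * ((a2 - A) ^ 2 / √A))
        + Q * (|a2 - A| ^ 3 / (16 * (a0 * √a0))) := by ring
  rw [e8] at f1
  rw [e9] at f2
  have e10 : (C3 ^ 3 / (a0 * √a0) + C3 * C4 / √a0 + C3 ^ 2 * C3 / (a0 * √a0)) * d ^ 3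
      = C3 ^ 3 / (a0 * √a0) * d ^ 3 + (C3 * C4 / √a0 + C3 ^ 2 * C3 / (a0 * √a0)) * d ^ 3 := by ring
  rw [e10]
  linarith

/-- bounds of `D` -/
theorem D_bounds {b C3 d m D : ℝ} (hC3 : 0 ≤ C3) (hb : 0 < b) (hd0 : 0 < d) (hd1 : d ≤ 1)
    (hD : |D - 2 * d * m| ≤ C3 * d ^ 2) (hm : |m| ≤ b) :
    |D| ≤ (2 * b + C3) * d ∧ D ^ 2 ≤ 4 * d ^ 2 * m ^ 2 + C3 * (4 * b + C3) * d ^ 3 := by
  have hdd : C3 * d ^ 2 ≤ C3 * d := by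
    have : d ^ 2 ≤ d := by nlinarith
    exact mul_le_mul_of_nonneg_left this hC3
  have h2m : |2 * d * m| ≤ 2 * d * b := by
    rw [abs_mul, abs_mul, abs_two, abs_of_pos hd0]
    exact mul_le_mul_of_nonneg_left hm (by positivity)
  constructor
  · have e : D = (D - 2 * d * m) + 2 * d * m := by ring
    rw [e]
    refine (abs_add_le _ _).trans ?_
    calc |D - 2 * d * m| + |2 * d * m| ≤ C3 * d + 2 * d * b := by linarith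
      _ = _ := by ring
  · have e : D ^ 2 = 4 * d ^ 2 * m ^ 2 + (D - 2 * d * m) * (D - 2 * d * m + 2 * (2 * d * m)) := by ring
    rw [e]
    have u1 : |D - 2 * d * m + 2 * (2 * d * m)| ≤ (4 * b + C3) * d := by
      refine (abs_add_le _ _).trans ?_
      rw [abs_mul 2 (2 * d * m), abs_two]
      calc |D - 2 * d * m| + 2 * |2 * d * m| ≤ C3 * d + 2 * (2 * d * b) := by linarith
        _ = _ := by ring
    have u2 : (D - 2 * d * m) * (D - 2 * d * m + 2 * (2 * d * m)) ≤ C3 * d ^ 2 * ((4 * b + C3) * d) := by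
      refine (le_abs_self _).trans ?_
      rw [abs_mul]
      exact mul_le_mul hD u1 (abs_nonneg _) (by positivity)
    calc _ ≤ 4 * d ^ 2 * m ^ 2 + C3 * d ^ 2 * ((4 * b + C3) * d) := by linarith
      _ = _ := by ring

/-- `g` of the average versus `g` of the new second derivative -/
theorem avg_new {a0 b C3 : ℝ} (ha0 : 0 < a0) (hab : a0 ≤ b) (hC3 : 0 ≤ C3)
    {k d a m a1 a2 P Q D : ℝ} (hk0 : 0 ≤ k) (hk1 : k ≤ 1) (hd0 : 0 < d) (hd1 : d ≤ 1)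
    (hP : 0 ≤ P) (hQ : 0 ≤ Q) (hPQ : P + Q = 1)
    (ha1 : a0 ≤ a1) (ha2 : a0 ≤ a2) (ha1b : a1 ≤ b) (ha2b : a2 ≤ b) (haa : a0 ≤ a)
    (h1 : |a1 - a| ≤ C3 * d) (h2 : |a2 - a| ≤ C3 * d)
    (hD : |D - 2 * d * m| ≤ C3 * d ^ 2) (hm : |m| ≤ b) (hnn : 0 ≤ P * a1 + Q * a2 - P * Q * D ^ 2) :
    2 * k * ((P * a1 + Q * a2) * √(P * a1 + Q * a2)) ≤
      2 * k * ((P * a1 + Q * a2 - P * Q * D ^ 2) * √(P * a1 + Q * a2 - P * Q * D ^ 2))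
      + 3 * k * √a * (4 * (P * Q) * d ^ 2) * m ^ 2
      + (3 * (C3 / √a0) * b ^ 2 + 3 * √b * (C3 * (4 * b + C3))) * d ^ 3 := by
  obtain ⟨hd2, hd3, hd4, hd6, hd4', hd6'⟩ := d_pows hd0 hd1
  have hb0 : 0 < b := lt_of_lt_of_le ha0 hab
  have hr0 : 0 < √a0 := sqrt_pos.2 ha0
  have hPQ4 : P * Q ≤ 1 / 4 := by nlinarith [sq_nonneg (P - Q)]
  have hPQ0 : 0 ≤ P * Q := mul_nonneg hP hQ
  obtain ⟨-, hD2⟩ := D_bounds hC3 hb0 hd0 hd1 hD hm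
  set A := P * a1 + Q * a2 with hA
  have hA0 : a0 ≤ A := by
    have : P * a0 + Q * a0 = a0 := by rw [← add_mul, hPQ, one_mul]
    rw [← this, hA]
    exact add_le_add (mul_le_mul_of_nonneg_left ha1 hP) (mul_le_mul_of_nonneg_left ha2 hQ)
  have hAb : A ≤ b := by
    have : P * b + Q * b = b := by rw [← add_mul, hPQ, one_mul]
    rw [← this, hA]
    exact add_le_add (mul_le_mul_of_nonneg_left ha1b hP) (mul_le_mul_of_nonneg_left ha2b hQ)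
  have hAp : 0 < A := lt_of_lt_of_le ha0 hA0
  have hsA : √A ≤ √a + C3 * d / √a0 := by
    have hAa : |A - a| ≤ C3 * d := by
      have : A - a = P * (a1 - a) + Q * (a2 - a) := by
        rw [hA]; linear_combination a * hPQ
      rw [this]
      refine (abs_add_le _ _).trans ?_
      rw [abs_mul, abs_mul, abs_of_nonneg hP, abs_of_nonneg hQ]
      calc P * |a1 - a| + Q * |a2 - a| ≤ P * (C3 * d) + Q * (C3 * d) :=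
            add_le_add (mul_le_mul_of_nonneg_left h1 hP) (mul_le_mul_of_nonneg_left h2 hQ)
        _ = C3 * d := by rw [← add_mul, hPQ, one_mul]
    have h' : |√A - √a| ≤ C3 * d / √a0 :=
      (sqrt_sub_le ha0 hAp.le haa).trans (div_le_div_of_nonneg_right hAa hr0.le)
    have := le_abs_self (√A - √a)
    linarith
  have hsAb : √A ≤ √b := sqrt_le_sqrt hAb
  have hT := g_tangent (x := A - P * Q * D ^ 2) (y := A) hnn hAp.le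
  have e1 : A - P * Q * D ^ 2 - A = -(P * Q * D ^ 2) := by ring
  rw [e1] at hT
  have hPD : P * Q * D ^ 2 ≤ 4 * (P * Q) * d ^ 2 * m ^ 2 + C3 * (4 * b + C3) * d ^ 3 := by
    have u1 := mul_le_mul_of_nonneg_left hD2 hPQ0
    have u2 : P * Q * (C3 * (4 * b + C3) * d ^ 3) ≤ 1 * (C3 * (4 * b + C3) * d ^ 3) :=
      mul_le_mul_of_nonneg_right (by linarith) (by positivity)
    calc P * Q * D ^ 2 ≤ P * Q * (4 * d ^ 2 * m ^ 2 + C3 * (4 * b + C3) * d ^ 3) := u1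
      _ = 4 * (P * Q) * d ^ 2 * m ^ 2 + P * Q * (C3 * (4 * b + C3) * d ^ 3) := by ring
      _ ≤ _ := by linarith
  have hm2 : m ^ 2 ≤ b ^ 2 := by
    have := pow_le_pow_left₀ (abs_nonneg m) hm 2
    rwa [sq_abs] at this
  have hB : √A * (P * Q * D ^ 2) ≤ √a * (4 * (P * Q) * d ^ 2) * m ^ 2
      + ((C3 / √a0) * b ^ 2 + √b * (C3 * (4 * b + C3))) * d ^ 3 := by
    have w1 : √A * (P * Q * D ^ 2) ≤ √A * (4 * (P * Q) * d ^ 2 * m ^ 2 + C3 * (4 * b + C3) * d ^ 3) :=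
      mul_le_mul_of_nonneg_left hPD (sqrt_nonneg _)
    have w2 : √A * (4 * (P * Q) * d ^ 2 * m ^ 2) ≤ (√a + C3 * d / √a0) * (4 * (P * Q) * d ^ 2 * m ^ 2) :=
      mul_le_mul_of_nonneg_right hsA (by positivity)
    have w3 : √A * (C3 * (4 * b + C3) * d ^ 3) ≤ √b * (C3 * (4 * b + C3) * d ^ 3) :=
      mul_le_mul_of_nonneg_right hsAb (by positivity)
    have w4 : C3 * d / √a0 * (4 * (P * Q) * d ^ 2 * m ^ 2) ≤ (C3 / √a0) * b ^ 2 * d ^ 3 := by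
      have v1 : 4 * (P * Q) * (C3 * d / √a0 * (d ^ 2 * m ^ 2)) ≤ 1 * (C3 * d / √a0 * (d ^ 2 * m ^ 2)) :=
        mul_le_mul_of_nonneg_right (by linarith) (by positivity)
      have v2 : C3 * d / √a0 * (d ^ 2 * m ^ 2) ≤ C3 * d / √a0 * (d ^ 2 * b ^ 2) := by
        apply mul_le_mul_of_nonneg_left _ (by positivity)
        exact mul_le_mul_of_nonneg_left hm2 (by positivity)
      calc C3 * d / √a0 * (4 * (P * Q) * d ^ 2 * m ^ 2)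
          = 4 * (P * Q) * (C3 * d / √a0 * (d ^ 2 * m ^ 2)) := by ring
        _ ≤ C3 * d / √a0 * (d ^ 2 * b ^ 2) := by linarith
        _ = _ := by ring
    calc √A * (P * Q * D ^ 2) ≤ √A * (4 * (P * Q) * d ^ 2 * m ^ 2 + C3 * (4 * b + C3) * d ^ 3) := w1
      _ = √A * (4 * (P * Q) * d ^ 2 * m ^ 2) + √A * (C3 * (4 * b + C3) * d ^ 3) := by ring
      _ ≤ (√a + C3 * d / √a0) * (4 * (P * Q) * d ^ 2 * m ^ 2) + √b * (C3 * (4 * b + C3) * d ^ 3) := by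
          linarith
      _ = √a * (4 * (P * Q) * d ^ 2) * m ^ 2 + C3 * d / √a0 * (4 * (P * Q) * d ^ 2 * m ^ 2)
          + √b * (C3 * (4 * b + C3) * d ^ 3) := by ring
      _ ≤ √a * (4 * (P * Q) * d ^ 2) * m ^ 2 + (C3 / √a0) * b ^ 2 * d ^ 3
          + √b * (C3 * (4 * b + C3) * d ^ 3) := by linarith
      _ = _ := by ring
  set F := ((C3 / √a0) * b ^ 2 + √b * (C3 * (4 * b + C3))) * d ^ 3 with hF
  have hF0 : 0 ≤ F := by positivity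
  have hg : A * √A ≤ (A - P * Q * D ^ 2) * √(A - P * Q * D ^ 2)
      + 3 / 2 * (√a * (4 * (P * Q) * d ^ 2) * m ^ 2 + F) := by
    have e2 : 3 / 2 * √A * -(P * Q * D ^ 2) = -(3 / 2 * (√A * (P * Q * D ^ 2))) := by ring
    rw [e2] at hT
    linarith
  have hg2 := mul_le_mul_of_nonneg_left hg (show (0 : ℝ) ≤ 2 * k by positivity)
  have hkF : 3 * k * F ≤ 3 * F := by
    have := mul_le_mul_of_nonneg_right hk1 hF0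
    linarith
  calc 2 * k * (A * √A) ≤ 2 * k * ((A - P * Q * D ^ 2) * √(A - P * Q * D ^ 2)
      + 3 / 2 * (√a * (4 * (P * Q) * d ^ 2) * m ^ 2 + F)) := hg2
    _ = 2 * k * ((A - P * Q * D ^ 2) * √(A - P * Q * D ^ 2)) + 3 * k * √a * (4 * (P * Q) * d ^ 2) * m ^ 2
        + 3 * k * F := by ring
    _ ≤ 2 * k * ((A - P * Q * D ^ 2) * √(A - P * Q * D ^ 2)) + 3 * k * √a * (4 * (P * Q) * d ^ 2) * m ^ 2
        + 3 * F := by linarith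
    _ = _ := by rw [hF]; ring

/-- the covariance term -/
theorem cov_term {b C3 C4 : ℝ} (hC3 : 0 ≤ C3) (hC4 : 0 ≤ C4) (hb : 0 < b)
    {d m q a1 a2 P Q D : ℝ} (hd0 : 0 < d) (hd1 : d ≤ 1)
    (hP : 0 ≤ P) (hQ : 0 ≤ Q) (hPQ : P + Q = 1)
    (h12 : |a1 - a2 - 2 * d * q| ≤ C4 * d ^ 2) (hq : |q| ≤ C3)
    (hD : |D - 2 * d * m| ≤ C3 * d ^ 2) (hm : |m| ≤ b) :
    -(3 * (P * Q) * (a1 - a2) * D) ≤ -(3 * (4 * (P * Q) * d ^ 2) * q * m)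
      + (C4 * (2 * b + C3) + 2 * C3 ^ 2) * d ^ 3 := by
  have hPQ4 : P * Q ≤ 1 / 4 := by nlinarith [sq_nonneg (P - Q)]
  have hPQ0 : 0 ≤ P * Q := mul_nonneg hP hQ
  obtain ⟨hDb, -⟩ := D_bounds hC3 hb hd0 hd1 hD hm
  have e : (a1 - a2) * D - 4 * d ^ 2 * q * m = (a1 - a2 - 2 * d * q) * D + 2 * d * q * (D - 2 * d * m) := by ring
  have h1 : |(a1 - a2) * D - 4 * d ^ 2 * q * m| ≤ (C4 * (2 * b + C3) + 2 * C3 ^ 2) * d ^ 3 := by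
    rw [e]
    refine (abs_add_le _ _).trans ?_
    rw [abs_mul, abs_mul (2 * d * q), abs_mul, abs_mul, abs_two, abs_of_pos hd0]
    have t1 : |a1 - a2 - 2 * d * q| * |D| ≤ C4 * d ^ 2 * ((2 * b + C3) * d) :=
      mul_le_mul h12 hDb (abs_nonneg _) (by positivity)
    have t2 : 2 * d * |q| * |D - 2 * d * m| ≤ 2 * d * C3 * (C3 * d ^ 2) :=
      mul_le_mul (mul_le_mul_of_nonneg_left hq (by positivity)) hD (abs_nonneg _) (by positivity)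
    calc _ ≤ C4 * d ^ 2 * ((2 * b + C3) * d) + 2 * d * C3 * (C3 * d ^ 2) := by linarith
      _ = _ := by ring
  set F := (C4 * (2 * b + C3) + 2 * C3 ^ 2) * d ^ 3 with hF
  have hF0 : 0 ≤ F := by positivity
  have h2 : -((a1 - a2) * D) ≤ -(4 * d ^ 2 * q * m) + F := by
    have := neg_abs_le ((a1 - a2) * D - 4 * d ^ 2 * q * m)
    linarith
  have h3 := mul_le_mul_of_nonneg_left h2 (show (0 : ℝ) ≤ 3 * (P * Q) by positivity)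
  have h4 : 3 * (P * Q) * F ≤ F := by
    have := mul_le_mul_of_nonneg_right (show 3 * (P * Q) ≤ 1 by linarith) hF0
    linarith
  calc -(3 * (P * Q) * (a1 - a2) * D) = 3 * (P * Q) * -((a1 - a2) * D) := by ring
    _ ≤ 3 * (P * Q) * (-(4 * d ^ 2 * q * m) + F) := h3
    _ = -(3 * (4 * (P * Q) * d ^ 2) * q * m) + 3 * (P * Q) * F := by ring
    _ ≤ _ := by linarith

/-- the third cumulant term -/
theorem cub_term {b C3 : ℝ} (hC3 : 0 ≤ C3) (hb : 0 < b)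
    {d m P Q D : ℝ} (hd0 : 0 < d) (hd1 : d ≤ 1)
    (hP : 0 ≤ P) (hQ : 0 ≤ Q) (hPQ : P + Q = 1)
    (hD : |D - 2 * d * m| ≤ C3 * d ^ 2) (hm : |m| ≤ b) :
    P * Q * (Q - P) * D ^ 3 ≤ (2 * b + C3) ^ 3 * d ^ 3 := by
  have hPQ4 : P * Q ≤ 1 / 4 := by nlinarith [sq_nonneg (P - Q)]
  have hPQ0 : 0 ≤ P * Q := mul_nonneg hP hQ
  obtain ⟨hDb, -⟩ := D_bounds hC3 hb hd0 hd1 hD hm
  have h1 : |P * Q * (Q - P)| ≤ 1 := by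
    rw [abs_mul, abs_of_nonneg hPQ0]
    have : |Q - P| ≤ 1 := by
      rw [abs_le]; constructor <;> linarith
    calc P * Q * |Q - P| ≤ 1 / 4 * 1 := mul_le_mul hPQ4 this (abs_nonneg _) (by norm_num)
      _ ≤ 1 := by norm_num
  have h2 : |D ^ 3| ≤ (2 * b + C3) ^ 3 * d ^ 3 := by
    rw [abs_pow]
    calc |D| ^ 3 ≤ ((2 * b + C3) * d) ^ 3 := pow_le_pow_left₀ (abs_nonneg _) hDb 3
      _ = _ := by ring
  calc P * Q * (Q - P) * D ^ 3 ≤ |P * Q * (Q - P) * D ^ 3| := le_abs_self _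
    _ = |P * Q * (Q - P)| * |D ^ 3| := abs_mul _ _
    _ ≤ 1 * ((2 * b + C3) ^ 3 * d ^ 3) := mul_le_mul h1 h2 (abs_nonneg _) (by norm_num)
    _ = _ := one_mul _

theorem pq_le {P Q : ℝ} (hPQ : P + Q = 1) : P * Q ≤ 1 / 4 := by
  obtain rfl : Q = 1 - P := by linarith
  nlinarith [sq_nonneg (2 * P - 1)]

theorem r_bound {b S k m ρ : ℝ} (hk0 : 0 ≤ k) (hk1 : k ≤ 1) (hm : |m| ≤ b) (hρ : |ρ| ≤ S) :
    |(-1 + k ^ 2 / 2) * m + k / 4 * ρ| ≤ b + S := by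
  have hk2 : k ^ 2 ≤ 1 := pow_le_one₀ hk0 hk1
  have hk3 : 0 ≤ k ^ 2 := sq_nonneg k
  have u1 : |(-1 + k ^ 2 / 2) * m| ≤ b := by
    rw [abs_mul]
    have : |(-1 + k ^ 2 / 2)| ≤ 1 := by
      rw [abs_le]; constructor <;> linarith
    calc |(-1 + k ^ 2 / 2)| * |m| ≤ 1 * b := mul_le_mul this hm (abs_nonneg _) (by norm_num)
      _ = b := one_mul _
  have u2 : |k / 4 * ρ| ≤ S := by
    rw [abs_mul]
    have : |k / 4| ≤ 1 := by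
      rw [abs_le]; constructor <;> linarith
    calc |k / 4| * |ρ| ≤ 1 * S := mul_le_mul this hρ (abs_nonneg _) (by norm_num)
      _ = _ := one_mul _
  exact (abs_add_le _ _).trans (by linarith)

theorem rho_bound {a0 a C3 q ρ : ℝ} (ha0 : 0 < a0) (haa : a0 ≤ a) (hρ : q = ρ * √a) (hq : |q| ≤ C3) :
    |ρ| ≤ C3 / √a0 := by
  have hr0 : 0 < √a0 := sqrt_pos.2 ha0
  have hsa : √a0 ≤ √a := sqrt_le_sqrt haa
  have hsap : 0 < √a := lt_of_lt_of_le hr0 hsa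
  have e1 : |ρ| * √a = |q| := by rw [hρ, abs_mul, abs_of_pos hsap]
  rw [le_div_iff₀ hr0]
  calc |ρ| * √a0 ≤ |ρ| * √a := mul_le_mul_of_nonneg_left hsa (abs_nonneg _)
    _ = |q| := e1
    _ ≤ C3 := hq

theorem eta_bound {P Q d r R : ℝ} (hP : 0 ≤ P) (hQ : 0 ≤ Q) (hPQ : P + Q = 1) (hr : |r| ≤ R) :
    |4 * (P * Q) * d ^ 2 * r| ≤ R * d ^ 2 := by
  have hPQ4 := pq_le hPQ
  have hPQ0 : 0 ≤ P * Q := mul_nonneg hP hQ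
  have hh0 : 0 ≤ 4 * (P * Q) * d ^ 2 := by positivity
  have hhd : 4 * (P * Q) * d ^ 2 ≤ d ^ 2 := by
    have := mul_le_mul_of_nonneg_right (show 4 * (P * Q) ≤ 1 by linarith) (sq_nonneg d)
    linarith
  rw [abs_mul, abs_of_nonneg hh0]
  calc 4 * (P * Q) * d ^ 2 * |r| ≤ d ^ 2 * R := mul_le_mul hhd hr (abs_nonneg _) (by positivity)
    _ = _ := mul_comm _ _

theorem key_alg {k s ρ m q h r : ℝ} (hk0 : 0 ≤ k) (hk1 : k ≤ 1) (hs : 0 ≤ s) (hh : 0 ≤ h)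
    (hq : q = ρ * s) (hr : r = (-1 + k ^ 2 / 2) * m + k / 4 * ρ) :
    (6 * k * s * m * (h * r) - 3 * (h * r) * q) + 3 * k * s * h * m ^ 2
      + 2 * k * (3 / 8 * h * (ρ ^ 2 * s)) - 3 * h * q * m ≤ 0 := by
  have e1 : (6 * k * s * m * (h * r) - 3 * (h * r) * q) + 3 * k * s * h * m ^ 2
      + 2 * k * (3 / 8 * h * (ρ ^ 2 * s)) - 3 * h * q * m
      = -(3 * (k * (1 - k ^ 2)) * s * m ^ 2 * h) := by
    rw [hr, hq]; ring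
  have hk2 : 0 ≤ 1 - k ^ 2 := by
    have := pow_le_one₀ (n := 2) hk0 hk1
    linarith
  rw [e1]
  have : 0 ≤ 3 * (k * (1 - k ^ 2)) * s * m ^ 2 * h := by positivity
  linarith

theorem assemble {k e d P Q g1 g2 gA gN b1 b2 X Y Z W K1 K2 K3 K4 K5 K6 cv cb : ℝ}
    (hk0 : 0 ≤ k) (hk1 : k ≤ 1) (he0 : 0 ≤ e) (hd0 : 0 < d) (hP : 0 ≤ P) (hQ : 0 ≤ Q) (hPQ : P + Q = 1)
    (h1p : 0 ≤ K1) (h2p : 0 ≤ K2) (h3p : 0 ≤ K3) (h4p : 0 ≤ K4) (h5p : 0 ≤ K5) (h6p : 0 ≤ K6)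
    (f1 : b1 ≤ 2 * k * g1 + X + e * (1 + K1 * d ^ 2) + K2 * d ^ 3)
    (f2 : b2 ≤ 2 * k * g2 + X + e * (1 + K1 * d ^ 2) + K2 * d ^ 3)
    (f3 : P * g1 + Q * g2 ≤ gA + Y + K3 * d ^ 3)
    (f4 : 2 * k * gA ≤ 2 * k * gN + Z + K4 * d ^ 3)
    (f5 : -cv ≤ -W + K5 * d ^ 3)
    (f6 : cb ≤ K6 * d ^ 3)
    (key : X + Z + 2 * k * Y - W ≤ 0) :
    P * b1 + Q * b2 - cv + cb ≤ 2 * k * gN + e * (1 + (K1 + K2 + 2 * K3 + K4 + K5 + K6) * d ^ 2)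
      + (K1 + K2 + 2 * K3 + K4 + K5 + K6) * d ^ 3 := by
  have hd3 : 0 ≤ d ^ 3 := by positivity
  have g1' := mul_le_mul_of_nonneg_left f1 hP
  have g2' := mul_le_mul_of_nonneg_left f2 hQ
  have g3 := mul_le_mul_of_nonneg_left f3 (show (0 : ℝ) ≤ 2 * k by positivity)
  have g3' : 2 * k * (K3 * d ^ 3) ≤ 2 * (K3 * d ^ 3) :=
    mul_le_mul_of_nonneg_right (by linarith) (mul_nonneg h3p hd3)
  have e1 : P * (2 * k * g1 + X + e * (1 + K1 * d ^ 2) + K2 * d ^ 3)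
      + Q * (2 * k * g2 + X + e * (1 + K1 * d ^ 2) + K2 * d ^ 3)
      = 2 * k * (P * g1 + Q * g2) + (P + Q) * (X + e * (1 + K1 * d ^ 2) + K2 * d ^ 3) := by ring
  rw [hPQ, one_mul] at e1
  have e5 : 2 * k * (gA + Y + K3 * d ^ 3) = 2 * k * gA + 2 * k * Y + 2 * k * (K3 * d ^ 3) := by ring
  rw [e5] at g3
  have e6 : e * (1 + (K1 + K2 + 2 * K3 + K4 + K5 + K6) * d ^ 2)
      = e * (1 + K1 * d ^ 2) + e * ((K2 + 2 * K3 + K4 + K5 + K6) * d ^ 2) := by ring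
  have e7 : 0 ≤ e * ((K2 + 2 * K3 + K4 + K5 + K6) * d ^ 2) := by positivity
  have e8 : (K1 + K2 + 2 * K3 + K4 + K5 + K6) * d ^ 3
      = K1 * d ^ 3 + K2 * d ^ 3 + 2 * (K3 * d ^ 3) + K4 * d ^ 3 + K5 * d ^ 3 + K6 * d ^ 3 := by ring
  have e9 : 0 ≤ K1 * d ^ 3 := mul_nonneg h1p hd3
  rw [e6, e8]
  linarith

/-- the core with named constants -/
theorem sc_core {a0 b C3 C4 R K1 K2 K3 K4 K5 K6 : ℝ} (ha0 : 0 < a0) (hab : a0 ≤ b) (hC3 : 0 ≤ C3) (hC4 : 0 ≤ C4)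
    (hR : R = b + C3 / √a0)
    (hK1 : K1 = 3 * R + 3 * R ^ 2 + R ^ 3)
    (hK2 : K2 = 2 * (3 * (R * (C3 * b / √a0 + √b * C3)) + 3 / 2 * √b * R ^ 2 * b
          + ((2 * R + R ^ 2) * b) ^ 2 / √a0) + (3 * R * C4 + (3 * R ^ 2 + R ^ 3) * C3))
    (hK3 : K3 = C3 ^ 3 / (a0 * √a0) + C3 * C4 / √a0 + C3 ^ 2 * C3 / (a0 * √a0))
    (hK4 : K4 = 3 * (C3 / √a0) * b ^ 2 + 3 * √b * (C3 * (4 * b + C3)))
    (hK5 : K5 = C4 * (2 * b + C3) + 2 * C3 ^ 2)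
    (hK6 : K6 = (2 * b + C3) ^ 3)
    (h1p : 0 ≤ K1) (h2p : 0 ≤ K2) (h3p : 0 ≤ K3) (h4p : 0 ≤ K4) (h5p : 0 ≤ K5) (h6p : 0 ≤ K6)
    {k e d P Q a1 a2 b1 b2 D a m q m1 m2 q1 q2 c1 c2 s1 s2 t1 t2 : ℝ}
    (hk0 : 0 ≤ k) (hk1 : k ≤ 1) (he0 : 0 ≤ e) (hd0 : 0 < d) (hd1 : d ≤ 1) (hP : 0 ≤ P) (hQ : 0 ≤ Q)
    (hPQ : P + Q = 1)
    (ha1 : a0 ≤ a1) (ha1b : a1 ≤ b) (ha2 : a0 ≤ a2) (ha2b : a2 ≤ b) (haa : a0 ≤ a) (hab' : a ≤ b)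
    (h1 : |a1 - a| ≤ C3 * d) (h2 : |a2 - a| ≤ C3 * d) (h12 : |a1 - a2 - 2 * d * q| ≤ C4 * d ^ 2)
    (hD : |D - 2 * d * m| ≤ C3 * d ^ 2) (hm1' : |m1 - m| ≤ C3 * d) (hm2' : |m2 - m| ≤ C3 * d)
    (hq1' : |q1 - q| ≤ C4 * d) (hq2' : |q2 - q| ≤ C4 * d)
    (hm : |m| ≤ b) (hm1 : |m1| ≤ b) (hm2 : |m2| ≤ b) (hc1 : |c1| ≤ b) (hc2 : |c2| ≤ b)
    (hq : |q| ≤ C3) (hs1 : |s1| ≤ C3) (hs2 : |s2| ≤ C3) (ht1 : |t1| ≤ C3) (ht2 : |t2| ≤ C3)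
    (hpos1 : ∀ η : ℝ, 0 ≤ a1 + 2 * η * m1 + η ^ 2 * c1) (hpos2 : ∀ η : ℝ, 0 ≤ a2 + 2 * η * m2 + η ^ 2 * c2)
    (hsc1 : ∀ η : ℝ, b1 + 3 * η * q1 + 3 * η ^ 2 * s1 + η ^ 3 * t1 ≤
        2 * k * ((a1 + 2 * η * m1 + η ^ 2 * c1) * √(a1 + 2 * η * m1 + η ^ 2 * c1)) + e * (1 + |η|) ^ 3)
    (hsc2 : ∀ η : ℝ, b2 + 3 * η * q2 + 3 * η ^ 2 * s2 + η ^ 3 * t2 ≤
        2 * k * ((a2 + 2 * η * m2 + η ^ 2 * c2) * √(a2 + 2 * η * m2 + η ^ 2 * c2)) + e * (1 + |η|) ^ 3)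
    (hnn : 0 ≤ P * a1 + Q * a2 - P * Q * D ^ 2) :
      P * b1 + Q * b2 - 3 * (P * Q) * (a1 - a2) * D + P * Q * (Q - P) * D ^ 3 ≤
        2 * k * ((P * a1 + Q * a2 - P * Q * D ^ 2) * √(P * a1 + Q * a2 - P * Q * D ^ 2))
          + e * (1 + (K1 + K2 + 2 * K3 + K4 + K5 + K6) * d ^ 2)
          + (K1 + K2 + 2 * K3 + K4 + K5 + K6) * d ^ 3 := by
  have hr0 : 0 < √a0 := sqrt_pos.2 ha0
  have hb0 : 0 < b := lt_of_lt_of_le ha0 hab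
  have hR0 : 0 ≤ R := by rw [hR]; positivity
  have hsap : 0 < √a := lt_of_lt_of_le hr0 (sqrt_le_sqrt haa)
  obtain ⟨ρ, hρ⟩ : ∃ ρ : ℝ, q = ρ * √a := ⟨q / √a, (div_mul_cancel₀ q hsap.ne').symm⟩
  obtain ⟨r, hr⟩ : ∃ r : ℝ, r = (-1 + k ^ 2 / 2) * m + k / 4 * ρ := ⟨_, rfl⟩
  have hrb : |r| ≤ R := by
    rw [hr, hR]
    exact r_bound hk0 hk1 hm (rho_bound ha0 haa hρ hq)
  have hη : |4 * (P * Q) * d ^ 2 * r| ≤ R * d ^ 2 := eta_bound hP hQ hPQ hrb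
  have f1 : b1 ≤ 2 * k * (a1 * √a1) + (6 * k * √a * m * (4 * (P * Q) * d ^ 2 * r)
      - 3 * (4 * (P * Q) * d ^ 2 * r) * q) + e * (1 + K1 * d ^ 2) + K2 * d ^ 3 := by
    rw [hK1, hK2, ← add_sub_assoc]
    exact one_point ha0 hab hC3 hC4 hR0 hk0 hk1 he0 hd0 hd1 ha1 ha1b haa hab' h1 hm1' hq1' hm1 hc1 hs1 ht1
      hη (hpos1 _) (hsc1 _)
  have f2 : b2 ≤ 2 * k * (a2 * √a2) + (6 * k * √a * m * (4 * (P * Q) * d ^ 2 * r)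
      - 3 * (4 * (P * Q) * d ^ 2 * r) * q) + e * (1 + K1 * d ^ 2) + K2 * d ^ 3 := by
    rw [hK1, hK2, ← add_sub_assoc]
    exact one_point ha0 hab hC3 hC4 hR0 hk0 hk1 he0 hd0 hd1 ha2 ha2b haa hab' h2 hm2' hq2' hm2 hc2 hs2 ht2
      hη (hpos2 _) (hsc2 _)
  have f3 : P * (a1 * √a1) + Q * (a2 * √a2) ≤ (P * a1 + Q * a2) * √(P * a1 + Q * a2)
      + 3 / 8 * (4 * (P * Q) * d ^ 2) * (ρ ^ 2 * √a) + K3 * d ^ 3 := by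
    have hq2 : q ^ 2 / √a = ρ ^ 2 * √a := by
      rw [hρ, div_eq_iff hsap.ne']; ring
    rw [hK3, ← hq2]
    exact two_point_g ha0 hC3 hC4 hd0 hd1 hP hQ hPQ ha1 ha2 haa h1 h2 h12 hq
  have f4 : 2 * k * ((P * a1 + Q * a2) * √(P * a1 + Q * a2))
      ≤ 2 * k * ((P * a1 + Q * a2 - P * Q * D ^ 2) * √(P * a1 + Q * a2 - P * Q * D ^ 2))
        + 3 * k * √a * (4 * (P * Q) * d ^ 2) * m ^ 2 + K4 * d ^ 3 := by
    rw [hK4]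
    exact avg_new ha0 hab hC3 hk0 hk1 hd0 hd1 hP hQ hPQ ha1 ha2 ha1b ha2b haa h1 h2 hD hm hnn
  have f5 : -(3 * (P * Q) * (a1 - a2) * D) ≤ -(3 * (4 * (P * Q) * d ^ 2) * q * m) + K5 * d ^ 3 := by
    rw [hK5]
    exact cov_term hC3 hC4 hb0 hd0 hd1 hP hQ hPQ h12 hq hD hm
  have f6 : P * Q * (Q - P) * D ^ 3 ≤ K6 * d ^ 3 := by
    rw [hK6]
    exact cub_term hC3 hb0 hd0 hd1 hP hQ hPQ hD hm
  have hh0 : 0 ≤ 4 * (P * Q) * d ^ 2 := by positivity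
  exact assemble hk0 hk1 he0 hd0 hP hQ hPQ h1p h2p h3p h4p h5p h6p f1 f2 f3 f4 f5 f6
    (key_alg hk0 hk1 hsap.le hh0 hρ hr)

/-- THE REAL INEQUALITY of the two-point step (`x * √x` form). -/
theorem sc_real' (a0 b C3 C4 : ℝ) (ha0 : 0 < a0) (hab : a0 ≤ b) (hC3 : 0 ≤ C3) (hC4 : 0 ≤ C4) :
    ∃ K : ℝ, 0 ≤ K ∧ ∀ k e d P Q a1 a2 b1 b2 D a m q m1 m2 q1 q2 c1 c2 s1 s2 t1 t2 : ℝ,
      0 ≤ k → k ≤ 1 → 0 ≤ e → 0 < d → d ≤ 1 → 0 ≤ P → 0 ≤ Q → P + Q = 1 →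
      a0 ≤ a1 → a1 ≤ b → a0 ≤ a2 → a2 ≤ b → a0 ≤ a → a ≤ b →
      |a1 - a| ≤ C3 * d → |a2 - a| ≤ C3 * d → |a1 - a2 - 2 * d * q| ≤ C4 * d ^ 2 →
      |D - 2 * d * m| ≤ C3 * d ^ 2 → |m1 - m| ≤ C3 * d → |m2 - m| ≤ C3 * d →
      |q1 - q| ≤ C4 * d → |q2 - q| ≤ C4 * d →
      |m| ≤ b → |m1| ≤ b → |m2| ≤ b → |c1| ≤ b → |c2| ≤ b →
      |q| ≤ C3 → |s1| ≤ C3 → |s2| ≤ C3 → |t1| ≤ C3 → |t2| ≤ C3 →
      (∀ η : ℝ, 0 ≤ a1 + 2 * η * m1 + η ^ 2 * c1) → (∀ η : ℝ, 0 ≤ a2 + 2 * η * m2 + η ^ 2 * c2) →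
      (∀ η : ℝ, b1 + 3 * η * q1 + 3 * η ^ 2 * s1 + η ^ 3 * t1 ≤
        2 * k * ((a1 + 2 * η * m1 + η ^ 2 * c1) * √(a1 + 2 * η * m1 + η ^ 2 * c1)) + e * (1 + |η|) ^ 3) →
      (∀ η : ℝ, b2 + 3 * η * q2 + 3 * η ^ 2 * s2 + η ^ 3 * t2 ≤
        2 * k * ((a2 + 2 * η * m2 + η ^ 2 * c2) * √(a2 + 2 * η * m2 + η ^ 2 * c2)) + e * (1 + |η|) ^ 3) →
      0 ≤ P * a1 + Q * a2 - P * Q * D ^ 2 →
      P * b1 + Q * b2 - 3 * (P * Q) * (a1 - a2) * D + P * Q * (Q - P) * D ^ 3 ≤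
        2 * k * ((P * a1 + Q * a2 - P * Q * D ^ 2) * √(P * a1 + Q * a2 - P * Q * D ^ 2))
          + e * (1 + K * d ^ 2) + K * d ^ 3 := by
  have hr0 : 0 < √a0 := sqrt_pos.2 ha0
  have hb0 : 0 < b := lt_of_lt_of_le ha0 hab
  obtain ⟨R, hR⟩ : ∃ R : ℝ, R = b + C3 / √a0 := ⟨_, rfl⟩
  have hR0 : 0 ≤ R := by rw [hR]; positivity
  obtain ⟨K1, hK1⟩ : ∃ K1 : ℝ, K1 = 3 * R + 3 * R ^ 2 + R ^ 3 := ⟨_, rfl⟩
  obtain ⟨K2, hK2⟩ : ∃ K2 : ℝ, K2 = 2 * (3 * (R * (C3 * b / √a0 + √b * C3)) + 3 / 2 * √b * R ^ 2 * b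
          + ((2 * R + R ^ 2) * b) ^ 2 / √a0) + (3 * R * C4 + (3 * R ^ 2 + R ^ 3) * C3) := ⟨_, rfl⟩
  obtain ⟨K3, hK3⟩ : ∃ K3 : ℝ, K3 = C3 ^ 3 / (a0 * √a0) + C3 * C4 / √a0 + C3 ^ 2 * C3 / (a0 * √a0) := ⟨_, rfl⟩
  obtain ⟨K4, hK4⟩ : ∃ K4 : ℝ, K4 = 3 * (C3 / √a0) * b ^ 2 + 3 * √b * (C3 * (4 * b + C3)) := ⟨_, rfl⟩
  obtain ⟨K5, hK5⟩ : ∃ K5 : ℝ, K5 = C4 * (2 * b + C3) + 2 * C3 ^ 2 := ⟨_, rfl⟩
  obtain ⟨K6, hK6⟩ : ∃ K6 : ℝ, K6 = (2 * b + C3) ^ 3 := ⟨_, rfl⟩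
  have h1p : 0 ≤ K1 := by rw [hK1]; positivity
  have h2p : 0 ≤ K2 := by rw [hK2]; positivity
  have h3p : 0 ≤ K3 := by rw [hK3]; positivity
  have h4p : 0 ≤ K4 := by rw [hK4]; positivity
  have h5p : 0 ≤ K5 := by rw [hK5]; positivity
  have h6p : 0 ≤ K6 := by rw [hK6]; positivity
  refine ⟨K1 + K2 + 2 * K3 + K4 + K5 + K6, by positivity, ?_⟩
  intro k e d P Q a1 a2 b1 b2 D a m q m1 m2 q1 q2 c1 c2 s1 s2 t1 t2 hk0 hk1 he0 hd0 hd1 hP hQ hPQ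
    ha1 ha1b ha2 ha2b haa hab' h1 h2 h12 hD hm1' hm2' hq1' hq2' hm hm1 hm2 hc1 hc2 hq hs1 hs2 ht1 ht2
    hpos1 hpos2 hsc1 hsc2 hnn
  exact sc_core ha0 hab hC3 hC4 hR hK1 hK2 hK3 hK4 hK5 hK6 h1p h2p h3p h4p h5p h6p
    hk0 hk1 he0 hd0 hd1 hP hQ hPQ
    ha1 ha1b ha2 ha2b haa hab' h1 h2 h12 hD hm1' hm2' hq1' hq2' hm hm1 hm2 hc1 hc2 hq hs1 hs2 ht1 ht2
    hpos1 hpos2 hsc1 hsc2 hnn

theorem rpow32 {x : ℝ} (hx : 0 ≤ x) : x ^ ((3 : ℝ) / 2) = x * √x := by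
  rcases hx.lt_or_eq with h | h
  · rw [show ((3 : ℝ) / 2) = 1 + 1 / 2 by norm_num, Real.rpow_add h, Real.rpow_one, ← Real.sqrt_eq_rpow]
  · rw [← h]; simp

/-- THE REAL INEQUALITY of the two-point step (`rpow` form). -/
theorem sc_real (a0 b C3 C4 : ℝ) (ha0 : 0 < a0) (hab : a0 ≤ b) (hC3 : 0 ≤ C3) (hC4 : 0 ≤ C4) :
    ∃ K : ℝ, 0 ≤ K ∧ ∀ k e d P Q a1 a2 b1 b2 D a m q m1 m2 q1 q2 c1 c2 s1 s2 t1 t2 : ℝ,
      0 ≤ k → k ≤ 1 → 0 ≤ e → 0 < d → d ≤ 1 → 0 ≤ P → 0 ≤ Q → P + Q = 1 →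
      a0 ≤ a1 → a1 ≤ b → a0 ≤ a2 → a2 ≤ b → a0 ≤ a → a ≤ b →
      |a1 - a| ≤ C3 * d → |a2 - a| ≤ C3 * d → |a1 - a2 - 2 * d * q| ≤ C4 * d ^ 2 →
      |D - 2 * d * m| ≤ C3 * d ^ 2 → |m1 - m| ≤ C3 * d → |m2 - m| ≤ C3 * d →
      |q1 - q| ≤ C4 * d → |q2 - q| ≤ C4 * d →
      |m| ≤ b → |m1| ≤ b → |m2| ≤ b → |c1| ≤ b → |c2| ≤ b →
      |q| ≤ C3 → |s1| ≤ C3 → |s2| ≤ C3 → |t1| ≤ C3 → |t2| ≤ C3 →
      (∀ η : ℝ, 0 ≤ a1 + 2 * η * m1 + η ^ 2 * c1) → (∀ η : ℝ, 0 ≤ a2 + 2 * η * m2 + η ^ 2 * c2) →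
      (∀ η : ℝ, b1 + 3 * η * q1 + 3 * η ^ 2 * s1 + η ^ 3 * t1 ≤
        2 * k * (a1 + 2 * η * m1 + η ^ 2 * c1) ^ ((3 : ℝ) / 2) + e * (1 + |η|) ^ 3) →
      (∀ η : ℝ, b2 + 3 * η * q2 + 3 * η ^ 2 * s2 + η ^ 3 * t2 ≤
        2 * k * (a2 + 2 * η * m2 + η ^ 2 * c2) ^ ((3 : ℝ) / 2) + e * (1 + |η|) ^ 3) →
      0 ≤ P * a1 + Q * a2 - P * Q * D ^ 2 →
      P * b1 + Q * b2 - 3 * (P * Q) * (a1 - a2) * D + P * Q * (Q - P) * D ^ 3 ≤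
        2 * k * (P * a1 + Q * a2 - P * Q * D ^ 2) ^ ((3 : ℝ) / 2)
          + e * (1 + K * d ^ 2) + K * d ^ 3 := by
  obtain ⟨K, hK, H⟩ := sc_real' a0 b C3 C4 ha0 hab hC3 hC4
  refine ⟨K, hK, ?_⟩
  intro k e d P Q a1 a2 b1 b2 D a m q m1 m2 q1 q2 c1 c2 s1 s2 t1 t2 hk0 hk1 he0 hd0 hd1 hP hQ hPQ
    ha1 ha1b ha2 ha2b haa hab' h1 h2 h12 hD hm1' hm2' hq1' hq2' hm hm1 hm2 hc1 hc2 hq hs1 hs2 ht1 ht2
    hpos1 hpos2 hsc1 hsc2 hnn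
  rw [rpow32 hnn]
  refine H k e d P Q a1 a2 b1 b2 D a m q m1 m2 q1 q2 c1 c2 s1 s2 t1 t2 hk0 hk1 he0 hd0 hd1 hP hQ hPQ
    ha1 ha1b ha2 ha2b haa hab' h1 h2 h12 hD hm1' hm2' hq1' hq2' hm hm1 hm2 hc1 hc2 hq hs1 hs2 ht1 ht2
    hpos1 hpos2 (fun η => ?_) (fun η => ?_) hnn
  · rw [← rpow32 (hpos1 η)]; exact hsc1 η
  · rw [← rpow32 (hpos2 η)]; exact hsc2 η

end Vale.Agent.P227.M.SC
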