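import Vale.Agent.P227.M.SC.StepS
import Vale.Agent.P227.M.SC.StepReal

/-! # P227/M/SC: THE TWO-POINT STEP. -/

namespace Vale.Agent.P227.M.SC

theorem rpow_neg_zero {y : ℝ} (hy : y < 0) : y ^ ((3 : ℝ) / 2) = 0 := by
  rw [Real.rpow_def_of_neg hy]
  have : Real.cos (3 / 2 * Real.pi) = 0 := by
    have h2 : (3 / 2 * Real.pi : ℝ) = Real.pi + Real.pi / 2 := by ring
    rw [h2, Real.cos_add]
    simp
  rw [this, mul_zero]

/-- the real inequality when the new second derivative is negative (then `δ` is not small) -/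
theorem neg_case {a0 b A3 δ P ap am D bp bm : ℝ} (ha0 : 0 < a0) (hb : 0 ≤ b) (hA3 : 0 ≤ A3)
    (hδ0 : 0 < δ) (hδ1 : δ ≤ 1) (hP0 : 0 ≤ P) (hP1 : P ≤ 1) (h1 : a0 ≤ ap) (h2 : ap ≤ b)
    (h3 : a0 ≤ am) (h4 : am ≤ b) (hbp : |bp| ≤ A3) (hbm : |bm| ≤ A3) (hD : |D| ≤ 2 * δ * b)
    (hneg : P * ap + (1 - P) * am - P * (1 - P) * D ^ 2 < 0) :
    P * bp + (1 - P) * bm - 3 * (P * (1 - P)) * ((ap - am) * D)
        + P * (1 - P) * (1 - 2 * P) * D ^ 3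
      ≤ ((A3 + 2 * b ^ 2 + 2 * b ^ 3) * (b ^ 3 / (a0 * √a0))) * δ ^ 3 := by
  have hP1' : 0 ≤ 1 - P := by linarith
  have hQ0 : 0 ≤ P * (1 - P) := mul_nonneg hP0 hP1'
  have hQ4 : P * (1 - P) ≤ 1 / 4 := by nlinarith [sq_nonneg (P - 1 / 2)]
  have hD2 : D ^ 2 ≤ (2 * δ * b) ^ 2 := sq_le_sq' (by linarith [(abs_le.1 hD).1]) (abs_le.1 hD).2
  have hbar : a0 ≤ P * ap + (1 - P) * am := by
    nlinarith [mul_le_mul_of_nonneg_left h1 hP0, mul_le_mul_of_nonneg_left h3 hP1']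
  have h5 : a0 ≤ (δ * b) ^ 2 := by
    have h6 : P * (1 - P) * D ^ 2 ≤ 1 / 4 * (2 * δ * b) ^ 2 :=
      mul_le_mul hQ4 hD2 (sq_nonneg _) (by norm_num)
    have h7 : 1 / 4 * (2 * δ * b) ^ 2 = (δ * b) ^ 2 := by ring
    linarith
  have hδb : 0 ≤ δ * b := by positivity
  have h8 : √a0 ≤ δ * b := by
    rw [show δ * b = √((δ * b) ^ 2) from (Real.sqrt_sq hδb).symm]
    exact Real.sqrt_le_sqrt h5
  have hs0 : 0 < √a0 := Real.sqrt_pos.2 ha0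
  have h9 : a0 * √a0 ≤ (δ * b) ^ 2 * (δ * b) := mul_le_mul h5 h8 hs0.le (by positivity)
  have h10 : 1 ≤ b ^ 3 / (a0 * √a0) * δ ^ 3 := by
    rw [div_mul_eq_mul_div, le_div_iff₀ (by positivity)]
    nlinarith
  have hDb : |D| ≤ 2 * b := by
    refine hD.trans ?_
    nlinarith
  have hx : |(ap - am) * D| ≤ b * (2 * b) := by
    rw [abs_mul]
    apply mul_le_mul _ hDb (abs_nonneg _) hb
    rw [abs_le]; constructor <;> linarith
  have hD3 : |D ^ 3| ≤ (2 * b) ^ 3 := by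
    rw [abs_pow]; exact pow_le_pow_left₀ (abs_nonneg _) hDb 3
  have e1 : P * bp + (1 - P) * bm ≤ A3 := by
    nlinarith [mul_le_mul_of_nonneg_left (abs_le.1 hbp).2 hP0,
      mul_le_mul_of_nonneg_left (abs_le.1 hbm).2 hP1']
  have e2 : -(3 * (P * (1 - P)) * ((ap - am) * D)) ≤ 3 / 4 * (b * (2 * b)) := by
    have := (abs_le.1 hx).1
    have h11 : -((ap - am) * D) ≤ b * (2 * b) := by linarith
    have h12 : P * (1 - P) * (-((ap - am) * D)) ≤ P * (1 - P) * (b * (2 * b)) :=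
      mul_le_mul_of_nonneg_left h11 hQ0
    have h13 : P * (1 - P) * (b * (2 * b)) ≤ 1 / 4 * (b * (2 * b)) :=
      mul_le_mul_of_nonneg_right hQ4 (by positivity)
    linarith
  have e3 : P * (1 - P) * (1 - 2 * P) * D ^ 3 ≤ 1 / 4 * (2 * b) ^ 3 := by
    have h14 : |P * (1 - P) * (1 - 2 * P) * D ^ 3| ≤ 1 / 4 * 1 * (2 * b) ^ 3 := by
      rw [abs_mul, abs_mul]
      apply mul_le_mul _ hD3 (abs_nonneg _) (by norm_num)
      apply mul_le_mul _ _ (abs_nonneg _) (by norm_num)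
      · rw [abs_of_nonneg hQ0]; exact hQ4
      · rw [abs_le]; constructor <;> linarith
    have := le_abs_self (P * (1 - P) * (1 - 2 * P) * D ^ 3)
    linarith
  have hC : 0 ≤ A3 + 2 * b ^ 2 + 2 * b ^ 3 := by positivity
  have h15 := mul_le_mul_of_nonneg_left h10 hC
  nlinarith [sq_nonneg b]

theorem real_all (a0 b A3 A4 : ℝ) (ha0 : 0 < a0) (hab : a0 ≤ b) (hA3 : 0 ≤ A3) (hA4 : 0 ≤ A4) :
    ∃ K : ℝ, 0 ≤ K ∧ ScReal a0 b A3 A4 K := by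
  obtain ⟨K1, hK1, H⟩ := sc_real a0 b (2 * A3) (2 * A4) ha0 hab (by linarith) (by linarith)
  have hb : 0 ≤ b := ha0.le.trans hab
  obtain ⟨K2, hK2⟩ : ∃ K2 : ℝ, K2 = (A3 + 2 * b ^ 2 + 2 * b ^ 3) * (b ^ 3 / (a0 * √a0)) := ⟨_, rfl⟩
  have hK20 : 0 ≤ K2 := by rw [hK2]; positivity
  refine ⟨K1 + K2, by linarith, ?_⟩
  intro κ ε δ P ap am ac D m q bp bm mp mm ep em qp qm sp sm tp tm hκ0 hκ1 hε0 hε1 hδ0 hδ1 hP0 hP1
    hap hapb ham hamb hac hacb iap iam hm hmp hmm hep0 hepb hem0 hemb hq hqp hqm hsp hsm htp htm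
    hbp hbm imp imm iqp iqm hDm hDq hDb hpp hpm hscp hscm
  have t0 : 0 ≤ ε * (K2 * δ ^ 2) := mul_nonneg hε0 (mul_nonneg hK20 (sq_nonneg δ))
  have t1 : 0 ≤ ε * (K1 * δ ^ 2) := mul_nonneg hε0 (mul_nonneg hK1 (sq_nonneg δ))
  have t2 : 0 ≤ K1 * δ ^ 3 := mul_nonneg hK1 (pow_pos hδ0 3).le
  have t3 : 0 ≤ K2 * δ ^ 3 := mul_nonneg hK20 (pow_pos hδ0 3).le
  have e2 : ε * (1 + (K1 + K2) * δ ^ 2) + (K1 + K2) * δ ^ 3
      = ε * (1 + K1 * δ ^ 2) + K1 * δ ^ 3 + (ε * (K2 * δ ^ 2) + K2 * δ ^ 3) := by ring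
  have e3 : ε * (1 + K1 * δ ^ 2) = ε + ε * (K1 * δ ^ 2) := by ring
  rw [e2]
  rcases lt_or_ge (P * ap + (1 - P) * am - P * (1 - P) * D ^ 2) 0 with hneg | hnn
  · rw [rpow_neg_zero hneg]
    have h := neg_case ha0 hb hA3 hδ0 hδ1 hP0 hP1 hap hapb ham hamb hbp hbm hDb hneg
    rw [← hK2] at h
    rw [e3]
    linarith
  · have n3 : 0 ≤ A3 * δ := mul_nonneg hA3 hδ0.le
    have n4 : 0 ≤ A4 * δ := mul_nonneg hA4 hδ0.le
    have w3 : A3 * δ ≤ 2 * A3 * δ := by linarith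
    have w4 : A4 * δ ≤ 2 * A4 * δ := by linarith
    have w33 : A3 ≤ 2 * A3 := by linarith
    have hP1' : 0 ≤ 1 - P := by linarith
    have hPP : P + (1 - P) = 1 := by ring
    have hep : |ep| ≤ b := by rw [abs_of_nonneg hep0]; exact hepb
    have hem : |em| ≤ b := by rw [abs_of_nonneg hem0]; exact hemb
    have h := H κ ε δ P (1 - P) ap am bp bm D ac m q mp mm qp qm ep em sp sm tp tm
      hκ0 hκ1 hε0 hδ0 hδ1 hP0 hP1' hPP hap hapb ham hamb hac hacb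
      (iap.trans w3) (iam.trans w3) hDq hDm (imp.trans w3) (imm.trans w3) (iqp.trans w4)
      (iqm.trans w4) hm hmp hmm hep hem (hq.trans w33) (hsp.trans w33) (hsm.trans w33)
      (htp.trans w33) (htm.trans w33) hpp hpm hscp hscm hnn
    have e1 : P * bp + (1 - P) * bm - 3 * (P * (1 - P)) * ((ap - am) * D)
        + P * (1 - P) * (1 - 2 * P) * D ^ 3 = P * bp + (1 - P) * bm
        - 3 * (P * (1 - P)) * (ap - am) * D + P * (1 - P) * ((1 - P) - P) * D ^ 3 := by ring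
    rw [e1]
    linarith [h]

/-- **THE TWO-POINT STEP** -/
theorem step {E : Type*} [NormedAddCommGroup E] [NormedSpace ℝ E] : StepStmt E :=
  step_of_real real_all

end Vale.Agent.P227.M.SC
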