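import Vale.Agent.P227.M.SC.StepS
import Vale.Agent.P227.M.SC.Sc866

/-! # P227/M/SC: `StepStmt` proved (839's assembly + the scalar inequality `Sc866.sc_scalar`). -/

namespace Vale.Agent.P227.M.SC.Sc866

open Real

theorem near {u v w C δ : ℝ} (hδ : 0 < δ) (h1 : |u - 2 * δ * v| ≤ 2 * C * δ ^ 2)
    (h2 : |w - v| ≤ C * δ) : |u - 2 * δ * w| ≤ 4 * C * δ ^ 2 := by
  have e : u - 2 * δ * w = (u - 2 * δ * v) + (-(2 * δ * (w - v))) := by ring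
  rw [e]
  refine (abs_add_le _ _).trans ?_
  rw [abs_neg, abs_mul, abs_of_pos (by positivity : 0 < 2 * δ)]
  have h3 : 2 * δ * |w - v| ≤ 2 * δ * (C * δ) := by gcongr
  calc |u - 2 * δ * v| + 2 * δ * |w - v| ≤ 2 * C * δ ^ 2 + 2 * δ * (C * δ) := add_le_add h1 h3
    _ = 4 * C * δ ^ 2 := by ring

theorem hreal866 (a0 b A3 A4 : ℝ) (ha0 : 0 < a0) (_hab : a0 ≤ b) (hA3 : 0 ≤ A3) (hA4 : 0 ≤ A4) :
    ∃ K : ℝ, 0 ≤ K ∧ ScReal a0 b A3 A4 K := by
  have hb : 0 < b := lt_of_lt_of_le ha0 _hab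
  have hsa : 0 < √a0 := Real.sqrt_pos.2 ha0
  obtain ⟨N, hNdef⟩ : ∃ N, N = 1 + b + A3 + A4 + 1 / √a0 := ⟨_, rfl⟩
  have hsa' : 0 < 1 / √a0 := by positivity
  have hN : 1 ≤ N := by rw [hNdef]; linarith
  have hN0 : 0 < N := by linarith
  have hbN : b ≤ N := by rw [hNdef]; linarith
  have h3N : A3 ≤ N := by rw [hNdef]; linarith
  have h4N : A4 ≤ N := by rw [hNdef]; linarith
  have hsN : 1 / √a0 ≤ N := by rw [hNdef]; linarith
  have hlow : ∀ x, a0 ≤ x → 1 ≤ N * √x := by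
    intro x hx
    have h1 : √a0 ≤ √x := Real.sqrt_le_sqrt hx
    calc (1 : ℝ) = (1 / √a0) * √a0 := by field_simp
      _ ≤ N * √x := by gcongr
  have hup : ∀ x, a0 ≤ x → x ≤ b → √x ≤ N := by
    intro x hx hxb
    have hx0 : 0 ≤ x := by linarith
    have h1 : √x ≤ 1 + x := by
      have h2 : √x ^ 2 = x := Real.sq_sqrt hx0
      nlinarith [sq_nonneg (√x - 1), Real.sqrt_nonneg x]
    calc √x ≤ 1 + x := h1
      _ ≤ N := by rw [hNdef]; linarith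
  refine ⟨2000 * N ^ 11, by positivity, ?_⟩
  intro κ ε δ P ap am _ac D m q bp bm mp mm ep em qp qm sp sm tp tm
    hκ0 hκ1 hε0 _ hδ0 hδ1 hP0 hP1 hap0 hap1 ham0 ham1 _ _ _ _ _ hmp hmm hep0 hep1 hem0 hem1
    _ hqp hqm hsp hsm htp htm _ _ hmpm hmmm hqpq hqmq hD hQ _ posp posm scp scm
  have hδ2 : 0 ≤ δ ^ 2 := by positivity
  have lift3 : ∀ u : ℝ, |u| ≤ 4 * A3 * δ ^ 2 → |u| ≤ 4 * N * δ ^ 2 := fun u hu =>
    hu.trans (by gcongr)
  have lift4 : ∀ u : ℝ, |u| ≤ 4 * A4 * δ ^ 2 → |u| ≤ 4 * N * δ ^ 2 := fun u hu =>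
    hu.trans (by gcongr)
  have h := sc_scalar (N := N) (κ := κ) (δ := δ) (ε := ε) (p := P) (q := 1 - P) (α := ap) (β := am)
    (D := D) (A1 := mp) (B1 := mm) (A2 := qp) (B2 := qm) (A3 := bp) (B3 := bm) (Aee := ep)
    (Bee := em) (Avee := sp) (Bvee := sm) (Aeee := tp) (Beee := tm) hN hκ0 hκ1 hδ0 hδ1 hε0
    hP0 (by linarith) (by ring) (by linarith) (by linarith) (hlow _ hap0) (hlow _ ham0)
    (hup _ hap0 hap1) (hup _ ham0 ham1) (hmp.trans hbN) (hmm.trans hbN) (hqp.trans h3N)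
    (hqm.trans h3N) (by rw [abs_of_nonneg hep0]; exact hep1.trans hbN)
    (by rw [abs_of_nonneg hem0]; exact hem1.trans hbN) (hsp.trans h3N) (hsm.trans h3N)
    (htp.trans h3N) (htm.trans h3N) (lift3 _ (near hδ0 hD hmpm)) (lift3 _ (near hδ0 hD hmmm))
    (lift4 _ (near hδ0 hQ hqpq)) (lift4 _ (near hδ0 hQ hqmq)) posp posm
    (fun t => by rw [← F_eq_rpow]; exact scp t) (fun t => by rw [← F_eq_rpow]; exact scm t)
  rw [← F_eq_rpow] at h
  have e : P * bp + (1 - P) * bm - 3 * (P * (1 - P)) * ((ap - am) * D)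
        + P * (1 - P) * (1 - 2 * P) * D ^ 3
      = P * bp + (1 - P) * bm - 3 * (P * (1 - P)) * D * (ap - am)
        + (1 - P - P) * (P * (1 - P)) * D ^ 3 := by ring
  rw [e]
  linarith

/-- THE STEP. -/
theorem step866 {E : Type*} [NormedAddCommGroup E] [NormedSpace ℝ E] : StepStmt E :=
  step_of_real hreal866

end Vale.Agent.P227.M.SC.Sc866
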