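import Vale.Agent.P227.M.SC.StepF102
import Vale.Agent.P227.M.SC.StepReal
import Vale.Agent.P227.M.SC.Expand

/-! # P227/M/SC: the field `sc` of the step and the proof of `StepStmt`. -/

namespace Vale.Agent.P227.M.SC

open Real

variable {E : Type*} [NormedAddCommGroup E] [NormedSpace ℝ E]

/-- crude bound of the third derivative of the average when the second derivative of the average is negative -/
theorem crude_real {a0 b C3 d P Q a1 a2 b1 b2 D : ℝ} (ha0 : 0 < a0) (hab : a0 ≤ b) (hC3 : 0 ≤ C3)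
    (hd0 : 0 < d) (hd1 : d ≤ 1) (hP : 0 ≤ P) (hQ : 0 ≤ Q) (hPQ : P + Q = 1)
    (ha1 : a0 ≤ a1) (ha2 : a0 ≤ a2)
    (hb1 : |b1| ≤ C3) (hb2 : |b2| ≤ C3) (h12 : |a1 - a2| ≤ 2 * d * C3) (hD : |D| ≤ 2 * d * b)
    (hneg : P * a1 + Q * a2 - P * Q * D ^ 2 < 0) :
    P * b1 + Q * b2 - 3 * (P * Q) * (a1 - a2) * D + P * Q * (Q - P) * D ^ 3 ≤
      ((C3 + 3 * C3 * b + 2 * b ^ 3) * (b ^ 3 / (a0 * √a0))) * d ^ 3 := by
  have hb0 : 0 < b := lt_of_lt_of_le ha0 hab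
  have hPQ4 := pq_le hPQ
  have hPQ0 : 0 ≤ P * Q := mul_nonneg hP hQ
  have hr0 : 0 < √a0 := sqrt_pos.2 ha0
  have hD2 : D ^ 2 ≤ 4 * d ^ 2 * b ^ 2 := by
    have := pow_le_pow_left₀ (abs_nonneg D) hD 2
    rw [sq_abs] at this
    calc D ^ 2 ≤ (2 * d * b) ^ 2 := this
      _ = _ := by ring
  have hA : a0 ≤ P * a1 + Q * a2 := by
    have : P * a0 + Q * a0 = a0 := by rw [← add_mul, hPQ, one_mul]
    rw [← this]
    exact add_le_add (mul_le_mul_of_nonneg_left ha1 hP) (mul_le_mul_of_nonneg_left ha2 hQ)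
  have hPQD : P * Q * D ^ 2 ≤ d ^ 2 * b ^ 2 := by
    calc P * Q * D ^ 2 ≤ 1 / 4 * (4 * d ^ 2 * b ^ 2) :=
          mul_le_mul hPQ4 hD2 (sq_nonneg _) (by norm_num)
      _ = _ := by ring
  have hdb : √a0 ≤ d * b := by
    apply Real.sqrt_le_iff.2
    refine ⟨by positivity, ?_⟩
    calc a0 ≤ d ^ 2 * b ^ 2 := by linarith
      _ = _ := by ring
  have hone : 1 ≤ b ^ 3 / (a0 * √a0) * d ^ 3 := by
    have h1 : √a0 ^ 3 ≤ (d * b) ^ 3 := pow_le_pow_left₀ hr0.le hdb 3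
    have h2 : √a0 ^ 3 = a0 * √a0 := by
      calc √a0 ^ 3 = √a0 ^ 2 * √a0 := by ring
        _ = _ := by rw [sq_sqrt ha0.le]
    rw [h2] at h1
    have h3 : b ^ 3 / (a0 * √a0) * d ^ 3 = (d * b) ^ 3 / (a0 * √a0) := by ring
    rw [h3, le_div_iff₀ (by positivity), one_mul]
    exact h1
  have t1 : P * b1 + Q * b2 ≤ C3 := by
    calc P * b1 + Q * b2 ≤ P * C3 + Q * C3 :=
          add_le_add (mul_le_mul_of_nonneg_left ((le_abs_self _).trans hb1) hP)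
            (mul_le_mul_of_nonneg_left ((le_abs_self _).trans hb2) hQ)
      _ = C3 := by rw [← add_mul, hPQ, one_mul]
  have t2 : -(3 * (P * Q) * (a1 - a2) * D) ≤ 3 * C3 * b := by
    have u1 : |(a1 - a2) * D| ≤ 4 * C3 * b := by
      rw [abs_mul]
      calc |a1 - a2| * |D| ≤ (2 * d * C3) * (2 * d * b) := mul_le_mul h12 hD (abs_nonneg _) (by positivity)
        _ = d ^ 2 * (4 * C3 * b) := by ring
        _ ≤ 1 * (4 * C3 * b) := mul_le_mul_of_nonneg_right (pow_le_one₀ hd0.le hd1) (by positivity)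
        _ = _ := one_mul _
    have u2 : -((a1 - a2) * D) ≤ 4 * C3 * b := (neg_le_abs _).trans u1
    have u3 := mul_le_mul_of_nonneg_left u2 (show (0 : ℝ) ≤ 3 * (P * Q) by positivity)
    calc -(3 * (P * Q) * (a1 - a2) * D) = 3 * (P * Q) * -((a1 - a2) * D) := by ring
      _ ≤ 3 * (P * Q) * (4 * C3 * b) := u3
      _ ≤ 3 * (1 / 4) * (4 * C3 * b) :=
          mul_le_mul_of_nonneg_right (by linarith) (by positivity)
      _ = _ := by ring
  have t3 : P * Q * (Q - P) * D ^ 3 ≤ 2 * b ^ 3 := by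
    have u1 : |P * Q * (Q - P)| ≤ 1 / 4 := by
      rw [abs_mul, abs_of_nonneg hPQ0]
      have : |Q - P| ≤ 1 := by
        rw [abs_le]; constructor <;> linarith
      calc P * Q * |Q - P| ≤ 1 / 4 * 1 := mul_le_mul hPQ4 this (abs_nonneg _) (by norm_num)
        _ = 1 / 4 := by norm_num
    have u2 : |D ^ 3| ≤ 8 * b ^ 3 := by
      rw [abs_pow]
      calc |D| ^ 3 ≤ (2 * d * b) ^ 3 := pow_le_pow_left₀ (abs_nonneg _) hD 3
        _ = d ^ 3 * (8 * b ^ 3) := by ring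
        _ ≤ 1 * (8 * b ^ 3) := mul_le_mul_of_nonneg_right (pow_le_one₀ hd0.le hd1) (by positivity)
        _ = _ := one_mul _
    calc P * Q * (Q - P) * D ^ 3 ≤ |P * Q * (Q - P) * D ^ 3| := le_abs_self _
      _ = |P * Q * (Q - P)| * |D ^ 3| := abs_mul _ _
      _ ≤ 1 / 4 * (8 * b ^ 3) := mul_le_mul u1 u2 (abs_nonneg _) (by norm_num)
      _ = _ := by ring
  have hM : 0 ≤ C3 + 3 * C3 * b + 2 * b ^ 3 := by positivity
  calc P * b1 + Q * b2 - 3 * (P * Q) * (a1 - a2) * D + P * Q * (Q - P) * D ^ 3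
      ≤ (C3 + 3 * C3 * b + 2 * b ^ 3) * 1 := by linarith
    _ ≤ (C3 + 3 * C3 * b + 2 * b ^ 3) * (b ^ 3 / (a0 * √a0) * d ^ 3) :=
        mul_le_mul_of_nonneg_left hone hM
    _ = _ := by ring

/-- `x ^ (3/2)` of a negative number vanishes -/
theorem rpow32_neg {x : ℝ} (hx : x < 0) : x ^ ((3 : ℝ) / 2) = 0 := by
  rw [Real.rpow_def_of_neg hx]
  have : Real.cos ((3 : ℝ) / 2 * π) = 0 := by
    rw [show (3 : ℝ) / 2 * π = π / 2 + π by ring, Real.cos_add_pi, Real.cos_pi_div_two, neg_zero]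
  rw [this, mul_zero]

theorem rpow32_nonneg (x : ℝ) : 0 ≤ x ^ ((3 : ℝ) / 2) := by
  rcases lt_or_ge x 0 with h | h
  · rw [rpow32_neg h]
  · exact Real.rpow_nonneg h _

theorem rpow32_smul {c y : ℝ} (hc : 0 < c) :
    (c ^ 2 * y) ^ ((3 : ℝ) / 2) = c ^ 3 * y ^ ((3 : ℝ) / 2) := by
  rcases lt_or_ge y 0 with h | h
  · rw [rpow32_neg h, rpow32_neg (mul_neg_of_pos_of_neg (by positivity) h), mul_zero]
  · rw [Real.mul_rpow (sq_nonneg c) h, rpow32 (sq_nonneg c), Real.sqrt_sq hc.le]; ring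

/-- the field `sc` at unit vectors -/
theorem step_sc_unit (a0 b A3 A4 : ℝ) (ha0 : 0 < a0) (hab : a0 ≤ b) (hA3 : 0 ≤ A3) (hA4 : 0 ≤ A4) :
    ∃ K : ℝ, 0 ≤ K ∧
    ∀ (κ δ ε a C3 C4 : ℝ) (e : E) (w : E → ℝ), 0 ≤ κ → κ ≤ 1 → 0 < δ → δ ≤ 1 → 0 ≤ ε →
      a0 ≤ a → C3 ≤ A3 → C4 ≤ A4 → ‖e‖ = 1 → St a b C3 C4 κ ε w → ∀ x v, ‖v‖ = 1 →
      dd v (dd v (dd v (avg δ e w))) x ≤
        2 * κ * (dd v (dd v (avg δ e w)) x) ^ ((3 : ℝ) / 2) + (ε * (1 + K * δ ^ 2) + K * δ ^ 3) := by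
  obtain ⟨K0, hK0, H⟩ := sc_real a0 b (2 * A3) (2 * A4) ha0 hab (by positivity) (by positivity)
  have hr0 : 0 < √a0 := sqrt_pos.2 ha0
  have hb0 : 0 < b := lt_of_lt_of_le ha0 hab
  obtain ⟨M, hM⟩ : ∃ M : ℝ, M = (A3 + 3 * A3 * b + 2 * b ^ 3) * (b ^ 3 / (a0 * √a0)) := ⟨_, rfl⟩
  have hM0 : 0 ≤ M := by rw [hM]; positivity
  refine ⟨K0 + M, by positivity, ?_⟩
  intro κ δ ε a C3 C4 e w hκ0 hκ1 hδ hδ1 hε haa hC3A hC4A he h x v hv
  have ha : 0 ≤ a := ha0.le.trans haa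
  have hw : Sm w := h.smooth
  have ed : (avg δ e w) = lg (fun x => w (x + δ • e)) (fun x => w (x + (-δ) • e)) := avg_eq_lg δ e w
  rw [ed, lg3 (sm_shift hw _) (sm_shift hw _), lg2 (sm_shift hw _) (sm_shift hw _)]
  simp only [df, dd_shift]
  obtain ⟨P, hP⟩ : ∃ P : ℝ, wt (fun x => w (x + δ • e)) (fun x => w (x + (-δ) • e)) x = P := ⟨_, rfl⟩
  have hP0 : 0 ≤ P := hP ▸ wt_nonneg _ _ _
  have hP1 : P ≤ 1 := hP ▸ wt_le_one _ _ _
  rw [hP]
  -- bounds of derivatives in the directions `v`, `e`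
  have b3 : ∀ y v₁ v₂ v₃ : E, ‖v₁‖ = 1 → ‖v₂‖ = 1 → ‖v₃‖ = 1 → |dd v₃ (dd v₂ (dd v₁ w)) y| ≤ A3 := by
    intro y v₁ v₂ v₃ h1 h2 h3
    have := h.b3 y v₁ v₂ v₃
    rw [h1, h2, h3] at this
    linarith
  have b4 : ∀ y v₁ v₂ v₃ v₄ : E, ‖v₁‖ = 1 → ‖v₂‖ = 1 → ‖v₃‖ = 1 → ‖v₄‖ = 1 →
      |dd v₄ (dd v₃ (dd v₂ (dd v₁ w))) y| ≤ A4 := by
    intro y v₁ v₂ v₃ v₄ h1 h2 h3 h4
    have := h.b4 y v₁ v₂ v₃ v₄
    rw [h1, h2, h3, h4] at this
    linarith
  have lo : ∀ y u : E, ‖u‖ = 1 → a0 ≤ dd u (dd u w) y := by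
    intro y u hu
    have := h.lower y u
    rw [hu] at this
    linarith
  have up : ∀ y u : E, ‖u‖ = 1 → dd u (dd u w) y ≤ b := by
    intro y u hu
    have := h.upper y u
    rw [hu] at this
    linarith
  have cs : ∀ y u v : E, ‖u‖ = 1 → ‖v‖ = 1 → |dd u (dd v w) y| ≤ b := by
    intro y u v hu hv
    have := h.cs_abs ha y u v
    rw [hu, hv] at this
    linarith
  have pos : ∀ (y : E) (η : ℝ), 0 ≤ dd v (dd v w) y + 2 * η * dd e (dd v w) y + η ^ 2 * dd e (dd e w) y := by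
    intro y η
    have h1 := h.nonneg ha y (v + η • e)
    rwa [expand2 hw v e η] at h1
  have sc : ∀ (y : E) (η : ℝ), dd v (dd v (dd v w)) y + 3 * η * dd e (dd v (dd v w)) y
      + 3 * η ^ 2 * dd e (dd e (dd v w)) y + η ^ 3 * dd e (dd e (dd e w)) y ≤
      2 * κ * (dd v (dd v w) y + 2 * η * dd e (dd v w) y + η ^ 2 * dd e (dd e w) y) ^ ((3 : ℝ) / 2)
        + ε * (1 + |η|) ^ 3 := by
    intro y η
    have h1 := h.sc y (v + η • e)
    rw [expand3 hw v e η, expand2 hw v e η] at h1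
    have h2 : ‖v + η • e‖ ≤ 1 + |η| := by
      refine (norm_add_le _ _).trans ?_
      rw [hv, norm_smul, he, mul_one, Real.norm_eq_abs]
    have h3 : ε * ‖v + η • e‖ ^ 3 ≤ ε * (1 + |η|) ^ 3 :=
      mul_le_mul_of_nonneg_left (pow_le_pow_left₀ (norm_nonneg _) h2 3) hε
    exact h1.trans (by linarith)
  have hB3 : ∀ y, |dd e (dd v (dd v w)) y| ≤ A3 := fun y => b3 y v v e hv hv he
  have hB3' : ∀ y, |dd e (dd e (dd v w)) y| ≤ A3 := fun y => b3 y v e e hv he he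
  have hB4 : ∀ y, |dd e (dd e (dd v (dd v w))) y| ≤ A4 := fun y => b4 y v v e e hv hv he he
  have hA3d : A3 * δ ≤ 2 * A3 * δ := by nlinarith [mul_nonneg hA3 hδ.le]
  have hA4d : A4 * δ ≤ 2 * A4 * δ := by nlinarith [mul_nonneg hA4 hδ.le]
  have dp : ∀ {f : E → ℝ} (hf : Sm f) {B : ℝ} (hB : ∀ y, |dd e f y| ≤ B),
      |f (x + δ • e) - f x| ≤ B * δ ∧ |f (x + (-δ) • e) - f x| ≤ B * δ := by
    intro f hf B hB
    constructor
    · have := diff_bound1 hf hB x δ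
      rw [abs_of_pos hδ] at this
      linarith
    · have := diff_bound1 hf hB x (-δ)
      rw [abs_neg, abs_of_pos hδ] at this
      linarith
  obtain ⟨da1, da2⟩ := dp (sm_dd (sm_dd hw v) v) hB3
  obtain ⟨dm1, dm2⟩ := dp (sm_dd (sm_dd hw v) e) hB3'
  obtain ⟨dq1, dq2⟩ := dp (sm_dd (sm_dd (sm_dd hw v) v) e) hB4
  have d12 := diff_bound2 (sm_dd (sm_dd hw v) v) hB4 x hδ.le
  have dD := diff_bound2 (sm_dd hw v) hB3' x hδ.le
  by_cases hnn : 0 ≤ P * dd v (dd v w) (x + δ • e) + (1 - P) * dd v (dd v w) (x + (-δ) • e)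
      - P * (1 - P) * (dd v w (x + δ • e) - dd v w (x + (-δ) • e)) ^ 2
  · have key := H κ ε δ P (1 - P) (dd v (dd v w) (x + δ • e)) (dd v (dd v w) (x + (-δ) • e))
      (dd v (dd v (dd v w)) (x + δ • e)) (dd v (dd v (dd v w)) (x + (-δ) • e))
      (dd v w (x + δ • e) - dd v w (x + (-δ) • e))
      (dd v (dd v w) x) (dd e (dd v w) x) (dd e (dd v (dd v w)) x)
      (dd e (dd v w) (x + δ • e)) (dd e (dd v w) (x + (-δ) • e))
      (dd e (dd v (dd v w)) (x + δ • e)) (dd e (dd v (dd v w)) (x + (-δ) • e))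
      (dd e (dd e w) (x + δ • e)) (dd e (dd e w) (x + (-δ) • e))
      (dd e (dd e (dd v w)) (x + δ • e)) (dd e (dd e (dd v w)) (x + (-δ) • e))
      (dd e (dd e (dd e w)) (x + δ • e)) (dd e (dd e (dd e w)) (x + (-δ) • e))
      hκ0 hκ1 hε hδ hδ1 hP0 (by linarith) (by ring)
      (lo _ v hv) (up _ v hv) (lo _ v hv) (up _ v hv) (lo _ v hv) (up _ v hv)
      (da1.trans hA3d) (da2.trans hA3d)
      (by calc _ ≤ _ := d12
            _ = _ := by ring)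
      (by calc _ ≤ _ := dD
            _ = _ := by ring)
      (dm1.trans hA3d) (dm2.trans hA3d) (dq1.trans hA4d) (dq2.trans hA4d)
      (cs _ e v he hv) (cs _ e v he hv) (cs _ e v he hv) (cs _ e e he he) (cs _ e e he he)
      ((hB3 _).trans (by linarith)) ((hB3' _).trans (by linarith)) ((hB3' _).trans (by linarith))
      ((b3 _ e e e he he he).trans (by linarith)) ((b3 _ e e e he he he).trans (by linarith))
      (pos _) (pos _) (sc _) (sc _) hnn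
    have e2 : dd v (dd v w) (x + (-δ) • e) + P * (dd v (dd v w) (x + δ • e) - dd v (dd v w) (x + (-δ) • e))
        - P * (1 - P) * ((dd v w (x + δ • e) - dd v w (x + (-δ) • e))
          * (dd v w (x + δ • e) - dd v w (x + (-δ) • e)))
        = P * dd v (dd v w) (x + δ • e) + (1 - P) * dd v (dd v w) (x + (-δ) • e)
      - P * (1 - P) * (dd v w (x + δ • e) - dd v w (x + (-δ) • e)) ^ 2 := by ring
    rw [e2]
    have hKM : ε * (1 + K0 * δ ^ 2) + K0 * δ ^ 3 ≤ ε * (1 + (K0 + M) * δ ^ 2) + (K0 + M) * δ ^ 3 := by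
      have h1 : 0 ≤ ε * (M * δ ^ 2) := by positivity
      have h2 : 0 ≤ M * δ ^ 3 := by positivity
      have h3 : ε * (1 + (K0 + M) * δ ^ 2) + (K0 + M) * δ ^ 3
        = ε * (1 + K0 * δ ^ 2) + K0 * δ ^ 3 + ε * (M * δ ^ 2) + M * δ ^ 3 := by ring
      rw [h3]; linarith
    refine le_trans (le_of_eq ?_) (key.trans (by linarith))
    ring
  · push Not at hnn
    have e2 : dd v (dd v w) (x + (-δ) • e) + P * (dd v (dd v w) (x + δ • e) - dd v (dd v w) (x + (-δ) • e))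
        - P * (1 - P) * ((dd v w (x + δ • e) - dd v w (x + (-δ) • e))
          * (dd v w (x + δ • e) - dd v w (x + (-δ) • e)))
        = P * dd v (dd v w) (x + δ • e) + (1 - P) * dd v (dd v w) (x + (-δ) • e)
      - P * (1 - P) * (dd v w (x + δ • e) - dd v w (x + (-δ) • e)) ^ 2 := by ring
    rw [e2, rpow32_neg hnn, mul_zero, zero_add]
    have hDb : |dd v w (x + δ • e) - dd v w (x + (-δ) • e)| ≤ 2 * δ * b := by
      have := h.D1 ha he hδ.le x v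
      rwa [hv, mul_one] at this
    have h12 : |dd v (dd v w) (x + δ • e) - dd v (dd v w) (x + (-δ) • e)| ≤ 2 * δ * A3 := by
      refine (h.D2 he hδ.le x v v).trans ?_
      rw [hv, mul_one, mul_one]
      exact mul_le_mul_of_nonneg_left hC3A (by positivity)
    have key := crude_real ha0 hab hA3 hδ hδ1 hP0 (show 0 ≤ 1 - P by linarith) (by ring)
      (lo (x + δ • e) v hv) (lo (x + (-δ) • e) v hv)
      (b3 (x + δ • e) v v v hv hv hv) (b3 (x + (-δ) • e) v v v hv hv hv) h12 hDb hnn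
    rw [← hM] at key
    have hKM : M * δ ^ 3 ≤ ε * (1 + (K0 + M) * δ ^ 2) + (K0 + M) * δ ^ 3 := by
      have h1 : 0 ≤ ε * (1 + (K0 + M) * δ ^ 2) := by positivity
      have h2 : 0 ≤ K0 * δ ^ 3 := by positivity
      have h3 : (K0 + M) * δ ^ 3 = K0 * δ ^ 3 + M * δ ^ 3 := by ring
      rw [h3]; linarith
    refine le_trans (le_of_eq ?_) (key.trans hKM)
    ring

/-- THE STEP. -/
theorem stepStmt : StepStmt E := by
  intro a0 b A3 A4 ha0
  by_cases hgood : a0 ≤ b ∧ 0 ≤ A3 ∧ 0 ≤ A4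
  · obtain ⟨hab, hA3, hA4⟩ := hgood
    obtain ⟨K1, hK1, H1⟩ := step_sc_unit (E := E) a0 b A3 A4 ha0 hab hA3 hA4
    obtain ⟨K2, hK2, H2⟩ := step_lower (E := E) a0 b A3 ha0
    refine ⟨K1 + K2, by positivity, ?_⟩
    intro κ δ ε a C3 C4 e w hκ0 hκ1 hδ hδ1 hε hε1 haa hC3A hC4A he h
    have ha : 0 ≤ a := ha0.le.trans haa
    have hsm : ContDiff ℝ (⊤ : ℕ∞) (avg δ e w) := step_smooth h
    refine ⟨hsm, ?_, step_upper h, step_b3 h ha he hδ.le hδ1, step_b4 h ha he hδ.le hδ1, ?_⟩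
    · intro x v
      refine le_trans ?_ (H2 κ δ ε a C3 C4 e w hδ hδ1 haa hC3A he h x v)
      apply mul_le_mul_of_nonneg_right _ (sq_nonneg _)
      have : 0 ≤ K1 * δ ^ 3 := by positivity
      linarith [add_mul K1 K2 (δ ^ 3)]
    · intro x v
      have hT : ∀ t : ℝ, 0 ≤ t → (ε * (1 + K1 * δ ^ 2) + K1 * δ ^ 3) * t ≤
          (ε * (1 + (K1 + K2) * δ ^ 2) + (K1 + K2) * δ ^ 3) * t := by
        intro t ht
        apply mul_le_mul_of_nonneg_right _ ht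
        have h1 : 0 ≤ ε * (K2 * δ ^ 2) := by positivity
        have h2 : 0 ≤ K2 * δ ^ 3 := by positivity
        have h3 : ε * (1 + (K1 + K2) * δ ^ 2) + (K1 + K2) * δ ^ 3
          = ε * (1 + K1 * δ ^ 2) + K1 * δ ^ 3 + ε * (K2 * δ ^ 2) + K2 * δ ^ 3 := by ring
        rw [h3]; linarith
      by_cases hv : v = 0
      · subst hv
        have e0 : dd (0 : E) (dd (0 : E) (dd (0 : E) (avg δ e w))) x = 0 := by simp [dd]
        rw [e0, norm_zero]
        have := rpow32_nonneg (dd (0 : E) (dd (0 : E) (avg δ e w)) x)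
        have h1 : 0 ≤ 2 * κ * (dd (0 : E) (dd (0 : E) (avg δ e w)) x) ^ ((3 : ℝ) / 2) := by positivity
        have h2 : (ε * (1 + (K1 + K2) * δ ^ 2) + (K1 + K2) * δ ^ 3) * (0 : ℝ) ^ 3 = 0 := by simp
        rw [h2]; linarith
      · obtain ⟨c, hc⟩ : ∃ c : ℝ, c = ‖v‖ := ⟨_, rfl⟩
        have hc0 : 0 < c := by rw [hc]; exact norm_pos_iff.2 hv
        obtain ⟨u, hu⟩ : ∃ u : E, u = c⁻¹ • v := ⟨_, rfl⟩
        have hu1 : ‖u‖ = 1 := by
          rw [hu, norm_smul, norm_inv, Real.norm_eq_abs, abs_of_pos hc0, ← hc, inv_mul_cancel₀ hc0.ne']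
        have hvu : v = c • u := by
          rw [hu, smul_smul, mul_inv_cancel₀ hc0.ne', one_smul]
        have key := H1 κ δ ε a C3 C4 e w hκ0 hκ1 hδ hδ1 hε haa hC3A hC4A he h x u hu1
        have hnv : ‖v‖ = c := hc.symm
        rw [hnv, hvu, dd_smul_dir3 hsm c u, dd_smul_dir2 hsm c u]
        simp only [rpow32_smul hc0]
        have hc3 : 0 ≤ c ^ 3 := by positivity
        have k2 := mul_le_mul_of_nonneg_left key hc3
        have k3 := hT (c ^ 3) hc3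
        calc c ^ 3 * dd u (dd u (dd u (avg δ e w))) x
            ≤ c ^ 3 * (2 * κ * (dd u (dd u (avg δ e w)) x) ^ ((3 : ℝ) / 2)
              + (ε * (1 + K1 * δ ^ 2) + K1 * δ ^ 3)) := k2
          _ = 2 * κ * (c ^ 3 * (dd u (dd u (avg δ e w)) x) ^ ((3 : ℝ) / 2))
              + (ε * (1 + K1 * δ ^ 2) + K1 * δ ^ 3) * c ^ 3 := by ring
          _ ≤ _ := by linarith
  · refine ⟨0, le_rfl, ?_⟩
    intro κ δ ε a C3 C4 e w hκ0 hκ1 hδ hδ1 hε hε1 haa hC3A hC4A he h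
    exfalso
    apply hgood
    exact ⟨haa.trans (h.a_le_b he), (h.C3_nonneg he).trans hC3A, (h.C4_nonneg he).trans hC4A⟩

end Vale.Agent.P227.M.SC
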