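import Vale.Agent.P227.M.SC.AvgD
import Vale.Agent.P227.M.SC.Expand
import Vale.Agent.P227.M.SC.StCS
import Vale.Agent.P227.M.SC.R34
import Vale.Agent.P227.M.SC.RLow

/-! # P227/M/SC: the two-point step: the fields lower, upper, b3, b4. -/

namespace Vale.Agent.P227.M.SC

variable {E : Type*} [NormedAddCommGroup E] [NormedSpace ℝ E]

theorem avg_eq (δ : ℝ) (e : E) (w : E → ℝ) :
    avg δ e w = lg (fun x => w (x + δ • e)) (fun x => w (x + (-δ) • e)) := by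
  funext x
  simp [avg, lg, sub_eq_add_neg]

theorem df_sh1 (w : E → ℝ) (z z' v x : E) :
    df (fun x => w (x + z)) (fun x => w (x + z')) v x = dd v w (x + z) - dd v w (x + z') := by
  unfold df
  rw [dd_shift, dd_shift]

section fields

variable {a b C3 C4 κ ε δ : ℝ} {w : E → ℝ} {e : E}

theorem avg2 (hw : Sm w) (v x : E) : dd v (dd v (avg δ e w)) x =
    wt (fun x => w (x + δ • e)) (fun x => w (x + (-δ) • e)) x * dd v (dd v w) (x + δ • e)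
    + (1 - wt (fun x => w (x + δ • e)) (fun x => w (x + (-δ) • e)) x) * dd v (dd v w) (x + (-δ) • e)
    - wt (fun x => w (x + δ • e)) (fun x => w (x + (-δ) • e)) x *
      (1 - wt (fun x => w (x + δ • e)) (fun x => w (x + (-δ) • e)) x) *
      (dd v w (x + δ • e) - dd v w (x + (-δ) • e)) ^ 2 := by
  rw [avg_eq, lg2 (sm_shift hw _) (sm_shift hw _)]
  simp only [df, dd_shift]
  ring

theorem avg_upper (hw : St a b C3 C4 κ ε w) (v x : E) :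
    dd v (dd v (avg δ e w)) x ≤ b * ‖v‖ ^ 2 := by
  rw [avg2 hw.smooth]
  have h0 := wt_nonneg (fun x => w (x + δ • e)) (fun x => w (x + (-δ) • e)) x
  have h1 := wt_le_one (fun x => w (x + δ • e)) (fun x => w (x + (-δ) • e)) x
  generalize wt (fun x => w (x + δ • e)) (fun x => w (x + (-δ) • e)) x = P at h0 h1 ⊢
  have h1' : 0 ≤ 1 - P := by linarith
  have e1 := mul_le_mul_of_nonneg_left (hw.upper (x + δ • e) v) h0
  have e2 := mul_le_mul_of_nonneg_left (hw.upper (x + (-δ) • e) v) h1'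
  have e3 : 0 ≤ P * (1 - P) * (dd v w (x + δ • e) - dd v w (x + (-δ) • e)) ^ 2 := by positivity
  nlinarith

theorem avg_b3 (hw : St a b C3 C4 κ ε w) (ha : 0 ≤ a) (hb : 0 ≤ b) (hC3 : 0 ≤ C3) (he : ‖e‖ = 1)
    (hδ0 : 0 ≤ δ) (hδ1 : δ ≤ 1) (x v₁ v₂ v₃ : E) :
    |dd v₃ (dd v₂ (dd v₁ (avg δ e w))) x|
      ≤ (C3 * (1 + 3 * b * δ ^ 2) + 2 * b ^ 3 * δ ^ 3) * (‖v₁‖ * ‖v₂‖ * ‖v₃‖) := by
  rw [avg_eq, lg3 (sm_shift hw.smooth _) (sm_shift hw.smooth _)]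
  simp only [df, dd_shift]
  have h0 := wt_nonneg (fun x => w (x + δ • e)) (fun x => w (x + (-δ) • e)) x
  have h1 := wt_le_one (fun x => w (x + δ • e)) (fun x => w (x + (-δ) • e)) x
  exact r3 h0 h1 rfl rfl hδ0 hδ1 hb hC3 (norm_nonneg v₁) (norm_nonneg v₂) (norm_nonneg v₃)
    (hw.D1 ha he hδ0 x v₁) (hw.D1 ha he hδ0 x v₂) (hw.D1 ha he hδ0 x v₃)
    (hw.D2 he hδ0 x v₁ v₂) (hw.D2 he hδ0 x v₂ v₃) (hw.D2 he hδ0 x v₁ v₃)
    (hw.b3 _ v₁ v₂ v₃) (hw.b3 _ v₁ v₂ v₃)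

theorem avg_b4 (hw : St a b C3 C4 κ ε w) (ha : 0 ≤ a) (hb : 0 ≤ b) (hC3 : 0 ≤ C3) (hC4 : 0 ≤ C4)
    (he : ‖e‖ = 1) (hδ0 : 0 ≤ δ) (hδ1 : δ ≤ 1) (x v₁ v₂ v₃ v₄ : E) :
    |dd v₄ (dd v₃ (dd v₂ (dd v₁ (avg δ e w)))) x|
      ≤ (C4 * (1 + 4 * b * δ ^ 2) + δ ^ 2 * (3 * C3 ^ 2 + 12 * C3 * b ^ 2 + 4 * b ^ 4))
        * (‖v₁‖ * ‖v₂‖ * ‖v₃‖ * ‖v₄‖) := by
  rw [avg_eq, lg4 (sm_shift hw.smooth _) (sm_shift hw.smooth _)]
  simp only [df, dd_shift]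
  have h0 := wt_nonneg (fun x => w (x + δ • e)) (fun x => w (x + (-δ) • e)) x
  have h1 := wt_le_one (fun x => w (x + δ • e)) (fun x => w (x + (-δ) • e)) x
  exact r4 h0 h1 rfl rfl hδ0 hδ1 hb hC3 hC4 (norm_nonneg v₁) (norm_nonneg v₂) (norm_nonneg v₃)
    (norm_nonneg v₄)
    (hw.D1 ha he hδ0 x v₁) (hw.D1 ha he hδ0 x v₂) (hw.D1 ha he hδ0 x v₃) (hw.D1 ha he hδ0 x v₄)
    (hw.D2 he hδ0 x v₁ v₂) (hw.D2 he hδ0 x v₁ v₃) (hw.D2 he hδ0 x v₂ v₃)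
    (hw.D2 he hδ0 x v₁ v₄) (hw.D2 he hδ0 x v₂ v₄) (hw.D2 he hδ0 x v₃ v₄)
    (hw.D3 he hδ0 x v₁ v₂ v₃) (hw.D3 he hδ0 x v₁ v₂ v₄) (hw.D3 he hδ0 x v₁ v₃ v₄)
    (hw.D3 he hδ0 x v₂ v₃ v₄)
    (hw.b4 _ v₁ v₂ v₃ v₄) (hw.b4 _ v₁ v₂ v₃ v₄)

/-- centre increments -/
theorem inc_a (hw : St a b C3 C4 κ ε w) (he : ‖e‖ = 1) (v x : E) (t : ℝ) :
    |dd v (dd v w) (x + t • e) - dd v (dd v w) x| ≤ |t| * (C3 * ‖v‖ ^ 2) := by
  apply diff_bound1 (sm_dd (sm_dd hw.smooth v) v)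
  intro y
  have := hw.b3 y v v e
  rw [he, mul_one] at this
  rw [pow_two]; exact this

theorem inc_D (hw : St a b C3 C4 κ ε w) (he : ‖e‖ = 1) (hδ : 0 ≤ δ) (v x : E) :
    |dd v w (x + δ • e) - dd v w (x + (-δ) • e) - 2 * δ * dd e (dd v w) x|
      ≤ 2 * C3 * δ ^ 2 * ‖v‖ := by
  have h := diff_bound2 (sm_dd hw.smooth v) (B := C3 * ‖v‖) (e := e) (fun y => by
    have := hw.b3 y v e e
    rw [he, mul_one, mul_one] at this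
    exact this) x hδ
  linarith

theorem inc_q (hw : St a b C3 C4 κ ε w) (he : ‖e‖ = 1) (hδ : 0 ≤ δ) (v x : E) :
    |dd v (dd v w) (x + δ • e) - dd v (dd v w) (x + (-δ) • e) - 2 * δ * dd e (dd v (dd v w)) x|
      ≤ 2 * (C4 * ‖v‖ ^ 2) * δ ^ 2 := by
  apply diff_bound2 (sm_dd (sm_dd hw.smooth v) v) (B := C4 * ‖v‖ ^ 2) (e := e) (fun y => by
    have := hw.b4 y v v e e
    rw [he, mul_one, mul_one] at this
    rw [pow_two]; exact this) x hδ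

theorem inc_m (hw : St a b C3 C4 κ ε w) (he : ‖e‖ = 1) (v x : E) (t : ℝ) :
    |dd e (dd v w) (x + t • e) - dd e (dd v w) x| ≤ |t| * (C3 * ‖v‖) := by
  apply diff_bound1 (sm_dd (sm_dd hw.smooth v) e)
  intro y
  have := hw.b3 y v e e
  rw [he, mul_one, mul_one] at this
  exact this

theorem inc_qq (hw : St a b C3 C4 κ ε w) (he : ‖e‖ = 1) (v x : E) (t : ℝ) :
    |dd e (dd v (dd v w)) (x + t • e) - dd e (dd v (dd v w)) x| ≤ |t| * (C4 * ‖v‖ ^ 2) := by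
  apply diff_bound1 (sm_dd (sm_dd (sm_dd hw.smooth v) v) e)
  intro y
  have := hw.b4 y v v e e
  rw [he, mul_one, mul_one] at this
  rw [pow_two]; exact this

theorem avg_lower {K : ℝ} (hw : St a b C3 C4 κ ε w) (ha : 0 ≤ a)
    (he : ‖e‖ = 1) (hδ0 : 0 < δ)
    (hK : ∀ (P n a1 a2 ax m D : ℝ), 0 ≤ P →
      P ≤ 1 → 0 ≤ n → a*n^2 ≤ a1 → a1 ≤ b*n^2 → a*n^2 ≤ a2 → a2 ≤ b*n^2 → 0 ≤ ax → m^2 ≤ b*ax →
      ax ≤ a1 + C3*δ*n^2 → ax ≤ a2 + C3*δ*n^2 → |m| ≤ b*n → |D - 2*δ*m| ≤ 2*C3*δ^2*n →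
      (a*(1-b*δ^2) - K*δ^3)*n^2 ≤ P*a1+(1-P)*a2 - P*(1-P)*D^2) (x v : E) :
    (a * (1 - b * δ ^ 2) - K * δ ^ 3) * ‖v‖ ^ 2 ≤ dd v (dd v (avg δ e w)) x := by
  rw [avg2 hw.smooth]
  have h0 := wt_nonneg (fun x => w (x + δ • e)) (fun x => w (x + (-δ) • e)) x
  have h1 := wt_le_one (fun x => w (x + δ • e)) (fun x => w (x + (-δ) • e)) x
  have hax : 0 ≤ dd v (dd v w) x := le_trans (by positivity) (hw.lower x v)
  refine hK _ ‖v‖ _ _ (dd v (dd v w) x) (dd e (dd v w) x) _ h0 h1 (norm_nonneg v)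
    (hw.lower _ v) (hw.upper _ v) (hw.lower _ v) (hw.upper _ v) hax ?_ ?_ ?_ ?_ (inc_D hw he hδ0.le v x)
  · have h2 := hw.cs_sq ha x e v
    have h3 := hw.upper x e
    rw [he] at h3
    nlinarith
  · have h2 := inc_a hw he v x δ
    rw [abs_of_pos hδ0] at h2
    have := (abs_le.1 h2).1
    nlinarith
  · have h2 := inc_a hw he v x (-δ)
    rw [abs_neg, abs_of_pos hδ0] at h2
    have := (abs_le.1 h2).1
    nlinarith
  · have := hw.cs_abs ha x e v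
    rw [he, one_mul] at this
    exact this

end fields

end Vale.Agent.P227.M.SC
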