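import Vale.Agent.P227.M.SC.AvgD
import Vale.Agent.P227.M.SC.StCS
import Vale.Agent.P227.M.SC.R34
import Vale.Agent.P227.M.SC.RLow

/-! # P227/M/SC: the fields smooth, upper, b3, b4, lower of `StepStmt`. -/

namespace Vale.Agent.P227.M.SC

variable {E : Type*} [NormedAddCommGroup E] [NormedSpace ℝ E]

section
variable {a b C3 C4 κ ε δ : ℝ} {e : E} {w : E → ℝ}

theorem avg_eq_lg (δ : ℝ) (e : E) (w : E → ℝ) :
    avg δ e w = lg (fun x => w (x + δ • e)) (fun x => w (x + (-δ) • e)) := by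
  funext x
  simp only [avg, lg, neg_smul, sub_eq_add_neg]

theorem St.a_le_b (h : St a b C3 C4 κ ε w) (he : ‖e‖ = 1) : a ≤ b := by
  have h1 := h.lower 0 e
  have h2 := h.upper 0 e
  rw [he] at h1 h2
  linarith

theorem St.C3_nonneg (h : St a b C3 C4 κ ε w) (he : ‖e‖ = 1) : 0 ≤ C3 := by
  have h1 := h.b3 0 e e e
  rw [he] at h1
  have := abs_nonneg (dd e (dd e (dd e w)) 0)
  linarith

theorem St.C4_nonneg (h : St a b C3 C4 κ ε w) (he : ‖e‖ = 1) : 0 ≤ C4 := by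
  have h1 := h.b4 0 e e e e
  rw [he] at h1
  have := abs_nonneg (dd e (dd e (dd e (dd e w))) 0)
  linarith

theorem step_smooth (h : St a b C3 C4 κ ε w) : ContDiff ℝ (⊤ : ℕ∞) (avg δ e w) := by
  rw [avg_eq_lg]
  exact sm_lg (sm_shift h.smooth _) (sm_shift h.smooth _)

theorem step_upper (h : St a b C3 C4 κ ε w) (x v : E) :
    dd v (dd v (avg δ e w)) x ≤ b * ‖v‖ ^ 2 := by
  rw [avg_eq_lg, lg2 (sm_shift h.smooth _) (sm_shift h.smooth _)]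
  simp only [df, dd_shift]
  set P := wt (fun x => w (x + δ • e)) (fun x => w (x + (-δ) • e)) x with hP
  have hP0 : 0 ≤ P := wt_nonneg _ _ _
  have hP1 : P ≤ 1 := wt_le_one _ _ _
  have h1 := mul_le_mul_of_nonneg_left (h.upper (x + δ • e) v) hP0
  have h2 := mul_le_mul_of_nonneg_left (h.upper (x + (-δ) • e) v) (by linarith : (0 : ℝ) ≤ 1 - P)
  have h3 : 0 ≤ P * (1 - P) * ((dd v w (x + δ • e) - dd v w (x + (-δ) • e)) *
      (dd v w (x + δ • e) - dd v w (x + (-δ) • e))) :=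
    mul_nonneg (mul_nonneg hP0 (by linarith)) (mul_self_nonneg _)
  linarith

theorem step_b3 (h : St a b C3 C4 κ ε w) (ha : 0 ≤ a) (he : ‖e‖ = 1) (hδ : 0 ≤ δ) (hδ1 : δ ≤ 1)
    (x v₁ v₂ v₃ : E) : |dd v₃ (dd v₂ (dd v₁ (avg δ e w))) x| ≤
      (C3 * (1 + 3 * b * δ ^ 2) + 2 * b ^ 3 * δ ^ 3) * (‖v₁‖ * ‖v₂‖ * ‖v₃‖) := by
  have hb : 0 ≤ b := ha.trans (h.a_le_b he)
  have hC3 := h.C3_nonneg he
  rw [avg_eq_lg, lg3 (sm_shift h.smooth _) (sm_shift h.smooth _)]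
  simp only [df, dd_shift]
  set P := wt (fun x => w (x + δ • e)) (fun x => w (x + (-δ) • e)) x with hP
  have hP0 : 0 ≤ P := wt_nonneg _ _ _
  have hP1 : P ≤ 1 := wt_le_one _ _ _
  exact r3 hP0 hP1 rfl rfl hδ hδ1 hb hC3 (norm_nonneg _) (norm_nonneg _) (norm_nonneg _)
    (h.D1 ha he hδ x v₁) (h.D1 ha he hδ x v₂) (h.D1 ha he hδ x v₃)
    (h.D2 he hδ x v₁ v₂) (h.D2 he hδ x v₂ v₃) (h.D2 he hδ x v₁ v₃)
    (h.b3 (x + (-δ) • e) v₁ v₂ v₃) (h.b3 (x + δ • e) v₁ v₂ v₃)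

theorem step_b4 (h : St a b C3 C4 κ ε w) (ha : 0 ≤ a) (he : ‖e‖ = 1) (hδ : 0 ≤ δ) (hδ1 : δ ≤ 1)
    (x v₁ v₂ v₃ v₄ : E) : |dd v₄ (dd v₃ (dd v₂ (dd v₁ (avg δ e w)))) x| ≤
      (C4 * (1 + 4 * b * δ ^ 2) + δ ^ 2 * (3 * C3 ^ 2 + 12 * C3 * b ^ 2 + 4 * b ^ 4)) *
        (‖v₁‖ * ‖v₂‖ * ‖v₃‖ * ‖v₄‖) := by
  have hb : 0 ≤ b := ha.trans (h.a_le_b he)
  have hC3 := h.C3_nonneg he
  have hC4 := h.C4_nonneg he
  rw [avg_eq_lg, lg4 (sm_shift h.smooth _) (sm_shift h.smooth _)]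
  simp only [df, dd_shift]
  set P := wt (fun x => w (x + δ • e)) (fun x => w (x + (-δ) • e)) x with hP
  have hP0 : 0 ≤ P := wt_nonneg _ _ _
  have hP1 : P ≤ 1 := wt_le_one _ _ _
  exact r4 hP0 hP1 rfl rfl hδ hδ1 hb hC3 hC4 (norm_nonneg _) (norm_nonneg _) (norm_nonneg _)
    (norm_nonneg _)
    (h.D1 ha he hδ x v₁) (h.D1 ha he hδ x v₂) (h.D1 ha he hδ x v₃) (h.D1 ha he hδ x v₄)
    (h.D2 he hδ x v₁ v₂) (h.D2 he hδ x v₁ v₃) (h.D2 he hδ x v₂ v₃)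
    (h.D2 he hδ x v₁ v₄) (h.D2 he hδ x v₂ v₄) (h.D2 he hδ x v₃ v₄)
    (h.D3 he hδ x v₁ v₂ v₃) (h.D3 he hδ x v₁ v₂ v₄) (h.D3 he hδ x v₁ v₃ v₄)
    (h.D3 he hδ x v₂ v₃ v₄)
    (h.b4 (x + (-δ) • e) v₁ v₂ v₃ v₄) (h.b4 (x + δ • e) v₁ v₂ v₃ v₄)

end

theorem step_lower (a0 b A3 : ℝ) (ha0 : 0 < a0) : ∃ K, 0 ≤ K ∧
    ∀ (κ δ ε a C3 C4 : ℝ) (e : E) (w : E → ℝ), 0 < δ → δ ≤ 1 → a0 ≤ a → C3 ≤ A3 → ‖e‖ = 1 →
      St a b C3 C4 κ ε w → ∀ x v, (a * (1 - b * δ ^ 2) - K * δ ^ 3) * ‖v‖ ^ 2 ≤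
        dd v (dd v (avg δ e w)) x := by
  by_cases hb : 0 ≤ b ∧ 0 ≤ A3
  · obtain ⟨K, hK, hmain⟩ := r_low a0 b A3 ha0 hb.1 hb.2
    refine ⟨K, hK, ?_⟩
    intro κ δ ε a C3 C4 e w hδ hδ1 haa hC3A he h x v
    have ha : 0 ≤ a := by linarith
    have hC3 := h.C3_nonneg he
    rw [avg_eq_lg, lg2 (sm_shift h.smooth _) (sm_shift h.smooth _)]
    simp only [df, dd_shift]
    set P := wt (fun x => w (x + δ • e)) (fun x => w (x + (-δ) • e)) x with hP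
    have hP0 : 0 ≤ P := wt_nonneg _ _ _
    have hP1 : P ≤ 1 := wt_le_one _ _ _
    have hb3 : ∀ y, |dd e (dd v (dd v w)) y| ≤ C3 * ‖v‖ ^ 2 := by
      intro y
      have := h.b3 y v v e
      rw [he] at this
      calc _ ≤ _ := this
        _ = _ := by ring
    have hb3' : ∀ y, |dd e (dd e (dd v w)) y| ≤ C3 * ‖v‖ := by
      intro y
      have := h.b3 y v e e
      rw [he] at this
      calc _ ≤ _ := this
        _ = _ := by ring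
    have m1 : dd e (dd v w) x ^ 2 ≤ b * dd v (dd v w) x := by
      have h1 := h.cs_sq ha x e v
      have h2 := h.upper x e
      rw [he] at h2
      have h3 := h.nonneg ha x v
      nlinarith
    have d1 := abs_le.1 (diff_bound1 (sm_dd (sm_dd h.smooth v) v) hb3 x δ)
    have d2 := abs_le.1 (diff_bound1 (sm_dd (sm_dd h.smooth v) v) hb3 x (-δ))
    rw [abs_of_pos hδ] at d1
    rw [abs_neg, abs_of_pos hδ] at d2
    have mb := h.cs_abs ha x e v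
    rw [he, one_mul] at mb
    have dD := diff_bound2 (sm_dd h.smooth v) hb3' x hδ.le
    have := hmain a C3 δ P ‖v‖ (dd v (dd v w) (x + δ • e)) (dd v (dd v w) (x + (-δ) • e))
      (dd v (dd v w) x) (dd e (dd v w) x) (dd v w (x + δ • e) - dd v w (x + (-δ) • e))
      haa (h.a_le_b he) hC3 hC3A hδ hδ1 hP0 hP1 (norm_nonneg _)
      (h.lower _ v) (h.upper _ v) (h.lower _ v) (h.upper _ v) (h.nonneg ha x v) m1
      (by linarith [d1.1]) (by linarith [d2.1]) mb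
      (by calc _ ≤ _ := dD
            _ = _ := by ring)
    calc _ ≤ _ := this
      _ = _ := by ring
  · refine ⟨0, le_rfl, ?_⟩
    intro κ δ ε a C3 C4 e w hδ hδ1 haa hC3A he h x v
    exfalso
    apply hb
    exact ⟨by linarith [h.a_le_b he], by linarith [h.C3_nonneg he]⟩

end Vale.Agent.P227.M.SC
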