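import Vale.Agent.P227.M.SC.StepF

/-! # P227/M/SC: the two-point step: the field `sc`, from the real inequality. -/

namespace Vale.Agent.P227.M.SC

variable {E : Type*} [NormedAddCommGroup E] [NormedSpace ℝ E]

/-- the real inequality (proved in `StepReal.lean`) -/
def ScReal (a0 b C3 C4 K : ℝ) : Prop :=
  ∀ κ ε δ P ap am ac D m q bp bm mp mm ep em qp qm sp sm tp tm : ℝ,
    0 ≤ κ → κ ≤ 1 → 0 ≤ ε → ε ≤ 1 → 0 < δ → δ ≤ 1 → 0 ≤ P → P ≤ 1 →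
    a0 ≤ ap → ap ≤ b → a0 ≤ am → am ≤ b → a0 ≤ ac → ac ≤ b →
    |ap - ac| ≤ C3 * δ → |am - ac| ≤ C3 * δ →
    |m| ≤ b → |mp| ≤ b → |mm| ≤ b → 0 ≤ ep → ep ≤ b → 0 ≤ em → em ≤ b →
    |q| ≤ C3 → |qp| ≤ C3 → |qm| ≤ C3 → |sp| ≤ C3 → |sm| ≤ C3 → |tp| ≤ C3 → |tm| ≤ C3 →
    |bp| ≤ C3 → |bm| ≤ C3 →
    |mp - m| ≤ C3 * δ → |mm - m| ≤ C3 * δ → |qp - q| ≤ C4 * δ → |qm - q| ≤ C4 * δ →
    |D - 2 * δ * m| ≤ 2 * C3 * δ ^ 2 → |ap - am - 2 * δ * q| ≤ 2 * C4 * δ ^ 2 →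
    |D| ≤ 2 * δ * b → 
    (∀ η : ℝ, 0 ≤ ap + 2 * η * mp + η ^ 2 * ep) → (∀ η : ℝ, 0 ≤ am + 2 * η * mm + η ^ 2 * em) →
    (∀ η : ℝ, bp + 3 * η * qp + 3 * η ^ 2 * sp + η ^ 3 * tp
      ≤ 2 * κ * (ap + 2 * η * mp + η ^ 2 * ep) ^ ((3 : ℝ) / 2) + ε * (1 + |η|) ^ 3) →
    (∀ η : ℝ, bm + 3 * η * qm + 3 * η ^ 2 * sm + η ^ 3 * tm
      ≤ 2 * κ * (am + 2 * η * mm + η ^ 2 * em) ^ ((3 : ℝ) / 2) + ε * (1 + |η|) ^ 3) →
    P * bp + (1 - P) * bm - 3 * (P * (1 - P)) * ((ap - am) * D)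
        + P * (1 - P) * (1 - 2 * P) * D ^ 3
      ≤ 2 * κ * (P * ap + (1 - P) * am - P * (1 - P) * D ^ 2) ^ ((3 : ℝ) / 2)
        + (ε * (1 + K * δ ^ 2) + K * δ ^ 3)

section
variable {a b C3 C4 κ ε δ : ℝ} {w : E → ℝ} {e : E}

theorem avg3 (hw : Sm w) (v x : E) : dd v (dd v (dd v (avg δ e w))) x =
    wt (fun x => w (x + δ • e)) (fun x => w (x + (-δ) • e)) x * dd v (dd v (dd v w)) (x + δ • e)
    + (1 - wt (fun x => w (x + δ • e)) (fun x => w (x + (-δ) • e)) x)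
      * dd v (dd v (dd v w)) (x + (-δ) • e)
    - 3 * (wt (fun x => w (x + δ • e)) (fun x => w (x + (-δ) • e)) x *
      (1 - wt (fun x => w (x + δ • e)) (fun x => w (x + (-δ) • e)) x)) *
      ((dd v (dd v w) (x + δ • e) - dd v (dd v w) (x + (-δ) • e)) *
        (dd v w (x + δ • e) - dd v w (x + (-δ) • e)))
    + wt (fun x => w (x + δ • e)) (fun x => w (x + (-δ) • e)) x *
      (1 - wt (fun x => w (x + δ • e)) (fun x => w (x + (-δ) • e)) x) *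
      (1 - 2 * wt (fun x => w (x + δ • e)) (fun x => w (x + (-δ) • e)) x) *
      (dd v w (x + δ • e) - dd v w (x + (-δ) • e)) ^ 3 := by
  rw [avg_eq, lg3 (sm_shift hw _) (sm_shift hw _)]
  simp only [df, dd_shift]
  ring

theorem St.pos_dir (hw : St a b C3 C4 κ ε w) (ha : 0 ≤ a) (v y : E) (η : ℝ) :
    0 ≤ dd v (dd v w) y + 2 * η * dd e (dd v w) y + η ^ 2 * dd e (dd e w) y := by
  have h := hw.nonneg ha y (v + η • e)
  rw [expand2 hw.smooth] at h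
  exact h

theorem St.sc_dir (hw : St a b C3 C4 κ ε w) (hε : 0 ≤ ε) (he : ‖e‖ = 1) {v : E} (hv : ‖v‖ = 1)
    (y : E) (η : ℝ) :
    dd v (dd v (dd v w)) y + 3 * η * dd e (dd v (dd v w)) y
      + 3 * η ^ 2 * dd e (dd e (dd v w)) y + η ^ 3 * dd e (dd e (dd e w)) y
      ≤ 2 * κ * (dd v (dd v w) y + 2 * η * dd e (dd v w) y + η ^ 2 * dd e (dd e w) y)
        ^ ((3 : ℝ) / 2) + ε * (1 + |η|) ^ 3 := by
  have h := hw.sc y (v + η • e)
  rw [expand3 hw.smooth, expand2 hw.smooth] at h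
  refine h.trans ?_
  have h1 : ‖v + η • e‖ ≤ 1 + |η| := by
    refine (norm_add_le _ _).trans ?_
    rw [norm_smul, he, hv, mul_one, Real.norm_eq_abs]
  have h2 : ‖v + η • e‖ ^ 3 ≤ (1 + |η|) ^ 3 := pow_le_pow_left₀ (norm_nonneg _) h1 3
  have h3 := mul_le_mul_of_nonneg_left h2 hε
  linarith

theorem sc_unit {a0 A3 A4 K : ℝ} (hR : ScReal a0 b A3 A4 K) (hw : St a b C3 C4 κ ε w)
    (ha0 : 0 < a0) (haa : a0 ≤ a) (hC3 : C3 ≤ A3) (hC4 : C4 ≤ A4) (hκ0 : 0 ≤ κ) (hκ1 : κ ≤ 1)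
    (hε0 : 0 ≤ ε) (hε1 : ε ≤ 1) (hδ0 : 0 < δ) (hδ1 : δ ≤ 1) (he : ‖e‖ = 1) {v : E} (hv : ‖v‖ = 1)
    (x : E) :
    dd v (dd v (dd v (avg δ e w))) x ≤ 2 * κ * (dd v (dd v (avg δ e w)) x) ^ ((3 : ℝ) / 2)
      + (ε * (1 + K * δ ^ 2) + K * δ ^ 3) := by
  have ha : 0 ≤ a := ha0.le.trans haa
  have hδ := hδ0.le
  have low : ∀ y, a0 ≤ dd v (dd v w) y := fun y => by
    have := hw.lower y v
    rw [hv] at this; linarith
  have upp : ∀ y, dd v (dd v w) y ≤ b := fun y => by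
    have := hw.upper y v
    rw [hv] at this; linarith
  have ee0 : ∀ y, 0 ≤ dd e (dd e w) y := fun y => hw.nonneg ha y e
  have ee1 : ∀ y, dd e (dd e w) y ≤ b := fun y => by
    have := hw.upper y e
    rw [he] at this; linarith
  have ev : ∀ y, |dd e (dd v w) y| ≤ b := fun y => by
    have := hw.cs_abs ha y e v
    rw [he, hv, mul_one, mul_one] at this; exact this
  have q3 : ∀ y, |dd e (dd v (dd v w)) y| ≤ A3 := fun y => by
    have := hw.b3 y v v e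
    rw [he, hv] at this; linarith
  have s3 : ∀ y, |dd e (dd e (dd v w)) y| ≤ A3 := fun y => by
    have := hw.b3 y v e e
    rw [he, hv] at this; linarith
  have t3 : ∀ y, |dd e (dd e (dd e w)) y| ≤ A3 := fun y => by
    have := hw.b3 y e e e
    rw [he] at this; linarith
  have v3 : ∀ y, |dd v (dd v (dd v w)) y| ≤ A3 := fun y => by
    have := hw.b3 y v v v
    rw [hv] at this; linarith
  have ia : ∀ t : ℝ, |t| = δ → |dd v (dd v w) (x + t • e) - dd v (dd v w) x| ≤ A3 * δ := by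
    intro t ht
    have := inc_a hw he v x t
    rw [ht, hv] at this
    nlinarith
  have im : ∀ t : ℝ, |t| = δ → |dd e (dd v w) (x + t • e) - dd e (dd v w) x| ≤ A3 * δ := by
    intro t ht
    have := inc_m hw he v x t
    rw [ht, hv] at this
    nlinarith
  have iq : ∀ t : ℝ, |t| = δ → |dd e (dd v (dd v w)) (x + t • e) - dd e (dd v (dd v w)) x|
      ≤ A4 * δ := by
    intro t ht
    have := inc_qq hw he v x t
    rw [ht, hv] at this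
    nlinarith
  have hp : |δ| = δ := abs_of_pos hδ0
  have hm : |-δ| = δ := by rw [abs_neg, hp]
  have iD := inc_D hw he hδ v x
  have iQ := inc_q hw he hδ v x
  rw [hv] at iD iQ
  have dD := hw.D1 ha he hδ x v
  rw [hv] at dD
  rw [avg3 hw.smooth, avg2 hw.smooth]
  refine hR κ ε δ _ _ _ (dd v (dd v w) x) _ (dd e (dd v w) x) (dd e (dd v (dd v w)) x) _ _
    (dd e (dd v w) (x + δ • e)) (dd e (dd v w) (x + (-δ) • e))
    (dd e (dd e w) (x + δ • e)) (dd e (dd e w) (x + (-δ) • e))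
    (dd e (dd v (dd v w)) (x + δ • e)) (dd e (dd v (dd v w)) (x + (-δ) • e))
    (dd e (dd e (dd v w)) (x + δ • e)) (dd e (dd e (dd v w)) (x + (-δ) • e))
    (dd e (dd e (dd e w)) (x + δ • e)) (dd e (dd e (dd e w)) (x + (-δ) • e))
    hκ0 hκ1 hε0 hε1 hδ0 hδ1 (wt_nonneg _ _ _) (wt_le_one _ _ _)
    (low _) (upp _) (low _) (upp _) (low _) (upp _) (ia δ hp) (ia (-δ) hm) (ev _) (ev _) (ev _) (ee0 _) (ee1 _) (ee0 _) (ee1 _)
    (q3 _) (q3 _) (q3 _) (s3 _) (s3 _) (t3 _) (t3 _) (v3 _) (v3 _)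
    (im δ hp) (im (-δ) hm) (iq δ hp) (iq (-δ) hm) ?_ ?_ ?_
    (hw.pos_dir ha v _) (hw.pos_dir ha v _) (hw.sc_dir hε0 he hv _) (hw.sc_dir hε0 he hv _)
  · refine iD.trans ?_
    have : C3 * δ ^ 2 ≤ A3 * δ ^ 2 := mul_le_mul_of_nonneg_right hC3 (by positivity)
    linarith
  · refine iQ.trans ?_
    have : C4 * δ ^ 2 ≤ A4 * δ ^ 2 := mul_le_mul_of_nonneg_right hC4 (by positivity)
    linarith
  · linarith

theorem rpow_scale {c s : ℝ} (hc : 0 < c) : (c ^ 2 * s) ^ ((3 : ℝ) / 2) = c ^ 3 * s ^ ((3 : ℝ) / 2) := by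
  have hneg : ∀ y : ℝ, y < 0 → y ^ ((3 : ℝ) / 2) = 0 := by
    intro y hy
    rw [Real.rpow_def_of_neg hy]
    have : Real.cos (3 / 2 * Real.pi) = 0 := by
      have h2 : (3 / 2 * Real.pi : ℝ) = Real.pi + Real.pi / 2 := by ring
      rw [h2, Real.cos_add]
      simp
    rw [this, mul_zero]
  rcases le_or_gt 0 s with hs | hs
  · rw [Real.mul_rpow (by positivity) hs]
    congr 1
    rw [← Real.rpow_natCast c 2, ← Real.rpow_mul hc.le, ← Real.rpow_natCast c 3]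
    norm_num
  · rw [hneg s hs, hneg _ (mul_neg_of_pos_of_neg (by positivity) hs), mul_zero]

theorem avg_sc {a0 A3 A4 K : ℝ} (hR : ScReal a0 b A3 A4 K) (hw : St a b C3 C4 κ ε w)
    (ha0 : 0 < a0) (haa : a0 ≤ a) (hC3 : C3 ≤ A3) (hC4 : C4 ≤ A4) (hκ0 : 0 ≤ κ) (hκ1 : κ ≤ 1)
    (hε0 : 0 ≤ ε) (hε1 : ε ≤ 1) (hδ0 : 0 < δ) (hδ1 : δ ≤ 1) (he : ‖e‖ = 1) (x v : E) :
    dd v (dd v (dd v (avg δ e w))) x ≤ 2 * κ * (dd v (dd v (avg δ e w)) x) ^ ((3 : ℝ) / 2)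
      + (ε * (1 + K * δ ^ 2) + K * δ ^ 3) * ‖v‖ ^ 3 := by
  have hs : Sm (avg δ e w) := by
    rw [avg_eq]; exact sm_lg (sm_shift hw.smooth _) (sm_shift hw.smooth _)
  by_cases hv0 : v = 0
  · subst hv0
    simp [dd]
  have hn : 0 < ‖v‖ := norm_pos_iff.2 hv0
  obtain ⟨u, hu, huv⟩ : ∃ u : E, ‖u‖ = 1 ∧ ‖v‖ • u = v := by
    refine ⟨‖v‖⁻¹ • v, ?_, ?_⟩
    · rw [norm_smul, norm_inv, norm_norm]; field_simp
    · rw [smul_smul, mul_inv_cancel₀ hn.ne', one_smul]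
  have h := sc_unit hR hw ha0 haa hC3 hC4 hκ0 hκ1 hε0 hε1 hδ0 hδ1 he hu x
  have h2 : dd v (dd v (avg δ e w)) x = ‖v‖ ^ 2 * dd u (dd u (avg δ e w)) x := by
    conv_lhs => rw [← huv]
    rw [dd_smul_dir2 hs]
  have h3 : dd v (dd v (dd v (avg δ e w))) x = ‖v‖ ^ 3 * dd u (dd u (dd u (avg δ e w))) x := by
    conv_lhs => rw [← huv]
    rw [dd_smul_dir3 hs]
  rw [h2, h3, rpow_scale hn]
  have h4 := mul_le_mul_of_nonneg_left h (pow_pos hn 3).le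
  linarith

end

/-- THE STEP, from the real inequality. -/
theorem step_of_real (hreal : ∀ a0 b A3 A4 : ℝ, 0 < a0 → a0 ≤ b → 0 ≤ A3 → 0 ≤ A4 →
    ∃ K : ℝ, 0 ≤ K ∧ ScReal a0 b A3 A4 K) : StepStmt E := by
  intro a0 b A3 A4 ha0
  by_cases hcond : a0 ≤ b ∧ 0 ≤ A3 ∧ 0 ≤ A4
  · obtain ⟨hab0, hA3, hA4⟩ := hcond
    have hb : 0 ≤ b := ha0.le.trans hab0
    obtain ⟨K1, hK1, hlow⟩ := r_low a0 b A3 ha0 hb hA3
    obtain ⟨K2, hK2, hsc⟩ := hreal a0 b A3 A4 ha0 hab0 hA3 hA4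
    refine ⟨max K1 K2, le_trans hK1 (le_max_left _ _), ?_⟩
    intro κ δ ε a C3 C4 e w hκ0 hκ1 hδ0 hδ1 hε0 hε1 haa hC3A hC4A he hw
    have ha : 0 ≤ a := ha0.le.trans haa
    have hab : a ≤ b := by
      have h1 := hw.lower 0 e
      have h2 := hw.upper 0 e
      rw [he] at h1 h2
      linarith
    have hC3 : 0 ≤ C3 := by
      have h1 := (abs_nonneg _).trans (hw.b3 0 e e e)
      rw [he] at h1; linarith
    have hC4 : 0 ≤ C4 := by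
      have h1 := (abs_nonneg _).trans (hw.b4 0 e e e e)
      rw [he] at h1; linarith
    have hδ3 : 0 ≤ δ ^ 3 := by positivity
    refine ⟨?_, ?_, ?_, ?_, ?_, ?_⟩
    · rw [avg_eq]; exact sm_lg (sm_shift hw.smooth _) (sm_shift hw.smooth _)
    · intro x v
      have h := avg_lower (K := K1) hw ha he hδ0 (fun P n a1 a2 ax m D p1 p2 p3 p4 p5 p6 p7 p8 p9 p10 p11 p12 p13 =>
        hlow a C3 δ P n a1 a2 ax m D haa hab hC3 hC3A hδ0 hδ1 p1 p2 p3 p4 p5 p6 p7 p8 p9 p10 p11 p12 p13) x v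
      refine le_trans (mul_le_mul_of_nonneg_right ?_ (by positivity)) h
      have := mul_le_mul_of_nonneg_right (le_max_left K1 K2) hδ3
      linarith
    · intro x v
      exact avg_upper hw v x
    · intro x v₁ v₂ v₃
      exact avg_b3 hw ha hb hC3 he hδ0.le hδ1 x v₁ v₂ v₃
    · intro x v₁ v₂ v₃ v₄
      exact avg_b4 hw ha hb hC3 hC4 he hδ0.le hδ1 x v₁ v₂ v₃ v₄
    · intro x v
      have h := avg_sc hsc hw ha0 haa hC3A hC4A hκ0 hκ1 hε0 hε1 hδ0 hδ1 he x v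
      refine h.trans ?_
      have h1 := mul_le_mul_of_nonneg_right (le_max_right K1 K2) hδ3
      have h2 : ε * (1 + K2 * δ ^ 2) ≤ ε * (1 + max K1 K2 * δ ^ 2) := by
        apply mul_le_mul_of_nonneg_left _ hε0
        have := mul_le_mul_of_nonneg_right (le_max_right K1 K2) (sq_nonneg δ)
        linarith
      have h3 : (ε * (1 + K2 * δ ^ 2) + K2 * δ ^ 3) * ‖v‖ ^ 3
          ≤ (ε * (1 + max K1 K2 * δ ^ 2) + max K1 K2 * δ ^ 3) * ‖v‖ ^ 3 :=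
        mul_le_mul_of_nonneg_right (by linarith) (by positivity)
      linarith
  · refine ⟨0, le_refl _, ?_⟩
    intro κ δ ε a C3 C4 e w hκ0 hκ1 hδ0 hδ1 hε0 hε1 haa hC3A hC4A he hw
    exfalso
    apply hcond
    refine ⟨?_, ?_, ?_⟩
    · have h1 := hw.lower 0 e
      have h2 := hw.upper 0 e
      rw [he] at h1 h2
      linarith
    · have h1 := (abs_nonneg _).trans (hw.b3 0 e e e)
      rw [he] at h1; linarith
    · have h1 := (abs_nonneg _).trans (hw.b4 0 e e e e)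
      rw [he] at h1; linarith

end Vale.Agent.P227.M.SC
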