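import Mathlib

/-! Sign patterns: a function on (0,oo) which is first concave, then convex, negative near 0
and positive near infinity, has the sign of a cubic with three positive zeros. -/

namespace Vale.Agent.P227.M.SC.T817

open Set

/-- concave: positive at the left, nonnegative at the right, positive strictly inside -/
theorem concave_pos {S : Set ℝ} {f : ℝ → ℝ} (hf : ConcaveOn ℝ S f) {x y z : ℝ} (hx : x ∈ S)
    (hz : z ∈ S) (hxy : x < y) (hyz : y < z) (h1 : 0 < f x) (h2 : 0 ≤ f z) : 0 < f y := by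
  have hxz : x < z := hxy.trans hyz
  have hne : z - x ≠ 0 := by linarith
  have h := hf.2 hx hz (show (0 : ℝ) ≤ (z - y) / (z - x) from
      div_nonneg (by linarith) (by linarith))
    (show (0 : ℝ) ≤ (y - x) / (z - x) from div_nonneg (by linarith) (by linarith))
    (by field_simp; ring)
  have he : ((z - y) / (z - x)) • x + ((y - x) / (z - x)) • z = y := by
    simp only [smul_eq_mul]
    field_simp
    ring
  rw [he] at h
  simp only [smul_eq_mul] at h
  have h3 : 0 < (z - y) / (z - x) * f x :=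
    mul_pos (div_pos (by linarith) (by linarith)) h1
  have h4 : 0 ≤ (y - x) / (z - x) * f z :=
    mul_nonneg (div_nonneg (by linarith) (by linarith)) h2
  linarith

theorem concave_pos' {S : Set ℝ} {f : ℝ → ℝ} (hf : ConcaveOn ℝ S f) {x y z : ℝ} (hx : x ∈ S)
    (hz : z ∈ S) (hxy : x < y) (hyz : y < z) (h1 : 0 ≤ f x) (h2 : 0 < f z) : 0 < f y := by
  have hxz : x < z := hxy.trans hyz
  have hne : z - x ≠ 0 := by linarith
  have h := hf.2 hx hz (show (0 : ℝ) ≤ (z - y) / (z - x) from
      div_nonneg (by linarith) (by linarith))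
    (show (0 : ℝ) ≤ (y - x) / (z - x) from div_nonneg (by linarith) (by linarith))
    (by field_simp; ring)
  have he : ((z - y) / (z - x)) • x + ((y - x) / (z - x)) • z = y := by
    simp only [smul_eq_mul]
    field_simp
    ring
  rw [he] at h
  simp only [smul_eq_mul] at h
  have h3 : 0 ≤ (z - y) / (z - x) * f x :=
    mul_nonneg (div_nonneg (by linarith) (by linarith)) h1
  have h4 : 0 < (y - x) / (z - x) * f z :=
    mul_pos (div_pos (by linarith) (by linarith)) h2
  linarith

theorem concave_nonneg {S : Set ℝ} {f : ℝ → ℝ} (hf : ConcaveOn ℝ S f) {x y z : ℝ} (hx : x ∈ S)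
    (hz : z ∈ S) (hxy : x ≤ y) (hyz : y ≤ z) (h1 : 0 ≤ f x) (h2 : 0 ≤ f z) : 0 ≤ f y := by
  have h := hf.min_le_of_mem_Icc hx hz ⟨hxy, hyz⟩
  exact (le_min h1 h2).trans h

theorem convex_neg {S : Set ℝ} {f : ℝ → ℝ} (hf : ConvexOn ℝ S f) {x y z : ℝ} (hx : x ∈ S)
    (hz : z ∈ S) (hxy : x < y) (hyz : y < z) (h1 : f x < 0) (h2 : f z ≤ 0) : f y < 0 := by
  have := concave_pos hf.neg hx hz hxy hyz (by simpa using h1) (by simpa using h2)
  simpa using this

theorem convex_neg' {S : Set ℝ} {f : ℝ → ℝ} (hf : ConvexOn ℝ S f) {x y z : ℝ} (hx : x ∈ S)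
    (hz : z ∈ S) (hxy : x < y) (hyz : y < z) (h1 : f x ≤ 0) (h2 : f z < 0) : f y < 0 := by
  have := concave_pos' hf.neg hx hz hxy hyz (by simpa using h1) (by simpa using h2)
  simpa using this

theorem convex_nonpos {S : Set ℝ} {f : ℝ → ℝ} (hf : ConvexOn ℝ S f) {x y z : ℝ} (hx : x ∈ S)
    (hz : z ∈ S) (hxy : x ≤ y) (hyz : y ≤ z) (h1 : f x ≤ 0) (h2 : f z ≤ 0) : f y ≤ 0 := by
  have := concave_nonneg hf.neg hx hz hxy hyz (by simpa using h1) (by simpa using h2)
  simpa using this

theorem cubic_sign {a b c t v : ℝ} (hab : a ≤ b) (hbc : b ≤ c)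
    (h1 : t ≤ a → v ≤ 0) (h2 : a ≤ t → t ≤ b → 0 ≤ v) (h3 : b ≤ t → t ≤ c → v ≤ 0)
    (h4 : c ≤ t → 0 ≤ v) : 0 ≤ (t - a) * (t - b) * (t - c) * v := by
  rcases le_total t a with h | h
  · have hv := h1 h
    have e : (t - a) * (t - b) * (t - c) * v = ((a - t) * (b - t) * (c - t)) * (-v) := by ring
    rw [e]
    exact mul_nonneg (mul_nonneg (mul_nonneg (by linarith) (by linarith)) (by linarith))
      (by linarith)
  rcases le_total t b with h' | h'
  · have hv := h2 h h'
    have e : (t - a) * (t - b) * (t - c) * v = ((t - a) * (b - t) * (c - t)) * v := by ring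
    rw [e]
    exact mul_nonneg (mul_nonneg (mul_nonneg (by linarith) (by linarith)) (by linarith)) hv
  rcases le_total t c with h'' | h''
  · have hv := h3 h' h''
    have e : (t - a) * (t - b) * (t - c) * v = ((t - a) * (t - b) * (c - t)) * (-v) := by ring
    rw [e]
    exact mul_nonneg (mul_nonneg (mul_nonneg (by linarith) (by linarith)) (by linarith))
      (by linarith)
  · have hv := h4 h''
    exact mul_nonneg (mul_nonneg (mul_nonneg (by linarith) (by linarith)) (by linarith)) hv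

/-- the sign pattern lemma -/
theorem sign_pattern {f : ℝ → ℝ} {x1 : ℝ} (hx1 : 0 < x1) (hcont : ContinuousOn f (Ioi 0))
    (hcc : ConcaveOn ℝ (Ioc 0 x1) f) (hcv : ConvexOn ℝ (Ici x1) f)
    (hlow : ∀ t, 0 < t → ∃ s, 0 < s ∧ s < t ∧ f s < 0)
    (hhigh : ∀ t, ∃ s, t < s ∧ 0 < f s) :
    ∃ a b c : ℝ, 0 < a ∧ a ≤ b ∧ b ≤ c ∧ ∀ t, 0 < t → 0 ≤ (t - a) * (t - b) * (t - c) * f t := by
  have ivt_up : ∀ u v, 0 < u → u < v → f u < 0 → 0 < f v → ∃ z, u < z ∧ z < v ∧ f z = 0 := by
    intro u v hu huv h1 h2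
    have hc : ContinuousOn f (Icc u v) := hcont.mono (fun z hz => lt_of_lt_of_le hu hz.1)
    obtain ⟨z, hz, hz0⟩ := intermediate_value_Ioo huv.le hc ⟨h1, h2⟩
    exact ⟨z, hz.1, hz.2, hz0⟩
  have ivt_down : ∀ u v, 0 < u → u < v → 0 < f u → f v < 0 → ∃ z, u < z ∧ z < v ∧ f z = 0 := by
    intro u v hu huv h1 h2
    have hc : ContinuousOn f (Icc u v) := hcont.mono (fun z hz => lt_of_lt_of_le hu hz.1)
    obtain ⟨z, hz, hz0⟩ := intermediate_value_Ioo' huv.le hc ⟨h2, h1⟩
    exact ⟨z, hz.1, hz.2, hz0⟩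
  have m1 : x1 ∈ Ioc (0 : ℝ) x1 := ⟨hx1, le_rfl⟩
  have m1' : x1 ∈ Ici x1 := self_mem_Ici
  rcases lt_or_ge 0 (f x1) with hA | hB
  · -- case A
    obtain ⟨t0, ht0, ht0x, hft0⟩ := hlow x1 hx1
    obtain ⟨a, hta, hax, hfa⟩ := ivt_up t0 x1 ht0 ht0x hft0 hA
    have ha0 : 0 < a := ht0.trans hta
    have ma : a ∈ Ioc (0 : ℝ) x1 := ⟨ha0, hax.le⟩
    have hleft : ∀ t, 0 < t → t ≤ a → f t ≤ 0 := by
      intro t ht hta'
      rcases hta'.eq_or_lt with rfl | hlt
      · exact hfa.le
      · by_contra hcon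
        have := concave_pos hcc (x := t) (y := a) (z := x1) ⟨ht, hlt.le.trans hax.le⟩ m1 hlt hax
          (not_le.mp hcon) hA.le
        linarith
    have hmid : ∀ t, a ≤ t → t ≤ x1 → 0 ≤ f t := by
      intro t h1 h2
      exact concave_nonneg hcc ma m1 h1 h2 hfa.ge hA.le
    by_cases hneg : ∃ u, x1 < u ∧ f u < 0
    · obtain ⟨u, hu, hfu⟩ := hneg
      obtain ⟨b, hb1, hb2, hfb⟩ := ivt_down x1 u hx1 hu hA hfu
      obtain ⟨T, hT, hfT⟩ := hhigh u
      obtain ⟨c, hc1, hc2, hfc⟩ := ivt_up u T (hx1.trans hu) hT hfu hfT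
      refine ⟨a, b, c, ha0, (hax.trans hb1).le, (hb2.trans hc1).le, fun t ht => ?_⟩
      refine cubic_sign (hax.trans hb1).le (hb2.trans hc1).le (hleft t ht) ?_ ?_ ?_
      · intro h1 h2
        rcases le_total t x1 with h3 | h3
        · exact hmid t h1 h3
        · by_contra hcon
          have hcon' := not_le.mp hcon
          rcases h2.eq_or_lt with rfl | hlt
          · linarith
          · have := convex_neg hcv (x := t) (y := b) (z := u) h3 (le_of_lt (hb1.trans hb2)) hlt hb2
              hcon' hfu.le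
            linarith
      · intro h1 h2
        exact convex_nonpos hcv (x := b) (z := c) hb1.le
          (le_of_lt ((hb1.trans hb2).trans hc1)) h1 h2 hfb.le hfc.le
      · intro h1
        by_contra hcon
        have hcon' := not_le.mp hcon
        rcases h1.eq_or_lt with rfl | hlt
        · linarith
        · have := convex_neg' hcv (x := u) (y := c) (z := t) hu.le
            (le_of_lt (((hb1.trans hb2).trans hc1).trans hlt)) hc1 hlt hfu.le hcon'
          linarith
    · push Not at hneg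
      have hright : ∀ t, a ≤ t → 0 ≤ f t := by
        intro t h1
        rcases le_or_gt t x1 with h3 | h3
        · exact hmid t h1 h3
        · exact hneg t h3
      refine ⟨a, a, a, ha0, le_rfl, le_rfl, fun t ht => ?_⟩
      refine cubic_sign le_rfl le_rfl (hleft t ht) (fun h1 _ => hright t h1) ?_
        (fun h1 => hright t h1)
      intro h1 h2
      have : t = a := le_antisymm h2 h1
      rw [this]
      exact hfa.le
  · -- case B
    obtain ⟨c, hcx, hcle, hcge⟩ : ∃ c, x1 ≤ c ∧ (∀ t, x1 ≤ t → t ≤ c → f t ≤ 0) ∧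
        (∀ t, c ≤ t → 0 ≤ f t) := by
      by_cases hneg : ∃ u, x1 ≤ u ∧ f u < 0
      · obtain ⟨u, hu, hfu⟩ := hneg
        obtain ⟨T, hT, hfT⟩ := hhigh u
        obtain ⟨c, hc1, hc2, hfc⟩ := ivt_up u T (lt_of_lt_of_le hx1 hu) hT hfu hfT
        refine ⟨c, hu.trans hc1.le, fun t h1 h2 => ?_, fun t h1 => ?_⟩
        · exact convex_nonpos hcv m1' (hu.trans hc1.le) h1 h2 hB hfc.le
        · by_contra hcon
          have hcon' := not_le.mp hcon
          rcases h1.eq_or_lt with rfl | hlt
          · linarith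
          · have := convex_neg' hcv (x := u) (y := c) (z := t) hu
              (hu.trans (hc1.trans hlt).le) hc1 hlt hfu.le hcon'
            linarith
      · push Not at hneg
        refine ⟨x1, le_rfl, fun t h1 h2 => ?_, fun t h1 => hneg t h1⟩
        have : t = x1 := le_antisymm h2 h1
        rw [this]
        exact hB
    by_cases hpos : ∃ v, 0 < v ∧ v ≤ x1 ∧ 0 < f v
    · obtain ⟨v, hv0, hvx, hfv⟩ := hpos
      have hvx' : v < x1 := by
        rcases hvx.eq_or_lt with rfl | h
        · linarith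
        · exact h
      obtain ⟨t0, ht0, ht0v, hft0⟩ := hlow v hv0
      obtain ⟨a, ha1, ha2, hfa⟩ := ivt_up t0 v ht0 ht0v hft0 hfv
      have ha0 : 0 < a := ht0.trans ha1
      -- b
      obtain ⟨b, hb1, hb2, hfb⟩ : ∃ b, v < b ∧ b ≤ x1 ∧ f b = 0 := by
        rcases hB.eq_or_lt with he | hl
        · exact ⟨x1, hvx', le_rfl, he⟩
        · obtain ⟨b, h1, h2, h3⟩ := ivt_down v x1 hv0 hvx' hfv hl
          exact ⟨b, h1, h2.le, h3⟩
      have mv : v ∈ Ioc (0 : ℝ) x1 := ⟨hv0, hvx⟩
      have ma : a ∈ Ioc (0 : ℝ) x1 := ⟨ha0, ha2.le.trans hvx⟩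
      have mb : b ∈ Ioc (0 : ℝ) x1 := ⟨hv0.trans hb1, hb2⟩
      refine ⟨a, b, c, ha0, (ha2.trans hb1).le, hb2.trans hcx, fun t ht => ?_⟩
      refine cubic_sign (ha2.trans hb1).le (hb2.trans hcx) ?_ ?_ ?_ (hcge t)
      · intro hta
        by_contra hcon
        have hcon' := not_le.mp hcon
        rcases hta.eq_or_lt with rfl | hlt
        · linarith
        · have := concave_pos hcc (x := t) (y := a) (z := v) ⟨ht, hta.trans ma.2⟩ mv hlt ha2
            hcon' hfv.le
          linarith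
      · intro h1 h2
        exact concave_nonneg hcc ma mb h1 h2 hfa.ge hfb.ge
      · intro h1 h2
        rcases le_total t x1 with h3 | h3
        · by_contra hcon
          have hcon' := not_le.mp hcon
          rcases h1.eq_or_lt with rfl | hlt
          · linarith
          · have := concave_pos' hcc (x := v) (y := b) (z := t) mv ⟨ht, h3⟩ hb1 hlt hfv.le
              hcon'
            linarith
        · exact hcle t h3 h2
    · push Not at hpos
      have hleft : ∀ t, 0 < t → t ≤ c → f t ≤ 0 := by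
        intro t ht h1
        rcases le_total t x1 with h3 | h3
        · exact hpos t ht h3
        · exact hcle t h3 h1
      have hc0 : 0 < c := lt_of_lt_of_le hx1 hcx
      refine ⟨c, c, c, hc0, le_rfl, le_rfl, fun t ht => ?_⟩
      refine cubic_sign le_rfl le_rfl (hleft t ht) (fun h1 _ => hcge t h1) ?_
        (fun h1 => hcge t h1)
      intro h1 h2
      exact hleft t ht h2

end Vale.Agent.P227.M.SC.T817
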