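import Mathlib
import Vale.Agent.P227.M.SC.ThirdA

/-! One-dimensional comparison with a Gamma density. -/

namespace Vale.Agent.P227.M.SC.T817

open Set MeasureTheory Real

/-- quadratic lower bound -/
theorem quad_lower {W W1 W2 : ℝ → ℝ} (h1 : ∀ x, HasDerivAt W (W1 x) x)
    (h2 : ∀ x, HasDerivAt W1 (W2 x) x) {m : ℝ} (hW2 : ∀ x, m ≤ W2 x) (t : ℝ) :
    W 0 + W1 0 * t + m / 2 * t ^ 2 ≤ W t := by
  have hg1 : ∀ x, HasDerivAt (fun x => W1 x - W1 0 - m * x) (W2 x - m) x := by
    intro x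
    have := ((h2 x).sub_const (W1 0)).sub ((hasDerivAt_id x).const_mul m)
    rw [mul_one] at this
    exact this
  have hmono : Monotone (fun x => W1 x - W1 0 - m * x) := by
    apply monotone_of_deriv_nonneg (fun x => (hg1 x).differentiableAt)
    intro x
    rw [(hg1 x).deriv]
    linarith [hW2 x]
  have hg : ∀ x, HasDerivAt (fun x => W x - W1 0 * x - m / 2 * x ^ 2)
      (W1 x - W1 0 - m * x) x := by
    intro x
    have := ((h1 x).sub ((hasDerivAt_id x).const_mul (W1 0))).sub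
      (((hasDerivAt_id x).pow 2).const_mul (m / 2))
    refine this.congr_deriv ?_
    simp only [mul_one, id, Nat.cast_ofNat]
    ring
  have h00 : (fun x => W1 x - W1 0 - m * x) 0 = 0 := by simp
  have key : W 0 ≤ W t - W1 0 * t - m / 2 * t ^ 2 := by
    rcases le_total 0 t with ht | ht
    · have hm : MonotoneOn (fun x => W x - W1 0 * x - m / 2 * x ^ 2) (Ici 0) := by
        apply monotoneOn_of_deriv_nonneg (convex_Ici 0)
        · exact fun x _ => (hg x).continuousAt.continuousWithinAt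
        · exact fun x _ => (hg x).differentiableAt.differentiableWithinAt
        · intro x hx
          rw [interior_Ici] at hx
          rw [(hg x).deriv]
          have := hmono (le_of_lt hx)
          simpa [h00] using this
      have := hm (a := 0) (b := t) self_mem_Ici ht ht
      simpa using this
    · have hm : AntitoneOn (fun x => W x - W1 0 * x - m / 2 * x ^ 2) (Iic 0) := by
        apply antitoneOn_of_deriv_nonpos (convex_Iic 0)
        · exact fun x _ => (hg x).continuousAt.continuousWithinAt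
        · exact fun x _ => (hg x).differentiableAt.differentiableWithinAt
        · intro x hx
          rw [interior_Iic] at hx
          rw [(hg x).deriv]
          have := hmono (le_of_lt hx)
          simpa [h00] using this
      have := hm (a := t) (b := 0) ht self_mem_Iic ht
      simpa using this
  linarith

theorem exp_upper {W W1 W2 : ℝ → ℝ} (h1 : ∀ x, HasDerivAt W (W1 x) x)
    (h2 : ∀ x, HasDerivAt W1 (W2 x) x) {m : ℝ} (hm : 0 < m) (hW2 : ∀ x, m ≤ W2 x) (t : ℝ) :
    exp (-(W t)) ≤ exp (-(W 0) + W1 0 ^ 2 / m) * exp (-(m / 4) * t ^ 2) := by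
  rw [← exp_add]
  apply exp_le_exp.mpr
  have h := quad_lower h1 h2 hW2 t
  have h3 : 0 ≤ m / 4 * (t + 2 * W1 0 / m) ^ 2 := by positivity
  have h4 : m / 4 * (t + 2 * W1 0 / m) ^ 2 = m / 4 * t ^ 2 + W1 0 * t + W1 0 ^ 2 / m := by
    field_simp
    ring
  nlinarith [h, h3, h4]

theorem integ_p {W W1 W2 : ℝ → ℝ} (h1 : ∀ x, HasDerivAt W (W1 x) x)
    (h2 : ∀ x, HasDerivAt W1 (W2 x) x) {m : ℝ} (hm : 0 < m) (hW2 : ∀ x, m ≤ W2 x) (j : ℕ) :
    Integrable (fun t : ℝ => t ^ j * exp (-(W t))) := by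
  have hcW : Continuous W := continuous_iff_continuousAt.mpr fun x => (h1 x).continuousAt
  have hb : Integrable (fun t : ℝ => t ^ j * exp (-(m / 4) * t ^ 2)) := by
    have := integrable_rpow_mul_exp_neg_mul_sq (b := m / 4) (by positivity) (s := (j : ℝ))
      (by have : (0 : ℝ) ≤ j := Nat.cast_nonneg j
          linarith)
    simpa [rpow_natCast] using this
  have hb2 := (hb.norm).const_mul (exp (-(W 0) + W1 0 ^ 2 / m))
  refine hb2.mono' (by fun_prop) (Filter.Eventually.of_forall fun t => ?_)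
  rw [norm_mul, norm_mul, Real.norm_eq_abs (exp _), abs_of_pos (exp_pos _),
    Real.norm_eq_abs (exp _), abs_of_pos (exp_pos _)]
  have := exp_upper h1 h2 hm hW2 t
  calc ‖t ^ j‖ * exp (-(W t)) ≤ ‖t ^ j‖ *
        (exp (-(W 0) + W1 0 ^ 2 / m) * exp (-(m / 4) * t ^ 2)) :=
        mul_le_mul_of_nonneg_left this (norm_nonneg _)
    _ = exp (-(W 0) + W1 0 ^ 2 / m) * (‖t ^ j‖ * exp (-(m / 4) * t ^ 2)) := by ring

/-- the Gamma density -/
noncomputable def gq (k β : ℝ) (t : ℝ) : ℝ :=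
  (Ioi (0 : ℝ)).indicator (fun t => β ^ (k + 1) / Gamma (k + 1) * t ^ k * exp (-(β * t))) t

theorem integ_rpow {k β : ℝ} (hk : 0 < k) (hβ : 0 < β) :
    IntegrableOn (fun t : ℝ => t ^ k * exp (-(β * t))) (Ioi 0) := by
  have := integrableOn_rpow_mul_exp_neg_mul_rpow (p := 1) (s := k) (b := β) (by linarith)
    one_pos hβ
  simpa [neg_mul] using this

theorem gq_mul_pow {k β : ℝ} (j : ℕ) (t : ℝ) :
    t ^ j * gq k β t = (Ioi (0 : ℝ)).indicator
      (fun t => β ^ (k + 1) / Gamma (k + 1) * (t ^ (k + j) * exp (-(β * t)))) t := by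
  unfold gq
  by_cases ht : t ∈ Ioi (0 : ℝ)
  · rw [indicator_of_mem ht, indicator_of_mem ht]
    have ht' : 0 < t := ht
    rw [rpow_add ht', rpow_natCast]
    ring
  · rw [indicator_of_notMem ht, indicator_of_notMem ht, mul_zero]

theorem integ_gq {k β : ℝ} (hk : 0 < k) (hβ : 0 < β) (j : ℕ) :
    Integrable (fun t : ℝ => t ^ j * gq k β t) := by
  simp_rw [gq_mul_pow]
  rw [integrable_indicator_iff measurableSet_Ioi]
  have hk' : 0 < k + (j : ℝ) := by positivity
  exact (integ_rpow hk' hβ).const_mul _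

theorem int_gq {k β : ℝ} (hk : 0 < k) (hβ : 0 < β) (j : ℕ) :
    ∫ t : ℝ, t ^ j * gq k β t = Gamma (k + j + 1) / Gamma (k + 1) / β ^ j := by
  simp_rw [gq_mul_pow]
  rw [integral_indicator measurableSet_Ioi, integral_const_mul]
  have hk' : 0 < k + (j : ℝ) + 1 := by positivity
  have h := integral_rpow_mul_exp_neg_mul_Ioi hk' hβ
  rw [add_sub_cancel_right] at h
  rw [h]
  have hG : Gamma (k + 1) ≠ 0 := (Gamma_pos_of_pos (by positivity)).ne'
  have e1 : (1 / β) ^ (k + (j : ℝ) + 1) = 1 / (β ^ (k + 1) * β ^ j) := by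
    rw [one_div, inv_rpow hβ.le, show k + (j : ℝ) + 1 = (k + 1) + j by ring, rpow_add hβ,
      rpow_natCast, one_div]
  rw [e1]
  have hb : β ^ (k + 1) ≠ 0 := (rpow_pos_of_pos hβ _).ne'
  have hb2 : β ^ j ≠ 0 := (pow_pos hβ _).ne'
  field_simp

theorem gam1 {k : ℝ} (hk : 0 < k) : Gamma (k + 2) = (k + 1) * Gamma (k + 1) := by
  have := Gamma_add_one (s := k + 1) (by positivity)
  rw [← this]
  ring_nf

theorem gam2 {k : ℝ} (hk : 0 < k) : Gamma (k + 3) = (k + 2) * (k + 1) * Gamma (k + 1) := by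
  have := Gamma_add_one (s := k + 2) (by positivity)
  rw [show k + 2 + 1 = k + 3 by ring, gam1 hk] at this
  rw [this]
  ring

theorem gam3 {k : ℝ} (hk : 0 < k) :
    Gamma (k + 4) = (k + 3) * (k + 2) * (k + 1) * Gamma (k + 1) := by
  have := Gamma_add_one (s := k + 3) (by positivity)
  rw [show k + 3 + 1 = k + 4 by ring, gam2 hk] at this
  rw [this]
  ring

theorem int_gq0 {k β : ℝ} (hk : 0 < k) (hβ : 0 < β) : ∫ t : ℝ, gq k β t = 1 := by
  have := int_gq hk hβ 0
  have hG : Gamma (k + 1) ≠ 0 := (Gamma_pos_of_pos (by positivity)).ne'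
  simpa [hG] using this

theorem int_gq1 {k β : ℝ} (hk : 0 < k) (hβ : 0 < β) :
    ∫ t : ℝ, t * gq k β t = (k + 1) / β := by
  have h := int_gq hk hβ 1
  have hG : Gamma (k + 1) ≠ 0 := (Gamma_pos_of_pos (by positivity)).ne'
  simp only [pow_one, Nat.cast_one] at h
  rw [h, show k + 1 + 1 = k + 2 by ring, gam1 hk]
  field_simp

theorem int_gq2 {k β : ℝ} (hk : 0 < k) (hβ : 0 < β) :
    ∫ t : ℝ, t ^ 2 * gq k β t = (k + 1) * (k + 2) / β ^ 2 := by
  have h := int_gq hk hβ 2
  have hG : Gamma (k + 1) ≠ 0 := (Gamma_pos_of_pos (by positivity)).ne'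
  simp only [Nat.cast_ofNat] at h
  rw [h, show k + 2 + 1 = k + 3 by ring, gam2 hk]
  field_simp

theorem int_gq3 {k β : ℝ} (hk : 0 < k) (hβ : 0 < β) :
    ∫ t : ℝ, t ^ 3 * gq k β t = (k + 1) * (k + 2) * (k + 3) / β ^ 3 := by
  have h := int_gq hk hβ 3
  have hG : Gamma (k + 1) ≠ 0 := (Gamma_pos_of_pos (by positivity)).ne'
  simp only [Nat.cast_ofNat] at h
  rw [h, show k + 3 + 1 = k + 4 by ring, gam3 hk]
  field_simp

end Vale.Agent.P227.M.SC.T817
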