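import Mathlib
import Vale.Agent.P227.M.SC.ThirdA
import Vale.Agent.P227.M.SC.ThirdB

/-! Third central moment of a one-dimensional strongly log-concave density whose potential is
self-concordant with constant `c`: it is at most `2 c` times the variance to the power 3/2. -/

namespace Vale.Agent.P227.M.SC.T817

open Set MeasureTheory Real

section Core

variable {W W1 W2 W3 : ℝ → ℝ} {m c k β : ℝ}

/-- `s = W''^(-1/2)` satisfies: `s - c t` is antitone -/
theorem s_antitone (h3 : ∀ x, HasDerivAt W2 (W3 x) x) (hm : 0 < m)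
    (hW2 : ∀ x, m ≤ W2 x) (hW3 : ∀ x, |W3 x| ≤ 2 * c * (W2 x) ^ (3 / 2 : ℝ)) :
    Antitone (fun t => (W2 t) ^ (-(1 / 2) : ℝ) - c * t) := by
  have hd : ∀ x, HasDerivAt (fun t => (W2 t) ^ (-(1 / 2) : ℝ) - c * t)
      (W3 x * (-(1 / 2)) * (W2 x) ^ (-(1 / 2) - 1 : ℝ) - c) x := by
    intro x
    have hx : W2 x ≠ 0 := (lt_of_lt_of_le hm (hW2 x)).ne'
    have := ((h3 x).rpow_const (p := (-(1 / 2) : ℝ)) (Or.inl hx)).sub
      ((hasDerivAt_id x).const_mul c)
    rw [mul_one] at this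
    exact this
  apply antitone_of_deriv_nonpos (fun x => (hd x).differentiableAt)
  intro x
  rw [(hd x).deriv]
  have hpos : 0 < W2 x := lt_of_lt_of_le hm (hW2 x)
  have h := hW3 x
  have hle : -(W3 x) ≤ 2 * c * (W2 x) ^ (3 / 2 : ℝ) := (neg_le_abs _).trans h
  have hp : 0 < (W2 x) ^ (-(1 / 2) - 1 : ℝ) := rpow_pos_of_pos hpos _
  have hmul : (W2 x) ^ (3 / 2 : ℝ) * (W2 x) ^ (-(1 / 2) - 1 : ℝ) = 1 := by
    rw [← rpow_add hpos]
    norm_num
  have : W3 x * (-(1 / 2)) * (W2 x) ^ (-(1 / 2) - 1 : ℝ)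
      = (1 / 2) * ((-(W3 x)) * (W2 x) ^ (-(1 / 2) - 1 : ℝ)) := by ring
  rw [this]
  have h5 : (-(W3 x)) * (W2 x) ^ (-(1 / 2) - 1 : ℝ)
      ≤ 2 * c * (W2 x) ^ (3 / 2 : ℝ) * (W2 x) ^ (-(1 / 2) - 1 : ℝ) :=
    mul_le_mul_of_nonneg_right hle hp.le
  rw [mul_assoc (2 * c), hmul] at h5
  linarith

theorem s_cmp {w t : ℝ} (hw : 0 < w) (ht : 0 < t) (hc : 0 < c) (hkc : k * c ^ 2 = 1) :
    (w ^ (-(1 / 2) : ℝ) ≤ c * t ↔ k / t ^ 2 ≤ w) ∧
    (c * t ≤ w ^ (-(1 / 2) : ℝ) ↔ w ≤ k / t ^ 2) := by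
  have hk : k = 1 / c ^ 2 := by
    field_simp
    exact hkc
  have e1 : w ^ (-(1 / 2) : ℝ) = (sqrt w)⁻¹ := by
    rw [rpow_neg hw.le, sqrt_eq_rpow]
  have hs : 0 < sqrt w := sqrt_pos.mpr hw
  have hct : 0 < c * t := mul_pos hc ht
  have e2 : k / t ^ 2 = ((c * t)⁻¹) ^ 2 := by
    rw [hk]
    field_simp
  have e3 : w = sqrt w ^ 2 := (sq_sqrt hw.le).symm
  rw [e1, e2]
  constructor
  · constructor
    · intro h
      rw [e3]
      have : (c * t)⁻¹ ≤ sqrt w := by
        rw [inv_le_comm₀ hct hs]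
        exact h
      exact pow_le_pow_left₀ (by positivity) this 2
    · intro h
      rw [e3] at h
      have := (pow_le_pow_iff_left₀ (by positivity) hs.le two_ne_zero).mp h
      rw [inv_le_comm₀ hs hct]
      exact this
  · constructor
    · intro h
      rw [e3]
      have : sqrt w ≤ (c * t)⁻¹ := by
        rw [le_inv_comm₀ hs hct]
        exact h
      exact pow_le_pow_left₀ hs.le this 2
    · intro h
      rw [e3] at h
      have := (pow_le_pow_iff_left₀ hs.le (by positivity) two_ne_zero).mp h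
      rw [le_inv_comm₀ hct hs]
      exact this

/-- the point where the second derivative of the log ratio changes sign -/
theorem exists_x1 (h3 : ∀ x, HasDerivAt W2 (W3 x) x) (hm : 0 < m) (hc : 0 < c)
    (hkc : k * c ^ 2 = 1)
    (hW2 : ∀ x, m ≤ W2 x) (hW3 : ∀ x, |W3 x| ≤ 2 * c * (W2 x) ^ (3 / 2 : ℝ)) :
    ∃ x1 : ℝ, 0 < x1 ∧ (∀ t, 0 < t → t ≤ x1 → W2 t ≤ k / t ^ 2) ∧
      (∀ t, x1 ≤ t → k / t ^ 2 ≤ W2 t) := by
  have hanti := s_antitone h3 hm hW2 hW3
  have hcont : Continuous (fun t => (W2 t) ^ (-(1 / 2) : ℝ) - c * t) := by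
    have hc2 : Continuous W2 := continuous_iff_continuousAt.mpr fun x => (h3 x).continuousAt
    refine (hc2.rpow_const fun x => Or.inl (lt_of_lt_of_le hm (hW2 x)).ne').sub (by fun_prop)
  have h0 : 0 < (W2 0) ^ (-(1 / 2) : ℝ) - c * 0 := by
    have : 0 < (W2 0) ^ (-(1 / 2) : ℝ) := rpow_pos_of_pos (lt_of_lt_of_le hm (hW2 0)) _
    linarith
  set T : ℝ := m ^ (-(1 / 2) : ℝ) / c + 1 with hT
  have hT0 : 0 < T := by
    have : 0 < m ^ (-(1 / 2) : ℝ) / c := div_pos (rpow_pos_of_pos hm _) hc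
    linarith
  have hTn : (W2 T) ^ (-(1 / 2) : ℝ) - c * T < 0 := by
    have h := rpow_le_rpow_of_nonpos hm (hW2 T) (by norm_num : (-(1 / 2) : ℝ) ≤ 0)
    have : c * T = m ^ (-(1 / 2) : ℝ) + c := by
      rw [hT]
      field_simp
    linarith
  obtain ⟨x1, hx1, hx10⟩ := intermediate_value_Ioo' hT0.le hcont.continuousOn ⟨hTn, h0⟩
  have hx10' : (W2 x1) ^ (-(1 / 2) : ℝ) - c * x1 = 0 := hx10
  refine ⟨x1, hx1.1, fun t ht htx => ?_, fun t htx => ?_⟩
  · have h := hanti htx
    simp only at h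
    rw [hx10'] at h
    exact ((s_cmp (lt_of_lt_of_le hm (hW2 t)) ht hc hkc).2).mp (by linarith)
  · have h := hanti htx
    simp only at h
    rw [hx10'] at h
    exact ((s_cmp (lt_of_lt_of_le hm (hW2 t)) (lt_of_lt_of_le hx1.1 htx) hc hkc).1).mp
      (by linarith)

/-- the log ratio -/
noncomputable def lr (W : ℝ → ℝ) (k β : ℝ) (t : ℝ) : ℝ :=
  W t + log (β ^ (k + 1) / Gamma (k + 1)) + k * log t - β * t

theorem lr_deriv (h1 : ∀ x, HasDerivAt W (W1 x) x) {t : ℝ} (ht : 0 < t) :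
    HasDerivAt (lr W k β) (W1 t + k * t⁻¹ - β) t := by
  have := (((h1 t).add_const (log (β ^ (k + 1) / Gamma (k + 1)))).add
    ((hasDerivAt_log ht.ne').const_mul k)).sub ((hasDerivAt_id t).const_mul β)
  rw [mul_one] at this
  exact this

theorem lr_deriv2 (h2 : ∀ x, HasDerivAt W1 (W2 x) x) {t : ℝ} (ht : 0 < t) :
    HasDerivAt (fun t => W1 t + k * t⁻¹ - β) (W2 t - k / t ^ 2) t := by
  have := ((h2 t).add ((hasDerivAt_inv ht.ne').const_mul k)).sub_const β
  refine this.congr_deriv ?_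
  field_simp
  ring

theorem gq_eq_exp {t : ℝ} (hk : 0 < k) (hβ : 0 < β) (ht : 0 < t) :
    gq k β t = exp (-(W t)) * exp (lr W k β t) := by
  have hG : 0 < β ^ (k + 1) / Gamma (k + 1) :=
    div_pos (rpow_pos_of_pos hβ _) (Gamma_pos_of_pos (by linarith))
  unfold gq lr
  rw [indicator_of_mem (show t ∈ Ioi (0 : ℝ) from ht), ← exp_add,
    show -(W t) + (W t + log (β ^ (k + 1) / Gamma (k + 1)) + k * log t - β * t)
      = log (β ^ (k + 1) / Gamma (k + 1)) + log t * k + (-(β * t)) by ring,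
    exp_add, exp_add, exp_log hG, ← rpow_def_of_pos ht]

theorem cubic_cmp (h1 : ∀ x, HasDerivAt W (W1 x) x) (h2 : ∀ x, HasDerivAt W1 (W2 x) x)
    (h3 : ∀ x, HasDerivAt W2 (W3 x) x) (hm : 0 < m) (hc : 0 < c) (hk : 0 < k)
    (hkc : k * c ^ 2 = 1) (hβ : 0 < β)
    (hW2 : ∀ x, m ≤ W2 x) (hW3 : ∀ x, |W3 x| ≤ 2 * c * (W2 x) ^ (3 / 2 : ℝ)) :
    ∃ a b d : ℝ, ∀ t, 0 ≤ (t - a) * (t - b) * (t - d) * (gq k β t - exp (-(W t))) := by
  obtain ⟨x1, hx1, hxl, hxr⟩ := exists_x1 h3 hm hc hkc hW2 hW3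
  have hcont : ContinuousOn (lr W k β) (Ioi 0) :=
    fun t ht => (lr_deriv h1 ht).continuousAt.continuousWithinAt
  have hcc : ConcaveOn ℝ (Ioc 0 x1) (lr W k β) := by
    apply concaveOn_of_hasDerivWithinAt2_nonpos (convex_Ioc 0 x1)
      (f' := fun t => W1 t + k * t⁻¹ - β) (f'' := fun t => W2 t - k / t ^ 2)
    · exact hcont.mono (fun t ht => ht.1)
    · intro t ht
      rw [interior_Ioc] at ht
      exact (lr_deriv h1 ht.1).hasDerivWithinAt
    · intro t ht
      rw [interior_Ioc] at ht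
      exact (lr_deriv2 h2 ht.1).hasDerivWithinAt
    · intro t ht
      rw [interior_Ioc] at ht
      have := hxl t ht.1 ht.2.le
      linarith
  have hcv : ConvexOn ℝ (Ici x1) (lr W k β) := by
    apply convexOn_of_hasDerivWithinAt2_nonneg (convex_Ici x1)
      (f' := fun t => W1 t + k * t⁻¹ - β) (f'' := fun t => W2 t - k / t ^ 2)
    · exact hcont.mono (fun t ht => lt_of_lt_of_le hx1 ht)
    · intro t ht
      rw [interior_Ici] at ht
      exact (lr_deriv h1 (hx1.trans ht)).hasDerivWithinAt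
    · intro t ht
      rw [interior_Ici] at ht
      exact (lr_deriv2 h2 (hx1.trans ht)).hasDerivWithinAt
    · intro t ht
      rw [interior_Ici] at ht
      have := hxr t (le_of_lt ht)
      linarith
  have hcW : Continuous W := continuous_iff_continuousAt.mpr fun x => (h1 x).continuousAt
  -- behaviour at 0
  have hlim0 : Filter.Tendsto (lr W k β) (nhdsWithin 0 (Ioi 0)) Filter.atBot := by
    have hl := tendsto_log_nhdsGT_zero.const_mul_atBot hk
    have hc1 : Filter.Tendsto (fun t => W t + log (β ^ (k + 1) / Gamma (k + 1)) - β * t)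
        (nhdsWithin 0 (Ioi 0)) (nhds (W 0 + log (β ^ (k + 1) / Gamma (k + 1)) - β * 0)) := by
      have : Continuous (fun t => W t + log (β ^ (k + 1) / Gamma (k + 1)) - β * t) := by
        fun_prop
      exact (this.tendsto 0).mono_left nhdsWithin_le_nhds
    have := hc1.add_atBot hl
    refine this.congr fun t => ?_
    unfold lr
    ring
  have hlow : ∀ t, 0 < t → ∃ s, 0 < s ∧ s < t ∧ lr W k β s < 0 := by
    intro t ht
    have e1 : ∀ᶠ s in nhdsWithin (0 : ℝ) (Ioi 0), lr W k β s < 0 :=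
      hlim0.eventually (Filter.eventually_lt_atBot 0)
    have e2 : ∀ᶠ s in nhdsWithin (0 : ℝ) (Ioi 0), s ∈ Ioo (0 : ℝ) t := Ioo_mem_nhdsGT ht
    obtain ⟨s, hs1, hs2⟩ := (e1.and e2).exists
    exact ⟨s, hs2.1, hs2.2, hs1⟩
  -- behaviour at infinity
  have hlim1 : Filter.Tendsto (lr W k β) Filter.atTop Filter.atTop := by
    have hq : Filter.Tendsto (fun t : ℝ => t * (m / 2 * t + (W1 0 - β))) Filter.atTop
        Filter.atTop := by
      apply Filter.Tendsto.atTop_mul_atTop₀ Filter.tendsto_id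
      apply Filter.tendsto_atTop_add_const_right
      exact Filter.tendsto_id.const_mul_atTop (by positivity)
    have hq2 := Filter.tendsto_atTop_add_const_right Filter.atTop
      (W 0 + log (β ^ (k + 1) / Gamma (k + 1))) hq
    refine Filter.tendsto_atTop_mono' Filter.atTop ?_ hq2
    filter_upwards [Filter.eventually_ge_atTop (1 : ℝ)] with t ht
    have hql := quad_lower h1 h2 hW2 t
    have hlog : 0 ≤ k * log t := mul_nonneg hk.le (log_nonneg ht)
    unfold lr
    nlinarith [hql, hlog]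
  have hhigh : ∀ t, ∃ s, t < s ∧ 0 < lr W k β s := by
    intro t
    have e1 : ∀ᶠ s in Filter.atTop, 0 < lr W k β s :=
      hlim1.eventually (Filter.eventually_gt_atTop 0)
    obtain ⟨s, hs1, hs2⟩ := (e1.and (Filter.eventually_gt_atTop t)).exists
    exact ⟨s, hs2, hs1⟩
  obtain ⟨a, b, d, ha, hab, hbd, hP⟩ := sign_pattern hx1 hcont hcc hcv hlow hhigh
  refine ⟨a, b, d, fun t => ?_⟩
  rcases lt_or_ge 0 t with ht | ht
  · have h := hP t ht
    rw [gq_eq_exp hk hβ ht (W := W)]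
    have e : exp (-(W t)) * exp (lr W k β t) - exp (-(W t))
        = exp (-(W t)) * (exp (lr W k β t) - 1) := by ring
    rw [e]
    have hp := exp_pos (-(W t))
    have key : 0 ≤ (t - a) * (t - b) * (t - d) * (exp (lr W k β t) - 1) := by
      rcases lt_trichotomy (lr W k β t) 0 with hn | hz | hpz
      · have hP0 : (t - a) * (t - b) * (t - d) ≤ 0 := by
          by_contra hcon
          have := mul_neg_of_pos_of_neg (not_le.mp hcon) hn
          linarith
        have he : exp (lr W k β t) - 1 ≤ 0 := by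
          have := exp_le_one_iff.mpr hn.le
          linarith
        exact mul_nonneg_of_nonpos_of_nonpos hP0 he
      · rw [hz]
        simp
      · have hP0 : 0 ≤ (t - a) * (t - b) * (t - d) := by
          by_contra hcon
          have := mul_neg_of_neg_of_pos (not_le.mp hcon) hpz
          linarith
        have he : 0 ≤ exp (lr W k β t) - 1 := by
          have := one_le_exp hpz.le
          linarith
        exact mul_nonneg hP0 he
    have e2 : (t - a) * (t - b) * (t - d) * (exp (-(W t)) * (exp (lr W k β t) - 1))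
        = exp (-(W t)) * ((t - a) * (t - b) * (t - d) * (exp (lr W k β t) - 1)) := by ring
    rw [e2]
    exact mul_nonneg hp.le key
  · have hg : gq k β t = 0 := by
      unfold gq
      rw [indicator_of_notMem]
      simpa using ht
    rw [hg]
    have e : (t - a) * (t - b) * (t - d) * (0 - exp (-(W t)))
        = (a - t) * (b - t) * (d - t) * exp (-(W t)) := by ring
    rw [e]
    have := exp_pos (-(W t))
    exact mul_nonneg (mul_nonneg (mul_nonneg (by linarith) (by linarith)) (by linarith)) this.le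

theorem cubic_int {f : ℝ → ℝ} (i0 : Integrable f) (i1 : Integrable (fun t => t * f t))
    (i2 : Integrable (fun t => t ^ 2 * f t)) (i3 : Integrable (fun t => t ^ 3 * f t))
    (a b d : ℝ) : Integrable (fun t => (t - a) * (t - b) * (t - d) * f t) ∧
    ∫ t, (t - a) * (t - b) * (t - d) * f t = (∫ t, t ^ 3 * f t) - (a + b + d) * (∫ t, t ^ 2 * f t)
      + (a * b + b * d + d * a) * (∫ t, t * f t) - a * b * d * ∫ t, f t := by
  have h2 : Integrable (fun t => (a + b + d) * (t ^ 2 * f t)) := i2.const_mul _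
  have h1 : Integrable (fun t => (a * b + b * d + d * a) * (t * f t)) := i1.const_mul _
  have h0 : Integrable (fun t => a * b * d * f t) := i0.const_mul _
  have k1 : Integrable (fun t => t ^ 3 * f t - (a + b + d) * (t ^ 2 * f t)) := i3.sub h2
  have k2 : Integrable (fun t => (a * b + b * d + d * a) * (t * f t) - a * b * d * f t) :=
    h1.sub h0
  have e : (fun t => (t - a) * (t - b) * (t - d) * f t) = fun t =>
      (t ^ 3 * f t - (a + b + d) * (t ^ 2 * f t))
        + ((a * b + b * d + d * a) * (t * f t) - a * b * d * f t) := by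
    funext t
    ring
  rw [e]
  refine ⟨k1.add k2, ?_⟩
  rw [integral_add k1 k2, integral_sub i3 h2, integral_sub h1 h0, integral_const_mul,
    integral_const_mul, integral_const_mul]
  ring

theorem core (h1 : ∀ x, HasDerivAt W (W1 x) x) (h2 : ∀ x, HasDerivAt W1 (W2 x) x)
    (h3 : ∀ x, HasDerivAt W2 (W3 x) x) (hm : 0 < m) (hc : 0 < c) (hk : 0 < k)
    (hkc : k * c ^ 2 = 1) (hβ : 0 < β)
    (hW2 : ∀ x, m ≤ W2 x) (hW3 : ∀ x, |W3 x| ≤ 2 * c * (W2 x) ^ (3 / 2 : ℝ))
    (I0 : ∫ t, exp (-(W t)) = 1) (I1 : ∫ t, t * exp (-(W t)) = (k + 1) / β)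
    (I2 : ∫ t, t ^ 2 * exp (-(W t)) = (k + 1) * (k + 2) / β ^ 2) :
    ∫ t, t ^ 3 * exp (-(W t)) ≤ (k + 1) * (k + 2) * (k + 3) / β ^ 3 := by
  obtain ⟨a, b, d, hP⟩ := cubic_cmp h1 h2 h3 hm hc hk hkc hβ hW2 hW3
  have i0 : Integrable (fun t : ℝ => exp (-(W t))) := by
    simpa using integ_p h1 h2 hm hW2 0
  have i1 : Integrable (fun t : ℝ => t * exp (-(W t))) := by
    simpa using integ_p h1 h2 hm hW2 1
  have i2 : Integrable (fun t : ℝ => t ^ 2 * exp (-(W t))) := integ_p h1 h2 hm hW2 2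
  have i3 : Integrable (fun t : ℝ => t ^ 3 * exp (-(W t))) := integ_p h1 h2 hm hW2 3
  have g0 : Integrable (fun t : ℝ => gq k β t) := by
    simpa using integ_gq hk hβ 0
  have g1 : Integrable (fun t : ℝ => t * gq k β t) := by
    simpa using integ_gq hk hβ 1
  have g2 : Integrable (fun t : ℝ => t ^ 2 * gq k β t) := integ_gq hk hβ 2
  have g3 : Integrable (fun t : ℝ => t ^ 3 * gq k β t) := integ_gq hk hβ 3
  obtain ⟨ci1, ce1⟩ := cubic_int i0 i1 i2 i3 a b d
  obtain ⟨ci2, ce2⟩ := cubic_int g0 g1 g2 g3 a b d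
  have hint : 0 ≤ ∫ t, ((t - a) * (t - b) * (t - d) * gq k β t
      - (t - a) * (t - b) * (t - d) * exp (-(W t))) := by
    apply integral_nonneg
    intro t
    have := hP t
    simp only [Pi.zero_apply]
    linarith
  rw [integral_sub ci2 ci1, ce1, ce2, I0, I1, I2, int_gq0 hk hβ, int_gq1 hk hβ, int_gq2 hk hβ,
    int_gq3 hk hβ] at hint
  linarith

end Core

end Vale.Agent.P227.M.SC.T817
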