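import Mathlib

/-!
P227, block SC, part (ii).  One-dimensional third moment bound.
For a density exp (-w) on the line, w twice differentiable with m0 <= w2 <= C0 and
1 / sqrt w2 Lipschitz with constant c, the centred moments M0, M2, M3 satisfy
(1 + c^2) * M0 * M3^2 <= 4 * c^2 * M2^3.
-/

namespace P227M.SC380

open MeasureTheory Real Set Filter Topology

/-- A potential on the line with pinched second derivative. -/
structure Pot (w w1 w2 : ℝ → ℝ) (m0 C0 : ℝ) : Prop where
  hw : ∀ x, HasDerivAt w (w1 x) x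
  hw1 : ∀ x, HasDerivAt w1 (w2 x) x
  m0pos : 0 < m0
  lo : ∀ x, m0 ≤ w2 x
  hi : ∀ x, w2 x ≤ C0

variable {w w1 w2 : ℝ → ℝ} {m0 C0 c : ℝ}

theorem Pot.w1_lo (h : Pot w w1 w2 m0 C0) {x y : ℝ} (hxy : x ≤ y) :
    m0 * (y - x) ≤ w1 y - w1 x := by
  have hd : Differentiable ℝ w1 := fun z => (h.hw1 z).differentiableAt
  refine mul_sub_le_image_sub_of_le_deriv hd (fun z => ?_) hxy
  rw [(h.hw1 z).deriv]; exact h.lo z

theorem Pot.w1_hi (h : Pot w w1 w2 m0 C0) {x y : ℝ} (hxy : x ≤ y) :
    w1 y - w1 x ≤ C0 * (y - x) := by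
  have hd : Differentiable ℝ w1 := fun z => (h.hw1 z).differentiableAt
  refine image_sub_le_mul_sub_of_deriv_le hd (fun z => ?_) hxy
  rw [(h.hw1 z).deriv]; exact h.hi z

theorem Pot.C0pos (h : Pot w w1 w2 m0 C0) : 0 < C0 :=
  lt_of_lt_of_le h.m0pos ((h.lo 0).trans (h.hi 0))

theorem Pot.w_lo (h : Pot w w1 w2 m0 C0) (x : ℝ) :
    w 0 + w1 0 * x + m0 / 2 * x ^ 2 ≤ w x := by
  have hg : ∀ z, HasDerivAt (fun z => w z - w1 0 * z - m0 / 2 * z ^ 2)
      (w1 z - w1 0 - m0 * z) z := by
    intro z
    have h1 := ((h.hw z).sub ((hasDerivAt_id z).const_mul (w1 0))).sub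
      (((hasDerivAt_pow 2 z)).const_mul (m0 / 2))
    refine h1.congr_deriv ?_
    simp; ring
  have hcont : Continuous (fun z => w z - w1 0 * z - m0 / 2 * z ^ 2) :=
    continuous_iff_continuousAt.mpr fun z => (hg z).continuousAt
  rcases le_total 0 x with hx | hx
  · have hm : MonotoneOn (fun z => w z - w1 0 * z - m0 / 2 * z ^ 2) (Ici 0) := by
      refine monotoneOn_of_deriv_nonneg (convex_Ici 0) hcont.continuousOn
        (fun z _ => (hg z).differentiableAt.differentiableWithinAt) (fun z hz => ?_)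
      rw [(hg z).deriv]
      rw [interior_Ici] at hz
      have := h.w1_lo (le_of_lt hz)
      simp only [sub_zero] at this
      linarith
    have := hm (mem_Ici.mpr le_rfl) (mem_Ici.mpr hx) hx
    simp only at this
    nlinarith [this]
  · have hm : AntitoneOn (fun z => w z - w1 0 * z - m0 / 2 * z ^ 2) (Iic 0) := by
      refine antitoneOn_of_deriv_nonpos (convex_Iic 0) hcont.continuousOn
        (fun z _ => (hg z).differentiableAt.differentiableWithinAt) (fun z hz => ?_)
      rw [(hg z).deriv]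
      rw [interior_Iic] at hz
      have := h.w1_lo (le_of_lt hz)
      simp only [zero_sub] at this
      linarith
    have := hm (mem_Iic.mpr hx) (mem_Iic.mpr le_rfl) hx
    simp only at this
    nlinarith [this]

theorem Pot.exp_le (h : Pot w w1 w2 m0 C0) (x : ℝ) :
    exp (-w x) ≤ exp (-w 0 + w1 0 ^ 2 / m0) * exp (-(m0 / 4) * x ^ 2) := by
  rw [← exp_add]
  apply exp_le_exp.mpr
  have h1 := h.w_lo x
  have h2 : 0 ≤ (w1 0 / m0 + x / 2) ^ 2 * m0 := mul_nonneg (sq_nonneg _) h.m0pos.le
  have h3 : (w1 0 / m0 + x / 2) ^ 2 * m0 = w1 0 ^ 2 / m0 + w1 0 * x + m0 / 4 * x ^ 2 := by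
    have := h.m0pos.ne'
    field_simp
    ring
  rw [h3] at h2
  nlinarith

theorem Pot.cont_w (h : Pot w w1 w2 m0 C0) : Continuous w :=
  continuous_iff_continuousAt.mpr fun z => (h.hw z).continuousAt

theorem Pot.cont_w1 (h : Pot w w1 w2 m0 C0) : Continuous w1 :=
  continuous_iff_continuousAt.mpr fun z => (h.hw1 z).continuousAt

theorem Pot.int_pow (h : Pot w w1 w2 m0 C0) (j : ℕ) :
    Integrable (fun x : ℝ => x ^ j * exp (-w x)) := by
  have hb : (0 : ℝ) < m0 / 4 := by have := h.m0pos; positivity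
  have h1 : Integrable (fun x : ℝ => x ^ (j : ℝ) * exp (-(m0 / 4) * x ^ 2)) :=
    integrable_rpow_mul_exp_neg_mul_sq hb (by
      have : (0 : ℝ) ≤ j := Nat.cast_nonneg j
      linarith)
  have h2 : Integrable (fun x : ℝ => exp (-w 0 + w1 0 ^ 2 / m0) *
      (x ^ j * exp (-(m0 / 4) * x ^ 2))) := by
    refine (h1.congr ?_).const_mul _
    filter_upwards with x
    rw [rpow_natCast]
  refine h2.mono ?_ ?_
  · exact ((continuous_pow j).mul (continuous_exp.comp h.cont_w.neg)).aestronglyMeasurable
  · filter_upwards with x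
    rw [norm_mul, norm_mul, norm_mul, Real.norm_of_nonneg (exp_pos _).le,
      Real.norm_of_nonneg (exp_pos _).le, Real.norm_of_nonneg (exp_pos _).le]
    have := h.exp_le x
    have h3 : 0 ≤ ‖x ^ j‖ := norm_nonneg _
    nlinarith [mul_le_mul_of_nonneg_left this h3]

theorem Pot.int_w1_pow (h : Pot w w1 w2 m0 C0) (j : ℕ) :
    Integrable (fun x : ℝ => w1 x * x ^ j * exp (-w x)) := by
  have h1 := ((h.int_pow j).norm.const_mul |w1 0|).add ((h.int_pow (j + 1)).norm.const_mul C0)
  refine h1.mono ?_ ?_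
  · exact ((h.cont_w1.mul (continuous_pow j)).mul
      (continuous_exp.comp h.cont_w.neg)).aestronglyMeasurable
  · filter_upwards with x
    have hb : |w1 x| ≤ |w1 0| + C0 * |x| := by
      rcases le_total 0 x with hx | hx
      · have h2 := h.w1_lo hx
        have h3 := h.w1_hi hx
        have h4 : 0 ≤ m0 * (x - 0) := mul_nonneg h.m0pos.le (by linarith)
        rw [abs_of_nonneg hx]
        simp only [sub_zero] at h2 h3 h4
        rw [abs_le]
        constructor
        · have := neg_abs_le (w1 0)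
          have h5 : 0 ≤ C0 * x := mul_nonneg h.C0pos.le hx
          linarith
        · have := le_abs_self (w1 0)
          linarith
      · have h2 := h.w1_lo hx
        have h3 := h.w1_hi hx
        have h4 : 0 ≤ m0 * (0 - x) := mul_nonneg h.m0pos.le (by linarith)
        rw [abs_of_nonpos hx]
        rw [abs_le]
        constructor
        · have := neg_abs_le (w1 0)
          have h5 : 0 ≤ C0 * (0 - x) := mul_nonneg h.C0pos.le (by linarith)
          simp only [zero_sub] at h3
          linarith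
        · have := le_abs_self (w1 0)
          have h5 : 0 ≤ C0 * (0 - x) := mul_nonneg h.C0pos.le (by linarith)
          simp only [zero_sub] at h5
          linarith
    have hE : 0 < exp (-w x) := exp_pos _
    have hx : 0 ≤ |x| ^ j := by positivity
    simp only [Pi.add_apply, norm_mul, norm_pow, Real.norm_eq_abs, abs_exp]
    have hnn : 0 ≤ |w1 0| * (|x| ^ j * exp (-w x)) + C0 * (|x| ^ (j + 1) * exp (-w x)) := by
      have := h.C0pos
      positivity
    rw [abs_of_nonneg hnn]
    calc |w1 x| * |x| ^ j * exp (-w x) ≤ (|w1 0| + C0 * |x|) * |x| ^ j * exp (-w x) := by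
          gcongr
      _ = |w1 0| * (|x| ^ j * exp (-w x)) + C0 * (|x| ^ (j + 1) * exp (-w x)) := by ring

/-- Integration of the test function N times a quadratic. -/
theorem Pot.test_integral (h : Pot w w1 w2 m0 C0) {b x0 k r r' : ℝ}
    (hM1 : ∫ x, x * exp (-w x) = 0) (hbx : b * x0 = -(k + 1))
    (hx0 : x0 * (∫ x, exp (-w x)) = -(b * ∫ x, x ^ 2 * exp (-w x))) :
    ∫ x, ((w1 x - b) * (x - x0) + k) * ((x - r) * (x - r')) * exp (-w x)
      = 2 * (∫ x, x ^ 2 * exp (-w x)) - b * ∫ x, x ^ 3 * exp (-w x) := by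
  have i0 : Integrable (fun x : ℝ => exp (-w x)) := by
    have := h.int_pow 0
    simpa using this
  have i1 : Integrable (fun x : ℝ => x * exp (-w x)) := by
    have := h.int_pow 1
    simpa using this
  have i2 := h.int_pow 2
  have i3 := h.int_pow 3
  have j0 : Integrable (fun x : ℝ => w1 x * exp (-w x)) := by
    have := h.int_w1_pow 0
    simpa using this
  have j1 : Integrable (fun x : ℝ => w1 x * x * exp (-w x)) := by
    have := h.int_w1_pow 1
    simpa using this
  have j2 := h.int_w1_pow 2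
  have j3 := h.int_w1_pow 3
  -- the total derivative
  have hF : ∀ x, HasDerivAt (fun x => (x - x0) * ((x - r) * (x - r')) * exp (-w x))
      (((3 * x ^ 2 - 2 * (x0 + r + r') * x + (x0 * (r + r') + r * r'))
        - w1 x * ((x - x0) * ((x - r) * (x - r')))) * exp (-w x)) x := by
    intro x
    have ha : ∀ t : ℝ, HasDerivAt (fun x : ℝ => x - t) 1 x := fun t =>
      (hasDerivAt_id x).sub_const t
    have hq : HasDerivAt (fun x => (x - x0) * ((x - r) * (x - r')))
        (1 * ((x - r) * (x - r')) + (x - x0) * (1 * (x - r') + (x - r) * 1)) x :=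
      (ha x0).mul ((ha r).mul (ha r'))
    have he : HasDerivAt (fun x => exp (-w x)) (exp (-w x) * -w1 x) x := ((h.hw x).neg).exp
    have := hq.mul he
    refine this.congr_deriv ?_
    ring
  have hFi : Integrable (fun x => (x - x0) * ((x - r) * (x - r')) * exp (-w x)) := by
    have := ((i3.sub (i2.const_mul (x0 + r + r'))).add
      (i1.const_mul (x0 * (r + r') + r * r'))).sub (i0.const_mul (x0 * r * r'))
    refine this.congr ?_
    filter_upwards with x
    simp only [Pi.add_apply, Pi.sub_apply]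
    ring
  have hF'i : Integrable (fun x => ((3 * x ^ 2 - 2 * (x0 + r + r') * x +
      (x0 * (r + r') + r * r')) - w1 x * ((x - x0) * ((x - r) * (x - r')))) * exp (-w x)) := by
    have hA := (((i2.const_mul 3).sub (i1.const_mul (2 * (x0 + r + r')))).add
      (i0.const_mul (x0 * (r + r') + r * r')))
    have hB := ((j3.sub (j2.const_mul (x0 + r + r'))).add
      (j1.const_mul (x0 * (r + r') + r * r'))).sub (j0.const_mul (x0 * r * r'))
    refine (hA.sub hB).congr ?_
    filter_upwards with x
    simp only [Pi.add_apply, Pi.sub_apply]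
    ring
  have hzero := integral_eq_zero_of_hasDerivAt_of_integrable hF hF'i hFi
  have hNi : Integrable (fun x => ((w1 x - b) * (x - x0) + k) * ((x - r) * (x - r'))
      * exp (-w x)) := by
    have hB := ((j3.sub (j2.const_mul (x0 + r + r'))).add
      (j1.const_mul (x0 * (r + r') + r * r'))).sub (j0.const_mul (x0 * r * r'))
    have hC := (((i3.const_mul (-b)).add (i2.const_mul (b * (r + r') + b * x0 + k))).add
      (i1.const_mul (-(b * (r * r')) - (b * x0 + k) * (r + r')))).add
      (i0.const_mul ((b * x0 + k) * (r * r')))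
    refine (hB.add hC).congr ?_
    filter_upwards with x
    simp only [Pi.add_apply, Pi.sub_apply]
    ring
  have hsum : ∫ x, ((w1 x - b) * (x - x0) + k) * ((x - r) * (x - r')) * exp (-w x)
      = ∫ x, ((-b) * (x ^ 3 * exp (-w x)) + (b * (r + r') + b * x0 + k + 3)
          * (x ^ 2 * exp (-w x))
          + (-(b * (r * r')) - (b * x0 + k) * (r + r') - 2 * (x0 + r + r')) * (x * exp (-w x))
          + ((b * x0 + k) * (r * r') + (x0 * (r + r') + r * r')) * exp (-w x)) := by
    rw [← add_zero (∫ x, ((w1 x - b) * (x - x0) + k) * ((x - r) * (x - r')) * exp (-w x)),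
      ← hzero, ← integral_add hNi hF'i]
    refine integral_congr_ae ?_
    filter_upwards with x
    ring
  rw [hsum, integral_add, integral_add, integral_add, integral_const_mul, integral_const_mul,
    integral_const_mul, integral_const_mul, hM1]
  · have h3 : (b * x0 + k) * (r * r') + (x0 * (r + r') + r * r') = x0 * (r + r') := by
      rw [hbx]; ring
    have h4 : b * (r + r') + b * x0 + k + 3 = b * (r + r') + 2 := by
      rw [hbx]; ring
    rw [h3, h4]
    have h5 : x0 * (r + r') * (∫ x, exp (-w x)) = -(b * (r + r') * ∫ x, x ^ 2 * exp (-w x)) := by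
      have : x0 * (r + r') * (∫ x, exp (-w x)) = (r + r') * (x0 * (∫ x, exp (-w x))) := by ring
      rw [this, hx0]; ring
    rw [h5]; ring
  · exact i3.const_mul _
  · exact i2.const_mul _
  · exact (i3.const_mul _).add (i2.const_mul _)
  · exact i1.const_mul _
  · exact ((i3.const_mul _).add (i2.const_mul _)).add (i1.const_mul _)
  · exact i0.const_mul _

/-- The negativity set of N is order connected. -/
theorem Pot.neg_connected (h : Pot w w1 w2 m0 C0) (hc : 0 < c)
    (hL : ∀ x y, x ≤ y → |1 / √(w2 y) - 1 / √(w2 x)| ≤ c * (y - x)) {b x0 k : ℝ}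
    (hk : k = 1 / c ^ 2) {x1 x2 x3 : ℝ} (h12 : x1 < x2) (h23 : x2 < x3)
    (hN1 : (w1 x1 - b) * (x1 - x0) + k < 0) (hN3 : (w1 x3 - b) * (x3 - x0) + k < 0) :
    (w1 x2 - b) * (x2 - x0) + k < 0 := by
  have hkpos : 0 < k := by rw [hk]; positivity
  have hck : c ^ 2 * k = 1 := by
    rw [hk]; field_simp
  by_contra hN2
  push Not at hN2
  have hpos : ∀ x, 0 < w2 x := fun x => lt_of_lt_of_le h.m0pos (h.lo x)
  -- comparison of w2 with k / t^2
  have cmp1 : ∀ x t : ℝ, 0 < t → k / t ^ 2 < w2 x → 1 / √(w2 x) < c * t := by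
    intro x t ht hlt
    have hs : 0 < √(w2 x) := Real.sqrt_pos.mpr (hpos x)
    rw [div_lt_iff₀ hs]
    have h1 : 1 < (c * t * √(w2 x)) ^ 2 := by
      rw [mul_pow, Real.sq_sqrt (hpos x).le, mul_pow]
      rw [div_lt_iff₀ (by positivity)] at hlt
      nlinarith [mul_lt_mul_of_pos_left hlt (by positivity : (0:ℝ) < c ^ 2)]
    have h2 : 0 < c * t * √(w2 x) := by positivity
    nlinarith
  have cmp2 : ∀ x t : ℝ, 0 < t → w2 x < k / t ^ 2 → c * t < 1 / √(w2 x) := by
    intro x t ht hlt
    have hs : 0 < √(w2 x) := Real.sqrt_pos.mpr (hpos x)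
    rw [lt_div_iff₀ hs]
    have h1 : (c * t * √(w2 x)) ^ 2 < 1 := by
      rw [mul_pow, Real.sq_sqrt (hpos x).le, mul_pow]
      rw [lt_div_iff₀ (by positivity)] at hlt
      nlinarith [mul_lt_mul_of_pos_left hlt (by positivity : (0:ℝ) < c ^ 2)]
    have h2 : 0 < c * t * √(w2 x) := by positivity
    nlinarith
  have hne0 : ∀ x, (w1 x - b) * (x - x0) + k < 0 → x ≠ x0 := by
    intro x hx hxx
    rw [hxx] at hx
    simp at hx
    linarith
  have hx1 := hne0 x1 hN1
  have hx3 := hne0 x3 hN3
  -- derivative of D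
  have hD : ∀ x, x ≠ x0 → HasDerivAt (fun x => w1 x - b + k / (x - x0))
      (w2 x - k / (x - x0) ^ 2) x := by
    intro x hx
    have hxx : x - x0 ≠ 0 := sub_ne_zero.mpr hx
    have h1 : HasDerivAt (fun x : ℝ => x - x0) 1 x := (hasDerivAt_id x).sub_const x0
    have h2 := ((h.hw1 x).sub_const b).add ((hasDerivAt_const x k).div h1 hxx)
    refine h2.congr_deriv ?_
    ring
  have hNx : ∀ x, x ≠ x0 → (w1 x - b) * (x - x0) + k = (w1 x - b + k / (x - x0)) * (x - x0) := by
    intro x hx
    have hxx : x - x0 ≠ 0 := sub_ne_zero.mpr hx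
    field_simp
  rcases lt_or_gt_of_ne hx1 with h1 | h1
  · rcases lt_or_gt_of_ne hx3 with h3 | h3
    · -- all to the left of x0
      have h2 : x2 < x0 := h23.trans h3
      have e1 : 0 < w1 x1 - b + k / (x1 - x0) := by
        rw [hNx x1 hx1] at hN1
        by_contra hcon
        push Not at hcon
        have : 0 ≤ (w1 x1 - b + k / (x1 - x0)) * (x1 - x0) :=
          mul_nonneg_of_nonpos_of_nonpos hcon (by linarith)
        linarith
      have e3 : 0 < w1 x3 - b + k / (x3 - x0) := by
        rw [hNx x3 hx3] at hN3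
        by_contra hcon
        push Not at hcon
        have : 0 ≤ (w1 x3 - b + k / (x3 - x0)) * (x3 - x0) :=
          mul_nonneg_of_nonpos_of_nonpos hcon (by linarith)
        linarith
      have e2 : w1 x2 - b + k / (x2 - x0) ≤ 0 := by
        rw [hNx x2 h2.ne] at hN2
        by_contra hcon
        push Not at hcon
        have : (w1 x2 - b + k / (x2 - x0)) * (x2 - x0) < 0 :=
          mul_neg_of_pos_of_neg hcon (by linarith)
        linarith
      obtain ⟨s, hs, hs'⟩ := exists_hasDerivAt_eq_slope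
        (fun x => w1 x - b + k / (x - x0)) (fun x => w2 x - k / (x - x0) ^ 2) h12
        (fun z hz => ((hD z (by have := hz.2; intro hh; rw [hh] at this; linarith)
          ).continuousAt).continuousWithinAt)
        (fun z hz => hD z (by have := hz.2; intro hh; rw [hh] at this; linarith))
      obtain ⟨t, ht, ht'⟩ := exists_hasDerivAt_eq_slope
        (fun x => w1 x - b + k / (x - x0)) (fun x => w2 x - k / (x - x0) ^ 2) h23
        (fun z hz => ((hD z (by have := hz.2; intro hh; rw [hh] at this; linarith)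
          ).continuousAt).continuousWithinAt)
        (fun z hz => hD z (by have := hz.2; intro hh; rw [hh] at this; linarith))
      have hs2 : w2 s - k / (s - x0) ^ 2 < 0 := by
        rw [hs']
        exact div_neg_of_neg_of_pos (by linarith) (by linarith)
      have ht2 : 0 < w2 t - k / (t - x0) ^ 2 := by
        rw [ht']
        exact div_pos (by linarith) (by linarith)
      have hsx : s < x0 := by linarith [hs.2]
      have htx : t < x0 := by linarith [ht.2]
      have q1 := cmp2 s (x0 - s) (by linarith) (by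
        have : (x0 - s) ^ 2 = (s - x0) ^ 2 := by ring
        rw [this]; linarith)
      have q2 := cmp1 t (x0 - t) (by linarith) (by
        have : (x0 - t) ^ 2 = (t - x0) ^ 2 := by ring
        rw [this]; linarith)
      have hst : s ≤ t := by linarith [hs.2, ht.1]
      have := hL s t hst
      rw [abs_le] at this
      nlinarith [this.1]
    · -- x1 < x0 < x3
      have e1 : b < w1 x1 := by
        by_contra hcon
        push Not at hcon
        have : 0 ≤ (w1 x1 - b) * (x1 - x0) :=
          mul_nonneg_of_nonpos_of_nonpos (by linarith) (by linarith)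
        linarith
      have e3 := h.w1_lo (le_of_lt (h12.trans h23))
      have e4 : 0 ≤ m0 * (x3 - x1) := mul_nonneg h.m0pos.le (by linarith)
      have : 0 ≤ (w1 x3 - b) * (x3 - x0) := mul_nonneg (by linarith) (by linarith)
      linarith
  · -- all to the right of x0
    have h2 : x0 < x2 := lt_trans h1 h12
    have h3 : x0 < x3 := h2.trans h23
    have e1 : w1 x1 - b + k / (x1 - x0) < 0 := by
      rw [hNx x1 hx1] at hN1
      by_contra hcon
      push Not at hcon
      have : 0 ≤ (w1 x1 - b + k / (x1 - x0)) * (x1 - x0) :=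
        mul_nonneg hcon (by linarith)
      linarith
    have e3 : w1 x3 - b + k / (x3 - x0) < 0 := by
      rw [hNx x3 hx3] at hN3
      by_contra hcon
      push Not at hcon
      have : 0 ≤ (w1 x3 - b + k / (x3 - x0)) * (x3 - x0) :=
        mul_nonneg hcon (by linarith)
      linarith
    have e2 : 0 ≤ w1 x2 - b + k / (x2 - x0) := by
      rw [hNx x2 h2.ne'] at hN2
      by_contra hcon
      push Not at hcon
      have : (w1 x2 - b + k / (x2 - x0)) * (x2 - x0) < 0 :=
        mul_neg_of_neg_of_pos hcon (by linarith)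
      linarith
    obtain ⟨s, hs, hs'⟩ := exists_hasDerivAt_eq_slope
      (fun x => w1 x - b + k / (x - x0)) (fun x => w2 x - k / (x - x0) ^ 2) h12
      (fun z hz => ((hD z (by have := hz.1; intro hh; rw [hh] at this; linarith)
        ).continuousAt).continuousWithinAt)
      (fun z hz => hD z (by have := hz.1; intro hh; rw [hh] at this; linarith))
    obtain ⟨t, ht, ht'⟩ := exists_hasDerivAt_eq_slope
      (fun x => w1 x - b + k / (x - x0)) (fun x => w2 x - k / (x - x0) ^ 2) h23
      (fun z hz => ((hD z (by have := hz.1; intro hh; rw [hh] at this; linarith)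
        ).continuousAt).continuousWithinAt)
      (fun z hz => hD z (by have := hz.1; intro hh; rw [hh] at this; linarith))
    have hs2 : 0 < w2 s - k / (s - x0) ^ 2 := by
      rw [hs']
      exact div_pos (by linarith) (by linarith)
    have ht2 : w2 t - k / (t - x0) ^ 2 < 0 := by
      rw [ht']
      exact div_neg_of_neg_of_pos (by linarith) (by linarith)
    have hsx : x0 < s := by linarith [hs.1]
    have htx : x0 < t := by linarith [ht.1]
    have q1 := cmp1 s (s - x0) (by linarith) (by linarith)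
    have q2 := cmp2 t (t - x0) (by linarith) (by linarith)
    have hst : s ≤ t := by linarith [hs.2, ht.1]
    have := hL s t hst
    rw [abs_le] at this
    nlinarith [this.2]

/-- The sign lemma. -/
theorem Pot.sign (h : Pot w w1 w2 m0 C0) (hc : 0 < c)
    (hL : ∀ x y, x ≤ y → |1 / √(w2 y) - 1 / √(w2 x)| ≤ c * (y - x)) {b x0 k : ℝ}
    (hk : k = 1 / c ^ 2) :
    ∃ r r' : ℝ, ∀ x, 0 ≤ ((w1 x - b) * (x - x0) + k) * ((x - r) * (x - r')) := by
  have hkpos : 0 < k := by rw [hk]; positivity
  set S : Set ℝ := {x | (w1 x - b) * (x - x0) + k < 0} with hS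
  rcases S.eq_empty_or_nonempty with he | hne
  · refine ⟨0, 0, fun x => ?_⟩
    have hx : x ∉ S := by rw [he]; exact notMem_empty x
    have hx' : 0 ≤ (w1 x - b) * (x - x0) + k := not_lt.mp hx
    exact mul_nonneg hx' (by nlinarith [sq_nonneg (x - 0)])
  · -- boundedness
    have hquad : ∀ x ∈ S, m0 * (x - x0) ^ 2 ≤ |w1 x0 - b| * |x - x0| := by
      intro x hx
      have hx' : (w1 x - b) * (x - x0) + k < 0 := hx
      have hmul : m0 * (x - x0) ^ 2 ≤ (w1 x - w1 x0) * (x - x0) := by
        rcases le_total x0 x with hh | hh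
        · have := h.w1_lo hh
          nlinarith [mul_le_mul_of_nonneg_right this (sub_nonneg.mpr hh)]
        · have := h.w1_lo hh
          nlinarith [mul_le_mul_of_nonneg_right this (sub_nonneg.mpr hh)]
      have h1 : (w1 x - w1 x0) * (x - x0) = (w1 x - b) * (x - x0) - (w1 x0 - b) * (x - x0) := by
        ring
      have h2 : -((w1 x0 - b) * (x - x0)) ≤ |w1 x0 - b| * |x - x0| := by
        rw [← abs_mul]; exact neg_le_abs _
      linarith
    have hbd : ∀ x ∈ S, |x - x0| ≤ |w1 x0 - b| / m0 := by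
      intro x hx
      have h1 := hquad x hx
      rw [le_div_iff₀ h.m0pos]
      rcases eq_or_lt_of_le (abs_nonneg (x - x0)) with h0 | h0
      · rw [← h0]; simp
      · have h2 : (x - x0) ^ 2 = |x - x0| * |x - x0| := by rw [← sq_abs]; ring
        rw [h2] at h1
        have : |x - x0| * (|x - x0| * m0) ≤ |x - x0| * |w1 x0 - b| := by nlinarith
        exact le_of_mul_le_mul_left this h0
    have hBB : BddBelow S := ⟨x0 - |w1 x0 - b| / m0, fun x hx => by
      have := hbd x hx
      rw [abs_le] at this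
      linarith [this.1]⟩
    have hBA : BddAbove S := ⟨x0 + |w1 x0 - b| / m0, fun x hx => by
      have := hbd x hx
      rw [abs_le] at this
      linarith [this.2]⟩
    refine ⟨sInf S, sSup S, fun x => ?_⟩
    have hrr : sInf S ≤ sSup S := csInf_le_csSup hne hBB hBA
    rcases lt_or_ge x (sInf S) with hx | hx
    · have hxS : x ∉ S := fun hh => absurd (csInf_le hBB hh) (not_le.mpr hx)
      have hx' : 0 ≤ (w1 x - b) * (x - x0) + k := not_lt.mp hxS
      exact mul_nonneg hx' (mul_nonneg_of_nonpos_of_nonpos (by linarith) (by linarith))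
    · rcases lt_or_ge (sSup S) x with hx2 | hx2
      · have hxS : x ∉ S := fun hh => absurd (le_csSup hBA hh) (not_le.mpr hx2)
        have hx' : 0 ≤ (w1 x - b) * (x - x0) + k := not_lt.mp hxS
        exact mul_nonneg hx' (mul_nonneg (by linarith) (by linarith))
      · rcases eq_or_lt_of_le hx with h0 | h0
        · rw [← h0]; simp
        · rcases eq_or_lt_of_le hx2 with h1 | h1
          · rw [← h1]; simp
          · obtain ⟨s, hs, hs'⟩ := exists_lt_of_csInf_lt hne h0
            obtain ⟨t, ht, ht'⟩ := exists_lt_of_lt_csSup hne h1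
            have hneg := h.neg_connected hc hL hk hs' ht' hs ht
            exact (mul_pos_of_neg_of_neg hneg
              (mul_neg_of_pos_of_neg (by linarith) (by linarith))).le

/-- Sharp third moment bound, centred and un-normalised. -/
theorem Pot.third_centred (h : Pot w w1 w2 m0 C0) (hc : 0 < c)
    (hL : ∀ x y, x ≤ y → |1 / √(w2 y) - 1 / √(w2 x)| ≤ c * (y - x))
    (hM1 : ∫ x, x * exp (-w x) = 0) :
    (1 + c ^ 2) * (∫ x, exp (-w x)) * (∫ x, x ^ 3 * exp (-w x)) ^ 2
      ≤ 4 * c ^ 2 * (∫ x, x ^ 2 * exp (-w x)) ^ 3 := by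
  have i0 : Integrable (fun x : ℝ => exp (-w x)) := by
    have := h.int_pow 0
    simpa using this
  have i2 := h.int_pow 2
  set M0 := ∫ x, exp (-w x) with hM0
  set M2 := ∫ x, x ^ 2 * exp (-w x) with hM2
  set M3 := ∫ x, x ^ 3 * exp (-w x) with hM3
  have p0 : 0 < M0 := by
    rw [hM0]
    exact integral_exp_pos i0
  have p2 : 0 < M2 := by
    rw [hM2]
    refine (integral_pos_iff_support_of_nonneg (fun x => by positivity) i2).mpr ?_
    have hsub : Ioi (0 : ℝ) ⊆ Function.support (fun x : ℝ => x ^ 2 * exp (-w x)) := by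
      intro x hx
      have hx' : (0 : ℝ) < x := hx
      simp only [Function.mem_support]
      positivity
    refine lt_of_lt_of_le ?_ (measure_mono hsub)
    simp
  set k := 1 / c ^ 2 with hk
  have hkpos : 0 < k := by positivity
  have main : ∀ b : ℝ, b ^ 2 * M2 = (k + 1) * M0 → b * M3 ≤ 2 * M2 := by
    intro b hb
    obtain ⟨r, r', hrr⟩ := h.sign hc hL (b := b) (x0 := -(b * M2 / M0)) hk
    have hbx : b * (-(b * M2 / M0)) = -(k + 1) := by
      have : b * (-(b * M2 / M0)) = -(b ^ 2 * M2 / M0) := by ring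
      rw [this, hb]
      field_simp
    have hx0 : -(b * M2 / M0) * M0 = -(b * M2) := by
      field_simp
    have hI := h.test_integral (b := b) (x0 := -(b * M2 / M0)) (k := k) (r := r) (r' := r')
      hM1 hbx hx0
    have hnn : 0 ≤ ∫ x, ((w1 x - b) * (x - -(b * M2 / M0)) + k) * ((x - r) * (x - r'))
        * exp (-w x) :=
      integral_nonneg fun x => mul_nonneg (hrr x) (exp_pos _).le
    rw [hI] at hnn
    linarith
  set b := √((k + 1) * M0 / M2) with hb
  have hbsq : b ^ 2 * M2 = (k + 1) * M0 := by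
    rw [hb, Real.sq_sqrt (by positivity)]
    field_simp
  have g1 := main b hbsq
  have g2 := main (-b) (by rw [neg_sq]; exact hbsq)
  have hsq : (b * M3) ^ 2 ≤ (2 * M2) ^ 2 := by
    apply sq_le_sq'
    · linarith
    · exact g1
  have h5 : (k + 1) * M0 * M3 ^ 2 ≤ 4 * M2 ^ 3 := by
    have : b ^ 2 * M2 * M3 ^ 2 ≤ 4 * M2 ^ 3 := by
      nlinarith [mul_le_mul_of_nonneg_right hsq p2.le]
    rwa [hbsq] at this
  have h6 : c ^ 2 * k = 1 := by rw [hk]; field_simp
  have h7 : c ^ 2 * ((k + 1) * M0 * M3 ^ 2) ≤ c ^ 2 * (4 * M2 ^ 3) :=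
    mul_le_mul_of_nonneg_left h5 (by positivity)
  have h8 : c ^ 2 * ((k + 1) * M0 * M3 ^ 2) = (1 + c ^ 2) * M0 * M3 ^ 2 := by
    have : c ^ 2 * ((k + 1) * M0 * M3 ^ 2) = (c ^ 2 * k + c ^ 2) * M0 * M3 ^ 2 := by ring
    rw [this, h6]
  linarith

/-- Self-concordance gives the Lipschitz bound. -/
theorem Pot.lip_of_sc (h : Pot w w1 w2 m0 C0) {w3 : ℝ → ℝ} (h3 : ∀ x, HasDerivAt w2 (w3 x) x)
    (hb : ∀ x, |w3 x| ≤ 2 * c * (w2 x * √(w2 x))) :
    ∀ x y, x ≤ y → |1 / √(w2 y) - 1 / √(w2 x)| ≤ c * (y - x) := by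
  have hpos : ∀ x, 0 < w2 x := fun x => lt_of_lt_of_le h.m0pos (h.lo x)
  have hd : ∀ x, HasDerivAt (fun x => 1 / √(w2 x)) (-(w3 x / (2 * √(w2 x))) / √(w2 x) ^ 2) x := by
    intro x
    have h1 := (h3 x).sqrt (hpos x).ne'
    have h2 := (hasDerivAt_const x (1 : ℝ)).div h1 (Real.sqrt_pos.mpr (hpos x)).ne'
    refine h2.congr_deriv ?_
    ring
  intro x y hxy
  have hbd : ∀ z, |-(w3 z / (2 * √(w2 z))) / √(w2 z) ^ 2| ≤ c := by
    intro z
    have hs : 0 < √(w2 z) := Real.sqrt_pos.mpr (hpos z)
    rw [abs_div, abs_neg, abs_div, abs_of_pos (by positivity : (0:ℝ) < 2 * √(w2 z)),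
      abs_of_pos (by positivity : (0:ℝ) < √(w2 z) ^ 2), div_div, div_le_iff₀ (by positivity)]
    have h4 := hb z
    have h5 : w2 z = √(w2 z) ^ 2 := (Real.sq_sqrt (hpos z).le).symm
    calc |w3 z| ≤ 2 * c * (w2 z * √(w2 z)) := h4
      _ = c * (2 * √(w2 z) * √(w2 z) ^ 2) := by
          rw [← h5]; ring
  have h6 := Convex.norm_image_sub_le_of_norm_hasDerivWithin_le (s := univ) (C := c)
    (f := fun x => 1 / √(w2 x)) (f' := fun x => -(w3 x / (2 * √(w2 x))) / √(w2 x) ^ 2)
    (x := x) (y := y)
    (fun z _ => (hd z).hasDerivWithinAt) (fun z _ => by rw [Real.norm_eq_abs]; exact hbd z)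
    convex_univ (mem_univ _) (mem_univ _)
  rw [Real.norm_eq_abs, Real.norm_eq_abs, abs_of_nonneg (sub_nonneg.mpr hxy)] at h6
  exact h6

theorem Pot.shift (h : Pot w w1 w2 m0 C0) (a : ℝ) :
    Pot (fun x => w (x + a)) (fun x => w1 (x + a)) (fun x => w2 (x + a)) m0 C0 where
  hw := fun x => (h.hw (x + a)).comp_add_const x a
  hw1 := fun x => (h.hw1 (x + a)).comp_add_const x a
  m0pos := h.m0pos
  lo := fun _ => h.lo _
  hi := fun _ => h.hi _

/-- Sharp third moment bound (un-normalised, barycentre a), Lipschitz form. -/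
theorem Pot.third (h : Pot w w1 w2 m0 C0) (hc : 0 < c)
    (hL : ∀ x y, x ≤ y → |1 / √(w2 y) - 1 / √(w2 x)| ≤ c * (y - x)) {a : ℝ}
    (ha : ∫ x, (x - a) * exp (-w x) = 0) :
    (1 + c ^ 2) * (∫ x, exp (-w x)) * (∫ x, (x - a) ^ 3 * exp (-w x)) ^ 2
      ≤ 4 * c ^ 2 * (∫ x, (x - a) ^ 2 * exp (-w x)) ^ 3 := by
  have key : ∀ g : ℝ → ℝ, ∫ x, g x * exp (-w (x + a)) = ∫ x, g (x - a) * exp (-w x) := by
    intro g
    have := integral_add_right_eq_self (μ := volume) (fun x => g (x - a) * exp (-w x)) a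
    simpa using this
  have e1 : ∫ x, x * exp (-w (x + a)) = 0 := by
    rw [key (fun x => x)]; exact ha
  have := (h.shift a).third_centred hc
    (fun x y hxy => by
      have := hL (x + a) (y + a) (by linarith)
      have e : y + a - (x + a) = y - x := by ring
      rw [e] at this
      exact this) e1
  have e0 : ∫ x, exp (-w (x + a)) = ∫ x, exp (-w x) :=
    integral_add_right_eq_self (μ := volume) (fun x => exp (-w x)) a
  have e2 := key (fun x => x ^ 2)
  have e3 := key (fun x => x ^ 3)
  rw [e0, e2, e3] at this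
  exact this

/-- Self-concordant form: if the potential w of a law on the line has m0 <= w'' <= C0 and
`|w'''| <= 2 c w''^(3/2)`, then mean a, variance v, third central moment t satisfy
`|t| <= 2 c v^(3/2)`. -/
theorem Pot.third_sc (h : Pot w w1 w2 m0 C0) {w3 : ℝ → ℝ} (hc : 0 < c)
    (h3 : ∀ x, HasDerivAt w2 (w3 x) x)
    (hb : ∀ x, |w3 x| ≤ 2 * c * (w2 x * √(w2 x)))
    (hZ : ∫ x, exp (-w x) = 1) {a v t : ℝ}
    (ha : ∫ x, x * exp (-w x) = a)
    (hv : ∫ x, (x - a) ^ 2 * exp (-w x) = v)
    (ht : ∫ x, (x - a) ^ 3 * exp (-w x) = t) :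
    |t| ≤ 2 * c * (v * √v) ∧ (1 + c ^ 2) * t ^ 2 ≤ 4 * c ^ 2 * v ^ 3 := by
  have i0 : Integrable (fun x : ℝ => exp (-w x)) := by
    have := h.int_pow 0
    simpa using this
  have i1 : Integrable (fun x : ℝ => x * exp (-w x)) := by
    have := h.int_pow 1
    simpa using this
  have ha' : ∫ x, (x - a) * exp (-w x) = 0 := by
    have : ∀ x, (x - a) * exp (-w x) = x * exp (-w x) - a * exp (-w x) := fun x => by ring
    simp_rw [this]
    rw [integral_sub i1 (i0.const_mul a), integral_const_mul, ha, hZ]; ring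
  have hmain := h.third hc (h.lip_of_sc h3 hb) ha'
  rw [hZ, hv, ht, mul_one] at hmain
  refine ⟨?_, hmain⟩
  have hv0 : 0 ≤ v := by
    rw [← hv]
    exact integral_nonneg fun x => by positivity
  have h1 : t ^ 2 ≤ (2 * c * (v * √v)) ^ 2 := by
    have e : (2 * c * (v * √v)) ^ 2 = 4 * c ^ 2 * v ^ 3 := by
      have : (2 * c * (v * √v)) ^ 2 = 4 * c ^ 2 * v ^ 2 * (√v ^ 2) := by ring
      rw [this, Real.sq_sqrt hv0]; ring
    rw [e]
    nlinarith [mul_nonneg (sq_nonneg c) (sq_nonneg t)]
  have h2 : 0 ≤ 2 * c * (v * √v) := by positivity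
  exact abs_le_of_sq_le_sq h1 h2

end P227M.SC380
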