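import Vale.Agent.P227.M.SC.Pat
import Mathlib

/-!
P227, block SC, one dimension, part 2 (helper84): the third central moment of `exp (-W)` when
`W''^(-1/2)` is `c`-Lipschitz, by comparison with a Gamma density.
-/

open Set MeasureTheory Real

namespace Vale.Agent.P227.M.SC.H84

/-- tangent parabola below `W` -/
theorem lower_parabola {W W1 W2 : ℝ → ℝ} {a : ℝ} (h1 : ∀ x, HasDerivAt W (W1 x) x)
    (h2 : ∀ x, HasDerivAt W1 (W2 x) x) (hlow : ∀ x, a ≤ W2 x) (x : ℝ) :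
    W 0 + W1 0 * x + a / 2 * x ^ 2 ≤ W x := by
  have hm : Monotone fun x => W1 x - a * x := by
    refine monotone_of_hasDerivAt_nonneg (f' := fun x => W2 x - a) (fun x => ?_) fun x => ?_
    · have e1 : HasDerivAt (fun x : ℝ => a * x) a x := by
        simpa using (hasDerivAt_id x).const_mul a
      exact (h2 x).sub e1
    · simpa using hlow x
  have hd : ∀ x, HasDerivAt (fun x => W x - W1 0 * x - a / 2 * x ^ 2) (W1 x - W1 0 - a * x) x := by
    intro x
    have e1 : HasDerivAt (fun x : ℝ => W1 0 * x) (W1 0) x := by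
      simpa using (hasDerivAt_id x).const_mul (W1 0)
    have e2 : HasDerivAt (fun x : ℝ => a / 2 * x ^ 2) (a * x) x := by
      have e3 : a / 2 * (((2 : ℕ) : ℝ) * x ^ (2 - 1)) = a * x := by
        norm_num; ring
      have := (hasDerivAt_pow 2 x).const_mul (a / 2)
      rwa [e3] at this
    exact ((h1 x).sub e1).sub e2
  have hcont : Continuous fun x => W x - W1 0 * x - a / 2 * x ^ 2 :=
    continuous_iff_continuousAt.2 fun x => (hd x).continuousAt
  rcases le_total 0 x with hx | hx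
  · have hmo : MonotoneOn (fun x => W x - W1 0 * x - a / 2 * x ^ 2) (Ici 0) := by
      refine monotoneOn_of_hasDerivWithinAt_nonneg (convex_Ici 0) hcont.continuousOn
        (fun y hy => (hd y).hasDerivWithinAt) fun y hy => ?_
      rw [interior_Ici] at hy
      have := hm (le_of_lt hy.out)
      simp only at this
      linarith
    have := hmo (mem_Ici.2 le_rfl) (mem_Ici.2 hx) hx
    simp only at this
    linarith
  · have hmo : AntitoneOn (fun x => W x - W1 0 * x - a / 2 * x ^ 2) (Iic 0) := by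
      refine antitoneOn_of_hasDerivWithinAt_nonpos (convex_Iic 0) hcont.continuousOn
        (fun y hy => (hd y).hasDerivWithinAt) fun y hy => ?_
      rw [interior_Iic] at hy
      have := hm (le_of_lt hy.out)
      simp only at this
      linarith
    have := hmo (mem_Iic.2 hx) (mem_Iic.2 le_rfl) hx
    simp only at this
    linarith

theorem exp_neg_le {W W1 W2 : ℝ → ℝ} {a : ℝ} (ha : 0 < a) (h1 : ∀ x, HasDerivAt W (W1 x) x)
    (h2 : ∀ x, HasDerivAt W1 (W2 x) x) (hlow : ∀ x, a ≤ W2 x) (x : ℝ) :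
    rexp (-W x) ≤ rexp (-W 0 + (W1 0) ^ 2 / a) * rexp (-(a / 4) * x ^ 2) := by
  rw [← Real.exp_add]
  apply Real.exp_le_exp.2
  have h := lower_parabola h1 h2 hlow x
  have h3 : 0 ≤ (W1 0) ^ 2 / a + W1 0 * x + a / 4 * x ^ 2 := by
    have : (W1 0) ^ 2 / a + W1 0 * x + a / 4 * x ^ 2 = (W1 0 + a / 2 * x) ^ 2 / a := by
      field_simp; ring
    rw [this]; positivity
  linarith

/-- polynomial moments are integrable -/
theorem integrable_pow_mul {W W1 W2 : ℝ → ℝ} {a : ℝ} (ha : 0 < a)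
    (h1 : ∀ x, HasDerivAt W (W1 x) x) (h2 : ∀ x, HasDerivAt W1 (W2 x) x)
    (hlow : ∀ x, a ≤ W2 x) (i : ℕ) : Integrable fun x => x ^ i * rexp (-W x) := by
  have hc : Continuous W := continuous_iff_continuousAt.2 fun x => (h1 x).continuousAt
  have hg : Integrable fun x : ℝ => x ^ (i : ℝ) * rexp (-(a / 4) * x ^ 2) :=
    integrable_rpow_mul_exp_neg_mul_sq (by positivity)
      (by have : (0 : ℝ) ≤ i := Nat.cast_nonneg i; linarith)
  simp only [rpow_natCast] at hg
  refine (hg.norm.const_mul (rexp (-W 0 + (W1 0) ^ 2 / a))).mono'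
    (by fun_prop) (Filter.Eventually.of_forall fun x => ?_)
  have h := exp_neg_le ha h1 h2 hlow x
  rw [norm_mul, norm_mul, Real.norm_of_nonneg (Real.exp_pos _).le,
    Real.norm_of_nonneg (Real.exp_pos _).le]
  calc ‖x ^ i‖ * rexp (-W x)
      ≤ ‖x ^ i‖ * (rexp (-W 0 + (W1 0) ^ 2 / a) * rexp (-(a / 4) * x ^ 2)) := by gcongr
    _ = _ := by ring

/-- the Gamma profile -/
noncomputable def gam (C k β : ℝ) : ℝ → ℝ :=
  (Ioi 0).indicator fun x => C * (x ^ k * rexp (-(β * x)))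

theorem gam_of_pos {C k β x : ℝ} (hx : 0 < x) : gam C k β x = C * (x ^ k * rexp (-(β * x))) := by
  simp [gam, hx]

theorem gam_of_nonpos {C k β x : ℝ} (hx : x ≤ 0) : gam C k β x = 0 := by
  simp [gam, hx]

theorem pow_mul_gam (C k β : ℝ) (i : ℕ) :
    (fun x => x ^ i * gam C k β x) =
      (Ioi 0).indicator fun x => C * (x ^ (k + i) * rexp (-(β * x))) := by
  funext x
  rcases le_or_gt x 0 with hx | hx
  · simp [gam_of_nonpos hx, hx]
  · rw [gam_of_pos hx, indicator_of_mem (mem_Ioi.2 hx), rpow_add hx, rpow_natCast]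
    ring

theorem integrable_gam {C k β : ℝ} (hk : 0 < k) (hβ : 0 < β) (i : ℕ) :
    Integrable fun x => x ^ i * gam C k β x := by
  rw [pow_mul_gam, integrable_indicator_iff measurableSet_Ioi]
  have h : IntegrableOn (fun x : ℝ => x ^ (k + i) * rexp (-β * x ^ (1 : ℝ))) (Ioi 0) :=
    integrableOn_rpow_mul_exp_neg_mul_rpow
      (by have : (0 : ℝ) ≤ i := Nat.cast_nonneg i; linarith) one_pos hβ
  simp only [rpow_one, neg_mul] at h
  exact h.const_mul C

theorem integral_gam {C k β : ℝ} (hk : 0 < k) (hβ : 0 < β) (i : ℕ) :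
    ∫ x, x ^ i * gam C k β x = C * ((1 / β) ^ (k + i + 1) * Gamma (k + i + 1)) := by
  rw [pow_mul_gam, integral_indicator measurableSet_Ioi, integral_const_mul]
  have hi : (0 : ℝ) ≤ i := Nat.cast_nonneg i
  have := integral_rpow_mul_exp_neg_mul_Ioi (a := k + i + 1) (by linarith) hβ
  rw [← this]
  simp

/-- the moments of the Gamma density of mass `Z` -/
theorem gam_moments {k β Z : ℝ} (hk : 0 < k) (hβ : 0 < β) :
    (∫ x, gam (Z * β ^ (k + 1) / Gamma (k + 1)) k β x = Z) ∧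
    (∫ x, x * gam (Z * β ^ (k + 1) / Gamma (k + 1)) k β x = Z * ((k + 1) / β)) ∧
    (∫ x, x ^ 2 * gam (Z * β ^ (k + 1) / Gamma (k + 1)) k β x =
      Z * ((k + 1) * (k + 2) / β ^ 2)) ∧
    (∫ x, x ^ 3 * gam (Z * β ^ (k + 1) / Gamma (k + 1)) k β x =
      Z * ((k + 1) * (k + 2) * (k + 3) / β ^ 3)) := by
  have hG : 0 < Gamma (k + 1) := Gamma_pos_of_pos (by linarith)
  have hG' := hG.ne'
  have hb : 0 < β ^ (k + 1) := rpow_pos_of_pos hβ _
  have hb' := hb.ne'
  have e0 : (1 / β) ^ (k + 1) = (β ^ (k + 1))⁻¹ := by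
    rw [one_div, inv_rpow hβ.le]
  have g1 : Gamma (k + 1 + 1) = (k + 1) * Gamma (k + 1) := Gamma_add_one (by linarith)
  have g2 : Gamma (k + 2 + 1) = (k + 2) * ((k + 1) * Gamma (k + 1)) := by
    rw [Gamma_add_one (by linarith), show k + 2 = k + 1 + 1 by ring, g1]
  have g3 : Gamma (k + 3 + 1) = (k + 3) * ((k + 2) * ((k + 1) * Gamma (k + 1))) := by
    rw [Gamma_add_one (by linarith), show k + 3 = k + 2 + 1 by ring, g2]
  have p1 : (1 / β) ^ (k + 1 + 1) = (β ^ (k + 1))⁻¹ * (1 / β) := by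
    rw [rpow_add_one (by positivity), e0]
  have p2 : (1 / β) ^ (k + 2 + 1) = (β ^ (k + 1))⁻¹ * (1 / β) * (1 / β) := by
    rw [rpow_add_one (by positivity), show k + 2 = k + 1 + 1 by ring, p1]
  have p3 : (1 / β) ^ (k + 3 + 1) = (β ^ (k + 1))⁻¹ * (1 / β) * (1 / β) * (1 / β) := by
    rw [rpow_add_one (by positivity), show k + 3 = k + 2 + 1 by ring, p2]
  have m0 := integral_gam (C := Z * β ^ (k + 1) / Gamma (k + 1)) hk hβ 0
  have m1 := integral_gam (C := Z * β ^ (k + 1) / Gamma (k + 1)) hk hβ 1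
  have m2 := integral_gam (C := Z * β ^ (k + 1) / Gamma (k + 1)) hk hβ 2
  have m3 := integral_gam (C := Z * β ^ (k + 1) / Gamma (k + 1)) hk hβ 3
  simp only [pow_zero, one_mul, Nat.cast_zero, add_zero, pow_one, Nat.cast_one,
    Nat.cast_ofNat] at m0 m1 m2 m3
  refine ⟨?_, ?_, ?_, ?_⟩
  · rw [m0, e0]; field_simp
  · rw [m1, p1, g1]; field_simp
  · rw [m2, p2, g2]; field_simp
  · rw [m3, p3, g3]; field_simp

/-- the comparison for the translated profile -/
theorem core {W W1 W2 : ℝ → ℝ} {a c k β Z : ℝ} (ha : 0 < a) (hc : 0 < c) (hk : k = 1 / c ^ 2)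
    (hβ : 0 < β) (h1 : ∀ x, HasDerivAt W (W1 x) x) (h2 : ∀ x, HasDerivAt W1 (W2 x) x)
    (hW2 : Continuous W2) (hlow : ∀ x, a ≤ W2 x)
    (hsc : ∀ x y, x ≤ y → (W2 y) ^ (-(1 / 2) : ℝ) - (W2 x) ^ (-(1 / 2) : ℝ) ≤ c * (y - x))
    (e0 : ∫ x, rexp (-W x) = Z) (e1 : ∫ x, x * rexp (-W x) = Z * ((k + 1) / β))
    (e2 : ∫ x, x ^ 2 * rexp (-W x) = Z * ((k + 1) * (k + 2) / β ^ 2)) :
    ∫ x, x ^ 3 * rexp (-W x) ≤ Z * ((k + 1) * (k + 2) * (k + 3) / β ^ 3) := by
  have hk0 : 0 < k := by rw [hk]; positivity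
  have hI := integrable_pow_mul ha h1 h2 hlow
  have hi0 : Integrable fun x => rexp (-W x) := by simpa using hI 0
  have hZ : 0 < Z := by
    rw [← e0]
    exact integral_exp_pos hi0
  set C := Z * β ^ (k + 1) / Gamma (k + 1) with hC
  have hC0 : 0 < C := by
    have := Gamma_pos_of_pos (show 0 < k + 1 by linarith)
    positivity
  obtain ⟨q0, q1, q2, q3⟩ := gam_moments (Z := Z) hk0 hβ
  rw [← hC] at q0 q1 q2 q3
  have hJ := fun i => integrable_gam (C := C) hk0 hβ i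
  have hpos : ∀ x, 0 < W2 x := fun x => ha.trans_le (hlow x)
  have hDc : Continuous fun x => (W2 x) ^ (-(1 / 2) : ℝ) - c * x := by
    have : Continuous fun x => (W2 x) ^ (-(1 / 2) : ℝ) :=
      hW2.rpow_const fun x => Or.inl (hpos x).ne'
    fun_prop
  obtain ⟨ξ, hξ0, hξ⟩ : ∃ ξ, 0 < ξ ∧ (W2 ξ) ^ (-(1 / 2) : ℝ) - c * ξ = 0 := by
    have hT : 0 < a ^ (-(1 / 2) : ℝ) / c := div_pos (rpow_pos_of_pos ha _) hc
    have hivt := intermediate_value_Icc' hT.le hDc.continuousOn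
    have hmem : (0 : ℝ) ∈ Icc ((W2 (a ^ (-(1 / 2) : ℝ) / c)) ^ (-(1 / 2) : ℝ) -
        c * (a ^ (-(1 / 2) : ℝ) / c)) ((W2 0) ^ (-(1 / 2) : ℝ) - c * 0) := by
      constructor
      · have h3 : (W2 (a ^ (-(1 / 2) : ℝ) / c)) ^ (-(1 / 2) : ℝ) ≤ a ^ (-(1 / 2) : ℝ) :=
          rpow_le_rpow_of_nonpos ha (hlow _) (by norm_num)
        have h4 : c * (a ^ (-(1 / 2) : ℝ) / c) = a ^ (-(1 / 2) : ℝ) := by field_simp
        linarith
      · have := rpow_pos_of_pos (hpos 0) (-(1 / 2))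
        linarith
    obtain ⟨ξ, hξ1, hξ2⟩ := hivt hmem
    refine ⟨ξ, lt_of_le_of_ne hξ1.1 ?_, hξ2⟩
    rintro rfl
    have := rpow_pos_of_pos (hpos 0) (-(1 / 2))
    simp only at hξ2
    linarith
  have hsq : ∀ x, ((W2 x) ^ (-(1 / 2) : ℝ)) ^ 2 = (W2 x)⁻¹ := by
    intro x
    rw [← rpow_natCast, ← rpow_mul (hpos x).le, ← rpow_neg_one]
    norm_num
  have hs1 : ∀ x, 0 < x → x ≤ ξ → W2 x ≤ k / x ^ 2 := by
    intro x hx hxξ
    have h3 := hsc x ξ hxξ
    have h4 : c * x ≤ (W2 x) ^ (-(1 / 2) : ℝ) := by linarith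
    have h5 : (c * x) ^ 2 ≤ (W2 x)⁻¹ := by
      rw [← hsq]; exact pow_le_pow_left₀ (by positivity) h4 2
    have h6 : W2 x * (c * x) ^ 2 ≤ 1 := by
      calc W2 x * (c * x) ^ 2 ≤ W2 x * (W2 x)⁻¹ := mul_le_mul_of_nonneg_left h5 (hpos x).le
        _ = 1 := mul_inv_cancel₀ (hpos x).ne'
    rw [hk, div_div, le_div_iff₀ (by positivity)]
    calc W2 x * (c ^ 2 * x ^ 2) = W2 x * (c * x) ^ 2 := by ring
      _ ≤ 1 := h6
  have hs2 : ∀ x, ξ ≤ x → k / x ^ 2 ≤ W2 x := by
    intro x hxξ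
    have hx : 0 < x := hξ0.trans_le hxξ
    have h3 := hsc ξ x hxξ
    have h4 : (W2 x) ^ (-(1 / 2) : ℝ) ≤ c * x := by linarith
    have h5 : (W2 x)⁻¹ ≤ (c * x) ^ 2 := by
      rw [← hsq]; exact pow_le_pow_left₀ (rpow_pos_of_pos (hpos x) _).le h4 2
    have h6 : 1 ≤ W2 x * (c * x) ^ 2 := by
      calc 1 = W2 x * (W2 x)⁻¹ := (mul_inv_cancel₀ (hpos x).ne').symm
        _ ≤ W2 x * (c * x) ^ 2 := mul_le_mul_of_nonneg_left h5 (hpos x).le
    rw [hk, div_div, div_le_iff₀ (by positivity)]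
    calc 1 ≤ W2 x * (c * x) ^ 2 := h6
      _ = W2 x * (c ^ 2 * x ^ 2) := by ring
  -- the logarithm of the quotient
  set g : ℝ → ℝ := fun x => -W x - Real.log C - k * Real.log x + β * x with hg
  have hg1 : ∀ x, 0 < x → HasDerivAt g (-W1 x - k * x⁻¹ + β) x := by
    intro x hx
    have e1 : HasDerivAt (fun x : ℝ => β * x) β x := by
      simpa using (hasDerivAt_id x).const_mul β
    exact (((h1 x).neg.sub_const (Real.log C)).sub
      ((Real.hasDerivAt_log hx.ne').const_mul k)).add e1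
  have hg2 : ∀ x, 0 < x → HasDerivAt (fun x => -W1 x - k * x⁻¹ + β) (-W2 x + k / x ^ 2) x := by
    intro x hx
    have e1 := (((h2 x).neg).sub ((hasDerivAt_inv hx.ne').const_mul k)).add_const β
    have e2 : -W2 x - k * -(x ^ 2)⁻¹ = -W2 x + k / x ^ 2 := by ring
    rw [e2] at e1
    exact e1
  have hgc : ∀ x, 0 < x → ContinuousAt g x := fun x hx => (hg1 x hx).continuousAt
  have hconv : ConvexOn ℝ (Ioc 0 ξ) g := by
    refine convexOn_of_hasDerivWithinAt2_nonneg (convex_Ioc 0 ξ)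
      (fun x hx => (hgc x hx.1).continuousWithinAt)
      (f' := fun x => -W1 x - k * x⁻¹ + β) (f'' := fun x => -W2 x + k / x ^ 2) ?_ ?_ ?_
    · intro x hx
      rw [interior_Ioc] at hx ⊢
      exact (hg1 x hx.1).hasDerivWithinAt
    · intro x hx
      rw [interior_Ioc] at hx ⊢
      exact (hg2 x hx.1).hasDerivWithinAt
    · intro x hx
      rw [interior_Ioc] at hx
      have := hs1 x hx.1 hx.2.le
      linarith
  have hconc : ConcaveOn ℝ (Ici ξ) g := by
    refine concaveOn_of_hasDerivWithinAt2_nonpos (convex_Ici ξ)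
      (fun x hx => (hgc x (hξ0.trans_le hx.out)).continuousWithinAt)
      (f' := fun x => -W1 x - k * x⁻¹ + β) (f'' := fun x => -W2 x + k / x ^ 2) ?_ ?_ ?_
    · intro x hx
      rw [interior_Ici] at hx ⊢
      exact (hg1 x (hξ0.trans hx.out)).hasDerivWithinAt
    · intro x hx
      rw [interior_Ici] at hx ⊢
      exact (hg2 x (hξ0.trans hx.out)).hasDerivWithinAt
    · intro x hx
      rw [interior_Ici] at hx
      have := hs2 x (le_of_lt hx.out)
      linarith
  have hq : ∀ x, 0 < x → gam C k β x = rexp (Real.log C + Real.log x * k - β * x) := by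
    intro x hx
    rw [gam_of_pos hx, show Real.log C + Real.log x * k - β * x =
      Real.log C + (Real.log x * k + -(β * x)) by ring, Real.exp_add, Real.exp_add,
      Real.exp_log hC0, ← Real.rpow_def_of_pos hx]
  set r : ℝ → ℝ := fun x => rexp (-W x) - gam C k β x with hr
  have hr0 : ∀ x, x ≤ 0 → 0 < r x := by
    intro x hx
    simp only [hr, gam_of_nonpos hx, sub_zero]
    exact Real.exp_pos _
  have hr1 : ∀ x, 0 < x → 0 ≤ g x → 0 ≤ r x := by
    intro x hx hgx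
    simp only [hr, hq x hx, sub_nonneg]
    apply Real.exp_le_exp.2
    simp only [hg] at hgx
    linarith
  have hr2 : ∀ x, 0 < x → g x ≤ 0 → r x ≤ 0 := by
    intro x hx hgx
    simp only [hr, hq x hx, sub_nonpos]
    apply Real.exp_le_exp.2
    simp only [hg] at hgx
    linarith
  have hpat := pat hξ0 hconv hconc (fun x hx => (hr0 x hx).le) hr1 hr2
  have hrI : ∀ i : ℕ, Integrable fun x => x ^ i * r x := by
    intro i
    have := (hI i).sub (hJ i)
    refine this.congr (Filter.Eventually.of_forall fun x => ?_)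
    simp only [hr, Pi.sub_apply]; ring
  have hrE : ∀ i : ℕ, ∫ x, x ^ i * r x =
      (∫ x, x ^ i * rexp (-W x)) - ∫ x, x ^ i * gam C k β x := by
    intro i
    rw [← integral_sub (hI i) (hJ i)]
    refine integral_congr_ae (Filter.Eventually.of_forall fun x => ?_)
    simp only [hr]; ring
  have r0 := hrI 0
  have r1 := hrI 1
  have r2 := hrI 2
  have r3 := hrI 3
  have s0 := hrE 0
  have s1 := hrE 1
  have s2 := hrE 2
  have s3 := hrE 3
  simp only [pow_zero, one_mul, pow_one] at r0 r1 s0 s1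
  have key := cubic_le r0 r1 r2 r3 (by rw [s0, e0, q0, sub_self])
    (by rw [s1, e1, q1, sub_self]) (by rw [s2, e2, q2, sub_self]) hr0 hpat
  rw [s3, q3] at key
  linarith

theorem int_expand {f0 f1 f2 f3 : ℝ → ℝ} (h0 : Integrable f0) (h1 : Integrable f1)
    (h2 : Integrable f2) (h3 : Integrable f3) (u v w : ℝ) :
    ∫ x, (f3 x + u * f2 x + v * f1 x + w * f0 x) =
      (∫ x, f3 x) + u * (∫ x, f2 x) + v * (∫ x, f1 x) + w * ∫ x, f0 x := by
  have i2 : Integrable fun x => u * f2 x := h2.const_mul _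
  have i1 : Integrable fun x => v * f1 x := h1.const_mul _
  have i0 : Integrable fun x => w * f0 x := h0.const_mul _
  have i32 : Integrable fun x => f3 x + u * f2 x := h3.add i2
  have i321 : Integrable fun x => f3 x + u * f2 x + v * f1 x := i32.add i1
  rw [integral_add i321 i0, integral_add i32 i1, integral_add h3 i2, integral_const_mul,
    integral_const_mul, integral_const_mul]

/-- third moment, centred case -/
theorem third_le_zero {W W1 W2 : ℝ → ℝ} {a c : ℝ} (ha : 0 < a) (hc : 0 < c)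
    (h1 : ∀ x, HasDerivAt W (W1 x) x) (h2 : ∀ x, HasDerivAt W1 (W2 x) x)
    (hW2 : Continuous W2) (hlow : ∀ x, a ≤ W2 x)
    (hsc : ∀ x y, x ≤ y → (W2 y) ^ (-(1 / 2) : ℝ) - (W2 x) ^ (-(1 / 2) : ℝ) ≤ c * (y - x))
    {Z s : ℝ} (hZ : ∫ x, rexp (-W x) = Z) (hm : ∫ x, x * rexp (-W x) = 0) (hs : 0 < s)
    (hv : ∫ x, x ^ 2 * rexp (-W x) = Z * s ^ 2) :
    ∫ x, x ^ 3 * rexp (-W x) ≤ 2 * Z * s ^ 3 / √(1 / c ^ 2 + 1) := by
  obtain ⟨t, ht⟩ : ∃ t, t = √(1 / c ^ 2 + 1) := ⟨_, rfl⟩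
  have hk1 : 0 < 1 / c ^ 2 + 1 := by positivity
  have ht0 : 0 < t := by rw [ht]; exact Real.sqrt_pos.2 hk1
  have ht2 : t ^ 2 = 1 / c ^ 2 + 1 := by rw [ht]; exact Real.sq_sqrt hk1.le
  have hI := integrable_pow_mul ha h1 h2 hlow
  have hI0 := hI 0
  have hI1 := hI 1
  simp only [pow_zero, one_mul, pow_one] at hI0 hI1
  have sh : ∀ i : ℕ, ∫ x, x ^ i * rexp (-W (x - s * t)) =
      ∫ x, (x + s * t) ^ i * rexp (-W x) := by
    intro i
    have := integral_sub_right_eq_self (μ := volume)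
      (fun x => (x + s * t) ^ i * rexp (-W x)) (s * t)
    simpa only [sub_add_cancel] using this
  have m0 : ∫ x, rexp (-W (x - s * t)) = Z := by
    have := sh 0
    simp only [pow_zero, one_mul] at this
    rw [this, hZ]
  have m1 : ∫ x, x * rexp (-W (x - s * t)) = Z * (s * t) := by
    have := sh 1
    simp only [pow_one] at this
    rw [this]
    have e : (fun x => (x + s * t) * rexp (-W x)) =
        fun x => x * rexp (-W x) + (s * t) * rexp (-W x) := by funext x; ring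
    rw [e, integral_add hI1 (hI0.const_mul _), integral_const_mul, hm, hZ]; ring
  have m2 : ∫ x, x ^ 2 * rexp (-W (x - s * t)) = Z * s ^ 2 + (s * t) ^ 2 * Z := by
    rw [sh 2]
    have e : (fun x => (x + s * t) ^ 2 * rexp (-W x)) = fun x => x ^ 2 * rexp (-W x) +
        (2 * (s * t)) * (x * rexp (-W x)) + 0 * (x * rexp (-W x)) +
        (s * t) ^ 2 * rexp (-W x) := by funext x; ring
    rw [e, int_expand hI0 hI1 hI1 (hI 2), hm, hv, hZ]; ring
  have m3 : ∫ x, x ^ 3 * rexp (-W (x - s * t)) =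
      (∫ x, x ^ 3 * rexp (-W x)) + 3 * (s * t) * (Z * s ^ 2) + (s * t) ^ 3 * Z := by
    rw [sh 3]
    have e : (fun x => (x + s * t) ^ 3 * rexp (-W x)) = fun x => x ^ 3 * rexp (-W x) +
        (3 * (s * t)) * (x ^ 2 * rexp (-W x)) + (3 * (s * t) ^ 2) * (x * rexp (-W x)) +
        (s * t) ^ 3 * rexp (-W x) := by funext x; ring
    rw [e, int_expand hI0 hI1 (hI 2) (hI 3), hm, hv, hZ]; ring
  have hst : 0 < t / s := by positivity
  have hk : 1 / c ^ 2 = t ^ 2 - 1 := by linarith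
  have key := core (W := fun x => W (x - s * t)) (W1 := fun x => W1 (x - s * t))
    (W2 := fun x => W2 (x - s * t)) (a := a) (c := c) (k := 1 / c ^ 2) (β := t / s) (Z := Z)
    ha hc rfl hst (fun x => (h1 (x - s * t)).comp_sub_const x (s * t))
    (fun x => (h2 (x - s * t)).comp_sub_const x (s * t)) (by fun_prop) (fun x => hlow _)
    (fun x y hxy => by
      have := hsc (x - s * t) (y - s * t) (by linarith)
      simpa using this)
    m0 (by rw [m1, hk]; field_simp; ring) (by rw [m2, hk]; field_simp; ring)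
  rw [m3, hk] at key
  rw [← ht]
  have e : Z * ((t ^ 2 - 1 + 1) * (t ^ 2 - 1 + 2) * (t ^ 2 - 1 + 3) / (t / s) ^ 3) =
      2 * Z * s ^ 3 / t + 3 * (s * t) * (Z * s ^ 2) + (s * t) ^ 3 * Z := by
    field_simp; ring
  rw [e] at key
  linarith

/-- third central moment; `c / sqrt (1 + c^2)` version -/
theorem third_le_sqrt {W W1 W2 : ℝ → ℝ} {a c : ℝ} (ha : 0 < a) (hc : 0 < c)
    (h1 : ∀ x, HasDerivAt W (W1 x) x) (h2 : ∀ x, HasDerivAt W1 (W2 x) x)
    (hW2 : Continuous W2) (hlow : ∀ x, a ≤ W2 x)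
    (hsc : ∀ x y, x ≤ y → (W2 y) ^ (-(1 / 2) : ℝ) - (W2 x) ^ (-(1 / 2) : ℝ) ≤ c * (y - x))
    {Z m s : ℝ} (hZ : ∫ x, rexp (-W x) = Z) (hm : ∫ x, x * rexp (-W x) = Z * m) (hs : 0 < s)
    (hv : ∫ x, (x - m) ^ 2 * rexp (-W x) = Z * s ^ 2) :
    ∫ x, (x - m) ^ 3 * rexp (-W x) ≤ 2 * Z * s ^ 3 / √(1 / c ^ 2 + 1) := by
  have hI := integrable_pow_mul ha h1 h2 hlow
  have hI0 := hI 0
  have hI1 := hI 1
  simp only [pow_zero, one_mul, pow_one] at hI0 hI1
  have sh : ∀ i : ℕ, ∫ x, x ^ i * rexp (-W (x + m)) = ∫ x, (x - m) ^ i * rexp (-W x) := by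
    intro i
    have := integral_add_right_eq_self (μ := volume)
      (fun x => (x - m) ^ i * rexp (-W x)) m
    simpa only [add_sub_cancel_right] using this
  have key := third_le_zero (W := fun x => W (x + m)) (W1 := fun x => W1 (x + m))
    (W2 := fun x => W2 (x + m)) (a := a) (c := c) (Z := Z) (s := s) ha hc
    (fun x => (h1 (x + m)).comp_add_const x m)
    (fun x => (h2 (x + m)).comp_add_const x m) (by fun_prop) (fun x => hlow _)
    (fun x y hxy => by
      have := hsc (x + m) (y + m) (by linarith)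
      simpa using this)
    (by have := sh 0; simp only [pow_zero, one_mul] at this; rw [this, hZ])
    (by
      have := sh 1
      simp only [pow_one] at this
      rw [this]
      have e : (fun x => (x - m) * rexp (-W x)) =
        fun x => x * rexp (-W x) - m * rexp (-W x) := by funext x; ring
      rw [e, integral_sub hI1 (hI0.const_mul _), integral_const_mul, hm, hZ]; ring)
    hs (by rw [sh 2, hv])
  rwa [sh 3] at key

/-- **SC-1, one side**: if `W''^(-1/2)` grows with slope at most `c` then the third central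
moment of `exp (-W)` is at most `2 c σ³` times the mass. -/
theorem third_le {W W1 W2 : ℝ → ℝ} {a c : ℝ} (ha : 0 < a) (hc : 0 < c)
    (h1 : ∀ x, HasDerivAt W (W1 x) x) (h2 : ∀ x, HasDerivAt W1 (W2 x) x)
    (hW2 : Continuous W2) (hlow : ∀ x, a ≤ W2 x)
    (hsc : ∀ x y, x ≤ y → (W2 y) ^ (-(1 / 2) : ℝ) - (W2 x) ^ (-(1 / 2) : ℝ) ≤ c * (y - x))
    {Z m s : ℝ} (hZ : ∫ x, rexp (-W x) = Z) (hm : ∫ x, x * rexp (-W x) = Z * m) (hs : 0 < s)
    (hv : ∫ x, (x - m) ^ 2 * rexp (-W x) = Z * s ^ 2) :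
    ∫ x, (x - m) ^ 3 * rexp (-W x) ≤ 2 * c * s ^ 3 * Z := by
  refine (third_le_sqrt ha hc h1 h2 hW2 hlow hsc hZ hm hs hv).trans ?_
  have hI0 := integrable_pow_mul ha h1 h2 hlow 0
  simp only [pow_zero, one_mul] at hI0
  have hZ0 : 0 < Z := by rw [← hZ]; exact integral_exp_pos hI0
  have h : 1 / c ≤ √(1 / c ^ 2 + 1) := by
    apply Real.le_sqrt_of_sq_le
    rw [div_pow, one_pow]; linarith
  have hpos : 0 < √(1 / c ^ 2 + 1) := lt_of_lt_of_le (by positivity) h
  rw [div_le_iff₀ hpos]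
  have h' : 1 ≤ c * √(1 / c ^ 2 + 1) := by
    calc 1 = c * (1 / c) := by field_simp
      _ ≤ _ := by gcongr
  calc 2 * Z * s ^ 3 = 2 * Z * s ^ 3 * 1 := by ring
    _ ≤ 2 * Z * s ^ 3 * (c * √(1 / c ^ 2 + 1)) := by gcongr
    _ = _ := by ring

/-- a differential form of the hypothesis -/
theorem lip_of_sc {W2 W3 : ℝ → ℝ} {a c : ℝ} (ha : 0 < a)
    (h3 : ∀ x, HasDerivAt W2 (W3 x) x) (hlow : ∀ x, a ≤ W2 x)
    (hsc : ∀ x, |W3 x| ≤ 2 * c * (W2 x) ^ (3 / 2 : ℝ)) (x y : ℝ) (hxy : x ≤ y) :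
    |(W2 y) ^ (-(1 / 2) : ℝ) - (W2 x) ^ (-(1 / 2) : ℝ)| ≤ c * (y - x) := by
  have hpos : ∀ x, 0 < W2 x := fun x => ha.trans_le (hlow x)
  have hd : ∀ x, HasDerivAt (fun x => (W2 x) ^ (-(1 / 2) : ℝ))
      (W3 x * (-(1 / 2)) * (W2 x) ^ (-(1 / 2) - 1 : ℝ)) x := fun x =>
    (h3 x).rpow_const (Or.inl (hpos x).ne')
  have hb : ∀ x, ‖W3 x * (-(1 / 2)) * (W2 x) ^ (-(1 / 2) - 1 : ℝ)‖ ≤ c := by
    intro x
    have hp : 0 < (W2 x) ^ (-(1 / 2) - 1 : ℝ) := rpow_pos_of_pos (hpos x) _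
    rw [norm_mul, norm_mul, Real.norm_eq_abs, Real.norm_of_nonneg hp.le]
    have e : (W2 x) ^ (3 / 2 : ℝ) * (W2 x) ^ (-(1 / 2) - 1 : ℝ) = 1 := by
      rw [← rpow_add (hpos x)]; norm_num
    calc |W3 x| * ‖(-(1 / 2) : ℝ)‖ * (W2 x) ^ (-(1 / 2) - 1 : ℝ)
        ≤ (2 * c * (W2 x) ^ (3 / 2 : ℝ)) * ‖(-(1 / 2) : ℝ)‖ *
          (W2 x) ^ (-(1 / 2) - 1 : ℝ) := by gcongr; exact hsc x
      _ = c * ((W2 x) ^ (3 / 2 : ℝ) * (W2 x) ^ (-(1 / 2) - 1 : ℝ)) := by
          rw [norm_neg, Real.norm_of_nonneg (by norm_num)]; ring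
      _ = c := by rw [e, mul_one]
  have := (convex_univ (𝕜 := ℝ) (E := ℝ)).norm_image_sub_le_of_norm_hasDerivWithin_le
    (fun x _ => (hd x).hasDerivWithinAt) (fun x _ => hb x) (mem_univ x) (mem_univ y)
  rwa [Real.norm_eq_abs, Real.norm_of_nonneg (by linarith)] at this

/-- **SC-1**: `|W'''| ≤ 2 c W''^(3/2)` implies that the third central moment of `exp (-W)` is at
most `2 c σ³` in absolute value (times the mass). -/
theorem third_abs_le {W W1 W2 W3 : ℝ → ℝ} {a c : ℝ} (ha : 0 < a) (hc : 0 < c)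
    (h1 : ∀ x, HasDerivAt W (W1 x) x) (h2 : ∀ x, HasDerivAt W1 (W2 x) x)
    (h3 : ∀ x, HasDerivAt W2 (W3 x) x) (hlow : ∀ x, a ≤ W2 x)
    (hsc : ∀ x, |W3 x| ≤ 2 * c * (W2 x) ^ (3 / 2 : ℝ))
    {Z m s : ℝ} (hZ : ∫ x, rexp (-W x) = Z) (hm : ∫ x, x * rexp (-W x) = Z * m) (hs : 0 < s)
    (hv : ∫ x, (x - m) ^ 2 * rexp (-W x) = Z * s ^ 2) :
    |∫ x, (x - m) ^ 3 * rexp (-W x)| ≤ 2 * c * s ^ 3 * Z := by
  have hW2 : Continuous W2 := continuous_iff_continuousAt.2 fun x => (h3 x).continuousAt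
  have hl := lip_of_sc ha h3 hlow hsc
  rw [abs_le]
  constructor
  · have r : ∀ F : ℝ → ℝ, ∫ x, F (-x) = ∫ x, F x := fun F => integral_neg_eq_self F volume
    have n1 : ∀ x, HasDerivAt (fun x => W (-x)) (-W1 (-x)) x := fun x => by
      have e := (h1 (-x)).comp x (hasDerivAt_neg x)
      rw [mul_neg_one] at e
      exact e
    have n2 : ∀ x, HasDerivAt (fun x => -W1 (-x)) (W2 (-x)) x := fun x => by
      have e := ((h2 (-x)).comp x (hasDerivAt_neg x)).neg
      rw [mul_neg_one, neg_neg] at e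
      exact e
    have key := third_le (W := fun x => W (-x)) (W1 := fun x => -W1 (-x))
      (W2 := fun x => W2 (-x)) (a := a) (c := c) (Z := Z) (m := -m) (s := s) ha hc n1 n2
      (hW2.comp continuous_neg) (fun x => hlow _) (fun x y hxy => by
        have := (abs_le.1 (hl (-y) (-x) (by linarith))).1
        linarith)
      (by rw [r fun x => rexp (-W x), hZ])
      (by
        have := r fun x => -x * rexp (-W x)
        simp only [neg_neg] at this
        rw [this]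
        have e : (fun x => -x * rexp (-W x)) = fun x => -(x * rexp (-W x)) := by
          funext x; ring
        rw [e, integral_neg, hm]; ring)
      hs
      (by
        have := r fun x => (-x - -m) ^ 2 * rexp (-W x)
        simp only [neg_neg] at this
        rw [this]
        have e : (fun x => (-x - -m) ^ 2 * rexp (-W x)) =
          fun x => (x - m) ^ 2 * rexp (-W x) := by funext x; ring
        rw [e, hv])
    have := r fun x => (-x - -m) ^ 3 * rexp (-W x)
    simp only [neg_neg] at this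
    rw [this] at key
    have e : (fun x => (-x - -m) ^ 3 * rexp (-W x)) =
          fun x => -((x - m) ^ 3 * rexp (-W x)) := by funext x; ring
    rw [e, integral_neg] at key
    linarith
  · exact third_le ha hc h1 h2 hW2 hlow (fun x y hxy => (abs_le.1 (hl x y hxy)).2) hZ hm hs hv

end Vale.Agent.P227.M.SC.H84
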