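import Mathlib
import Vale.Agent.P227.M.SC.Third

/-! Final form of the one-dimensional third moment bound. -/

namespace Vale.Agent.P227.M.SC.T817

open Set MeasureTheory Real

/-- total mass -/
noncomputable def tm (W : ℝ → ℝ) : ℝ := ∫ x, exp (-(W x))

/-- mean -/
noncomputable def mean (W : ℝ → ℝ) : ℝ := (∫ x, x * exp (-(W x))) / tm W

/-- central moments -/
noncomputable def cm (W : ℝ → ℝ) (j : ℕ) : ℝ := (∫ x, (x - mean W) ^ j * exp (-(W x))) / tm W

section

variable {W W1 W2 W3 : ℝ → ℝ} {m c : ℝ}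

theorem tm_pos (h1 : ∀ x, HasDerivAt W (W1 x) x) (h2 : ∀ x, HasDerivAt W1 (W2 x) x)
    (hm : 0 < m) (hW2 : ∀ x, m ≤ W2 x) : 0 < tm W := by
  have i0 : Integrable (fun t : ℝ => exp (-(W t))) := by
    simpa using integ_p h1 h2 hm hW2 0
  exact integral_exp_pos i0

theorem integ_shift (h1 : ∀ x, HasDerivAt W (W1 x) x) (h2 : ∀ x, HasDerivAt W1 (W2 x) x)
    (hm : 0 < m) (hW2 : ∀ x, m ≤ W2 x) (a : ℝ) (j : ℕ) :
    Integrable (fun t : ℝ => (t - a) ^ j * exp (-(W t))) := by
  have h1' : ∀ x, HasDerivAt (fun t => W (t + a)) (W1 (x + a)) x := fun x => (h1 _).comp_add_const x a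
  have h2' : ∀ x, HasDerivAt (fun t => W1 (t + a)) (W2 (x + a)) x := fun x => (h2 _).comp_add_const x a
  have h := integ_p h1' h2' hm (fun x => hW2 (x + a)) j
  have h' := h.comp_sub_right a
  simpa using h'

theorem var_pos (h1 : ∀ x, HasDerivAt W (W1 x) x) (h2 : ∀ x, HasDerivAt W1 (W2 x) x)
    (hm : 0 < m) (hW2 : ∀ x, m ≤ W2 x) : 0 < cm W 2 := by
  unfold cm
  refine div_pos ?_ (tm_pos h1 h2 hm hW2)
  have hi := integ_shift h1 h2 hm hW2 (mean W) 2
  have hcW : Continuous W := continuous_iff_continuousAt.mpr fun x => (h1 x).continuousAt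
  rw [integral_pos_iff_support_of_nonneg (fun x => by positivity) hi]
  have hsub : Ioo (mean W) (mean W + 1) ⊆
      Function.support (fun x => (x - mean W) ^ 2 * exp (-(W x))) := by
    intro x hx
    rw [Function.mem_support]
    have hx1 : x - mean W ≠ 0 := by
      have := hx.1
      exact ne_of_gt (by linarith)
    positivity
  refine lt_of_lt_of_le ?_ (measure_mono hsub)
  rw [Real.volume_Ioo]
  simp

theorem third_upper (h1 : ∀ x, HasDerivAt W (W1 x) x) (h2 : ∀ x, HasDerivAt W1 (W2 x) x)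
    (h3 : ∀ x, HasDerivAt W2 (W3 x) x) (hm : 0 < m) (hc : 0 < c)
    (hW2 : ∀ x, m ≤ W2 x) (hW3 : ∀ x, |W3 x| ≤ 2 * c * (W2 x) ^ (3 / 2 : ℝ)) :
    cm W 3 ≤ 2 * c * (cm W 2) ^ (3 / 2 : ℝ) := by
  have hZ := tm_pos h1 h2 hm hW2
  have hv := var_pos h1 h2 hm hW2
  set Z := tm W with hZdef
  set a := mean W with hadef
  set v := cm W 2 with hvdef
  set σ := sqrt v with hσ
  have hσ0 : 0 < σ := sqrt_pos.mpr hv
  have hσ2 : σ ^ 2 = v := sq_sqrt hv.le
  obtain ⟨k, hk⟩ : ∃ k : ℝ, k = 1 / c ^ 2 := ⟨_, rfl⟩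
  have hk0 : 0 < k := by rw [hk]; positivity
  have hkc : k * c ^ 2 = 1 := by rw [hk]; field_simp
  obtain ⟨r, hr⟩ : ∃ r : ℝ, r = sqrt (k + 1) := ⟨_, rfl⟩
  have hr0 : 0 < r := by rw [hr]; exact sqrt_pos.mpr (by linarith)
  have hr2 : r ^ 2 = k + 1 := by rw [hr]; exact sq_sqrt (by linarith)
  have hk' : k = r ^ 2 - 1 := by linarith
  obtain ⟨β, hβ⟩ : ∃ β : ℝ, β = r / σ := ⟨_, rfl⟩
  have hβ0 : 0 < β := by rw [hβ]; positivity
  -- moments about a
  have j0 : Integrable (fun t : ℝ => exp (-(W t))) := by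
    simpa using integ_shift h1 h2 hm hW2 a 0
  have j1 : Integrable (fun t : ℝ => (t - a) * exp (-(W t))) := by
    simpa using integ_shift h1 h2 hm hW2 a 1
  have j2 := integ_shift h1 h2 hm hW2 a 2
  have j3 := integ_shift h1 h2 hm hW2 a 3
  have e0 : ∫ t, exp (-(W t)) = Z := rfl
  have e1 : ∫ t, (t - a) * exp (-(W t)) = 0 := by
    have i1 : Integrable (fun t : ℝ => t * exp (-(W t))) := by
      simpa using integ_p h1 h2 hm hW2 1
    have : ∫ t, (t - a) * exp (-(W t)) = (∫ t, t * exp (-(W t))) - a * Z := by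
      rw [← e0, ← integral_const_mul, ← integral_sub i1 (j0.const_mul a)]
      congr 1
      funext t
      ring
    rw [this, hadef, mean, ← hZdef]
    field_simp
    ring
  have e2 : ∫ t, (t - a) ^ 2 * exp (-(W t)) = v * Z := by
    rw [hvdef, cm, ← hadef, ← hZdef]
    field_simp
  have e3 : ∫ t, (t - a) ^ 3 * exp (-(W t)) = cm W 3 * Z := by
    rw [cm, ← hadef, ← hZdef]
    field_simp
  -- the shifted potential
  obtain ⟨μ, hμ⟩ : ∃ μ : ℝ, μ = r * σ := ⟨_, rfl⟩
  obtain ⟨h, hh⟩ : ∃ h : ℝ, h = a - μ := ⟨_, rfl⟩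
  have g1 : ∀ x, HasDerivAt (fun t => W (t + h) + log Z) (W1 (x + h)) x :=
    fun x => ((h1 _).comp_add_const x h).add_const _
  have g2 : ∀ x, HasDerivAt (fun t => W1 (t + h)) (W2 (x + h)) x :=
    fun x => (h2 _).comp_add_const x h
  have g3 : ∀ x, HasDerivAt (fun t => W2 (t + h)) (W3 (x + h)) x :=
    fun x => (h3 _).comp_add_const x h
  have hexp : ∀ t, exp (-(W (t + h) + log Z)) = exp (-(W (t + h))) / Z := by
    intro t
    rw [neg_add, exp_add, exp_neg (log Z), exp_log hZ, div_eq_mul_inv]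
  have hch : ∀ F : ℝ → ℝ, ∫ t, F (t + h) = ∫ t, F t := fun F => integral_add_right_eq_self F h
  -- moments of the shifted density
  have mom : ∀ j : ℕ, ∫ t, t ^ j * exp (-(W (t + h) + log Z))
      = (∫ x, (x - a + μ) ^ j * exp (-(W x))) / Z := by
    intro j
    rw [← hch (fun x => (x - a + μ) ^ j * exp (-(W x))), ← integral_div]
    congr 1
    funext t
    rw [hexp, hh]
    ring_nf
  have M0 : ∫ t, exp (-(W (t + h) + log Z)) = 1 := by
    have := mom 0
    simp only [pow_zero, one_mul] at this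
    rw [this, e0, div_self hZ.ne']
  have M1 : ∫ t, t * exp (-(W (t + h) + log Z)) = (k + 1) / β := by
    have := mom 1
    simp only [pow_one] at this
    rw [this]
    have e : (fun x => (x - a + μ) * exp (-(W x)))
        = fun x => (x - a) * exp (-(W x)) + μ * exp (-(W x)) := by
      funext x
      ring
    rw [e, integral_add j1 (j0.const_mul μ), integral_const_mul, e1, e0, hk', hβ, hμ]
    field_simp
    ring
  have M2 : ∫ t, t ^ 2 * exp (-(W (t + h) + log Z)) = (k + 1) * (k + 2) / β ^ 2 := by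
    rw [mom 2]
    have e : (fun x => (x - a + μ) ^ 2 * exp (-(W x)))
        = fun x => ((x - a) ^ 2 * exp (-(W x)) + 2 * μ * ((x - a) * exp (-(W x))))
          + μ ^ 2 * exp (-(W x)) := by
      funext x
      ring
    have s1 : Integrable (fun x => (x - a) ^ 2 * exp (-(W x))
        + 2 * μ * ((x - a) * exp (-(W x)))) := j2.add (j1.const_mul (2 * μ))
    rw [e, integral_add s1 (j0.const_mul _), integral_add j2 (j1.const_mul _),
      integral_const_mul, integral_const_mul, e0, e1, e2, hk', hβ, hμ, ← hσ2]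
    field_simp
    ring
  have M3 : ∫ t, t ^ 3 * exp (-(W (t + h) + log Z)) = cm W 3 + 3 * μ * v + μ ^ 3 := by
    rw [mom 3]
    have e : (fun x => (x - a + μ) ^ 3 * exp (-(W x)))
        = fun x => (((x - a) ^ 3 * exp (-(W x)) + 3 * μ * ((x - a) ^ 2 * exp (-(W x))))
          + 3 * μ ^ 2 * ((x - a) * exp (-(W x)))) + μ ^ 3 * exp (-(W x)) := by
      funext x
      ring
    have s1 : Integrable (fun x => (x - a) ^ 3 * exp (-(W x))
        + 3 * μ * ((x - a) ^ 2 * exp (-(W x)))) := j3.add (j2.const_mul (3 * μ))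
    have s2 : Integrable (fun x => ((x - a) ^ 3 * exp (-(W x))
        + 3 * μ * ((x - a) ^ 2 * exp (-(W x)))) + 3 * μ ^ 2 * ((x - a) * exp (-(W x)))) :=
      s1.add (j1.const_mul (3 * μ ^ 2))
    rw [e, integral_add s2 (j0.const_mul _), integral_add s1 (j1.const_mul _),
      integral_add j3 (j2.const_mul _), integral_const_mul, integral_const_mul,
      integral_const_mul, e0, e1, e2, e3]
    field_simp
    ring
  have hcore := core g1 g2 g3 hm hc hk0 hkc hβ0 (fun x => hW2 (x + h)) (fun x => hW3 (x + h))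
    M0 M1 M2
  rw [M3] at hcore
  have hb : (k + 1) * (k + 2) * (k + 3) / β ^ 3 - 3 * μ * v - μ ^ 3 = 2 * σ ^ 3 / r := by
    rw [hk', hβ, hμ, ← hσ2]
    field_simp
    ring
  have h4 : cm W 3 ≤ 2 * σ ^ 3 / r := by linarith
  have h5 : 1 / r ≤ c := by
    rw [div_le_iff₀ hr0]
    have : 1 ≤ (c * r) ^ 2 := by
      rw [mul_pow, hr2]
      nlinarith [sq_nonneg c]
    have h6 : 0 ≤ c * r := by positivity
    nlinarith
  have h7 : v ^ (3 / 2 : ℝ) = σ ^ 3 := by
    rw [← hσ2, ← rpow_natCast σ 2, ← rpow_mul hσ0.le, ← rpow_natCast σ 3]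
    norm_num
  rw [h7]
  calc cm W 3 ≤ 2 * σ ^ 3 / r := h4
    _ = 2 * σ ^ 3 * (1 / r) := by ring
    _ ≤ 2 * σ ^ 3 * c := mul_le_mul_of_nonneg_left h5 (by positivity)
    _ = 2 * c * σ ^ 3 := by ring

theorem tm_neg : tm (fun x => W (-x)) = tm W := by
  unfold tm
  exact integral_neg_eq_self (fun x => exp (-(W x))) volume

theorem mean_neg : mean (fun x => W (-x)) = -mean W := by
  unfold mean
  rw [tm_neg, ← neg_div, ← integral_neg]
  congr 1
  rw [← integral_neg_eq_self (fun x => x * exp (-(W (-x)))) volume]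
  congr 1
  funext x
  simp

theorem cm_neg (j : ℕ) : cm (fun x => W (-x)) j = (-1) ^ j * cm W j := by
  unfold cm
  rw [tm_neg, mean_neg, ← mul_div_assoc, ← integral_const_mul]
  congr 1
  rw [← integral_neg_eq_self (fun x => (x - -mean W) ^ j * exp (-(W (-x)))) volume]
  congr 1
  funext x
  rw [neg_neg, show -x - -mean W = (-1) * (x - mean W) by ring, mul_pow]
  ring

/-- **third moment lemma** -/
theorem third_moment_le (h1 : ∀ x, HasDerivAt W (W1 x) x) (h2 : ∀ x, HasDerivAt W1 (W2 x) x)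
    (h3 : ∀ x, HasDerivAt W2 (W3 x) x) (hm : 0 < m) (hc : 0 < c)
    (hW2 : ∀ x, m ≤ W2 x) (hW3 : ∀ x, |W3 x| ≤ 2 * c * (W2 x) ^ (3 / 2 : ℝ)) :
    |cm W 3| ≤ 2 * c * (cm W 2) ^ (3 / 2 : ℝ) := by
  rw [abs_le]
  constructor
  · have n1 : ∀ x, HasDerivAt (fun x => W (-x)) (-(W1 (-x))) x := by
      intro x
      have := (h1 (-x)).comp x (hasDerivAt_neg x)
      rw [mul_neg_one] at this
      exact this
    have n2 : ∀ x, HasDerivAt (fun x => -(W1 (-x))) (W2 (-x)) x := by
      intro x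
      have := ((h2 (-x)).comp x (hasDerivAt_neg x)).neg
      rw [mul_neg_one, neg_neg] at this
      exact this
    have n3 : ∀ x, HasDerivAt (fun x => W2 (-x)) (-(W3 (-x))) x := by
      intro x
      have := (h3 (-x)).comp x (hasDerivAt_neg x)
      rw [mul_neg_one] at this
      exact this
    have h := third_upper n1 n2 n3 hm hc (fun x => hW2 (-x))
      (fun x => by rw [abs_neg]; exact hW3 (-x))
    rw [cm_neg, cm_neg] at h
    simp only [even_two, Even.neg_pow, one_pow, one_mul] at h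
    have e : (-1 : ℝ) ^ 3 * cm W 3 = -cm W 3 := by ring
    rw [e] at h
    linarith
  · exact third_upper h1 h2 h3 hm hc hW2 hW3

end

end Vale.Agent.P227.M.SC.T817
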